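import Vale.Agent.P167.N.BT.Defs
import Vale.Agent.P167.H375.ShT

/-!
# P167, `0 < q < 1`: the interfaces GEOT' and RATT' with frozen pairs

As `H375.GeoT`, `H375.RatT`, with the point `v₀` replaced by the frozen pairs `(Z, ζ)` near `v₀` (as in
`QT.GeoQ`, `QT.BrQ`).
-/

set_option autoImplicit false

namespace Vale.Agent.P167.N.BT

open MeasureTheory Filter Topology Set
open Vale.Agent.P167 Vale.Agent.P167.BR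
open Vale.Agent.P167.E6 (Medial)
open Vale.Agent.P167.H411 (Set6 exn)
open Vale.Agent.P167.H375 (Sh domT extT arcw FF4 hT cf obsH)

/-- The probability of a frozen pair in the enlarged shape. -/
noncomputable def PTz (μ : ℝ) (N : ℕ) (v₀ : ℤ × ℤ) (P : Sh) (Z : Finset (ℤ × ℤ)) (ζ : Cfg) : ℝ :=
  FK.Ex (2 * Real.cos μ) (domT N v₀ P) (extT N v₀ P) (fzT (domT N v₀ P) Z ζ (arcw N v₀ P))

/-- The comparison for one lattice domain, with the constants `M`, `ε`, `ε'`; `N` squares are one unit.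
(i) A bound for all histories; (ii) except on histories of small weight the conditional probabilities
are between those of two shapes, whose conformal quantities (relative to the shape `P₀`) are close to the
observable. -/
def GeoTAt' {n : ℕ} (μ : ℝ) (X : Vale.Agent.P153.M1.Expl (Finset (Sym2 (ℤ × ℤ))) Medial)
    (w : Finset (Sym2 (ℤ × ℤ)) → ℝ) (p : ZMod n → ℤ × ℤ) (k : ℕ) (T R b M ε ε' r₀ r₁ : ℝ)
    (Shs : Set Sh) (P₀ : Sh) (N : ℕ) : Prop :=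
  ∃ (v₀ : ℤ × ℤ) (Dc : Finset (ℤ × ℤ)) (W : Set (ℤ × ℤ)), Even (v₀.1 + v₀.2) ∧
    ∀ κ : Finset (Sym2 (ℤ × ℤ)) → ℕ, QE.BefIx X T R κ →
      (∀ A ∈ X.C, ∀ (Z : Finset (ℤ × ℤ)) (ζ : Cfg), AdmT v₀ ⌊r₀ * N⌋ ⌊r₁ * N⌋ Z ζ →
        QE.cexW X w (fun A' => fzT Dc Z ζ W (cf p k A')) A (κ A) ≤ M * PTz μ N v₀ P₀ Z ζ) ∧
      QE.ExW X.C w ({A | ¬ ∃ P ∈ Shs, ∃ P' ∈ Shs,
        (∀ (Z : Finset (ℤ × ℤ)) (ζ : Cfg), AdmT v₀ ⌊r₀ * N⌋ ⌊r₁ * N⌋ Z ζ →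
          (1 - ε') * PTz μ N v₀ P Z ζ ≤ QE.cexW X w (fun A' => fzT Dc Z ζ W (cf p k A')) A (κ A) ∧
          QE.cexW X w (fun A' => fzT Dc Z ζ W (cf p k A')) A (κ A) ≤
            (1 + ε') * PTz μ N v₀ P' Z ζ) ∧
        ∀ Q : Sh, (Q = P ∨ Q = P') → ∀ u v u₀ w₀ : ℝ, Q.Pos u v → P₀.Pos u₀ w₀ →
          |((v * (1 - u)) / (w₀ * (1 - u₀))) ^ hT μ - obsH (hT μ) (X.W A) b (X.c A (κ A))| ≤
            ε}.indicator 1) ≤ ε'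

/-- **[GEOT']** The output of SAND-GEO + CONT + CM for the class `K`. The bound `M` does not depend on
`ε'`; the reference shape `P₀ n` may depend on `n`. -/
def GeoT' (μ : ℝ) (ok : Sh → Prop) (K : QE.Cls) : Prop := ∀ (Φ : (ℝ × ℝ) ≃ₜ (ℝ × ℝ)) (ψ : ℂ → ℂ)
  (δ : ℕ → ℝ) (N k : ℕ → ℕ) (p : ∀ n, ZMod (N n) → ℤ × ℤ) (S : ℕ → Finset (ℤ × ℤ))
  (ψn : ℕ → ℂ → ℂ), Set6 Φ ψ δ N k p S ψn → K Φ δ N k p S → ∀ T R : ℝ, 0 ≤ T → 0 < R →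
    ∃ b₁ : ℝ, ∀ b : ℝ, b₁ ≤ b → ∀ ε : ℝ, 0 < ε → ∃ M : ℝ, 0 < M ∧ ∀ ε' : ℝ, 0 < ε' →
      ∃ (Shs : Set Sh) (P₀ : ℕ → Sh) (r₁ : ℝ) (N' : ℕ → ℕ), Shs.Finite ∧ (∀ n, P₀ n ∈ Shs) ∧
        (∀ P ∈ Shs, ok P ∧ ∃ u v, P.Pos u v) ∧ 0 < r₁ ∧ r₁ ≤ 1 ∧ Tendsto N' atTop atTop ∧
        (∀ n, 4 ∣ N' n) ∧ ∀ r₀ : ℝ, 0 < r₀ → ∀ᶠ n in atTop,
          GeoTAt' μ (exn δ N k p S ψn n) (QE.wq ((2 * Real.cos μ) ^ 2) (N n) (p n) (k n) (S n)) (p n)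
            (k n) T R b M ε ε' r₀ r₁ Shs (P₀ n) (N' n)

/-- **[RATT']** One finite signed combination of frozen pairs for all shapes of a finite set: the combinations are
positive, their negative parts are small, their ratios are the powers of the conformal quantities. -/
def RatT' (μ : ℝ) (ok : Sh → Prop) : Prop :=
  ∀ Shs : Set Sh, Shs.Finite → (∀ P ∈ Shs, ok P ∧ ∃ u v, P.Pos u v) → ∀ r₁ : ℝ, 0 < r₁ → ∀ ε : ℝ, 0 < ε →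
    ∃ r₀ : ℝ, 0 < r₀ ∧ ∀ᶠ N : ℕ in FF4,
      ∃ (ι : Type) (_ : Fintype ι) (c : ι → ℝ) (Z : ι → Finset (ℤ × ℤ)) (ζ : ι → Cfg),
        (∀ i, AdmT (0, 0) ⌊r₀ * N⌋ ⌊r₁ * N⌋ (Z i) (ζ i)) ∧
        (∀ P ∈ Shs, 0 < ∑ i, c i * PTz μ N (0, 0) P (Z i) (ζ i) ∧
          ∑ i, (max (-c i) 0) * PTz μ N (0, 0) P (Z i) (ζ i) ≤
            ε * ∑ i, c i * PTz μ N (0, 0) P (Z i) (ζ i)) ∧
        ∀ P ∈ Shs, ∀ P₀ ∈ Shs, ∀ u v u₀ w₀ : ℝ, P.Pos u v → P₀.Pos u₀ w₀ →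
          |(∑ i, c i * PTz μ N (0, 0) P (Z i) (ζ i)) / (∑ i, c i * PTz μ N (0, 0) P₀ (Z i) (ζ i)) -
            ((v * (1 - u)) / (w₀ * (1 - u₀))) ^ hT μ| ≤ ε

end Vale.Agent.P167.N.BT
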