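import Vale.Agent.P167.N.BT.Defs
import Vale.Agent.P167.N.Base.Crs

/-!
# P167, `0 < q < 1`, block BT: the primal arm of bounded ratio

`s_A8T : Kit Q → S_A8T Q`: one radial rectangle, crossed vertically.
-/

set_option autoImplicit false

namespace Vale.Agent.P167.N.BT

open Finset Relation Set
open Vale.Agent.P167 Vale.Agent.P167.BR
open Vale.Agent.P145.FB (PStep PConn)
open Vale.Agent.P167.FK (Pr)
open Vale.Agent.P167.H632 (cs pr)
open Vale.Agent.P167.H192.TA (Pw Xc dq sr)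
open Vale.Agent.P153.Topo (Rect mem_rect)
open Vale.Agent.P167.H469 (hx)

/-- A path in a rectangle uses the squares of the rectangle only. -/
theorem pw_rectA {F : Set (ℤ × ℤ)} {a b p q : ℤ} {y y' : ℤ × ℤ} (h : PConn F (Rect a b p q) y y') :
    Pw (F ∩ {v | a ≤ v.1 ∧ v.1 < b ∧ p ≤ v.2 ∧ v.2 < q}) y y' := by
  obtain ⟨h0, h1⟩ := h
  induction h1 with
  | refl => exact ReflTransGen.refl
  | @tail x z hx hxz ih =>
    have hxm := (show PConn F (Rect a b p q) y x from ⟨h0, hx⟩).right_mem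
    have hzm := hxz.2
    rw [mem_rect] at hxm hzm
    obtain ⟨⟨s1, s2, s3⟩, s4⟩ := hxz
    refine ih.tail ⟨s1, s2, s3, ?_⟩
    simp only [Set.mem_ofPred_eq]
    omega

/-- **The arms of bounded ratio**, both colours. -/
theorem hx_ge {Q : ℝ} (hK : Kit Q) (K : ℤ) (hK1 : 1 ≤ K) : ∃ (c : ℝ) (s₀ : ℤ), 0 < c ∧ 1 ≤ s₀ ∧
    ∀ (e : Bool) (b : ℤ × ℤ) (r R N : ℤ), s₀ ≤ r → r ≤ R → R ≤ K * r → R ≤ N → c ≤ hx Q e b r R N := by
  obtain ⟨c, s0, hc, -, hs0, hcr⟩ := crs_ge hK 1 K.toNat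
  refine ⟨c, s0, hc, hs0, fun e b r R N hr hrR hRK hRN => ?_⟩
  have hKn : ((K.toNat : ℕ) : ℤ) = K := Int.toNat_of_nonneg (by omega)
  refine (hcr e r [⟨false, b.1 - r, b.1 + r, b.2 + r, b.2 + R⟩] (QM.HB b N) FK.eta0 FK.f_good.2.1 hr
    (by simp) ?_).trans (FKA.Pr_mono hK.pos ?_)
  · intro X hX
    simp only [List.mem_singleton] at hX
    subst hX
    refine Crs.ok_V (by omega) (by omega) (by omega) (by rw [hKn]; omega) fun v h1 h2 h3 h4 => ?_
    simp only [QM.HB, Finset.mem_filter, FK.Bq, Finset.mem_product, Finset.mem_Ico]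
    omega
  · intro ω hω
    have hV := hω _ List.mem_cons_self
    rw [Crs.Ev_V] at hV
    obtain ⟨y, y', y1, y2, y3, hy⟩ := hV
    have m1 := hy.left_mem
    have m2 := hy.right_mem
    rw [mem_rect] at m1 m2
    refine ⟨y, y', ?_, y3, ?_, ?_, ?_⟩
    · simp only [sr, Set.mem_ofPred_eq]
      omega
    · rw [H632.nm_le]
      simp only [Prod.fst_sub, Prod.snd_sub]
      omega
    · refine H192.TA.Pw.mono ?_ (pw_rectA hy)
      rintro v ⟨v1, v2⟩
      refine ⟨v1, ?_⟩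
      simp only [Set.mem_ofPred_eq] at v2
      simp only [dq, Set.mem_ofPred_eq]
      omega
    · rw [H632.le_nm]
      simp only [Prod.fst_sub, Prod.snd_sub]
      omega

/-- **(A8)** -/
theorem s_A8T {Q : ℝ} (hQ : Kit Q) : S_A8T Q := by
  intro K hK
  obtain ⟨c, s0, hc, hs0, h⟩ := hx_ge hQ K hK
  exact ⟨c, s0, hc, hs0, fun b r R N h1 h2 h3 h4 => h true b r R N h1 h2 h3 (by omega)⟩

end Vale.Agent.P167.N.BT
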