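import Vale.Agent.P167.H262.WstFK
import Vale.Agent.P167.H469.BGeo
import Vale.Agent.P167.H192.Q.SDefs

/-!
# P167, `q < 1`, block BT (bridge): a dual arm is not more likely than a primal arm

`dual_le_primal`: the dual arm of a half annulus `E` with everything outside closed, is the primal arm
of the shifted half annulus with everything outside open, and this is the worst configuration outside
(Theorem W), so it is not more likely than the primal arm in any domain.
-/

set_option autoImplicit false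

namespace Vale.Agent.P167.N.BT

open Finset Relation Vale.Agent.P167.FK Vale.Agent.P167.FKA Vale.Agent.P167.H262
open Vale.Agent.P145.FB (PStep PConn)
open Vale.Agent.P167.H632 (cs pr nm_le le_nm)
open Vale.Agent.P167.H192.TA (Xc Pw dq sr dF mem_dF)
open Vale.Agent.P167.H192.Q (sq1)

variable {Q : ℝ} {D : Finset (ℤ × ℤ)} {η : Cfg} {b : ℤ × ℤ} {r R : ℤ}

theorem image_dF : (dF b r R).image sq1 = dF (sq1 b) r R := by
  ext v
  rw [H192.Q.mem_im, mem_dF, mem_dF]
  simp only [dq, sq1, Set.mem_ofPred_eq]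
  omega

theorem Xc_dual' {ω : Cfg} (h : H519.dui ω ∈ Xc false b r R) : ω ∈ Xc true (sq1 b) r R := by
  obtain ⟨y, y', g1, g2, g3, g4, g5⟩ := h
  have key : ∀ u v, Pw (cs false (H519.dui ω) ∩ dq b r R) u v →
      Pw (cs true ω ∩ dq (sq1 b) r R) (u.1 + 1, u.2) (v.1 + 1, v.2) := by
    intro u v h
    induction h with
    | refl => exact ReflTransGen.refl
    | @tail x y _ hxy ih =>
      obtain ⟨h1, h2, h3, h4⟩ := hxy
      refine ih.tail ⟨by dsimp only; omega, h2, ?_⟩
      have e : min (x.1 + 1) (y.1 + 1) = min x.1 y.1 + 1 := by omega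
      dsimp only
      rw [e]
      refine ⟨?_, ?_⟩
      · have h5 : (!(ω (min x.1 y.1 + 1, min x.2 y.2))) = false := h3
        show ω (min x.1 y.1 + 1, min x.2 y.2) = true
        simpa using h5
      · simp only [dq, sq1, Set.mem_ofPred_eq] at h4 ⊢
        omega
  refine ⟨(y.1 + 1, y.2), (y'.1 + 1, y'.2), ?_, ?_, ?_, key _ _ g4, ?_⟩
  · simp only [sr, sq1, Set.mem_ofPred_eq] at g1 ⊢
    omega
  · simp only [pr, if_true, Bool.false_eq_true, if_false] at g2 ⊢
    omega
  · have e : ((y.1 + 1, y.2) : ℤ × ℤ) - sq1 b = y - b := by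
      refine Prod.ext ?_ ?_ <;> simp [sq1]
    rw [e]; exact g3
  · have e : ((y'.1 + 1, y'.2) : ℤ × ℤ) - sq1 b = y' - b := by
      refine Prod.ext ?_ ?_ <;> simp [sq1]
    rw [e]; exact g5

/-- The starting sites of a primal arm. -/
def As (b : ℤ × ℤ) (r R : ℤ) : Set (ℤ × ℤ) :=
  {y | y ∈ sr b r R ∧ (y.1 + y.2) % 2 = 0 ∧ nm (y - b) ≤ r}

/-- The end sites of an arm. -/
def Bs (b : ℤ × ℤ) (R : ℤ) : Set (ℤ × ℤ) := {y | R ≤ nm (y - b)}

theorem Xc_eq_CI : Xc true b r R = CI (dF b r R) (As b r R) (Bs b R) := by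
  have e : ∀ ω : Cfg, cs true ω ∩ dq b r R = op ω ∩ (↑(dF b r R) : Set (ℤ × ℤ)) := by
    intro ω
    ext v
    simp only [Set.mem_inter_iff, Finset.mem_coe, mem_dF]
    rfl
  ext ω
  constructor
  · rintro ⟨y, y', g1, g2, g3, g4, g5⟩
    refine ⟨y, ⟨g1, g2, g3⟩, y', g5, ?_⟩
    rw [← e]
    exact g4
  · rintro ⟨y, ⟨g1, g2, g3⟩, y', g5, g4⟩
    rw [← e] at g4
    exact ⟨y, y', g1, g2, g3, g4, g5⟩

theorem As_sub : As b r R ⊆ Pb (dF b r R) := by
  rintro s ⟨h1, h2, h3⟩
  rw [nm_le] at h3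
  simp only [sr, Set.mem_ofPred_eq, Prod.fst_sub, Prod.snd_sub] at h1 h3
  obtain ⟨h1a, h1b, h1c, h1d, h1e⟩ := h1
  have hev : Even (s.1 + s.2) := by rw [Int.even_iff]; exact h2
  by_cases k : s.2 = b.2 + r
  · -- the square below
    by_cases k' : s.1 = b.1 + r
    · refine ⟨(s.1 - 1, s.2 - 1), ?_, Or.inr ?_⟩
      · rw [mem_dF]; simp only [dq, Set.mem_ofPred_eq]; omega
      · rw [pb, if_pos (by rw [Int.even_iff]; simp only; omega)]
        ext <;> simp
    · refine ⟨(s.1, s.2 - 1), ?_, Or.inl ?_⟩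
      · rw [mem_dF]; simp only [dq, Set.mem_ofPred_eq]; omega
      · rw [pa, if_neg (by rw [Int.even_iff]; simp only; omega)]
        ext <;> simp
  · by_cases k' : s.1 = b.1 - r
    · refine ⟨(s.1, s.2), ?_, Or.inl ?_⟩
      · rw [mem_dF]; simp only [dq, Set.mem_ofPred_eq]; omega
      · rw [pa, if_pos hev]
    · refine ⟨(s.1 - 1, s.2), ?_, Or.inr ?_⟩
      · rw [mem_dF]; simp only [dq, Set.mem_ofPred_eq]; omega
      · rw [pb, if_neg (by rw [Int.even_iff]; simp only; omega)]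
        ext <;> simp

/-- The complement of the half annulus is connected. -/
theorem outside_half (hr : 1 ≤ r) (hrR : r ≤ R) {s t : ℤ × ℤ} (hs : s ∈ Pb (dF b r R))
    (ht : t ∈ Pb (dF b r R)) : PC (cf (dF b r R) eta1 ∅) s t := by
  have hop : ∀ v, v ∉ dF b r R → v ∈ op (cf (dF b r R) eta1 ∅) := by
    intro v hv
    show cf _ _ _ v = true
    rw [FKA.cf_out hv]
    rfl
  -- every site is joined to one outside of the rectangle
  have key : ∀ s ∈ Pb (dF b r R), ∃ s', Even (s'.1 + s'.2) ∧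
      (s'.1 ≤ b.1 - R ∨ b.1 + R - 1 < s'.1 ∨ s'.2 ≤ b.2 ∨ b.2 + R - 1 < s'.2) ∧
      PC (cf (dF b r R) eta1 ∅) s s' := by
    intro s hs
    have hev := even_Pb hs
    by_cases hout : s.1 ≤ b.1 - R ∨ b.1 + R - 1 < s.1 ∨ s.2 ≤ b.2 ∨ b.2 + R - 1 < s.2
    · exact ⟨s, hev, hout, ReflTransGen.refl⟩
    push Not at hout
    have hin : b.1 - r ≤ s.1 ∧ s.1 ≤ b.1 + r ∧ s.2 ≤ b.2 + r := by
      obtain ⟨v, hv, hs'⟩ := hs
      rw [mem_dF] at hv
      simp only [dq, Set.mem_ofPred_eq] at hv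
      unfold pa pb at hs'
      split_ifs at hs' <;> rcases hs' with rfl | rfl <;> (try simp only at hout ⊢) <;> omega
    -- the descent
    have desc : ∀ (n : ℕ) (u : ℤ × ℤ), Even (u.1 + u.2) → b.1 - r ≤ u.1 → u.1 ≤ b.1 + r →
        u.2 ≤ b.2 + r → u.2 ≤ b.2 + n → ∃ s', Even (s'.1 + s'.2) ∧ s'.2 ≤ b.2 ∧
          PC (cf (dF b r R) eta1 ∅) u s' := by
      intro n
      induction n with
      | zero =>
        intro u hu h1 h2 h3 h4
        exact ⟨u, hu, by simpa using h4, ReflTransGen.refl⟩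
      | succ n ih =>
        intro u hu h1 h2 h3 h4
        rw [Int.even_iff] at hu
        push_cast at h4
        by_cases h5 : u.1 = b.1 + r
        · obtain ⟨s', k1, k2, k3⟩ := ih (u.1 - 1, u.2 - 1)
            (by rw [Int.even_iff]; simp only; omega) (by simp only; omega) (by simp only; omega)
            (by simp only; omega) (by simp only; omega)
          refine ⟨s', k1, k2, ReflTransGen.head ⟨by simp, by simp, hop _ ?_⟩ k3⟩
          rw [mem_dF]
          simp only [dq, Set.mem_ofPred_eq]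
          omega
        · obtain ⟨s', k1, k2, k3⟩ := ih (u.1 + 1, u.2 - 1)
            (by rw [Int.even_iff]; simp only; omega) (by simp only; omega) (by simp only; omega)
            (by simp only; omega) (by simp only; omega)
          refine ⟨s', k1, k2, ReflTransGen.head ⟨by simp, by simp, hop _ ?_⟩ k3⟩
          rw [mem_dF]
          simp only [dq, Set.mem_ofPred_eq]
          omega
    obtain ⟨s', k1, k2, k3⟩ := desc (s.2 - b.2).toNat s hev hin.1 hin.2.1 hin.2.2 (by
      have := Int.self_le_toNat (s.2 - b.2)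
      omega)
    exact ⟨s', k1, by omega, k3⟩
  obtain ⟨s', s1, s2, s3⟩ := key s hs
  obtain ⟨t', t1, t2, t3⟩ := key t ht
  refine s3.trans (ReflTransGen.trans ?_ (H816.PC_symm t3))
  refine FKA.outside_conn (a := b.1 - R) (b := b.1 + R - 1) (c := b.2) (d := b.2 + R - 1)
    (fun v hv => hop v ?_) s1 t1 s2 t2
  rw [mem_dF]
  simp only [dq, Set.mem_ofPred_eq]
  omega

/-- **A dual arm is not more likely than a primal arm.** -/
theorem dual_le_primal (hQ : 0 < Q) (hQ1 : Q ≤ 1) (hr : 1 ≤ r) (hrR : r ≤ R) (hη : Good η)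
    (hD : dF (sq1 b) r R ⊆ D) :
    Pr Q (dF b r R) eta0 (Xc false b r R) ≤ Pr Q D η (Xc true (sq1 b) r R) := by
  have e1 : du eta0 = eta1 := rfl
  have h1 : Pr Q (dF b r R) eta0 (Xc false b r R) ≤
      Pr Q (dF (sq1 b) r R) eta1 (Xc true (sq1 b) r R) := by
    unfold Pr
    rw [H519.Ex_du hQ _ f_good.2.1]
    have e2 : (dF b r R).image (fun v => (v.1 + 1, v.2)) = dF (sq1 b) r R := image_dF
    rw [e2, e1]
    refine Ex_mono hQ fun S _ => ?_
    generalize cf (dF (sq1 b) r R) eta1 S = ω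
    by_cases h : H519.dui ω ∈ Xc false b r R
    · rw [Set.indicator_of_mem h, Set.indicator_of_mem (Xc_dual' h)]
      exact le_refl (1 : ℝ)
    · rw [Set.indicator_of_notMem h]
      exact ind_nonneg _ _
  refine h1.trans ?_
  rw [Xc_eq_CI]
  exact worst_P_dom hQ hQ1 hη f_good.2.2 hD (fun s hs t ht _ _ => outside_half hr hrR hs ht)
    As_sub _

end Vale.Agent.P167.N.BT
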