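import Vale.Agent.P167.N.BT.ArmW
import Vale.Agent.P167.N.Base.ArmShp
import Vale.Agent.P167.N.NET.HalfI
import Vale.Agent.P167.N.NET.KitV
import Vale.Agent.P167.H635.AnnM
import Vale.Agent.P167.H469.BDefs

/-!
# P167, `q < 1`, the arms of a free flat side

`hx Q e b r R N`: arm probability of the colour `e` in the free half box. `a5`, `a6`: gluing and
cutting, `a7`: the environment does not matter, `a8`: comparable radii, `a9`: both colours, `a4`: the
dual arm is not more likely than the primal arm.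
-/

set_option autoImplicit false
set_option linter.unusedSectionVars false

namespace Vale.Agent.P167.N.BT

open Finset Relation Vale.Agent.P167.FK Vale.Agent.P167.FKA Vale.Agent.P167.QM
open Vale.Agent.P167.H632 (cs pr nm_le le_nm)
open Vale.Agent.P167.H192.TA (Xc Pw dq sr dF mem_dF cut_dq)
open Vale.Agent.P167.H192.Q (sq1 Xc_restrict loc_Xc Xc_congr)
open Vale.Agent.P167.H469 (hx FlF A5 A6 A7 A8)
open Vale.Agent.P167.H635
open Vale.Agent.P167.N.NET (vrs cross_F out_F inn_F glue_F both_F ins_F Xc_self ind_Xc dF_disj dF_sub)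

variable {Q : ℝ} {D : Finset (ℤ × ℤ)} {η : Cfg} {e : Bool} {b : ℤ × ℤ} {r s R N M L : ℤ} {p : ℝ}

/-! ### Geometry -/

theorem mem_HBt {v : ℤ × ℤ} : v ∈ HB b N ↔ b.1 - N ≤ v.1 ∧ v.1 < b.1 + N ∧ b.2 ≤ v.2 ∧
    v.2 < b.2 + N := by
  unfold HB
  rw [Finset.mem_filter, mem_Bq]
  omega

theorem mem_dFt {v : ℤ × ℤ} : v ∈ dF b r R ↔ b.1 - R ≤ v.1 ∧ v.1 < b.1 + R ∧ b.2 ≤ v.2 ∧
    v.2 < b.2 + R ∧ (v.1 < b.1 - r ∨ b.1 + r ≤ v.1 ∨ b.2 + r ≤ v.2) := by
  rw [mem_dF]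
  rfl

theorem dF_HB (hRN : R ≤ N) : dF b r R ⊆ HB b N := by
  intro v hv
  rw [mem_dFt] at hv
  rw [mem_HBt]
  omega

theorem dF_Ann (_hr : 0 ≤ r) : dF b r R ⊆ Ann b r R := by
  intro v hv
  rw [mem_dFt] at hv
  rw [mem_Ann, mem_Bq, mem_Bq]
  omega

theorem dF_Bq : dF b r R ⊆ Bq b R := by
  intro v hv
  rw [mem_dFt] at hv
  rw [mem_Bq]
  omega

theorem cl_eta0 {B A : Finset (ℤ × ℤ)} : Cl B A eta0 := fun _ _ _ => rfl

theorem shp_HB (h : R ≤ N) : Shp (HB b N) b r R := by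
  refine shp_ge2 (c := b.2) fun v hv => ?_
  have := ann_box hv
  rw [mem_Bq] at this
  rw [mem_HBt]
  omega

theorem flf_dF (h : FlF D η b R) : dF b r R ⊆ D := by
  intro v hv
  rw [h.dom v (dF_Bq hv)]
  rw [mem_dFt] at hv
  omega

theorem flf_tr (h : FlF D η b R) (hN : R ≤ N) : D ∩ Bq b R = HB b N ∩ Bq b R := by
  ext v
  rw [Finset.mem_inter, Finset.mem_inter]
  refine ⟨fun ⟨h1, h2⟩ => ⟨?_, h2⟩, fun ⟨h1, h2⟩ => ⟨?_, h2⟩⟩
  · have h3 := (h.dom v h2).1 h1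
    rw [mem_Bq] at h2
    rw [mem_HBt]
    omega
  · rw [h.dom v h2]
    rw [mem_HBt] at h1
    omega

theorem flf_shp (h : FlF D η b R) : Shp D b r R :=
  shp_ge2 (c := b.2) fun v hv => h.dom v (ann_box hv)

theorem flf_cl (h : FlF D η b R) : Cl (Bq b R) D η := h.out

/-! ### Probabilities -/

theorem Pr_ind {U : Set Cfg} : Pr Q D η U = Ex Q D η (fun ω => 1 * U.indicator 1 ω) := by
  simp only [one_mul]
  rfl

theorem ind_one {A : Finset (ℤ × ℤ)} : Ind A (fun _ : Cfg => (1 : ℝ)) := fun _ _ _ => rfl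

theorem Pr_univ' (hQ : 0 < Q) : Pr Q D η Set.univ = 1 := by
  unfold Pr
  rw [Set.indicator_univ]
  exact Ex_const hQ 1

theorem Pr_le1 (hQ : 0 < Q) (U : Set Cfg) : Pr Q D η U ≤ 1 := Pr_le_one hQ _

/-- The ratio at which arms have probability at most `1 / 2` next to a flat side. -/
theorem ex_L (hQ : Kit Q) : ∃ L : ℤ, 2 ≤ L ∧ ∀ (x : ℤ × ℤ) (r R : ℤ) (D : Finset (ℤ × ℤ)), 1 ≤ r →
    L * r ≤ R → Shp D x r R → ArmAt Q x r R D (1 / 2) := by
  obtain ⟨α, C, hα, hC, h⟩ := hQ.armShp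
  obtain ⟨L, hL2, hL⟩ : ∃ L : ℤ, 2 ≤ L ∧ C * ((1 : ℝ) / L) ^ α ≤ 1 / 2 := by
    have h1 : Filter.Tendsto (fun n : ℕ => C * ((1 : ℝ) / n) ^ α) Filter.atTop (nhds 0) := by
      have h2 : Filter.Tendsto (fun n : ℕ => ((n : ℝ)) ^ (-α)) Filter.atTop (nhds 0) :=
        (tendsto_rpow_neg_atTop hα).comp tendsto_natCast_atTop_atTop
      have h3 := h2.const_mul C
      rw [mul_zero] at h3
      refine h3.congr fun n => ?_
      rw [one_div, Real.inv_rpow (Nat.cast_nonneg n), Real.rpow_neg (Nat.cast_nonneg n)]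
    obtain ⟨n, h4, h5⟩ := ((h1.eventually (gt_mem_nhds (show (0 : ℝ) < 1 / 2 by norm_num))).and
      (Filter.eventually_ge_atTop 2)).exists
    exact ⟨n, by exact_mod_cast h5, by simpa using h4.le⟩
  refine ⟨L, hL2, fun x r R D hr hrR hS => (h x r R D hr (by nlinarith) hS).le ?_⟩
  refine le_trans (mul_le_mul_of_nonneg_left ?_ hC.le) hL
  have hrp : (0 : ℝ) < r := by exact_mod_cast (by omega : 0 < r)
  have hLp : (0 : ℝ) < L := by exact_mod_cast (by omega : 0 < L)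
  have hRp : (0 : ℝ) < R := by
    have : 0 < R := by nlinarith
    exact_mod_cast this
  refine Real.rpow_le_rpow (div_nonneg hrp.le hRp.le) ?_ hα.le
  rw [div_le_div_iff₀ hRp hLp]
  have : ((L * r : ℤ) : ℝ) ≤ R := by exact_mod_cast hrR
  push_cast at this
  linarith

/-- **The environment does not matter**, in a factorised form. -/
theorem a7 (hQ : Kit Q) : A7 Q := by
  obtain ⟨L, hL2, hL⟩ := ex_L hQ
  refine ⟨4, L, by norm_num, by omega, fun e b r R N D η hr hrR hN hη hfl => ?_⟩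
  have hLR : R ≤ L * R := by nlinarith
  have hL1 : 1 ≤ R := by omega
  have hsD := hL b R (L * R) D hL1 le_rfl (flf_shp hfl)
  have hsH := hL b R (L * R) (HB b N) hL1 le_rfl (shp_HB hN)
  have htr := flf_tr hfl hN
  constructor
  · have h := bdy_two (F := (Xc e b r R).indicator 1) (V := dF b r R) hQ.pos hQ.le hLR hsD
      (by norm_num) htr ((flf_dF hfl).trans' (dF_sub le_rfl hLR (by omega))) dF_Bq
      (fun ω => NET.ind_nn _ _) loc_Xc hη f_good.2.1 (flf_cl hfl) cl_eta0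
    unfold hx Pr
    linarith
  · have h := bdy_two (F := (Xc e b r R).indicator 1) (V := dF b r R) hQ.pos hQ.le hLR hsH
      (by norm_num) htr.symm (dF_HB (by omega)) dF_Bq
      (fun ω => NET.ind_nn _ _) loc_Xc f_good.2.1 hη cl_eta0 (flf_cl hfl)
    unfold hx Pr
    linarith

/-- **Comparable radii**. -/
theorem a8 (hQ : Kit Q) : A8 Q := by
  intro M
  obtain ⟨κ, h1, h1', H⟩ := cross_F hQ.pos hQ.le (vrs hQ.pos hQ.lt) M.toNat
  refine ⟨κ, 1, 1, h1, le_rfl, le_rfl, fun e b r R N hr hrR hM hN => ?_⟩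
  rcases hrR.eq_or_lt with h | hlt
  · unfold hx
    rw [← h, Xc_self hr, Pr_univ' hQ.pos]
    exact h1'
  have hM0 : 0 ≤ M := by
    by_contra hc
    have : M * r < 0 := by nlinarith
    omega
  have := H e b r R (HB b N) eta0 (fun _ => 1) hr hlt (by
    rw [Int.toNat_of_nonneg hM0]
    exact hM) f_good.2.1 (dF_HB (by omega)) (fun _ => zero_le_one) ind_one
  rw [← Pr_ind, Ex_const hQ.pos, mul_one] at this
  exact this

/-- **Both colours.** -/
theorem a9 (hQ : Kit Q) : ∃ (α C : ℝ) (K s0 : ℤ), 0 < α ∧ 0 < C ∧ 1 ≤ K ∧ 1 ≤ s0 ∧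
    ∀ (e : Bool) (b : ℤ × ℤ) (r R N : ℤ) (D : Finset (ℤ × ℤ)) (η : Cfg), s0 ≤ r → r ≤ R →
      K * R ≤ N → Good η → FlF D η b (K * R) →
      Pr Q D η (Xc true b r R ∩ Xc false b r R) ≤ C * ((r : ℝ) / R) ^ α * hx Q e b r R N := by
  obtain ⟨α, C, hα, hC, H⟩ := both_F hQ.pos hQ.le (vrs hQ.pos hQ.lt)
  obtain ⟨C7, K, hC7, hK, H7⟩ := a7 hQ
  refine ⟨α, C * C7, K, 1, hα, by positivity, hK, le_rfl, fun e b r R N D η hr hrR hN hη hfl => ?_⟩
  have hKR : R ≤ K * R := by nlinarith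
  have h1 := H e b r R D η (fun _ => 1) hr hrR hη
    ((dF_sub le_rfl hKR (by omega)).trans (flf_dF hfl)) (fun _ => zero_le_one) ind_one
  rw [← Pr_ind, ← Pr_ind] at h1
  have h2 := (H7 e b r R N D η hr hrR hN hη hfl).1
  have h3 : Xc e b r R ∩ Xc (!e) b r R = Xc true b r R ∩ Xc false b r R := by
    cases e
    · exact Set.inter_comm _ _
    · rfl
  rw [h3] at h1
  have hx0 : (0 : ℝ) ≤ ((r : ℝ) / R) ^ α := by
    have : (0 : ℝ) ≤ (r : ℝ) / R := div_nonneg (by exact_mod_cast (by omega : 0 ≤ r))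
      (by exact_mod_cast (by omega : 0 ≤ R))
    positivity
  calc _ ≤ _ := h1
    _ ≤ C * ((r : ℝ) / R) ^ α * (C7 * hx Q e b r R N) :=
        mul_le_mul_of_nonneg_left h2 (mul_nonneg (by linarith) hx0)
    _ = _ := by ring

theorem hx_nn (hQ : 0 < Q) : 0 ≤ hx Q e b r R N := Pr_nonneg hQ _

theorem hx_le1 (hQ : 0 < Q) : hx Q e b r R N ≤ 1 := Pr_le_one hQ _

theorem hx_mono {r' R' : ℤ} (hQ : 0 < Q) (h1 : r ≤ r') (h2 : r' ≤ R') (h3 : R' ≤ R) :
    hx Q e b r R N ≤ hx Q e b r' R' N :=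
  Pr_mono hQ (Xc_restrict h1 h2 h3)

theorem hx_eq : hx Q e b r R N =
    Ex Q (HB b N) eta0 (fun ω => 1 * (Xc e b r R).indicator 1 ω) := Pr_ind

/-- **Gluing.** -/
theorem a5 (hQ : Kit Q) : A5 Q := by
  obtain ⟨L, hL2, hL⟩ := ex_L hQ
  have hV := vrs hQ.pos hQ.lt
  obtain ⟨κ₁, h1, h1', H1⟩ := out_F hQ.pos hQ.le hV L.toNat
  obtain ⟨κ₂, h2, h2', H2⟩ := glue_F hQ.pos hQ.le hV L.toNat
  have hLn : ((L.toNat : ℕ) : ℤ) = L := Int.toNat_of_nonneg (by omega)
  refine ⟨4 * (κ₁ * κ₂)⁻¹, 1, 1, by positivity, le_rfl, le_rfl,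
    fun e b r s R N hr hrs hsR hN => ?_⟩
  rw [one_mul] at hN
  have hRN : dF b r R ⊆ HB b N := dF_HB hN
  have n1 := hx_nn (e := e) (b := b) (r := r) (R := s) (N := N) hQ.pos
  have n2 := hx_nn (e := e) (b := b) (r := s) (R := R) (N := N) hQ.pos
  have n3 := hx_nn (e := e) (b := b) (r := r) (R := R) (N := N) hQ.pos
  have l2 := hx_le1 (e := e) (b := b) (r := s) (R := R) (N := N) hQ.pos
  by_cases hc : R ≤ L * s
  · have k := H1 e b r s R (HB b N) eta0 (fun _ => 1) hr hrs hsR (by rw [hLn]; exact hc) f_good.2.1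
      hRN (fun _ => zero_le_one) ind_one
    rw [← hx_eq, ← hx_eq] at k
    have k2 : hx Q e b r s N ≤ κ₁⁻¹ * hx Q e b r R N := by
      rw [inv_mul_eq_div, le_div_iff₀ h1, mul_comm]
      exact k
    have k3 : κ₁⁻¹ ≤ 4 * (κ₁ * κ₂)⁻¹ := by
      rw [mul_inv]
      have : 1 ≤ κ₂⁻¹ := (one_le_inv₀ h2).2 h2'
      have h3 : 0 < κ₁⁻¹ := by positivity
      nlinarith
    calc hx Q e b r s N * hx Q e b s R N ≤ hx Q e b r s N * 1 := mul_le_mul_of_nonneg_left l2 n1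
      _ ≤ κ₁⁻¹ * hx Q e b r R N := by rw [mul_one]; exact k2
      _ ≤ _ := mul_le_mul_of_nonneg_right k3 n3
  · push Not at hc
    have hLs : s ≤ L * s := by nlinarith
    have hs1 : 1 ≤ s := by omega
    have hsL := hL b s (L * s) (HB b N) hs1 le_rfl (shp_HB (by omega))
    have hdj : Disjoint (HB b N ∩ Bq b (L * s)) (dF b (L * s) R) := by
      rw [Finset.disjoint_left]
      intro v g1 g2
      rw [mem_dFt] at g2
      have := (Finset.mem_inter.1 g1).2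
      rw [mem_Bq] at this
      omega
    have k := (bdy_two_mul (F := (Xc e b r s).indicator 1) (G := (Xc e b (L * s) R).indicator 1)
      (V := dF b r s) (D := HB b N) (D' := HB b N) (η := eta0) (η' := eta0) hQ.pos hQ.le hLs hsL
      (by norm_num) rfl (dF_HB (by omega)) dF_Bq (fun ω => NET.ind_nn _ _) loc_Xc f_good.2.1
      f_good.2.1 cl_eta0 cl_eta0 (fun ω => NET.ind_nn _ _)
      (ind_Xc (by nlinarith) hc hdj.symm)).2
    have k1 := H2 e b r s (L * s) R (HB b N) eta0 (fun _ => 1) hr hrs (by nlinarith) hc.le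
      (by rw [hLn]) f_good.2.1 hRN (fun _ => zero_le_one) ind_one
    rw [← hx_eq] at k1
    have e1 : Ex Q (HB b N) eta0 (fun ω => 1 * (Xc e b r s ∩ Xc e b (L * s) R).indicator 1 ω) =
        Ex Q (HB b N) eta0 (fun ω => (Xc e b (L * s) R).indicator 1 ω *
          (Xc e b r s).indicator 1 ω) := by
      refine congrArg (Ex Q _ _) (funext fun ω => ?_)
      rw [NET.ind_inter]
      ring
    rw [e1] at k1
    have e2 : hx Q e b s R N ≤ hx Q e b (L * s) R N := hx_mono hQ.pos hLs hc.le le_rfl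
    have e3 : (1 - 1 / 2 : ℝ) ^ 2 * (hx Q e b (L * s) R N * hx Q e b r s N) ≤
        Ex Q (HB b N) eta0 (fun ω => (Xc e b (L * s) R).indicator 1 ω *
          (Xc e b r s).indicator 1 ω) := k
    have e4 : hx Q e b r s N * hx Q e b s R N ≤ hx Q e b (L * s) R N * hx Q e b r s N := by
      rw [mul_comm (hx Q e b (L * s) R N)]
      exact mul_le_mul_of_nonneg_left e2 n1
    have e5 : κ₂ * (1 / 4 * (hx Q e b r s N * hx Q e b s R N)) ≤ hx Q e b r R N := by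
      refine le_trans (mul_le_mul_of_nonneg_left ?_ h2.le) k1
      refine le_trans ?_ e3
      nlinarith
    have e6 : hx Q e b r s N * hx Q e b s R N ≤ 4 * κ₂⁻¹ * hx Q e b r R N := by
      have : hx Q e b r s N * hx Q e b s R N =
          4 * κ₂⁻¹ * (κ₂ * (1 / 4 * (hx Q e b r s N * hx Q e b s R N))) := by
        field_simp
      rw [this]
      exact mul_le_mul_of_nonneg_left e5 (by positivity)
    refine e6.trans (mul_le_mul_of_nonneg_right ?_ n3)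
    rw [mul_inv]
    have h3 : 1 ≤ κ₁⁻¹ := (one_le_inv₀ h1).2 h1'
    have h4 : 0 < κ₂⁻¹ := by positivity
    nlinarith

/-- **Cutting.** -/
theorem a6 (hQ : Kit Q) : A6 Q := by
  obtain ⟨L, hL2, hL⟩ := ex_L hQ
  have hV := vrs hQ.pos hQ.lt
  obtain ⟨κ₁, h1, h1', H1⟩ := out_F hQ.pos hQ.le hV (2 * L).toNat
  obtain ⟨κ₃, h3, h3', H3⟩ := cross_F hQ.pos hQ.le hV L.toNat
  have hLn : (((2 * L).toNat : ℕ) : ℤ) = 2 * L := Int.toNat_of_nonneg (by omega)
  have hLm : ((L.toNat : ℕ) : ℤ) = L := Int.toNat_of_nonneg (by omega)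
  refine ⟨4 * (κ₁ * κ₃)⁻¹, 1, 1, by positivity, le_rfl, le_rfl,
    fun e b r s R N hr hrs hsR hN => ?_⟩
  rw [one_mul] at hN
  have n1 := hx_nn (e := e) (b := b) (r := r) (R := s) (N := N) hQ.pos
  have n2 := hx_nn (e := e) (b := b) (r := s) (R := R) (N := N) hQ.pos
  have n3 := hx_nn (e := e) (b := b) (r := r) (R := R) (N := N) hQ.pos
  have m1 : hx Q e b r R N ≤ hx Q e b s R N := hx_mono hQ.pos hrs hsR le_rfl
  have i1 : 0 < κ₁⁻¹ := by positivity
  have i3 : 0 < κ₃⁻¹ := by positivity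
  have j1 : 1 ≤ κ₁⁻¹ := (one_le_inv₀ h1).2 h1'
  have j3 : 1 ≤ κ₃⁻¹ := (one_le_inv₀ h3).2 h3'
  by_cases hc : s < L * r
  · -- comparable radii
    have k : κ₃ ≤ hx Q e b r s N := by
      rcases hrs.eq_or_lt with h | hlt
      · unfold hx
        rw [← h, Xc_self hr, Pr_univ' hQ.pos]
        exact h3'
      · have := H3 e b r s (HB b N) eta0 (fun _ => 1) hr hlt (by rw [hLm]; exact hc.le) f_good.2.1
          (dF_HB (by omega)) (fun _ => zero_le_one) ind_one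
        rw [← Pr_ind, Ex_const hQ.pos, mul_one] at this
        exact this
    have k2 : hx Q e b r R N ≤ κ₃⁻¹ * (hx Q e b r s N * hx Q e b s R N) := by
      calc hx Q e b r R N ≤ hx Q e b s R N := m1
        _ = κ₃⁻¹ * (κ₃ * hx Q e b s R N) := by field_simp
        _ ≤ κ₃⁻¹ * (hx Q e b r s N * hx Q e b s R N) :=
            mul_le_mul_of_nonneg_left (mul_le_mul_of_nonneg_right k n2) i3.le
    refine k2.trans (mul_le_mul_of_nonneg_right ?_ (mul_nonneg n1 n2))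
    rw [mul_inv]
    nlinarith
  · push Not at hc
    obtain ⟨t, ht1, ht2⟩ : ∃ t : ℤ, L * t ≤ s ∧ s < L * (t + 1) := by
      refine ⟨s / L, ?_, ?_⟩
      · exact Int.mul_ediv_self_le (by omega)
      · have := Int.lt_mul_ediv_self_add (x := s) (show 0 < L by omega)
        rw [mul_add, mul_one]
        exact this
    have hrt : r ≤ t := by
      by_contra h
      push Not at h
      have : L * (t + 1) ≤ L * r := mul_le_mul_of_nonneg_left (by omega) (by omega)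
      omega
    have ht : t ≤ L * t := by nlinarith
    have htL := hL b t (L * t) (HB b N) (by omega) le_rfl (shp_HB (by omega))
    have hdj : Ind (HB b N ∩ Bq b (L * t)) ((Xc e b s R).indicator 1) := by
      rcases hsR.eq_or_lt with h | hlt
      · rw [← h, Xc_self (by omega)]
        exact NET.ind_univ
      · refine ind_Xc (by omega) hlt ?_
        rw [Finset.disjoint_left]
        intro v g1 g2
        rw [mem_dFt] at g1
        have := (Finset.mem_inter.1 g2).2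
        rw [mem_Bq] at this
        omega
    have k := (bdy_two_mul (F := (Xc e b r t).indicator 1) (G := (Xc e b s R).indicator 1)
      (V := dF b r t) (D := HB b N) (D' := HB b N) (η := eta0) (η' := eta0) hQ.pos hQ.le ht htL
      (by norm_num) rfl (dF_HB (by omega)) dF_Bq (fun ω => NET.ind_nn _ _) loc_Xc f_good.2.1
      f_good.2.1 cl_eta0 cl_eta0 (fun ω => NET.ind_nn _ _) hdj).1
    have k1 := H1 e b r t s (HB b N) eta0 (fun _ => 1) hr hrt (by omega) (by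
      rw [hLn]
      nlinarith) f_good.2.1 (dF_HB (by omega)) (fun _ => zero_le_one) ind_one
    rw [← hx_eq, ← hx_eq] at k1
    have e1 : hx Q e b r R N ≤ Ex Q (HB b N) eta0 (fun ω => (Xc e b s R).indicator 1 ω *
        (Xc e b r t).indicator 1 ω) := by
      refine Ex_mono hQ.pos fun S _ => ?_
      obtain ⟨ω, hω⟩ : ∃ ω, ω = cf (HB b N) eta0 S := ⟨_, rfl⟩
      rw [← hω]
      by_cases h : ω ∈ Xc e b r R
      · rw [Set.indicator_of_mem h, Set.indicator_of_mem (Xc_restrict hrs hsR le_rfl h),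
          Set.indicator_of_mem (Xc_restrict le_rfl hrt (by omega) h)]
        simp
      · rw [Set.indicator_of_notMem h]
        exact mul_nonneg (NET.ind_nn _ _) (NET.ind_nn _ _)
    have e2 : (1 - 1 / 2 : ℝ) ^ 2 * Ex Q (HB b N) eta0 (fun ω => (Xc e b s R).indicator 1 ω *
        (Xc e b r t).indicator 1 ω) ≤ hx Q e b s R N * hx Q e b r t N := k
    have e3 : hx Q e b r t N ≤ κ₁⁻¹ * hx Q e b r s N := by
      rw [inv_mul_eq_div, le_div_iff₀ h1, mul_comm]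
      exact k1
    have e4 : hx Q e b s R N * hx Q e b r t N ≤
        κ₁⁻¹ * (hx Q e b r s N * hx Q e b s R N) := by
      calc _ ≤ hx Q e b s R N * (κ₁⁻¹ * hx Q e b r s N) := mul_le_mul_of_nonneg_left e3 n2
        _ = _ := by ring
    have e5 : hx Q e b r R N ≤ 4 * κ₁⁻¹ * (hx Q e b r s N * hx Q e b s R N) := by
      nlinarith
    refine e5.trans (mul_le_mul_of_nonneg_right ?_ (mul_nonneg n1 n2))
    rw [mul_inv]
    nlinarith

/-- Shift of the centre by one. -/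
theorem Xc_shift' {b' : ℤ × ℤ} (h2 : b'.2 = b.2) (h3 : b.1 - 1 ≤ b'.1) (h4 : b'.1 ≤ b.1 + 1)
    (hrR : r + 1 ≤ R - 1) : Xc e b' r R ⊆ Xc e b (r + 1) (R - 1) := by
  rintro ω ⟨y, y', g1, g2, g3, g4, g5⟩
  have hy : b.2 ≤ y.2 := by
    simp only [sr, Set.mem_ofPred_eq] at g1
    omega
  rw [nm_le] at g3
  rw [le_nm] at g5
  simp only [Prod.fst_sub, Prod.snd_sub] at g3 g5
  obtain ⟨y0, y1, k1, k2, k3, k4, k5⟩ := cut_dq (G := cs e ω ∩ dq b' r R) hrR hy
    (fun v hv => by have := hv.2; simp only [dq, Set.mem_ofPred_eq] at this; omega) g4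
    (by rw [nm_le]; simp only [Prod.fst_sub, Prod.snd_sub]; omega)
    (by rw [le_nm]; simp only [Prod.fst_sub, Prod.snd_sub]; omega)
  exact ⟨y0, y1, k2, by rw [← Vale.Agent.P167.H192.TA.Pw.parity k1, g2], k3,
    k4.mono (Set.inter_subset_inter_left _ Set.inter_subset_left), k5⟩

/-- Extension in both directions. -/
theorem ext2 (hQ : Kit Q) (M : ℕ) : ∃ K : ℝ, 1 ≤ K ∧
    ∀ (D : Finset (ℤ × ℤ)) (η : Cfg) (e : Bool) (b : ℤ × ℤ) (r r1 R1 R : ℤ), Good η → 1 ≤ r →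
      dF b r R ⊆ D → r ≤ r1 → r1 ≤ R1 → R1 ≤ R → r1 ≤ M * r → R ≤ M * R1 →
      Pr Q D η (Xc e b r1 R1) ≤ K * Pr Q D η (Xc e b r R) := by
  have hV := vrs hQ.pos hQ.lt
  obtain ⟨κ₁, h1, h1', H1⟩ := out_F hQ.pos hQ.le hV M
  obtain ⟨κ₂, h2, h2', H2⟩ := inn_F hQ.pos hQ.le hV M
  have i1 : 0 < κ₁⁻¹ := by positivity
  have j1 : 1 ≤ κ₁⁻¹ := (one_le_inv₀ h1).2 h1'
  have j2 : 1 ≤ κ₂⁻¹ := (one_le_inv₀ h2).2 h2'
  refine ⟨κ₁⁻¹ * κ₂⁻¹, one_le_mul_of_one_le_of_one_le j1 j2,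
    fun D η e b r r1 R1 R hη hr hD g1 g2 g3 g4 g5 => ?_⟩
  have q1 := H1 e b r1 R1 R D η (fun _ => 1) (by omega) g2 g3 g5
    hη ((dF_sub g1 le_rfl (by omega)).trans hD) (fun _ => zero_le_one) ind_one
  have q2 := H2 e b r1 r R D η (fun _ => 1) hr g1 (by omega) g4
    hη hD (fun _ => zero_le_one) ind_one
  rw [← Pr_ind, ← Pr_ind] at q1 q2
  have q3 : Pr Q D η (Xc e b r1 R1) ≤ κ₁⁻¹ * Pr Q D η (Xc e b r1 R) := by
    rw [inv_mul_eq_div, le_div_iff₀ h1, mul_comm]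
    exact q1
  have q4 : Pr Q D η (Xc e b r1 R) ≤ κ₂⁻¹ * Pr Q D η (Xc e b r R) := by
    rw [inv_mul_eq_div, le_div_iff₀ h2, mul_comm]
    exact q2
  rw [mul_assoc]
  exact q3.trans (mul_le_mul_of_nonneg_left q4 i1.le)

/-- Comparable radii, any domain. -/
theorem cross2 (hQ : Kit Q) (M : ℕ) : ∃ K : ℝ, 1 ≤ K ∧
    ∀ (D : Finset (ℤ × ℤ)) (η : Cfg) (e : Bool) (b : ℤ × ℤ) (r R : ℤ), Good η → 1 ≤ r → r ≤ R →
      R ≤ M * r → dF b r R ⊆ D → 1 ≤ K * Pr Q D η (Xc e b r R) := by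
  obtain ⟨κ, h1, h1', H⟩ := cross_F hQ.pos hQ.le (vrs hQ.pos hQ.lt) M
  refine ⟨κ⁻¹, (one_le_inv₀ h1).2 h1', fun D η e b r R hη hr hrR hM hD => ?_⟩
  rw [inv_mul_eq_div, le_div_iff₀ h1, one_mul]
  rcases hrR.eq_or_lt with h | hlt
  · rw [← h, Xc_self hr, Pr_univ' hQ.pos]
    exact h1'
  have := H e b r R D η (fun _ => 1) hr hlt hM hη hD (fun _ => zero_le_one) ind_one
  rw [← Pr_ind, Ex_const hQ.pos, mul_one] at this
  exact this

theorem ex_R1 (hL : 2 ≤ L) (hr : 1 ≤ r) (h : 4 * L * L * r ≤ R) : ∃ t : ℤ, L * r ≤ t ∧ L * t ≤ R ∧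
    R ≤ 2 * L * t ∧ t ≤ L * t ∧ r ≤ L * r ∧ 8 * r ≤ R ∧ L * r ≤ 2 * L * r ∧ 1 ≤ t := by
  obtain ⟨m, hm⟩ : ∃ m : ℤ, m = L * r := ⟨_, rfl⟩
  have h0 : 2 * r ≤ L * r := mul_le_mul_of_nonneg_right hL (by omega)
  have h1 : 4 * L * L * r = 4 * (L * m) := by rw [hm]; ring
  have h2 : 2 * m ≤ L * m := mul_le_mul_of_nonneg_right hL (by omega)
  have k1 : L * (R / L) ≤ R := Int.mul_ediv_self_le (by omega)
  have k2 : R < L * (R / L) + L := Int.lt_mul_ediv_self_add (by omega)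
  obtain ⟨t, ht⟩ : ∃ t : ℤ, t = R / L := ⟨_, rfl⟩
  rw [← ht] at k1 k2
  have k3 : m ≤ t := by
    by_contra hc
    push Not at hc
    have : L * (t + 1) ≤ L * m := mul_le_mul_of_nonneg_left (by omega) (by omega)
    rw [mul_add, mul_one] at this
    omega
  have k4 : 2 * t ≤ L * t := mul_le_mul_of_nonneg_right hL (by omega)
  have k5 : L * 1 ≤ L * t := mul_le_mul_of_nonneg_left (by omega) (by omega)
  have k6 : 2 * L * r = 2 * m := by rw [hm]; ring
  have k7 : 2 * L * t = 2 * (L * t) := by ring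
  refine ⟨t, ?_, k1, ?_, ?_, ?_, ?_, ?_, ?_⟩ <;> omega

/-- From the half box to the half annulus. -/
theorem hx_ann (hQ : Kit Q) {L : ℤ} (_hL2 : 2 ≤ L)
    (hL : ∀ (x : ℤ × ℤ) (r R : ℤ) (D : Finset (ℤ × ℤ)), 1 ≤ r → L * r ≤ R → Shp D x r R →
      ArmAt Q x r R D (1 / 2)) {R1 : ℤ} (hr : 1 ≤ r) (hrL : r ≤ L * r) (g1 : L * r ≤ R1)
    (hR1 : L * R1 ≤ R) (hRR : R1 ≤ L * R1) (hN : R ≤ N) :
    hx Q e b (L * r) R1 N ≤ 16 * Pr Q (dF b r R) eta0 (Xc e b (L * r) R1) := by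
  have s1 := hL b r (L * r) (HB b N) hr le_rfl (shp_HB (by omega))
  have s2 := hL b R1 R (HB b N) (by omega) hR1 (shp_HB hN)
  have htr : HB b N ∩ Ann b r R = dF b r R ∩ Ann b r R := by
    ext v
    rw [Finset.mem_inter, Finset.mem_inter, mem_HBt, mem_dFt, mem_Ann, mem_Bq, mem_Bq]
    omega
  have k1 := ann_two (F := (Xc e b (L * r) R1).indicator 1) (V := dF b (L * r) R1)
    (D := HB b N) (D' := dF b r R) (η := eta0) (η' := eta0) hQ.pos hQ.le hr hrL g1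
    (hRR.trans hR1) s1 s2 (by norm_num) (by norm_num) (dF_HB (by omega)) (dF_Ann (by omega))
    (fun ω => NET.ind_nn _ _) loc_Xc f_good.2.1 cl_eta0 f_good.2.1 cl_eta0 htr
  unfold hx Pr
  linarith

/-- **A dual arm is not more likely than a primal arm.** -/
theorem a4 (hQ : Kit Q) : ∃ (C : ℝ) (K s0 : ℤ), 0 < C ∧ 1 ≤ K ∧ 1 ≤ s0 ∧
    ∀ (b : ℤ × ℤ) (r R N : ℤ), s0 ≤ r → r ≤ R → K * R ≤ N →
      hx Q false b r R N ≤ C * hx Q true b r R N := by
  obtain ⟨L, hL2, hL⟩ := ex_L hQ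
  obtain ⟨K, hK1, ext⟩ := ext2 hQ (2 * L).toNat
  obtain ⟨K', hK1', crs⟩ := cross2 hQ (4 * L * L).toNat
  have hLn : (((2 * L).toNat : ℕ) : ℤ) = 2 * L := Int.toNat_of_nonneg (by omega)
  have hLm : (((4 * L * L).toNat : ℕ) : ℤ) = 4 * L * L :=
    Int.toNat_of_nonneg (mul_nonneg (by omega) (by omega))
  rw [hLn] at ext
  rw [hLm] at crs
  have hK0 : 0 < K := by linarith
  have hK0' : 0 < K' := by linarith
  refine ⟨16 * (K * K) + K', 2, 1, by positivity, by norm_num, le_rfl,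
    fun b r R N hr hrR hN => ?_⟩
  have nt := hx_nn (e := true) (b := b) (r := r) (R := R) (N := N) hQ.pos
  rw [add_mul]
  by_cases hc : R < 4 * L * L * r
  · have k := crs (HB b N) eta0 true b r R f_good.2.1 hr hrR hc.le (dF_HB (by omega))
    have k1 := hx_le1 (e := false) (b := b) (r := r) (R := R) (N := N) hQ.pos
    have k2 : 0 ≤ 16 * (K * K) * hx Q true b r R N := by positivity
    have k3 : K' * hx Q true b r R N = K' * Pr Q (HB b N) eta0 (Xc true b r R) := rfl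
    linarith
  push Not at hc
  obtain ⟨R1, g1, hR1, g2, hRR, hrL, hR4, g3, hR1p⟩ := ex_R1 hL2 hr hc
  have k2 := hx_ann (e := false) (b := b) (r := r) (R := R) (N := N) hQ hL2 hL hr hrL g1 hR1 hRR
    (by omega)
  have k3 : hx Q false b r R N ≤ hx Q false b (L * r) R1 N :=
    hx_mono hQ.pos hrL g1 (hRR.trans hR1)
  have k4 := ext (dF b r R) eta0 false b r (L * r) R1 R f_good.2.1 hr subset_rfl hrL g1
    (hRR.trans hR1) g3 g2
  have k5 : Pr Q (dF b r R) eta0 (Xc false b r R) ≤ Pr Q (HB b N) eta0 (Xc true (sq1 b) r R) := by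
    refine dual_le_primal hQ.pos hQ.le hr hrR f_good.2.1 fun v hv => ?_
    rw [mem_dFt] at hv
    simp only [sq1] at hv
    rw [mem_HBt]
    omega
  have k6 : Pr Q (HB b N) eta0 (Xc true (sq1 b) r R) ≤
      Pr Q (HB b N) eta0 (Xc true b (r + 1) (R - 1)) :=
    Pr_mono hQ.pos (Xc_shift' rfl (by simp only [sq1]; omega) (by simp only [sq1]; omega) (by omega))
  have q1 : r + 1 ≤ 2 * L * r := by
    have : 2 * 1 * r ≤ 2 * L * r := mul_le_mul_of_nonneg_right (by omega) (by omega)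
    omega
  have q2 : R ≤ 2 * L * (R - 1) := by
    have : 4 * (R - 1) ≤ 2 * L * (R - 1) := mul_le_mul_of_nonneg_right (by omega) (by omega)
    omega
  have k7 := ext (HB b N) eta0 true b r (r + 1) (R - 1) R f_good.2.1 hr (dF_HB (by omega))
    (by omega) (by omega) (by omega) q1 q2
  have k8 : Pr Q (dF b r R) eta0 (Xc false b r R) ≤ K * hx Q true b r R N := (k5.trans k6).trans k7
  have k9 : 0 ≤ K' * hx Q true b r R N := by positivity
  have k10 : K * Pr Q (dF b r R) eta0 (Xc false b r R) ≤ K * (K * hx Q true b r R N) :=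
    mul_le_mul_of_nonneg_left k8 hK0.le
  have e1 : 16 * (K * K) * hx Q true b r R N = 16 * (K * (K * hx Q true b r R N)) := by ring
  rw [e1]
  linarith

end Vale.Agent.P167.N.BT
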