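import Vale.Agent.P167.N.BT.Defs

/-!
# P167, `0 < q < 1`, block BT: the wired arc is outside of the window
-/

set_option autoImplicit false
set_option linter.unusedSimpArgs false

namespace Vale.Agent.P167.N.BT

open Finset Vale.Agent.P167 Vale.Agent.P167.BR Vale.Agent.P167.FK
open Vale.Agent.P167.E6 (IsPolygon Encloses dir face)
open Vale.Agent.P167.H436.ND (Win)

variable {n : ℕ} {q : ZMod n → ℤ × ℤ} {D : Finset (ℤ × ℤ)} {η : Cfg} {k l : ℕ} {R : ℤ}

theorem nm_iff {v : ℤ × ℤ} {r : ℤ} : nm v ≤ r ↔ -r ≤ v.1 ∧ v.1 ≤ r ∧ -r ≤ v.2 ∧ v.2 ≤ r := by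
  unfold nm
  rw [max_le_iff, abs_le, abs_le, and_assoc]

/-- A site of the polygon in the open window is on the line. -/
theorem on_line (hw : Win q D l R) (i : ZMod n) (hi : nm (q i - q l) < R) : (q i).2 = (q l).2 := by
  obtain ⟨hq, hD, hF, -, -⟩ := hw
  obtain ⟨r, hr⟩ := hq.2.2 i
  obtain ⟨h1, h2⟩ := (hD (q i) r).1 ⟨i, rfl, hr⟩
  have h3 : nm (q i - q l) ≤ R - 1 := by omega
  rw [nm_iff] at h3
  simp only [Prod.fst_sub, Prod.snd_sub] at h3
  obtain ⟨x, hx⟩ : ∃ x, x = (q i).1 := ⟨_, rfl⟩
  obtain ⟨y, hy⟩ : ∃ y, y = (q i).2 := ⟨_, rfl⟩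
  have e : q i = (x, y) := by rw [hx, hy]
  rw [← hx, ← hy] at h3
  rw [e] at h1 h2
  rw [← hy]
  fin_cases r
  · have a1 := (hF (face (x, y) 0) (by simp [face]; omega) (by simp [face]; omega)
      (by simp [face]; omega) (by simp [face]; omega)).1 h1
    have a2 : ¬ _ := fun h => h2 ((hF (face (x, y) (0 - 1)) (by simp [face, Fin.sub_def]; omega) (by simp [face, Fin.sub_def]; omega)
      (by simp [face, Fin.sub_def]; omega) (by simp [face, Fin.sub_def]; omega)).2 h)
    simp [face, Fin.sub_def] at a1 a2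
    omega
  · have a1 := (hF (face (x, y) 1) (by simp [face]; omega) (by simp [face]; omega)
      (by simp [face]; omega) (by simp [face]; omega)).1 h1
    have a2 : ¬ _ := fun h => h2 ((hF (face (x, y) (1 - 1)) (by simp [face, Fin.sub_def]; omega) (by simp [face, Fin.sub_def]; omega)
      (by simp [face, Fin.sub_def]; omega) (by simp [face, Fin.sub_def]; omega)).2 h)
    simp [face, Fin.sub_def] at a1 a2
    omega
  · have a1 := (hF (face (x, y) 2) (by simp [face]; omega) (by simp [face]; omega)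
      (by simp [face]; omega) (by simp [face]; omega)).1 h1
    have a2 : ¬ _ := fun h => h2 ((hF (face (x, y) (2 - 1)) (by simp [face, Fin.sub_def]; omega) (by simp [face, Fin.sub_def]; omega)
      (by simp [face, Fin.sub_def]; omega) (by simp [face, Fin.sub_def]; omega)).2 h)
    simp [face, Fin.sub_def] at a1 a2
    omega
  · have a1 := (hF (face (x, y) 3) (by simp [face]; omega) (by simp [face]; omega)
      (by simp [face]; omega) (by simp [face]; omega)).1 h1
    have a2 : ¬ _ := fun h => h2 ((hF (face (x, y) (3 - 1)) (by simp [face, Fin.sub_def]; omega) (by simp [face, Fin.sub_def]; omega)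
      (by simp [face, Fin.sub_def]; omega) (by simp [face, Fin.sub_def]; omega)).2 h)
    simp [face, Fin.sub_def] at a1 a2
    omega

/-- **The wired arc is outside of the window.** -/
theorem WinD.far (h : WinD q D η k l R) (hR : 1 ≤ R) : ∀ w ∈ Wr q k, R ≤ nm (w - q l) := by
  rintro w ⟨j, hj1, hj2, rfl⟩
  by_contra hc
  push Not at hc
  have h1 := on_line h.win (j : ZMod n) hc
  obtain ⟨hq, hD, hF, hl, h0⟩ := h.win
  obtain ⟨hr1, hr2⟩ := flat_range hq hD hF hR hl h0
  have h2 : nm (q j - q l) ≤ R - 1 := by omega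
  rw [nm_iff] at h2
  simp only [Prod.fst_sub, Prod.snd_sub] at h2
  obtain ⟨i, hi⟩ : ∃ i : ℕ, (i : ℤ) = l + ((q j).1 - (q l).1) := ⟨(l + ((q j).1 - (q l).1)).toNat, by omega⟩
  have h3 := (QB.flat_side hq hD hF hR hl h0 (i := i) (by omega) (by omega)).1
  have h4 : q i = q j := by
    rw [h3]
    apply Prod.ext
    · simp only; omega
    · simp only; omega
  have h5 := hq.2.1 h4
  rw [ZMod.natCast_eq_natCast_iff] at h5
  have h6 : i < n := by omega
  have h7 := h.lR
  rcases Nat.lt_or_ge j n with h8 | h8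
  · have h9 : i = j := by
      have := h5
      unfold Nat.ModEq at this
      rwa [Nat.mod_eq_of_lt h6, Nat.mod_eq_of_lt h8] at this
    omega
  · have h9 : j = n := by omega
    have h10 : i = 0 := by
      have := h5
      unfold Nat.ModEq at this
      rw [h9, Nat.mod_self, Nat.mod_eq_of_lt h6] at this
      exact this
    omega

end Vale.Agent.P167.N.BT
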