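import Vale.Agent.P167.N.BT.QuadH
import Vale.Agent.P167.N.BT.Far
import Vale.Agent.P167.N.MIX.RatK
import Vale.Agent.P167.N.H192.Q.RatB
import Vale.Agent.P167.H15.Net1
import Vale.Agent.P167.H192.ND.Cross

/-!
# P167, `0 < q < 1`, block BT, part BT7: the arm from `W` is joined to the explored squares

`frz_mix`: ratio mixing when a set of squares in a small half box is frozen. `land_W`: the arm from `W` to the
half box is joined to the right flat side. `att_W`: it is joined to the frozen squares, which contain a half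
circuit of the other colour.
-/

set_option autoImplicit false

namespace Vale.Agent.P167.N.BT

open Finset Vale.Agent.P167 Vale.Agent.P167.BR Vale.Agent.P167.FK Vale.Agent.P167.FKA
open Vale.Agent.P167.H436.ND (Win FltO)
open Vale.Agent.P167.H192.TA (Xc Pw dq sr dF mem_dF)
open Vale.Agent.P167.H192.ND (xc_path)
open Vale.Agent.P167.H632 (cs pr nm_le le_nm)
open Vale.Agent.P167.H262 (Rsq mem_Rsq)
open Vale.Agent.P167.N.NET (Cor Vc Quad Fan arcQ fl So Nx VRS VT Bd Hs Vs arcQ_union arcQ_per fl_bd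
  nx_flL nx_flR nx_in mem_dFc)
open Vale.Agent.P167.N.MIX (RatS)
open Relation (ReflTransGen)

variable {Q : ℝ} {n k l : ℕ} {q : ZMod n → ℤ × ℤ} {D X0 : Finset (ℤ × ℤ)} {η ω0 : Cfg} {b : ℤ × ℤ}
  {r m s s' R : ℤ}

/-! ### Frozen squares -/

theorem ex_pos (hQ : 0 < Q) {F : Cfg → ℝ} (hF : ∀ ω, 0 ≤ F ω) {S : Finset (ℤ × ℤ)} (hS : S ⊆ D)
    (h : 0 < F (cf D η S)) : 0 < Ex Q D η F := by
  unfold Ex
  exact div_pos (Finset.sum_pos' (fun T _ => mul_nonneg (pow_nonneg hQ.le _) (hF _))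
    ⟨S, mem_powerset.2 hS, mul_pos (pow_pos hQ _) h⟩) (Zq_pos hQ D η)

/-- The configurations which are equal to `ω0` on `X0`. -/
def Fz (X0 : Finset (ℤ × ℤ)) (ω0 : Cfg) : Set Cfg := {ω | ∀ v ∈ X0, ω v = ω0 v}

theorem loc_Fz : Loc X0 ((Fz X0 ω0).indicator (1 : Cfg → ℝ)) := by
  intro ω ω' h
  by_cases h1 : ω ∈ Fz X0 ω0
  · rw [Set.indicator_of_mem h1, Set.indicator_of_mem (show ω' ∈ Fz X0 ω0 from
      fun v hv => by rw [← h v hv]; exact h1 v hv)]
    rfl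
  · rw [Set.indicator_of_notMem h1, Set.indicator_of_notMem fun h2 => h1 fun v hv => by
      rw [h v hv]; exact h2 v hv]

/-- The probability of a frozen configuration is positive. -/
theorem frz_pos (hQ : 0 < Q) (hX : X0 ⊆ D) (η : Cfg) :
    0 < Ex Q D η ((Fz X0 ω0).indicator (1 : Cfg → ℝ)) := by
  classical
  refine ex_pos hQ (fun ω => ind_nonneg _ _) (S := X0.filter fun v => ω0 v = true)
    ((filter_subset _ _).trans hX) ?_
  rw [Set.indicator_of_mem]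
  · exact zero_lt_one
  · intro v hv
    have e1 : cf D η (X0.filter fun v => ω0 v = true) v =
        decide (v ∈ X0.filter fun v => ω0 v = true) := if_pos (hX hv)
    rw [e1]
    by_cases h : ω0 v = true
    · rw [h]
      simp [hv, h]
    · have h' : ω0 v = false := by simpa using h
      rw [h']
      simp [h']

/-- Markov with frozen squares. -/
theorem frz_markov (hQ : 0 < Q) (hη : Good η) (hωη : ∀ v, v ∉ D → ω0 v = η v)
    (F : Cfg → ℝ) : Ex Q D η (fun ω => (Fz X0 ω0).indicator 1 ω * F ω) =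
      Ex Q D η ((Fz X0 ω0).indicator 1) * Ex Q (D \ X0) ω0 F := by
  have hind : Ind (D \ X0) ((Fz X0 ω0).indicator (1 : Cfg → ℝ)) := fun ω ω' h =>
    loc_Fz ω ω' fun v hv => h v fun h1 => (mem_sdiff.1 h1).2 hv
  rw [markov H259.f_markov hQ (sdiff_subset : D \ X0 ⊆ D) hη hind, mul_comm, ← Ex_mul_left]
  refine Ex_congr fun S _ => ?_
  rw [mul_comm]
  by_cases h1 : cf D η S ∈ Fz X0 ω0
  · rw [Set.indicator_of_mem h1]
    congr 1
    refine H259.Ex_out (fun v hv => ?_) F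
    by_cases hvX : v ∈ X0
    · exact h1 v hvX
    · have hvD : v ∉ D := fun h => hv (mem_sdiff.2 ⟨h, hvX⟩)
      rw [cf_out hvD, hωη v hvD]
  · rw [Set.indicator_of_notMem h1, mul_zero, mul_zero]

theorem shp_flt (h : Flt D b R) : H635.Shp D b r R := by
  refine Or.inl ⟨fun v => b.2 ≤ v.2, fun v => b.2 ≤ v.2, ⟨b.2, Or.inr (Or.inr (Or.inr fun v =>
    Iff.rfl))⟩, ⟨b.2, Or.inr (Or.inr (Or.inr fun v => Iff.rfl))⟩, Or.inl fun v hv => ?_⟩
  have h1 := H635.mem_Bq.1 (H635.ann_box hv)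
  rw [and_self_iff]
  exact h v h1.1 h1.2.1 h1.2.2.1 h1.2.2.2

theorem fr_flt (hF : Flt D b R) (ho : FltO D η b R false false) : H192.Q.Fr b R D η := by
  intro v hv hvD
  rw [H635.mem_Bq] at hv
  have h1 : v.2 < b.2 := by
    by_contra h1
    exact hvD ((hF v hv.1 hv.2.1 hv.2.2.1 hv.2.2.2).2 (by omega))
  rw [ho.out v hv.1 hv.2.1 hv.2.2.1 h1]
  simp

theorem flt_mono (h : Flt D b R) (hr : r ≤ R) : Flt D b r :=
  fun v h1 h2 h3 h4 => h v (by omega) (by omega) (by omega) (by omega)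

/-- **Ratio mixing** when squares near `b` are frozen. -/
theorem frz_mix (hQ : Kit Q) {L : ℤ} (hL : RatS Q L) (hF : Flt D b R)
    (ho : FltO D η b R false false) (hr : 1 ≤ r) (hm : L * (L * r) ≤ m) (hmR : m ≤ R)
    (hX : X0 ⊆ D) (hX0 : X0 ⊆ hbox b r) (hωη : ∀ v, v ∉ D → ω0 v = η v) {E : Set Cfg}
    (hE : Ind (hbox b m) (E.indicator (1 : Cfg → ℝ))) :
    Pr Q D η E ≤ 8 * Pr Q (D \ X0) ω0 E := by
  have hF' := flt_mono hF hmR
  have hfr : H192.Q.Fr b m D η := fr_flt hF' ⟨ho.good, fun v h1 h2 h3 h4 =>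
    ho.out v (by omega) (by omega) (by omega) h4⟩
  have h := (H192.Q.rat_bdy_mul (D := D) (D' := D) (η := η) (η' := η) (V := X0) (x := b) (r := r)
    (R := m) (F := (Fz X0 ω0).indicator 1) (G := E.indicator 1) hQ hL hr hm rfl hX (fun v hv => by
      have := mem_hbox.1 (hX0 hv)
      rw [H635.mem_Bq]
      omega) (fun ω => ind_nonneg _ _) loc_Fz ho.good ho.good hfr hfr (fun ω => ind_nonneg _ _)
      (fun ω ω' h => hE ω ω' fun v hv => h v fun h1 => hv ?_) (shp_flt hF')).2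
  · have hp := frz_pos (ω0 := ω0) hQ.pos hX η
    have e1 : (fun ω => E.indicator (1 : Cfg → ℝ) ω * (Fz X0 ω0).indicator 1 ω) =
        fun ω => (Fz X0 ω0).indicator 1 ω * E.indicator 1 ω := funext fun ω => mul_comm _ _
    rw [e1, frz_markov hQ.pos ho.good hωη] at h
    have h2 : Ex Q D η ((Fz X0 ω0).indicator 1) * Pr Q D η E ≤
        Ex Q D η ((Fz X0 ω0).indicator 1) * (8 * Pr Q (D \ X0) ω0 E) := by
      have h3 : Pr Q D η E = Ex Q D η (E.indicator 1) := rfl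
      have h4 : Pr Q (D \ X0) ω0 E = Ex Q (D \ X0) ω0 (E.indicator 1) := rfl
      rw [h3, h4]
      linarith
    exact le_of_mul_le_mul_left h2 hp
  · obtain ⟨h2, h3⟩ := mem_inter.1 h1
    rw [H635.mem_Bq] at h3
    rw [mem_hbox]
    have := (hF' v h3.1 h3.2.1 h3.2.2.1 h3.2.2.2).1 h2
    omega

/-! ### The arm lands on the right side -/

theorem nx_mono {e : Bool} {G G' S S' : Set (ℤ × ℤ)} {z : ℤ × ℤ} (hG : G ⊆ G') (hS : S ⊆ S')
    (h : Nx e G S z) : Nx e G' S' z := by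
  obtain ⟨g, hg, h1, n, hn, h2⟩ := h
  exact ⟨g, hG hg, h1, n, hS hn, h2⟩

theorem dF_hole (hF : Flt D b R) (hs : s ≤ R) :
    (dF b m s : Set (ℤ × ℤ)) ⊆ ↑(D \ hbox b m) := by
  intro v hv
  have h := mem_dFc.1 hv
  rw [mem_coe, mem_sdiff, mem_hbox]
  refine ⟨(hF v (by omega) (by omega) (by omega) (by omega)).2 (by omega), ?_⟩
  omega

theorem fl_right (hw : Win q D l R) (hk : (l : ℤ) + R ≤ k) (e : Bool) (hm : 0 ≤ m) (hmr : m ≤ r)
    (hr : r < R) : fl e (q l) m r ⊆ arcQ e q (l + m).toNat k := by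
  rw [← arc_fl hw (by omega) (by omega) hr, ← arcQ_union e q (i := ((l : ℤ) + m).toNat)
    (j := ((l : ℤ) + r).toNat) (k := k) (by omega) (by omega)]
  exact Set.subset_union_left

theorem fl_left (hw : Win q D l R) (e : Bool) (hm : 0 ≤ m) (hmr : m ≤ r) (hr : r < R) :
    fl e (q l) (-r) (-m) ⊆ arcQ e q n ((l - m).toNat + n) := by
  have hrg := flat_rg hw (by omega)
  have e1 : arcQ e q ((l : ℤ) - r).toNat ((l : ℤ) - m).toNat = fl e (q l) (-r) (-m) := by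
    rw [← arc_fl hw (by omega) (by omega) (by omega)]
    rfl
  rw [← e1, ← arcQ_per e q, ← arcQ_union e q (i := n) (j := ((l : ℤ) - r).toNat + n)
    (k := ((l : ℤ) - m).toNat + n) (by omega) (by omega)]
  exact Set.subset_union_right

theorem land_W (hQ : 0 < Q) (hQ1 : Q ≤ 1) (hV : VRS Q) : ∃ κ : ℝ, 0 < κ ∧
    ∀ (n k l : ℕ) (q : ZMod n → ℤ × ℤ) (D X0 : Finset (ℤ × ℤ)) (ω0 : Cfg) (R m : ℤ), Win q D l R →
    (l : ℤ) + R ≤ k → k ≤ n → Good ω0 → 1 ≤ m → 2 * m < R → X0 ⊆ hbox (q l) m →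
    κ * Pr Q (D \ X0) ω0 (PAr D (Wr q k) (q l) m) ≤ Pr Q (D \ X0) ω0
      (NET.Jn true ↑(D \ hbox (q l) m) (fl true (q l) m (2 * m)) (arcQ true q k n)) := by
  obtain ⟨κ, hκ, -, hT⟩ := NET.VT_dF hQ hQ1 hV 4
  refine ⟨κ, hκ, fun n k l q D X0 ω0 R m hw hk hkn hω0 hm hmR hX0 => ?_⟩
  have hF := hw.flat
  have k1 := hT true (q l) m (2 * m) (by omega) (by omega) (by push_cast; omega)
  have hGD : D \ hbox (q l) m ⊆ D \ X0 := sdiff_subset_sdiff subset_rfl hX0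
  have hsub : dF (q l) m (2 * m) ⊆ D \ hbox (q l) m :=
    coe_subset.1 (dF_hole hF (by omega))
  have h := NET.net1_Pr (e := true) hQ hQ1 hω0 (hsub.trans hGD) hGD
    (quadW0 hw hk hkn hm (by omega) true).swap24 (fan_hole hw (by omega) true)
    (A := fl true (q l) (-(2 * m)) (-m)) (B := fl true (q l) m (2 * m)) (fl_bd NET.dF_bd)
    (fun a ha => nx_mono (dF_hole hF (s := 2 * m) (by omega))
      (fl_left hw false (by omega) (by omega) (by omega))
      (nx_flL hm (by omega) le_rfl (by omega) le_rfl ha))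
    (fun t ht ht' => absurd (hsub ht) ht') (fl_bd NET.dF_bd)
    (fun z hz _ => nx_mono (dF_hole hF (s := 2 * m) (by omega))
      (fl_right hw hk false (by omega) (by omega) (by omega))
      (nx_flR hm (by omega) le_rfl (by omega) le_rfl hz))
  have h2 : Pr Q (D \ X0) ω0 (PAr D (Wr q k) (q l) m) ≤ Pr Q (D \ X0) ω0
      (NET.Jn true ↑(D \ hbox (q l) m) (Vc true ↑(hbox (q l) m)) (arcQ true q k n)) := by
    refine Pr_mono hQ ?_
    rintro ω ⟨u, hu, t, ⟨j, hj1, hj2, rfl⟩, h1, h2⟩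
    obtain ⟨v, hv, c1, c2⟩ := mem_sites.1 (mem_coe.1 hu)
    refine ⟨u, ⟨v, mem_coe.2 hv, c1, c2, h1⟩, q j, ⟨j, hj1, hj2, rfl, ?_⟩, h2⟩
    rw [← Pw.parity h2]
    exact h1
  refine (mul_le_mul_of_nonneg_left h2 hκ.le).trans ((mul_le_mul_of_nonneg_right k1
    (Pr_nonneg hQ _)).trans (h.trans (Pr_mono hQ ?_)))
  rintro ω ⟨a, ⟨u, -, v, hv, -, g2⟩, z, hz, g3⟩
  exact ⟨z, hz, v, hv, (g3.symm.mono (Set.inter_subset_inter_right _ (coe_subset.2 hsub))).trans g2⟩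

/-! ### The arm is joined to the frozen squares -/

/-- The corners of the half box which are corners of squares outside of it. -/
theorem hb_nx (hF : Flt D b R) (hm : 1 ≤ m) (hmR : m < R) {e : Bool} {y : ℤ × ℤ}
    (h1 : y ∈ Vc e (↑(hbox b m) : Set (ℤ × ℤ))) (h2 : y ∈ Vc e (↑(D \ hbox b m) : Set (ℤ × ℤ))) :
    Nx e (↑(D \ hbox b m) : Set (ℤ × ℤ)) (Vc (!e) ↑(hbox b m)) y := by
  have h3 : y ∈ So e b m := by
    rw [vc_hbox hm] at h1
    obtain ⟨v, hv, c1, c2, c3⟩ := h2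
    rw [mem_coe, mem_sdiff, mem_hbox] at hv
    refine ⟨by omega, by omega, by omega, by omega, ?_, c3⟩
    by_contra hc
    have h4 := (hF v (by omega) (by omega) (by omega) (by omega)).1 hv.1
    omega
  refine nx_mono (dF_hole hF (s := m + 1) (by omega)) ?_ (nx_in hm (show m < m + 1 by omega) h3)
  rintro u ⟨u1, u2, u3, u4, -, u6⟩
  exact (vc_hbox hm).2 ⟨u1, u2, u3, u4, u6⟩

theorem att_in (hQ : 0 < Q) (hQ1 : Q ≤ 1) (hV : VRS Q) (M : ℕ) : ∃ κ : ℝ, 0 < κ ∧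
    ∀ (n k l : ℕ) (q : ZMod n → ℤ × ℤ) (D X0 : Finset (ℤ × ℤ)) (ω0 ω1 : Cfg) (R m s s' : ℤ),
    Win q D l R → (l : ℤ) + R ≤ k → k ≤ n → (∀ w ∈ Wr q k, R ≤ nm (w - q l)) → Good ω0 → 1 ≤ s →
    s ≤ s' → s' ≤ m → 3 * m ≤ M * s → 3 * m < R → X0 ⊆ hbox (q l) m → (∀ v, v ∉ X0 → ω1 v = true) →
    ω1 ∉ Xc true (q l) s s' →
    κ * Pr Q (D \ X0) ω0
        (NET.Jn true ↑(D \ hbox (q l) m) (fl true (q l) m (2 * m)) (arcQ true q k n)) ≤
      Pr Q (D \ X0) ω0 (NET.Jn true ↑(D \ X0) (Vc true ↑X0) (Wr q k)) := by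
  obtain ⟨κ, hκ, -, -, hT, -⟩ := NET.VT_ell hQ hQ1 hV M
  refine ⟨κ, hκ, fun n k l q D X0 ω0 ω1 R m s s' hw hk hkn hfar hω0 hs hss hsm hM hmR hX0 hω1
    hblk => ?_⟩
  have hF := hw.flat
  have hm : 1 ≤ m := by omega
  obtain ⟨b, hb⟩ : ∃ b, b = q l := ⟨_, rfl⟩
  rw [← hb] at hF hX0 hblk hfar ⊢
  obtain ⟨T, hTd⟩ : ∃ T : Finset (ℤ × ℤ), T = Rsq (b.1 + 2 * m) (b.1 + 3 * m) b.2 (b.2 + s) ∪
    Rsq b.1 (b.1 + 3 * m) b.2 (b.2 + s) := ⟨_, rfl⟩
  have hM1 : (1 : ℤ) ≤ M := by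
    by_contra h
    have h1 : (M : ℤ) * s ≤ 0 := mul_nonpos_of_nonpos_of_nonneg (by omega) (by omega)
    omega
  have hMm : m ≤ M * m := by nlinarith
  have k1 := hT true b.1 (b.1 + 2 * m) (b.1 + 3 * m) b.2 b.2 (b.2 + s) (by omega) (by omega) le_rfl
    (by omega) (by
      have e1 : b.2 + s - b.2 = s := by ring
      have e2 : b.1 + 3 * m - (b.1 + 2 * m) = m := by ring
      rw [e1, e2]
      omega) (by
      have e1 : b.2 + s - b.2 = s := by ring
      have e2 : b.1 + 3 * m - b.1 = 3 * m := by ring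
      rw [e1, e2]
      exact hM)
  rw [← hTd] at k1
  have hmT : ∀ t ∈ T, b.1 ≤ t.1 ∧ t.1 < b.1 + 3 * m ∧ b.2 ≤ t.2 ∧ t.2 < b.2 + s := by
    intro t ht
    rw [hTd, mem_union, mem_Rsq, mem_Rsq] at ht
    omega
  have hTD : ∀ t ∈ T, t ∈ D := by
    intro t ht
    have := hmT t ht
    exact (hF t (by omega) (by omega) (by omega) (by omega)).2 (by omega)
  have hTG : ∀ t ∈ T, t ∉ D \ hbox b m → t ∈ hbox b m := by
    intro t ht h
    rw [mem_sdiff, not_and, not_not] at h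
    exact h (hTD t ht)
  have hw' := hw
  have hQd := (quadW1 hw hk hkn hm (show m ≤ 2 * m by omega) (by omega) true).swap13
  rw [← hb] at hQd
  have hfn := fan_hole (r := m) hw (by omega) true
  rw [← hb] at hfn
  have h := H15.net1 (Q := Q) (D := D \ X0) (η := ω0) (e := true) (G := D \ hbox b m) (T := T)
    (L := X0 ∩ T) (A := fl true b (2 * m) (3 * m)) (B := Vs true b.1 b.2 (b.2 + s)) hQ hQ1 hω0 hQd
    hfn inter_subset_right (fun t ht => ?_) (fl_bd fun t ht => (hmT t ht).2.2.1)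
    (NET.bd_left fun t ht => (hmT t ht).1) (fun a ha => ?_) (fun t ht htG y hy hyG => ?_)
    (fun z hz hzG => ?_) (W := fun _ => 1) (fun _ => zero_le_one) (fun _ _ _ => rfl)
  · simp only [one_mul] at h
    have h0 : 0 ≤ Pr Q (D \ X0) ω0
      (NET.Jn true (↑(D \ hbox b m) : Set (ℤ × ℤ)) (arcQ true q k n) (fl true b m (2 * m))) :=
      Pr_nonneg hQ _
    rw [NET.Jn.symm (A := fl true b m (2 * m))]
    refine (mul_le_mul_of_nonneg_right k1 h0).trans (h.trans (Pr_mono hQ ?_))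
    rintro ω ⟨w, hwW, z, hz, hp⟩
    have hp' : Pw (cs true ω ∩ (↑(D \ X0) : Set (ℤ × ℤ))) w z := by
      refine hp.mono ?_
      rintro v ⟨hv1, hv2⟩
      refine ⟨hv1, ?_⟩
      rw [mem_coe, mem_union, mem_sdiff, mem_sdiff, mem_inter] at hv2
      rw [mem_coe, mem_sdiff]
      rcases hv2 with hv2 | hv2
      · exact ⟨hv2.1, fun h => hv2.2 (hX0 h)⟩
      · exact ⟨hTD v hv2.1, fun h => hv2.2 ⟨h, hv2.1⟩⟩
    obtain ⟨j, hj1, hj2, hj3, hj4⟩ := hwW
    have hwr : w ∈ Wr q k := ⟨j, hj1, hj2, hj3.symm⟩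
    rcases hz with hz | ⟨v, hv, hz⟩
    · exfalso
      apply hblk
      obtain ⟨z1, z2, z3, z4⟩ := hz
      have hf := hfar w hwr
      refine xc_path (c := true) (D := D) (flt_mono hF (show s' ≤ R by omega)) hss z2 z4
        ((hp'.mono ?_).symm) ?_ (by omega)
      · rintro v ⟨-, hv2⟩
        rw [mem_coe, mem_sdiff] at hv2
        exact ⟨hω1 v hv2.2, hv2.1⟩
      · rw [nm_le]
        simp only [Prod.fst_sub, Prod.snd_sub]
        omega
    · exact ⟨z, ⟨v, mem_coe.2 (mem_inter.1 (mem_coe.1 hv)).1, hz⟩, w, hwr, hp'.symm⟩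
  · rw [mem_sdiff, mem_inter] at ht
    exact mem_sdiff.2 ⟨hTD t ht.1, fun h => ht.2 ⟨h, ht.1⟩⟩
  · have hr1 := fl_right hw' hk false (m := 2 * m) (r := 3 * m) (by omega) (by omega) (by omega)
    rw [← hb] at hr1
    exact nx_mono (dF_hole hF (s := 3 * m) (by omega)) hr1
      (nx_flR hm (by omega) (by omega) (by omega) le_rfl ha)
  · refine nx_mono subset_rfl Set.subset_union_right (hb_nx hF hm (by omega) ⟨t, ?_, hy⟩ hyG)
    exact mem_coe.2 (hTG t (mem_sdiff.1 ht).1 htG)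
  · refine nx_mono subset_rfl Set.subset_union_right (hb_nx hF hm (by omega) ?_ hzG)
    rcases hz with hz | ⟨v, hv, hz⟩
    · obtain ⟨z1, z2, z3, z4⟩ := hz
      rw [vc_hbox hm]
      refine ⟨by omega, by omega, by omega, by omega, z4⟩
    · exact ⟨v, mem_coe.2 (hX0 (mem_inter.1 (mem_coe.1 hv)).1), hz⟩

end Vale.Agent.P167.N.BT
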