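import Vale.Agent.P167.N.H436.ND.Cut2
import Vale.Agent.P167.QB.FDefs
import Vale.Agent.P167.H452.BE.Defs

/-!
# P167, `0 < q < 1`, block BT (the bridge at `t`): definitions and statements

`√q = 2 cos θ`, `π / 3 < θ < π / 2`, `s₀ = π - 2 θ`, gauge 2 (`QB.gB`). Dobrushin polygon: free from `q 0` to
`q k`, wired from `q k` to `q n = q 0`; `t = q l` is a flat point of the free side. The functional `XT` has the
charges `s₀ / 2` on two rings of radii `a 0 ≪ a 1` around `t` (and the charge `- s₀` at the base `q 0`). Each bump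
has two blobs (`Bp2`): at least one tenth of the mass is below the height `7 a / 5`, at least one tenth above
`8 a / 5`.

Weights of the pieces with mass `t`: loops `cos (θ + t) / cos θ` (zero at `s₀ / 2`, `- 1` at `s₀`); strands
free - free with the primal side inside (`sg = - 1`) `sin (2 θ + t) / sin (2 θ)` (zero at `s₀`), with the dual side
inside (`sg = 1`) `sin (θ - t) / sin θ` (`1 - q` at `s₀`); strands free - wired `sin (θ + t) / sin θ` (`1` at `0`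
and `s₀`).
-/

set_option autoImplicit false

namespace Vale.Agent.P167.N.BT

open Finset MeasureTheory Vale.Agent.P167 Vale.Agent.P167.BR Vale.Agent.P167.FK
open Vale.Agent.P167.QX (lo hi)
open Vale.Agent.P167.QB (XG)
open Vale.Agent.P167.H562.QM (MajA)
open Vale.Agent.P167.H718 (Dob)
open Vale.Agent.P167.H436.ND (Win FltO Ft Bp Zr kp Ex0 UU clz zf Yu)
open Vale.Agent.P167.N.H436.ND (Yl)
open Vale.Agent.P167.H192.TA (Xc Pw)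
open Vale.Agent.P167.H632 (cs)
open Vale.Agent.P167.H469 (hx)

/-! ### The functional -/

/-- The charges of the two rings: `s₀ / 2 = π / 2 - θ` each. -/
noncomputable def tb (θ : ℝ) : Fin 2 → ℝ := fun _ => Real.pi / 2 - θ

/-- The functional. -/
noncomputable def XT (θ : ℝ) {n : ℕ} (q : ZMod n → ℤ × ℤ) (D : Finset (ℤ × ℤ)) (k : ℕ)
    (f : Fin 2 → ℤ × ℤ → ℝ) : Cfg → ℝ := XG θ q D k (Ft (tb θ) f 0)

open Classical in
/-- A bump of mass one in the core of the ring with two blobs. -/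
structure Bp2 (b : ℤ × ℤ) (a : ℤ) (f : ℤ × ℤ → ℝ) : Prop extends Bp 1000 b a f where
  lo : 1 / 10 ≤ ∑ᶠ z : ℤ × ℤ, if 5 * (z.2 - b.2) ≤ 7 * a then f z else 0
  hi : 1 / 10 ≤ ∑ᶠ z : ℤ × ℤ, if 8 * a ≤ 5 * (z.2 - b.2) then f z else 0

/-- The geometry: Dobrushin polygon with a flat free window of radius `R` at `q l`. -/
structure WinD {n : ℕ} (q : ZMod n → ℤ × ℤ) (D : Finset (ℤ × ℤ)) (η : Cfg) (k l : ℕ) (R : ℤ) :
    Prop where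
  win : Win q D l R
  lR : (l : ℤ) + R ≤ k
  kn : k ≤ n
  dob : Dob η D q k
  flt : FltO D η (q l) R false false

/-- The radii. -/
structure R2 (a₀ K R : ℤ) (a : Fin 2 → ℤ) : Prop where
  pos : a₀ ≤ a 0
  gap : K * a 0 ≤ a 1
  top : K * a 1 ≤ R

/-- The half annulus of the radii `r1 a`, `r2 a` separates the two blobs. -/
def r1 (a : ℤ) : ℤ := 7 * a / 5 + 1

/-- The half annulus of the radii `r1 a`, `r2 a` separates the two blobs. -/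
def r2 (a : ℤ) : ℤ := 8 * a / 5 - 1

/-- The sites of the wired arc. -/
def Wr {n : ℕ} (q : ZMod n → ℤ × ℤ) (k : ℕ) : Set (ℤ × ℤ) := {z | ∃ j : ℕ, k ≤ j ∧ j ≤ n ∧ q j = z}

/-- The half box of radius `r` of `b` is joined to `W` by a primal path of `D` outside of the half box. -/
def PAr (D : Finset (ℤ × ℤ)) (W : Set (ℤ × ℤ)) (b : ℤ × ℤ) (r : ℤ) : Set Cfg :=
  {ω | Jn true (D \ hbox b r) ω (sites (hbox b r)) W}

/-- Its probability. -/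
noncomputable def aD (Q : ℝ) (D : Finset (ℤ × ℤ)) (η : Cfg) (W : Set (ℤ × ℤ)) (b : ℤ × ℤ) (r : ℤ) : ℝ :=
  Pr Q D η (PAr D W b r)

/-- The sum over the states: dual arm from `r` to `M ^ t r`, primal arm from there to `W`. -/
noncomputable def SD (Q : ℝ) (D : Finset (ℤ × ℤ)) (η : Cfg) (W : Set (ℤ × ℤ)) (b : ℤ × ℤ)
    (r R N M : ℤ) : ℝ :=
  ∑ t ∈ (range (R.toNat + 1)).filter (fun t : ℕ => M ^ (t + 1) * r ≤ R),
    hx Q false b r (M ^ t * r) N * aD Q D η W b (M ^ t * r)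

/-! ### The events -/

/-- No strand around both rings with both ends on the free side has its primal side inside: the weight of such a
strand is `sin (2 θ + s₀) = 0`. -/
def StT {n : ℕ} (q : ZMod n → ℤ × ℤ) (D : Finset (ℤ × ℤ)) (k l : ℕ) (a : Fin 2 → ℤ) : Set Cfg :=
  {ω | ∀ A ∈ pcs ω D, ¬ Vz (UU (q l) a 0) A → clz q D (zf (q l) a) A = 2 → hi q A < k →
    QB.sg q A = 1}

/-- The gap is crossed by both colours. -/
def BadT (b : ℤ × ℤ) (a : Fin 2 → ℤ) : Set Cfg :=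
  Xc true b (2 * a 0) (a 1) ∩ Xc false b (2 * a 0) (a 1)

/-- Dual arm from the half box of radius `r` to an edge, primal arm from this edge to `W`. -/
def LkT (D : Finset (ℤ × ℤ)) (W : Set (ℤ × ℤ)) (b : ℤ × ℤ) (r : ℤ) (ω : Cfg) : Prop :=
  ∃ z0 ∈ sites (hbox b r), ∃ e ∈ eds D, ∃ w0 ∈ W, (z0.1 + z0.2) % 2 = 1 ∧ (w0.1 + w0.2) % 2 = 0 ∧
    Pw (cs false ω ∩ ↑D) z0 (rs e) ∧ Pw (cs true ω ∩ ↑D) (ls e) w0

/-- **The favourable event**: half circuits between the blobs of the rings, the gap is crossed by the primal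
colour only, outside of the inner blob of the ring `1` a dual arm and then a primal arm. -/
def FavT {n : ℕ} (q : ZMod n → ℤ × ℤ) (D : Finset (ℤ × ℤ)) (k l : ℕ) (a : Fin 2 → ℤ) : Set Cfg :=
  {ω | (∀ i, ∃ c : Bool, ω ∉ Xc c (q l) (r1 (a i)) (r2 (a i))) ∧
    ω ∈ Xc true (q l) (2 * a 0) (a 1) ∧ ω ∉ Xc false (q l) (2 * a 0) (a 1) ∧
    LkT D (Wr q k) (q l) (r1 (a 1)) ω}

/-- The arms which are left of `StT` outside of the rings. -/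
def AmsT (D : Finset (ℤ × ℤ)) (W : Set (ℤ × ℤ)) (b : ℤ × ℤ) (r R : ℤ) : Set Cfg :=
  {ω | ∀ s : ℤ, r ≤ s → s ≤ R → ω ∈ Xc false b r s ∨ ω ∈ PAr D W b s}

/-! ### The statements of the parts -/

/-- **(BT1)** Deterministic part. -/
def S_DUT (θ : ℝ) : Prop := ∃ (C1 M : ℝ) (K0 a₀ : ℤ), 0 < C1 ∧ 1 ≤ M ∧ 4 ≤ K0 ∧ 1 ≤ a₀ ∧
  ∀ (n : ℕ) (q : ZMod n → ℤ × ℤ) (D : Finset (ℤ × ℤ)) (η : Cfg) (k l : ℕ) (R : ℤ), WinD q D η k l R →
  ∀ a : Fin 2 → ℤ, R2 a₀ K0 R a → ∀ f : Fin 2 → ℤ × ℤ → ℝ, (∀ i, Bp2 (q l) (a i) (f i)) →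
  ∀ (ω : Cfg) (N : Fin 2 → ℕ), (∀ i, MajA (Zr (q l) (a i)) (kp * a i) ω (N i)) →
    |XT θ q D k f ω| ≤ C1 * ∏ i, Yu θ M (tb θ i) (f i) (a i) (N i) ω ∧
    (XT θ q D k f ω ≠ 0 → ω ∈ StT q D k l a) ∧
    (ω ∉ BadT (q l) a → 0 ≤ XT θ q D k f ω) ∧
    (ω ∈ FavT q D k l a → ω ∈ StT q D k l a ∧
      1 ≤ C1 * (XT θ q D k f ω * ∏ i, Yl θ M (tb θ i) (f i) (q l) (a i) (N i) ω))

/-- **(BT2)** Planar topology. -/
def S_T1T : Prop := ∃ a₀ : ℤ, ∀ (n : ℕ) (q : ZMod n → ℤ × ℤ) (D : Finset (ℤ × ℤ)) (η : Cfg) (k l : ℕ)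
  (R : ℤ), WinD q D η k l R → ∀ a : Fin 2 → ℤ, R2 a₀ 4 R a → ∀ ω ∈ StT q D k l a, ∀ r s : ℤ,
  2 * a 1 + 2 ≤ r → r ≤ s → 2 * s + 2 ≤ R → ω ∈ Xc false (q l) r s ∨ ω ∈ PAr D (Wr q k) (q l) s

/-- Half plane above `b` in the box of radius `R`, everything below the line is closed, `W` is far. -/
structure Fl (D : Finset (ℤ × ℤ)) (η : Cfg) (W : Set (ℤ × ℤ)) (b : ℤ × ℤ) (R : ℤ) : Prop where
  flt : Flt D b R
  out : FltO D η b R false false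
  far : ∀ w ∈ W, R ≤ nm (w - b)

/-- **(BT6)** Upper bounds of the probabilities (the constants do not depend on the ratios of the radii). -/
def S_PUT (Q : ℝ) : Prop := ∀ M : ℤ, 2 ≤ M → ∃ (C α : ℝ) (K0 a₀ : ℤ), 0 < C ∧ 0 < α ∧ 4 ≤ K0 ∧ 1 ≤ a₀ ∧
  ∀ (D : Finset (ℤ × ℤ)) (η : Cfg) (W : Set (ℤ × ℤ)) (b : ℤ × ℤ) (R N : ℤ), Fl D η W b R →
  ∀ (a : Fin 2 → ℤ) (R₁ : ℤ), R2 a₀ K0 R₁ a → K0 * R₁ ≤ R → K0 * R₁ ≤ N →
    Pr Q D η (Xc true b (3 * a 0) (a 1 / 2) ∩ AmsT D W b (3 * a 1) (R₁ / 2)) ≤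
      C * (hx Q true b (2 * a 0) (a 1) N *
        (hx Q false b (a 1) R₁ N + SD Q D η W b (a 1) R₁ N M)) ∧
    Pr Q D η ((Xc true b (3 * a 0) (a 1 / 2) ∩ Xc false b (3 * a 0) (a 1 / 2)) ∩
        AmsT D W b (3 * a 1) (R₁ / 2)) ≤
      C * ((a 0 : ℝ) / a 1) ^ α * (hx Q true b (2 * a 0) (a 1) N *
        (hx Q false b (a 1) R₁ N + SD Q D η W b (a 1) R₁ N M)) ∧
    Pr Q D η (Xc false b (4 * a 1) R₁) ≤ C * hx Q false b (a 1) R₁ N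

/-- **(BT7)** Lower bounds of the probabilities: for every scale `ρ` an event which is contained in the
favourable event; the events of different scales are disjoint. `E (a 1)` is the purely primal event. -/
def S_PLT (Q : ℝ) : Prop := ∃ (c : ℝ) (K0 a₀ : ℤ), 0 < c ∧ 4 ≤ K0 ∧ 1 ≤ a₀ ∧
  ∀ (n : ℕ) (q : ZMod n → ℤ × ℤ) (D : Finset (ℤ × ℤ)) (η : Cfg) (k l : ℕ) (R N : ℤ),
  WinD q D η k l R → ∀ (a : Fin 2 → ℤ) (R₁ : ℤ), R2 a₀ K0 R₁ a → K0 * R₁ ≤ R → K0 * R₁ ≤ N →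
    ∃ E : ℤ → Set Cfg,
      (∀ ρ, (ρ = a 1 ∨ K0 * a 1 ≤ ρ) → K0 * ρ ≤ R₁ → E ρ ⊆ FavT q D k l a ∧
        c * (hx Q true (q l) (2 * a 0) (a 1) N * (hx Q false (q l) (a 1) ρ N *
          aD Q D η (Wr q k) (q l) ρ)) ≤ Pr Q D η (E ρ)) ∧
      ∀ ρ ρ' : ℤ, (ρ = a 1 ∨ K0 * a 1 ≤ ρ) → K0 * ρ ≤ ρ' → Disjoint (E ρ) (E ρ')

/-- **(CH)** The chain of the arms: `d(r, R₁) a_D(R₁) ≤ C d(r, ρ) a_D(ρ)` (from `d ≤ C a`, the submultiplicativity of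
`d` and the gluing of the primal arms). -/
def S_CHT (Q : ℝ) : Prop := ∃ (C : ℝ) (K0 s₀ : ℤ), 0 < C ∧ 4 ≤ K0 ∧ 1 ≤ s₀ ∧
  ∀ (n : ℕ) (q : ZMod n → ℤ × ℤ) (D : Finset (ℤ × ℤ)) (η : Cfg) (k l : ℕ) (R N : ℤ),
  WinD q D η k l R → ∀ r ρ R₁ : ℤ, s₀ ≤ r → r ≤ ρ → ρ ≤ R₁ → K0 * R₁ ≤ R → K0 * R₁ ≤ N →
    hx Q false (q l) r R₁ N * aD Q D η (Wr q k) (q l) R₁ ≤
      C * (hx Q false (q l) r ρ N * aD Q D η (Wr q k) (q l) ρ)

/-- **(A8)** Lower bound of the primal arm of bounded ratio. -/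
def S_A8T (Q : ℝ) : Prop := ∀ K : ℤ, 1 ≤ K → ∃ (c : ℝ) (s₀ : ℤ), 0 < c ∧ 1 ≤ s₀ ∧
  ∀ (b : ℤ × ℤ) (r R N : ℤ), s₀ ≤ r → r ≤ R → R ≤ K * r → 4 * R ≤ N → c ≤ hx Q true b r R N

/-! ### The main theorem in finite volume -/

/-- **(BT)** The functional is positive, the part without a primal half circuit in the half annulus from `4 a 1` to
`R₁` is small, and so is the negative part. `c₁` is a lower bound of the primal arm from `R₁`. -/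
def S_BT (θ : ℝ) : Prop := ∀ ε : ℝ, 0 < ε →
  ∃ Kg : ℤ, 8 ≤ Kg ∧ ∀ K₂ : ℤ, Kg ≤ K₂ → ∀ c₁ : ℝ, 0 < c₁ → ∃ (t₀ : ℝ) (a₀ : ℤ), 0 < t₀ ∧
  ∀ (n : ℕ) (q : ZMod n → ℤ × ℤ) (D : Finset (ℤ × ℤ)) (η : Cfg) (k l : ℕ) (R : ℤ),
  WinD q D η k l R → ∀ a : Fin 2 → ℤ, a₀ ≤ a 0 → K₂ * a 0 ≤ a 1 → a 1 ≤ 2 * K₂ * a 0 →
  ∀ f : Fin 2 → ℤ × ℤ → ℝ, (∀ i, Bp2 (q l) (a i) (f i)) →
  ∀ R₁ : ℤ, (a 1 : ℝ) ≤ t₀ * R₁ → Kg * R₁ ≤ R → c₁ ≤ aD (2 * Real.cos θ) D η (Wr q k) (q l) R₁ →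
    0 < Ex (2 * Real.cos θ) D η (XT θ q D k f) ∧
    Ex (2 * Real.cos θ) D η (fun ω =>
        (Xc false (q l) (4 * a 1) R₁).indicator 1 ω * |XT θ q D k f ω|) ≤
      ε * Ex (2 * Real.cos θ) D η (XT θ q D k f) ∧
    Ex (2 * Real.cos θ) D η (fun ω => max (-XT θ q D k f ω) 0) ≤
      ε * Ex (2 * Real.cos θ) D η (XT θ q D k f)

/-! ### Frozen pairs -/

/-- Admissible pairs: `Z` is between the half boxes of radius `r` and `R` of the flat point `v₀`; the squares of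
`Z` which have an odd corner in common with a square above the line and outside of `Z` are open; the even corners
which are common to `Z` and to such squares are joined by open squares of `Z`. -/
structure AdmT (v₀ : ℤ × ℤ) (r R : ℤ) (Z : Finset (ℤ × ℤ)) (ζ : Cfg) : Prop where
  low : hbox v₀ r ⊆ Z
  sub : Z ⊆ hbox v₀ R
  sld : ∀ v ∈ Z, ∀ w : ℤ × ℤ, w ∉ Z → v₀.2 ≤ w.2 →
    (∃ s ∈ sites {v}, s ∈ sites {w} ∧ ¬ Even (s.1 + s.2)) → ζ v = true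
  conn : ∀ s ∈ sites Z, ∀ t ∈ sites Z, Even (s.1 + s.2) → Even (t.1 + t.2) →
    (∃ w : ℤ × ℤ, w ∉ Z ∧ v₀.2 ≤ w.2 ∧ s ∈ sites {w}) → (∃ w : ℤ × ℤ, w ∉ Z ∧ v₀.2 ≤ w.2 ∧ t ∈ sites {w}) →
    Pw (cs true ζ ∩ ↑Z) s t

open Classical in
/-- The indicator of the event that `ω = ζ` on `Z` and that `Z` is joined to `W` by a primal path of `D \ Z`. -/
noncomputable def fzT (D Z : Finset (ℤ × ℤ)) (ζ : Cfg) (W : Set (ℤ × ℤ)) (ω : Cfg) : ℝ :=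
  if (∀ v ∈ Z, ω v = ζ v) ∧ Jn true (D \ Z) ω (sites Z) W then 1 else 0

/-- **(BT3)** The factorisation: off the dual crossing of the half annulus from `r` to `R₁` the functional of a charge
of total mass `s₀` in the half box of radius `r` is a linear combination of the indicators of frozen pairs; the
pairs and the coefficients depend only on the half box of radius `R₁`. -/
def S_FCT (θ : ℝ) : Prop := ∀ (b : ℤ × ℤ) (r R₁ : ℤ), 1 ≤ r → r < R₁ → ∀ g : ℤ × ℤ → ℝ,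
  (∀ z, g z ≠ 0 → z ∈ sites (hbox b r)) → ∑ᶠ z, g z = Real.pi - 2 * θ →
  ∃ (ι : Type) (_ : Fintype ι) (c : ι → ℝ) (Z : ι → Finset (ℤ × ℤ)) (ζ : ι → Cfg),
    (∀ i, AdmT b r R₁ (Z i) (ζ i)) ∧
    ∀ (n : ℕ) (q : ZMod n → ℤ × ℤ) (D : Finset (ℤ × ℤ)) (η : Cfg) (k l : ℕ) (R : ℤ),
    WinD q D η k l R → q l = b → R₁ + 2 ≤ R → ∀ ω : Cfg,
      XG θ q D k g ω * (Xc false b r R₁)ᶜ.indicator 1 ω =
        ∑ i, c i * fzT D (Z i) (ζ i) (Wr q k) ω ∧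
      max (-XG θ q D k g ω) 0 * (Xc false b r R₁)ᶜ.indicator 1 ω =
        ∑ i, max (-c i) 0 * fzT D (Z i) (ζ i) (Wr q k) ω

end Vale.Agent.P167.N.BT
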