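import Vale.Agent.P167.H208.SH.Shp
import Vale.Agent.P167.N.BT.Defs
import Mathlib.MeasureTheory.Measure.Lebesgue.VolumeOfBalls

/-!
# P167, `0 < q < 1`, t-bridge: the shape with two rings and two blobs per ring

`cx t`: a smooth bump of mass one in the closed ball of radius `11 / 500` around `t i`. `ch2`: the mean of the
bumps around `263 i / 400` and `83 i / 100`. `chq K`: the mean of `ch2` at the scales `1 / K` and `1`.
`bp2_moved`: the cell masses of `ch2` in a moved window have the properties `Bp2`.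
-/

set_option autoImplicit false

open Set Metric Filter Topology MeasureTheory
open scoped ComplexConjugate ContDiff

namespace Vale.Agent.P167.N.BT

open Vale.Agent.P167.CA (cms cl cs mem_cl cms_eq measurableSet_cl)
open Vale.Agent.P167.H542.Dt (vol_cl cms_ne cms_abs_le)
open Vale.Agent.P167.H411.Q (fb fb_eq rot shp_rot)
open Vale.Agent.P167.H411.B7 (Shp scb integral_scale)
open Vale.Agent.P167.E6 (pt)
open Vale.Agent.P167.H436.ND (Bp Kr)
open Vale.Agent.P167.H135 (Mov)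
open Vale.Agent.P167.H208.SH (int_fb int_f0 RotN mv_supp finsum_cms fb_ne integral_fb rsc rsc_pos rsc_le
  rsc_ge)

/-! ### one blob -/

/-- The bump around `t i`. -/
noncomputable def bx (t : ℝ) : ContDiffBump ((t : ℂ) * Complex.I) where
  rIn := 1 / 60
  rOut := 11 / 500
  rIn_pos := by norm_num
  rIn_lt_rOut := by norm_num

/-- One blob. -/
noncomputable def cx (t : ℝ) : ℂ → ℝ := (bx t).normed volume

variable {t : ℝ} {u : ℂ}

theorem cx_supp (h : cx t u ≠ 0) : ‖u - (t : ℂ) * Complex.I‖ ≤ 11 / 500 := by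
  have h1 : u ∈ Function.support ((bx t).normed volume) := h
  rw [ContDiffBump.support_normed_eq, mem_ball_iff_norm] at h1
  exact h1.le

theorem ball_pos (h : ‖u - (t : ℂ) * Complex.I‖ ≤ 11 / 500) :
    |u.re| ≤ 11 / 500 ∧ t - 11 / 500 ≤ u.im ∧ u.im ≤ t + 11 / 500 ∧ ‖u‖ ≤ |t| + 11 / 500 := by
  have h1 := (Complex.abs_re_le_norm _).trans h
  have h2 := abs_le.1 ((Complex.abs_im_le_norm _).trans h)
  have e1 : (u - (t : ℂ) * Complex.I).re = u.re := by simp
  have e2 : (u - (t : ℂ) * Complex.I).im = u.im - t := by simp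
  rw [e1] at h1
  rw [e2] at h2
  refine ⟨h1, by linarith, by linarith, ?_⟩
  have h3 := norm_add_le (u - (t : ℂ) * Complex.I) ((t : ℂ) * Complex.I)
  rw [sub_add_cancel, norm_mul, Complex.norm_I, mul_one, Complex.norm_real, Real.norm_eq_abs] at h3
  linarith

theorem cx_nonneg (t : ℝ) (u : ℂ) : 0 ≤ cx t u := (bx t).nonneg_normed u

theorem cx_le (t : ℝ) (u : ℂ) : cx t u ≤ 1200 := by
  refine ((bx t).normed_le_div_measure_closedBall_rIn volume u).trans ?_
  have e : volume.real (closedBall ((t : ℂ) * Complex.I) (bx t).rIn) = Real.pi / 3600 := by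
    rw [Measure.real, Complex.volume_closedBall]
    show (ENNReal.ofReal (1 / 60) ^ 2 * (NNReal.pi : ENNReal)).toReal = Real.pi / 3600
    rw [ENNReal.toReal_mul, ENNReal.toReal_pow, ENNReal.toReal_ofReal (by norm_num)]
    simp only [ENNReal.coe_toReal, NNReal.coe_real_pi]
    ring
  rw [e, div_le_iff₀ (by positivity)]
  have := Real.pi_gt_three
  linarith

theorem cx_cont (t : ℝ) : ContDiff ℝ ∞ (cx t) := (bx t).contDiff_normed

theorem cx_compact (t : ℝ) : HasCompactSupport (cx t) := (bx t).hasCompactSupport_normed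

theorem cx_int (t : ℝ) : ∫ u, cx t u = 1 := (bx t).integral_normed

theorem cx_integrable (t : ℝ) : Integrable (cx t) :=
  (cx_cont t).continuous.integrable_of_hasCompactSupport (cx_compact t)

theorem shp_cx (h0 : 11 / 500 < t) (h1 : t ≤ 978 / 1000) : Shp Complex.I (cx t) where
  smooth := cx_cont t
  supp := by
    intro u hu
    unfold cx at hu
    rw [ContDiffBump.tsupport_normed_eq, mem_closedBall_iff_norm] at hu
    obtain ⟨h2, h3, h4, h5⟩ := ball_pos hu
    rw [abs_of_pos (by linarith)] at h5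
    refine ⟨?_, ?_⟩
    · rw [mem_closedBall_zero_iff]; linarith
    · show 0 < (u * conj Complex.I).re
      rw [Complex.conj_I]
      simp
      linarith
  nonneg := cx_nonneg t
  mass := cx_int t

/-! ### the shape with two blobs -/

/-- The shape with two blobs. -/
noncomputable def ch2 (u : ℂ) : ℝ := (cx (263 / 400) u + cx (83 / 100) u) / 2

theorem ch2_ne (h : ch2 u ≠ 0) : cx (263 / 400) u ≠ 0 ∨ cx (83 / 100) u ≠ 0 := by
  by_contra hcon
  push Not at hcon
  apply h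
  unfold ch2
  rw [hcon.1, hcon.2]
  norm_num

theorem ch2_supp (h : ch2 u ≠ 0) : |u.re| ≤ 11 / 500 ∧ 635 / 1000 ≤ u.im ∧ u.im ≤ 852 / 1000 ∧
    ‖u‖ ≤ 852 / 1000 := by
  rcases ch2_ne h with h1 | h1
  · obtain ⟨k1, k2, k3, k4⟩ := ball_pos (cx_supp h1)
    rw [abs_of_pos (by norm_num)] at k4
    refine ⟨k1, by linarith, by linarith, by linarith⟩
  · obtain ⟨k1, k2, k3, k4⟩ := ball_pos (cx_supp h1)
    rw [abs_of_pos (by norm_num)] at k4
    refine ⟨k1, by linarith, by linarith, by linarith⟩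

theorem ch2_nonneg (u : ℂ) : 0 ≤ ch2 u := by
  have h1 := cx_nonneg (263 / 400) u
  have h2 := cx_nonneg (83 / 100) u
  unfold ch2
  positivity

theorem ch2_le (u : ℂ) : |ch2 u| ≤ 1200 := by
  have h1 := cx_le (263 / 400) u
  have h2 := cx_le (83 / 100) u
  rw [abs_of_nonneg (ch2_nonneg u)]
  unfold ch2
  linarith

theorem shp_ch2 : Shp Complex.I ch2 where
  smooth := ((cx_cont _).add (cx_cont _)).div_const _
  supp := by
    have hcl : IsClosed {u : ℂ | ‖u‖ ≤ 852 / 1000 ∧ 635 / 1000 ≤ u.im} :=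
      (isClosed_le continuous_norm continuous_const).inter
        (isClosed_le continuous_const Complex.continuous_im)
    have hsub : tsupport ch2 ⊆ {u : ℂ | ‖u‖ ≤ 852 / 1000 ∧ 635 / 1000 ≤ u.im} :=
      closure_minimal (fun u hu => ⟨(ch2_supp hu).2.2.2, (ch2_supp hu).2.1⟩) hcl
    intro u hu
    obtain ⟨h1, h2⟩ := hsub hu
    refine ⟨by rw [mem_closedBall_zero_iff]; linarith, ?_⟩
    show 0 < (u * conj Complex.I).re
    rw [Complex.conj_I]
    simp
    linarith
  nonneg := ch2_nonneg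
  mass := by
    have e : (fun u => ch2 u) = fun u => (cx (263 / 400) u + cx (83 / 100) u) / 2 := rfl
    rw [e, integral_div, integral_add (cx_integrable _) (cx_integrable _), cx_int, cx_int]
    norm_num

/-! ### the shape with two rings -/

/-- The shape with two rings. -/
noncomputable def chq (K : ℤ) (u : ℂ) : ℝ :=
  ∑ i : Fin 2, (1 / (2 : ℝ)) * (ch2 (u / rsc 2 K i) / rsc 2 K i ^ 2)

theorem chq_ne {K : ℤ} {u : ℂ} (h : chq K u ≠ 0) : ∃ i : Fin 2, ch2 (u / rsc 2 K i) ≠ 0 := by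
  by_contra hcon
  push Not at hcon
  apply h
  unfold chq
  exact Finset.sum_eq_zero fun i _ => by rw [hcon i, zero_div, mul_zero]

theorem chq_supp {K : ℤ} (hK : 1 ≤ K) {u : ℂ} (h : chq K u ≠ 0) :
    ‖u‖ ≤ 852 / 1000 ∧ 635 / 1000 / (K : ℝ) ≤ u.im := by
  obtain ⟨i, hi⟩ := chq_ne h
  obtain ⟨h1, h2, h3, h4⟩ := ch2_supp hi
  have hs := rsc_pos (J := 2) hK i
  have hs1 := rsc_le (J := 2) hK i
  have hs2 := rsc_ge (J := 2) hK i
  rw [norm_div, Complex.norm_real, Real.norm_eq_abs, abs_of_pos hs, div_le_iff₀ hs] at h4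
  rw [Complex.div_ofReal_im, le_div_iff₀ hs] at h2
  simp only [Nat.add_one_sub_one, pow_one] at hs2
  constructor
  · linarith
  · have : 635 / 1000 / (K : ℝ) = 635 / 1000 * (1 / (K : ℝ)) := by ring
    rw [this]
    linarith

theorem shp_chq {K : ℤ} (hK : 1 ≤ K) : Shp Complex.I (chq K) where
  smooth := by
    unfold chq
    refine ContDiff.sum fun i _ => ?_
    exact contDiff_const.mul ((shp_ch2.smooth.comp (by fun_prop)).div_const _)
  supp := by
    have hcl : IsClosed {u : ℂ | ‖u‖ ≤ 852 / 1000 ∧ 635 / 1000 / (K : ℝ) ≤ u.im} :=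
      (isClosed_le continuous_norm continuous_const).inter
        (isClosed_le continuous_const Complex.continuous_im)
    have hsub : tsupport (chq K) ⊆ {u : ℂ | ‖u‖ ≤ 852 / 1000 ∧ 635 / 1000 / (K : ℝ) ≤ u.im} :=
      closure_minimal (fun u hu => chq_supp hK hu) hcl
    intro u hu
    obtain ⟨h1, h2⟩ := hsub hu
    have h3 : (0 : ℝ) < K := by exact_mod_cast (by omega : 0 < K)
    have h4 : 0 < 635 / 1000 / (K : ℝ) := by positivity
    refine ⟨by rw [mem_closedBall_zero_iff]; linarith, ?_⟩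
    show 0 < (u * conj Complex.I).re
    rw [Complex.conj_I]
    simp
    linarith
  nonneg z := by
    unfold chq
    exact Finset.sum_nonneg fun i _ => mul_nonneg (by positivity)
      (div_nonneg (ch2_nonneg _) (by positivity))
  mass := by
    unfold chq
    have h0 : ∫ u : ℂ, ∑ i : Fin 2, (1 / (2 : ℝ)) * (ch2 (u / rsc 2 K i) / rsc 2 K i ^ 2) =
        ∑ i : Fin 2, ∫ u : ℂ, (1 / (2 : ℝ)) * (ch2 (u / rsc 2 K i) / rsc 2 K i ^ 2) :=
      integral_finsetSum _ fun i _ =>
        (int_f0 shp_ch2.smooth.continuous shp_ch2.compact (rsc_pos hK i)).const_mul _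
    rw [h0]
    have h1 : ∀ i : Fin 2, ∫ u : ℂ, (1 / (2 : ℝ)) * (ch2 (u / rsc 2 K i) / rsc 2 K i ^ 2) =
        1 / (2 : ℝ) := by
      intro i
      rw [integral_const_mul]
      have h6 := integral_scale ch2 0 (rsc_pos (J := 2) hK i)
      simp only [sub_zero] at h6
      rw [h6, shp_ch2.mass, mul_one]
    rw [Finset.sum_congr rfl fun i _ => h1 i, Finset.sum_const, Finset.card_univ, Fintype.card_fin,
      nsmul_eq_mul]
    norm_num

theorem fb_chq {K : ℤ} (hK : 1 ≤ K) (ν c : ℂ) {ρ : ℝ} (hρ : 0 < ρ) (z : ℂ) :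
    fb (chq K) ν c ρ z = ∑ i : Fin 2, (1 / (2 : ℝ)) * fb ch2 ν c (ρ * rsc 2 K i) z := by
  unfold fb chq
  rw [Finset.sum_div]
  refine Finset.sum_congr rfl fun i _ => ?_
  have hs := rsc_pos (J := 2) hK i
  have h1 : (rsc 2 K i : ℂ) ≠ 0 := by exact_mod_cast hs.ne'
  have h2 : (ρ : ℂ) ≠ 0 := by exact_mod_cast hρ.ne'
  have e : Complex.I * conj ν * (z - c) / ρ / (rsc 2 K i : ℂ) =
      Complex.I * conj ν * (z - c) / ((ρ * rsc 2 K i : ℝ) : ℂ) := by
    push_cast
    rw [div_div]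
  rw [e]
  field_simp

theorem cms_chq {K : ℤ} (hK : 1 ≤ K) {ν : ℂ} (hν : ‖ν‖ = 1) (c : ℂ) {ρ : ℝ} (hρ : 0 < ρ)
    (δ : ℝ) (s : ℤ × ℤ) : cms (fb (chq K) ν c ρ) δ s =
      ∑ i : Fin 2, (1 / (2 : ℝ)) * cms (fb ch2 ν c (ρ * rsc 2 K i)) δ s := by
  have e : fb (chq K) ν c ρ = fun z => ∑ i : Fin 2, (1 / (2 : ℝ)) * fb ch2 ν c (ρ * rsc 2 K i) z :=
    funext fun z => fb_chq hK ν c hρ z
  rw [e]
  unfold CA.cms
  rw [integral_finsetSum]
  · exact Finset.sum_congr rfl fun i _ => integral_const_mul _ _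
  · intro i _
    exact ((int_fb shp_ch2.smooth.continuous shp_ch2.compact hν c
      (mul_pos hρ (rsc_pos hK i))).const_mul _).integrableOn

/-! ### the moved bumps -/

/-- The moved cell masses. -/
noncomputable def mvc (M : Mov) (χ : ℂ → ℝ) (ν c : ℂ) (η : ℝ) (n : ℕ) (o : ℤ × ℤ) : ℤ × ℤ → ℝ :=
  M.F fun s => cms (fb χ ν c η) (1 / n) (s - o)

section

variable {M : Mov} {ν : ℂ} (hM : RotN M ν) (hν : ‖ν‖ = 1) {o q0 : ℤ × ℤ} {c : ℂ}
    {η K1 : ℝ} (hη : 0 < η) {n : ℕ} (hn : 0 < n) (h1 : ‖pt q0 - pt o - n * c‖ ≤ K1) {a : ℤ}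
    (ha0 : 0 < a) (ha : 100 * (K1 + 2) ≤ a) (h2 : (2 : ℝ) * a ≤ n * η)
    (h3 : n * η ≤ (2 : ℝ) * a + a / 32)

include hM hν hη hn h1 ha0 ha h2 h3 in
/-- The position of the moved cells of a blob. -/
theorem mvc_pos {χ : ℂ → ℝ} {x y : ℝ} (hx : 0 ≤ x) (hy : 0 ≤ y)
    (hχ : ∀ u, χ u ≠ 0 → |u.re| ≤ 11 / 500 ∧ x ≤ u.im ∧ u.im ≤ y) {z : ℤ × ℤ}
    (hz : mvc M χ ν c η n o z ≠ 0) :
    |(z.1 : ℝ) - (M.t q0).1| ≤ a / 4 ∧ 2 * a * x - a / 100 ≤ (z.2 : ℝ) - (M.t q0).2 ∧
      (z.2 : ℝ) - (M.t q0).2 ≤ (2 * a + a / 32) * y + a / 100 := by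
  have hn' : (0 : ℝ) < n := by exact_mod_cast hn
  have har : (0 : ℝ) < a := by exact_mod_cast ha0
  have hr : 0 < (n : ℝ) * η := by positivity
  obtain ⟨u, hu, h4⟩ := mv_supp hM hν hη hn h1 hz
  obtain ⟨k1, k2, k3⟩ := hχ u hu
  have k1' := abs_le.1 k1
  have r1 := abs_le.1 ((Complex.abs_re_le_norm _).trans h4)
  have i1 := abs_le.1 ((Complex.abs_im_le_norm _).trans h4)
  have e1 : (pt z - pt (M.t q0) - ((n * η : ℝ) : ℂ) * u).re =
      z.1 - (M.t q0).1 - n * η * u.re := by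
    simp [pt]
  have e2 : (pt z - pt (M.t q0) - ((n * η : ℝ) : ℂ) * u).im =
      z.2 - (M.t q0).2 - n * η * u.im := by
    simp [pt]
  rw [e1] at r1
  rw [e2] at i1
  have b1 : n * η * u.re ≤ (2 * a + a / 32) * (11 / 500) := by
    calc n * η * u.re ≤ n * η * (11 / 500) := mul_le_mul_of_nonneg_left k1'.2 hr.le
      _ ≤ _ := mul_le_mul_of_nonneg_right h3 (by norm_num)
  have b2 : -((2 * a + a / 32) * (11 / 500)) ≤ n * η * u.re := by
    have : n * η * (-(11 / 500)) ≤ n * η * u.re := mul_le_mul_of_nonneg_left k1'.1 hr.le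
    nlinarith
  have b3 : n * η * u.im ≤ (2 * a + a / 32) * y := by
    calc n * η * u.im ≤ n * η * y := mul_le_mul_of_nonneg_left k3 hr.le
      _ ≤ _ := mul_le_mul_of_nonneg_right h3 hy
  have b4 : 2 * a * x ≤ n * η * u.im := by
    calc 2 * (a : ℝ) * x ≤ n * η * x :=
          mul_le_mul_of_nonneg_right h2 hx
      _ ≤ _ := mul_le_mul_of_nonneg_left k2 hr.le
  refine ⟨abs_le.2 ⟨by linarith, by linarith⟩, by linarith, by linarith⟩

include hν hη hn in
/-- The total mass of the moved cells. -/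
theorem mvc_sum {χ : ℂ → ℝ} (h : Shp Complex.I χ) :
    ∑ᶠ z, mvc M χ ν c η n o z = 1 ∧ (Function.support (mvc M χ ν c η n o)).Finite := by
  have hb : ∀ u, χ u ≠ 0 → ‖u‖ ≤ 1 := fun u hu => by
    have := (h.supp (subset_tsupport _ hu)).1
    rwa [mem_closedBall_zero_iff] at this
  have hfin : (Function.support fun s => cms (fb χ ν c η) (1 / n) s).Finite := by
    have hn' : (0 : ℝ) < n := by exact_mod_cast hn
    obtain ⟨N, hN⟩ : ∃ N : ℤ, (‖c‖ + 1 * η) * n + 1 ≤ N := ⟨⌈(‖c‖ + 1 * η) * n + 1⌉, Int.le_ceil _⟩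
    refine Set.Finite.subset (Finset.finite_toSet (Finset.Icc (-N) N ×ˢ Finset.Icc (-N) N)) ?_
    intro w hw
    obtain ⟨u, hu, h1⟩ := cms_ne hw
    have h2 := fb_ne hν hη hb h1
    have b1 := abs_le.1 ((Complex.abs_re_le_norm _).trans h2)
    have b2 := abs_le.1 ((Complex.abs_im_le_norm _).trans h2)
    have a1 := Int.floor_le (u.re * n)
    have a2 := Int.lt_floor_add_one (u.re * n)
    have a3 := Int.floor_le (u.im * n)
    have a4 := Int.lt_floor_add_one (u.im * n)
    rw [← mem_cl.1 hu, Finset.mem_coe, Finset.mem_product, Finset.mem_Icc, Finset.mem_Icc]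
    have k1 : (cs n u).1 = ⌊u.re * n⌋ + 1 := rfl
    have k2 : (cs n u).2 = ⌊u.im * n⌋ + 1 := rfl
    rw [k1, k2]
    refine ⟨⟨?_, ?_⟩, ?_, ?_⟩
    · have : (-N : ℝ) ≤ ⌊u.re * n⌋ + 1 := by nlinarith
      exact_mod_cast this
    · have : (⌊u.re * n⌋ + 1 : ℝ) ≤ N := by nlinarith
      exact_mod_cast this
    · have : (-N : ℝ) ≤ ⌊u.im * n⌋ + 1 := by nlinarith
      exact_mod_cast this
    · have : (⌊u.im * n⌋ + 1 : ℝ) ≤ N := by nlinarith
      exact_mod_cast this
  constructor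
  · have e : ∑ᶠ z, mvc M χ ν c η n o z = ∑ᶠ s, cms (fb χ ν c η) (1 / n) s :=
      finsum_comp_equiv (f := fun s => cms (fb χ ν c η) (1 / n) s)
        (M.t.symm.trans (Equiv.subRight o))
    rw [e, finsum_cms (int_fb h.smooth.continuous h.compact hν c hη) (R := ‖c‖ + 1 * η)
      (fun u hu => fb_ne hν hη hb hu) hn, integral_fb h hν c hη]
  · exact hfin.preimage ((M.t.symm.trans (Equiv.subRight o)).injective.injOn)

theorem mvc_nonneg {χ : ℂ → ℝ} (h : ∀ u, 0 ≤ χ u) (z : ℤ × ℤ) : 0 ≤ mvc M χ ν c η n o z := by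
  show 0 ≤ cms (fb χ ν c η) (1 / n) _
  rw [cms_eq]
  exact setIntegral_nonneg (measurableSet_cl _ _) fun u _ => div_nonneg (h _) (by positivity)

include hν hη in
theorem mvc_ch2 (z : ℤ × ℤ) : mvc M ch2 ν c η n o z =
    (mvc M (cx (263 / 400)) ν c η n o z + mvc M (cx (83 / 100)) ν c η n o z) / 2 := by
  show cms (fb ch2 ν c η) (1 / n) _ = (cms (fb (cx (263 / 400)) ν c η) (1 / n) _ +
    cms (fb (cx (83 / 100)) ν c η) (1 / n) _) / 2
  rw [cms_eq, cms_eq, cms_eq, ← integral_add, ← integral_div]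
  · refine integral_congr_ae (Eventually.of_forall fun u => ?_)
    simp only [fb, ch2]
    ring
  · exact (int_fb (cx_cont _).continuous (cx_compact _) hν c hη).integrableOn
  · exact (int_fb (cx_cont _).continuous (cx_compact _) hν c hη).integrableOn

include hM hν hη hn h1 ha0 ha h2 h3 in
/-- **The moved bumps.** -/
theorem bp2_moved : Bp2 (M.t q0) a (mvc M ch2 ν c η n o) := by
  classical
  have hn' : (0 : ℝ) < n := by exact_mod_cast hn
  have har : (0 : ℝ) < a := by exact_mod_cast ha0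
  have hr : 0 < (n : ℝ) * η := by positivity
  have s1 := shp_cx (t := 263 / 400) (by norm_num) (by norm_num)
  have s2 := shp_cx (t := 83 / 100) (by norm_num) (by norm_num)
  obtain ⟨m0, f0⟩ := mvc_sum (M := M) (o := o) hν (c := c) hη hn shp_ch2
  obtain ⟨m1, f1⟩ := mvc_sum (M := M) (o := o) hν (c := c) hη hn s1
  obtain ⟨m2, f2⟩ := mvc_sum (M := M) (o := o) hν (c := c) hη hn s2
  have nn : ∀ t z, 0 ≤ mvc M (cx t) ν c η n o z := fun t z => mvc_nonneg (cx_nonneg t) z
  have hc := mvc_ch2 (M := M) (o := o) hν (c := c) hη (n := n)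
  -- a part of the mass
  have part : ∀ (t : ℝ) (P : ℤ × ℤ → Prop) [DecidablePred P], ∑ᶠ z, mvc M (cx t) ν c η n o z = 1 →
      (Function.support (mvc M (cx t) ν c η n o)).Finite →
      (∀ z, mvc M (cx t) ν c η n o z ≤ 2 * mvc M ch2 ν c η n o z) →
      (∀ z, mvc M (cx t) ν c η n o z ≠ 0 → P z) →
      1 / 10 ≤ ∑ᶠ z, if P z then mvc M ch2 ν c η n o z else 0 := by
    intro t P _ hm hf hle hP
    have hS1 : Function.support (mvc M (cx t) ν c η n o) ⊆ (hf.toFinset ∪ f0.toFinset : Finset _) := by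
      intro z hz
      rw [Finset.coe_union]
      exact Or.inl (by simpa using hz)
    have hS2 : Function.support (fun z => if P z then mvc M ch2 ν c η n o z else 0) ⊆
        (hf.toFinset ∪ f0.toFinset : Finset _) := by
      intro z hz
      rw [Finset.coe_union]
      refine Or.inr ?_
      rw [Function.mem_support] at hz
      by_cases h : P z
      · rw [if_pos h] at hz
        simpa using hz
      · rw [if_neg h] at hz
        exact absurd rfl hz
    rw [finsum_eq_sum_of_support_subset _ hS1] at hm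
    rw [finsum_eq_sum_of_support_subset _ hS2]
    have h5 : (1 : ℝ) ≤ ∑ z ∈ hf.toFinset ∪ f0.toFinset,
        2 * (if P z then mvc M ch2 ν c η n o z else 0) := by
      rw [← hm]
      refine Finset.sum_le_sum fun z _ => ?_
      by_cases h0 : mvc M (cx t) ν c η n o z = 0
      · rw [h0]
        split_ifs
        · have := mvc_nonneg (M := M) (ν := ν) (c := c) (η := η) (n := n) (o := o) ch2_nonneg z
          positivity
        · norm_num
      · rw [if_pos (hP z h0)]
        exact hle z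
    rw [← Finset.mul_sum] at h5
    linarith
  refine ⟨⟨mvc_nonneg ch2_nonneg, fun z => ?_, fun z hz => ?_, m0⟩, ?_, ?_⟩
  · show cms (fb ch2 ν c η) (1 / n) _ ≤ _
    have h4 := cms_abs_le (f := fb ch2 ν c η) (M := 1200 / η ^ 2) (fun z => ?_) hn (M.t.symm z - o)
    · refine (le_abs_self _).trans (h4.trans ?_)
      have e : 1200 / η ^ 2 / (n : ℝ) ^ 2 = 1200 / (n * η) ^ 2 := by field_simp
      rw [e]
      have h5 : (2 * (a : ℝ)) ^ 2 ≤ (n * η) ^ 2 := pow_le_pow_left₀ (by positivity) h2 2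
      calc 1200 / (n * η) ^ 2 ≤ 1200 / (2 * (a : ℝ)) ^ 2 :=
            div_le_div_of_nonneg_left (by norm_num) (by positivity) h5
        _ = 300 / (a : ℝ) ^ 2 := by field_simp; norm_num
        _ ≤ _ := div_le_div_of_nonneg_right (by norm_num) (by positivity)
    · unfold fb
      rw [abs_div, abs_of_pos (by positivity : (0 : ℝ) < η ^ 2)]
      exact div_le_div_of_nonneg_right (ch2_le _) (by positivity)
  · obtain ⟨k1, k2, k3⟩ := mvc_pos hM hν hη hn h1 ha0 ha h2 h3 (x := 635 / 1000) (y := 852 / 1000)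
      (by norm_num) (by norm_num) (fun u hu => by
        obtain ⟨g1, g2, g3, -⟩ := ch2_supp hu
        exact ⟨g1, g2, g3⟩) hz
    have k1' := abs_le.1 k1
    refine ⟨?_, ?_, ?_, ?_⟩
    · have : -(a : ℝ) ≤ 4 * ((z.1 : ℝ) - (M.t q0).1) := by linarith
      exact_mod_cast this
    · have : 4 * ((z.1 : ℝ) - (M.t q0).1) ≤ a := by linarith
      exact_mod_cast this
    · have : 5 * (a : ℝ) ≤ 4 * ((z.2 : ℝ) - (M.t q0).2) := by linarith
      exact_mod_cast this
    · have : 4 * ((z.2 : ℝ) - (M.t q0).2) ≤ 7 * a := by linarith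
      exact_mod_cast this
  · refine part (263 / 400) _ m1 f1 (fun z => ?_) fun z hz => ?_
    · rw [hc z]
      have := nn (83 / 100) z
      linarith
    · obtain ⟨k1, k2, k3⟩ := mvc_pos hM hν hη hn h1 ha0 ha h2 h3 (x := 635 / 1000) (y := 6795 / 10000)
        (by norm_num) (by norm_num) (fun u hu => by
          obtain ⟨g1, g2, g3, -⟩ := ball_pos (cx_supp hu)
          exact ⟨g1, by linarith, by linarith⟩) hz
      have : 5 * ((z.2 : ℝ) - (M.t q0).2) ≤ 7 * a := by linarith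
      exact_mod_cast this
  · refine part (83 / 100) _ m2 f2 (fun z => ?_) fun z hz => ?_
    · rw [hc z]
      have := nn (263 / 400) z
      linarith
    · obtain ⟨k1, k2, k3⟩ := mvc_pos hM hν hη hn h1 ha0 ha h2 h3 (x := 808 / 1000) (y := 852 / 1000)
        (by norm_num) (by norm_num) (fun u hu => by
          obtain ⟨g1, g2, g3, -⟩ := ball_pos (cx_supp hu)
          exact ⟨g1, by linarith, by linarith⟩) hz
      have : 8 * (a : ℝ) ≤ 5 * ((z.2 : ℝ) - (M.t q0).2) := by linarith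
      exact_mod_cast this

end

end Vale.Agent.P167.N.BT
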