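import Vale.Agent.P167.N.BT.IdDefs
import Vale.Agent.P167.N.BT.Blob
import Vale.Agent.P167.H135.RotEnv
import Vale.Agent.P167.H460.BQ.Asm

/-!
# P167, `0 < q < 1`, block BT: the lattice bumps of the shape with two rings and two blobs
-/

set_option autoImplicit false

namespace Vale.Agent.P167.N.BT

open Filter Topology MeasureTheory
open Vale.Agent.P167.CA (cms)
open Vale.Agent.P167.H411.Q (fb)
open Vale.Agent.P167.H411.B7 (Shp)
open Vale.Agent.P167.BQ460 (lb a2 lb_sum)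
open Vale.Agent.P167.H436.ND (Ft Bp Kr)
open Vale.Agent.P167.BR (sites hbox mem_sites_hbox)
open Vale.Agent.P167.H208.SH (rsc RotN)
open Vale.Agent.P167.H135 (Mov)
open Vale.Agent.P167.E6 (pt)

/-- The bumps of the two rings. -/
noncomputable def g2 (K : ℤ) (η : ℝ) (N : ℕ) : Fin 2 → ℤ × ℤ → ℝ := ![lb ch2 0 (η / K) N, lb ch2 0 η N]

theorem lb_chq {K : ℤ} (hK : 1 ≤ K) {η : ℝ} (hη : 0 < η) (N : ℕ) (z : ℤ × ℤ) :
    lb (chq K) 0 η N z = (lb ch2 0 (η / K) N z + lb ch2 0 η N z) / 2 := by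
  have hK0 : (0 : ℝ) < K := by exact_mod_cast (by omega : 0 < K)
  unfold lb
  rw [cms_chq hK (by simp) _ hη, Fin.sum_univ_two]
  have e0 : η * rsc 2 K ((0 : Fin 2) : ℕ) = η / K := by
    unfold rsc
    simp
    ring
  have e1 : η * rsc 2 K ((1 : Fin 2) : ℕ) = η := by
    unfold rsc
    simp [hK0.ne']
  rw [e0, e1]
  ring

theorem Ft_g2 {μ : ℝ} {K : ℤ} (hK : 1 ≤ K) {η : ℝ} (hη : 0 < η) (N : ℕ) :
    Ft (tb μ) (g2 K η N) 0 = qd μ (chq K) η N := by
  funext z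
  unfold Ft g2 qd tb
  rw [lb_chq hK hη]
  simp [Fin.sum_univ_two]
  ring

/-- **The bump of the ring.** -/
theorem bp2_lb {η : ℝ} (hη : 0 < η) : ∀ᶠ N : ℕ in atTop, Bp2 (0, 0) ⌊η * N / 2⌋ (lb ch2 0 η N) := by
  have h1 : ∀ᶠ N : ℕ in atTop, 500 / η ≤ (N : ℝ) := tendsto_natCast_atTop_atTop.eventually_ge_atTop _
  filter_upwards [h1, eventually_gt_atTop 0] with N hN hN0
  have hX : 500 ≤ η * N := by
    rw [div_le_iff₀ hη] at hN
    linarith
  have a1 := Int.floor_le (η * N / 2)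
  have a2' := Int.lt_floor_add_one (η * N / 2)
  obtain ⟨a, ha⟩ : ∃ a : ℤ, a = ⌊η * N / 2⌋ := ⟨_, rfl⟩
  rw [← ha] at a1 a2' ⊢
  have hrot : RotN H135.idM Complex.I := by
    intro z
    rw [show (H135.idM.t z) = z by simp [H135.idM, H135.tra, Prod.ext_iff]]
    rw [Complex.conj_I, mul_neg, Complex.I_mul_I, neg_neg, one_mul]
  have ha0 : (0 : ℝ) < a := by linarith
  have key := bp2_moved (M := H135.idM) (ν := Complex.I) hrot (by simp) (o := (0, 0)) (q0 := (0, 0))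
    (c := ((0 : ℤ) : ℂ)) (η := η) (K1 := 0) hη (n := N) hN0 (by simp [pt]) (a := a)
    (by exact_mod_cast ha0) (by linarith) (by linarith) (by linarith)
  have e1 : H135.idM.t ((0, 0) : ℤ × ℤ) = (0, 0) := by simp [H135.idM, H135.tra]
  have e2 : mvc H135.idM ch2 Complex.I ((0 : ℤ) : ℂ) η N (0, 0) = lb ch2 0 η N := by
    funext z
    unfold mvc lb
    show cms _ _ (H135.idM.t.symm z - (0, 0)) = _
    congr 1
    have : H135.idM.t.symm z = z := by simp [H135.idM, H135.tra, Prod.ext_iff]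
    rw [this]
    simp
  rwa [e1, e2] at key

theorem bp2_g2 {K : ℤ} {η : ℝ} {N : ℕ} (h0 : Bp2 (0, 0) ⌊η / K * N / 2⌋ (lb ch2 0 (η / K) N))
    (h1 : Bp2 (0, 0) ⌊η * N / 2⌋ (lb ch2 0 η N)) (i : Fin 2) :
    Bp2 (0, 0) (a2 K η N i) (g2 K η N i) := by
  fin_cases i
  · exact h0
  · exact h1

/-- The charge is in the half box. -/
theorem qd_supp {μ : ℝ} {K : ℤ} (hK : 1 ≤ K) {η : ℝ} (hη : 0 < η) {N : ℕ}
    (hb : ∀ i, Bp2 (0, 0) (a2 K η N i) (g2 K η N i)) (ha : a2 K η N 0 ≤ a2 K η N 1) (ha1 : 1 ≤ a2 K η N 1) {z : ℤ × ℤ}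
    (hz : qd μ (chq K) η N z ≠ 0) : z ∈ sites (hbox (0, 0) (4 * a2 K η N 1)) := by
  have hz' : g2 K η N 0 z ≠ 0 ∨ g2 K η N 1 z ≠ 0 := by
    by_contra hcon
    push Not at hcon
    apply hz
    have e0 : lb ch2 0 (η / K) N z = 0 := hcon.1
    have e1 : lb ch2 0 η N z = 0 := hcon.2
    unfold qd
    rw [lb_chq hK hη, e0, e1]
    simp
  rw [mem_sites_hbox (by omega)]
  rcases hz' with h | h
  · have h1 := (hb 0).supp z h
    simp only [Kr, Set.mem_ofPred_eq] at h1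
    simp only at h1 ⊢
    omega
  · have h1 := (hb 1).supp z h
    simp only [Kr, Set.mem_ofPred_eq] at h1
    simp only at h1 ⊢
    omega

/-- The total charge. -/
theorem qd_sum {μ : ℝ} {K : ℤ} (hK : 1 ≤ K) {η : ℝ} (hη : 0 < η) {N : ℕ} (hN : 0 < N) :
    ∑ᶠ z, qd μ (chq K) η N z = Real.pi - 2 * μ := by
  have hs := shp_chq hK
  have e1 := smul_finsum (Real.pi - 2 * μ) (lb (chq K) 0 η N)
  simp only [smul_eq_mul] at e1
  unfold qd
  rw [← e1, lb_sum hs.smooth.continuous hs.compact 0 hη hN, hs.mass, mul_one]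

end Vale.Agent.P167.N.BT
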