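import Vale.Agent.P167.N.BT.Mom
import Vale.Agent.P167.N.BT.BumpT
import Vale.Agent.P167.N.H174.ND.Nb
import Vale.Agent.P167.N.KitQ
import Vale.Agent.P167.H411.Q.Zn

/-!
# P167, `0 < q < 1`, block BT: upper bound of the majorant of the two rings

`ring_U` : the majorant is local and its mean is at most `C exp (- Ex0)`. `ex0_ge` : the exponent of the two rings
and the one of the scale `η`.
-/

set_option autoImplicit false

namespace Vale.Agent.P167.N.BT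

open Finset Relation MeasureTheory Filter Topology
open Vale.Agent.P167 Vale.Agent.P167.BR Vale.Agent.P167.FK Vale.Agent.P167.FKA
open Vale.Agent.P167.H562.QM (MajA NbP)
open Vale.Agent.P167.H436.ND
open Vale.Agent.P167.H452.BE (mom4 Yu_nonneg)
open Vale.Agent.P167.BQ460 (a2 num_a)
open Vale.Agent.P167.H411.Q (rN rN_bd)
open Vale.Agent.P167.H519 (IsLim)

variable {θ : ℝ} {P₀ : Measure Cfg}

/-- **The majorant of the two rings.** -/
theorem ring_U (hQ0 : 0 < 2 * Real.cos θ) (hY : S_Y2 θ P₀) {M : ℝ} (hM : 1 ≤ M) :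
    ∃ (C : ℝ) (a₀ : ℤ), 0 < C ∧ ∀ (b : ℤ × ℤ) (a : Fin 2 → ℤ), (∀ i, a₀ ≤ a i) →
    ∃ N : Fin 2 → Cfg → ℕ, (∀ i ω, MajA (Zr b (a i)) (kp * a i) ω (N i ω)) ∧
    ∀ (D : Finset (ℤ × ℤ)) (η : Cfg) (R : ℤ), Flt D b R → FltO D η b R false false →
    (∀ i, 8 * a i ≤ R) →
    (∀ i j, i ≠ j → Disjoint (Zg b (a i / 2) (3 * a i)) (Zg b (a j / 2) (3 * a j))) →
    (∀ i, 3 * a i ≤ R) → ∀ f : Fin 2 → ℤ × ℤ → ℝ, (∀ i, Bp 1000 b (a i) (f i)) →
    ∀ τ : Fin 2 → ℝ, (∀ i, |τ i| ≤ 2) →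
    (∀ i, Rd D (Zg b (a i / 2) (3 * a i)) (fun ω => Yu θ M (τ i) (f i) (a i) (N i ω) ω)) ∧
    Ex (2 * Real.cos θ) D η (fun ω => ∏ i, Yu θ M (τ i) (f i) (a i) (N i ω) ω) ≤
      C * Real.exp (-(Ex0 θ P₀ τ a)) := by
  obtain ⟨C, a₀, hC, h⟩ := hY 1000 M (by norm_num) hM
  refine ⟨(1 + C) ^ 2, a₀, by positivity, fun b a ha => ?_⟩
  choose N hN1 hN2 using fun i => h b (a i) (ha i)
  refine ⟨N, hN1, fun D η R hF hO h8 hd h3 f hf τ hτ => ⟨fun i =>
    (hN2 i D η R false false hF hO (h8 i) (f i) (hf i) (τ i) (hτ i)).1, ?_⟩⟩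
  have hZD : ∀ i, Zg b (a i / 2) (3 * a i) ⊆ D := fun i => Zg_sub hF (h3 i)
  have hM0 : 0 ≤ M := by linarith
  have e1 : ∏ i, (1 + C) * Real.exp (-(Real.tan θ * (τ i * NbP P₀ (kp * a i)))) =
      (1 + C) ^ 2 * Real.exp (-(Ex0 θ P₀ τ a)) := by
    rw [Finset.prod_mul_distrib, Finset.prod_const, ← Real.exp_sum]
    unfold Ex0
    rw [Finset.sum_neg_distrib, Finset.mul_sum]
    simp
  rw [← e1]
  have key := two_mom (Q := 2 * Real.cos θ) (D := D) (η := η)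
    (Z := fun i => Zg b (a i / 2) (3 * a i))
    (Y := fun i ω => Yu θ M (τ i) (f i) (a i) (N i ω) ω) (g := fun _ => 1)
    (u := fun i => (1 + C) * Real.exp (-(Real.tan θ * (τ i * NbP P₀ (kp * a i)))))
    (fun i => by positivity) (fun _ => zero_le_one) (fun i _ _ _ => rfl)
    (fun i ω => Yu_nonneg hM0 _ _ _ _) (fun i j hij =>
      (hN2 i D η R false false hF hO (h8 i) (f i) (hf i) (τ i) (hτ i)).1.ind (hZD j)
        (hd i j hij)) fun i g' hg' hgi' => by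
    exact mom4 hQ0 hC hg' (fun ω => Yu_nonneg hM0 _ _ _ _)
      ((hN2 i D η R false false hF hO (h8 i) (f i) (hf i) (τ i) (hτ i)).2.2 g' hg' hgi').1
  rw [Ex_const hQ0, mul_one] at key
  simpa using key

/-- The exponent at a macroscopic scale and the one at the scale of a ring. -/
theorem nb_scale (h1 : Ang θ) (hP : IsLim (2 * Real.cos θ) P₀) {A : ℝ} (hA : 0 < A) {K' : ℝ}
    (hK' : 1 ≤ K') {η : ℝ} (hη : 0 < η) : ∃ C : ℝ, 0 ≤ C ∧ ∀ᶠ N : ℕ in atTop, ∀ x : ℝ,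
      A * (η * N) ≤ x → NbP P₀ (QB.dq K' (rN N η)) ≤ NbP P₀ x + C := by
  obtain ⟨C, d0, hC, hd0, hb⟩ := Vale.Agent.P167.N.H174.ND.nb_comp h1.kit h1.kit.rsw hP
    (Λ := max 1 (3 / A)) (le_max_left _ _)
  refine ⟨C, hC, ?_⟩
  have h2 : Tendsto (fun n : ℕ => (n : ℝ) * η) atTop atTop :=
    tendsto_natCast_atTop_atTop.atTop_mul_const hη
  filter_upwards [h2.eventually_ge_atTop (max 1 (d0 / A))] with N hN x hx
  have hN1 : 1 ≤ (N : ℝ) * η := (le_max_left _ _).trans hN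
  have hN2 : d0 / A ≤ (N : ℝ) * η := (le_max_right _ _).trans hN
  rw [div_le_iff₀ hA] at hN2
  obtain ⟨a1, a2⟩ := rN_bd hN1
  have hd : QB.dq K' (rN N η) ≤ 3 * ((N : ℝ) * η) := by
    unfold QB.dq
    have h4 : (0 : ℝ) ≤ rN N η := by linarith
    calc 1 / (66 * K') * (rN N η : ℝ) ≤ 1 * (rN N η : ℝ) := by
          refine mul_le_mul_of_nonneg_right ?_ h4
          rw [div_le_one (by positivity)]
          linarith
      _ ≤ 3 * ((N : ℝ) * η) := by linarith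
  have hx0 : d0 ≤ x := by nlinarith
  rcases le_total (QB.dq K' (rN N η)) x with h | h
  · have := H174.ND.NbP_mono (P := P₀) hP.1 h
    linarith
  · refine hb x _ hx0 h (hd.trans ?_)
    have h5 : 3 * ((N : ℝ) * η) = 3 / A * (A * (η * N)) := by field_simp
    rw [h5]
    exact mul_le_mul (le_max_right _ _) hx (by positivity) (by positivity)

/-- **The exponent of the two rings.** -/
theorem ex0_ge (h1 : Ang θ) (hP : IsLim (2 * Real.cos θ) P₀) {K : ℤ} (hK : 8 ≤ K) {K' : ℝ}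
    (hK' : 1 ≤ K') {η : ℝ} (hη : 0 < η) : ∃ C : ℝ, 0 ≤ C ∧ ∀ᶠ N : ℕ in atTop,
      Real.tan θ * (Real.pi - 2 * θ) * NbP P₀ (QB.dq K' (rN N η)) ≤
        Ex0 θ P₀ (tb θ) (a2 K η N) + C := by
  have hKr : (8 : ℝ) ≤ K := by exact_mod_cast hK
  have hpi := Real.pi_pos
  have hlt := h1.lt
  have hτ : 0 < Real.pi / 2 - θ := by linarith
  have ht : 0 < Real.tan θ := Real.tan_pos_of_pos_of_lt_pi_div_two h1.pos hlt
  obtain ⟨C, hC, hb⟩ := nb_scale h1 hP (A := 1 / (3200 * K)) (by positivity) hK' hη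
  refine ⟨Real.tan θ * (Real.pi - 2 * θ) * C, by
    have : 0 < Real.pi - 2 * θ := by linarith
    positivity, ?_⟩
  have h2 : Tendsto (fun n : ℕ => η / K * (n : ℝ)) atTop atTop :=
    Tendsto.const_mul_atTop (by positivity) tendsto_natCast_atTop_atTop
  filter_upwards [hb, h2.eventually_ge_atTop 100] with N hN hN2
  obtain ⟨-, -, -, -, -, k6, -, -⟩ := num_a 0 hK (η := η) (N := N) (by simp; positivity) hN2
  have k4 : a2 K η N 0 ≤ a2 K η N 1 := (num_a 0 hK (η := η) (N := N) (by simp; positivity) hN2).2.2.2.1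
  have e : η / K * (N : ℝ) = 8 * (400 * (1 / (3200 * K) * (η * N))) := by field_simp; ring
  have k6' : η / K * (N : ℝ) ≤ 8 * (a2 K η N 0 : ℝ) := by
    push_cast at k6
    linarith
  have s0 : 1 / (3200 * (K : ℝ)) * (η * N) ≤ kp * (a2 K η N 0 : ℤ) := by
    unfold kp
    have h5 : (0 : ℝ) ≤ 1 / (3200 * (K : ℝ)) * (η * N) := by positivity
    linarith
  have s1 : 1 / (3200 * (K : ℝ)) * (η * N) ≤ kp * (a2 K η N 1 : ℤ) := by
    refine s0.trans ?_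
    have : (a2 K η N 0 : ℝ) ≤ (a2 K η N 1 : ℝ) := by exact_mod_cast k4
    unfold kp
    linarith
  have g0 := hN _ s0
  have g1 := hN _ s1
  unfold Ex0 tb
  rw [Fin.sum_univ_two]
  obtain ⟨y, hy⟩ : ∃ y, y = NbP P₀ (QB.dq K' (rN N η)) := ⟨_, rfl⟩
  obtain ⟨y0, hy0⟩ : ∃ y, y = NbP P₀ (kp * ((a2 K η N 0 : ℤ) : ℝ)) := ⟨_, rfl⟩
  obtain ⟨y1, hy1⟩ : ∃ y, y = NbP P₀ (kp * ((a2 K η N 1 : ℤ) : ℝ)) := ⟨_, rfl⟩
  rw [← hy, ← hy0] at g0
  rw [← hy, ← hy1] at g1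
  rw [← hy, ← hy0, ← hy1]
  have e2 : Real.tan θ * (Real.pi - 2 * θ) * y =
      Real.tan θ * (Real.pi / 2 - θ) * y + Real.tan θ * (Real.pi / 2 - θ) * y := by ring
  have e3 : Real.tan θ * (Real.pi - 2 * θ) * C =
      Real.tan θ * (Real.pi / 2 - θ) * C + Real.tan θ * (Real.pi / 2 - θ) * C := by ring
  have hc : 0 < Real.tan θ * (Real.pi / 2 - θ) := by positivity
  have m0 := mul_le_mul_of_nonneg_left g0 hc.le
  have m1 := mul_le_mul_of_nonneg_left g1 hc.le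
  rw [e2, e3]
  nlinarith

end Vale.Agent.P167.N.BT
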