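import Vale.Agent.P167.N.BT.TDefs
import Vale.Agent.P167.H460.BQ.Dar
import Vale.Agent.P167.H460.BQ.Mir
import Vale.Agent.P167.H460.BQ.Bump

/-!
# P167, `0 < q < 1`, block BT: the shapes; the inputs of `RatT'`

`OkT` is `Sh4.Ok 2` in the format of `H375.Sh`. All functionals are in the mirror image of the shape (base point =
`b` = middle of the side `0`, free arc `b → d → c → a`), as in `H460.BQ`.
-/

set_option autoImplicit false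

namespace Vale.Agent.P167.N.BT

open MeasureTheory Filter Topology Set
open Vale.Agent.P167 Vale.Agent.P167.BR
open Vale.Agent.P167.QT (Sh4 F4 msq)
open Vale.Agent.P167.BQ460 (eN ka md lb)
open Vale.Agent.P167.CA (cms)
open Vale.Agent.P167.H411.Q (fb)
open Vale.Agent.P167.H375 (Sh domT extT arcw FF4 hT)
open Vale.Agent.P167.QB (XG)
open Vale.Agent.P167.FK (Ex)

/-- The shape in the format of `QT`. -/
def toSh4 (P : Sh) : Sh4 := ⟨P.m, P.q, P.S, P.k, P.j, P.l⟩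

/-- The predicate for `GeoT'` and `RatT'`. -/
def OkT (P : Sh) : Prop := (toSh4 P).Ok 2

/-- The functional with the charge `F` in the mirror image of a shape. -/
noncomputable def VT (μ : ℝ) {P : Sh4} (h : P.Ok 2) (N : ℕ) (F : ℤ × ℤ → ℝ) : ℝ :=
  Ex (2 * Real.cos μ) ((Sh4.dat h).D N) (eN h N)
    (XG μ (H825.Q.qS (Sh4.dat h) N) ((Sh4.dat h).D N) (ka P N) F)

/-- The charge `π - 2 μ` at the mark `d = 0`. -/
noncomputable def qd (μ : ℝ) (χ : ℂ → ℝ) (η : ℝ) (N : ℕ) (z : ℤ × ℤ) : ℝ :=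
  (Real.pi - 2 * μ) * lb χ 0 η N z

/-- The charge `π - 2 μ` as a bump at the base point. -/
noncomputable def qb (μ : ℝ) (χ : ℂ → ℝ) {P : Sh4} (h : P.Ok 2) (ρ : ℝ) (N : ℕ) (z : ℤ × ℤ) : ℝ :=
  (Real.pi - 2 * μ) * cms (fb χ Complex.I (Sh4.dat h).bp ρ) (1 / N) z

/-- **[IDP]** (output of the block Q-ID, `N.H411.Q.outP_log` with the universal `t`). -/
def S_IdP (μ : ℝ) (χp χ : ℂ → ℝ) : Prop := ∃ G : ℝ → ℝ → ℕ → ℝ,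
  ∀ (P : Sh4) (h : P.Ok 2) (u v : ℝ), P.Pos u v → ∀ ε : ℝ, 0 < ε → ∃ δ : ℝ, 0 < δ ∧
    ∀ η : ℝ, 0 < η → η ≤ δ → ∀ ρ : ℝ, 0 < ρ → ρ ≤ δ → ∀ᶠ N : ℕ in F4,
      0 < VT μ h N (fun z => qd μ χ η N z - qb μ χp h ρ N z) ∧
      |Real.log (VT μ h N (fun z => qd μ χ η N z - qb μ χp h ρ N z)) -
        (G η ρ N + hT μ * Real.log (v * (1 - u)))| ≤ ε

/-- **[BB]** (BT10) The bump of mass `π - 2 μ` at the base point against the point charge; `τ` is the same for all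
shapes. -/
def S_BB (μ : ℝ) (χp χ : ℂ → ℝ) : Prop := ∃ τ : ℝ → ℕ → ℝ, (∀ ρ N, 0 < τ ρ N) ∧
  ∀ (P : Sh4) (h : P.Ok 2) (u v : ℝ), P.Pos u v → ∃ η₀ : ℝ, 0 < η₀ ∧ ∀ η : ℝ, 0 < η → η ≤ η₀ →
    ∀ ε : ℝ, 0 < ε → ∃ δ : ℝ, 0 < δ ∧ ∀ ρ : ℝ, 0 < ρ → ρ ≤ δ → ∀ᶠ N : ℕ in F4,
      |VT μ h N (fun z => qd μ χ η N z - qb μ χp h ρ N z) - τ ρ N * VT μ h N (qd μ χ η N)| ≤
        ε * (τ ρ N * Ex (2 * Real.cos μ) ((Sh4.dat h).D N) (eN h N) (fun ω =>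
          |XG μ (H825.Q.qS (Sh4.dat h) N) ((Sh4.dat h).D N) (ka P N) (qd μ χ η N) ω|))

/-- **[PAR]** Lower bound of the macroscopic primal arm in the shapes, uniform in the shape. -/
def S_Par (Q : ℝ) : Prop := ∀ κ : ℕ, ∃ (c : ℝ) (s0 : ℤ), 0 < c ∧ 1 ≤ s0 ∧
  ∀ (P : Sh4) (h : P.Ok 2) (N : ℕ) (r : ℤ), 4 ∣ N → 4 ≤ N → s0 ≤ r → r ≤ N →
    ((P.m : ℤ) + 1 - P.l) * N ≤ κ * r →
    c ≤ aD Q ((Sh4.dat h).D N) (eN h N) (Wr (H825.Q.qS (Sh4.dat h) N) (ka P N)) (0, 0) r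

/-- The window at the mark `d`. -/
def S_winT : Prop := ∀ (P : Sh4) (h : P.Ok 2) (N : ℕ), 4 ∣ N → 4 ≤ N →
  WinD (H825.Q.qS (Sh4.dat h) N) ((Sh4.dat h).D N) (eN h N) (ka P N) (md P N) ((N / 2 : ℕ) : ℤ)

/-- The mirror image of the frozen pairs. -/
def S_mirT : Prop := ∀ (μ : ℝ), 0 < 2 * Real.cos μ → ∀ (P : Sh) (h : (toSh4 P).Ok 2) (N : ℕ), 2 ≤ N →
  Even N → ∀ (r R : ℤ) (Z : Finset (ℤ × ℤ)) (ζ : Cfg), AdmT (0, 0) r R Z ζ → Z ⊆ (Sh4.dat h).D N →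
    AdmT (0, 0) r R (Z.image msq) (ζ ∘ msq) ∧
    PTz μ N (0, 0) P (Z.image msq) (ζ ∘ msq) =
      Ex (2 * Real.cos μ) ((Sh4.dat h).D N) (eN h N)
        (fzT ((Sh4.dat h).D N) Z ζ (Wr (H825.Q.qS (Sh4.dat h) N) (ka (toSh4 P) N)))

end Vale.Agent.P167.N.BT
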