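import Vale.Agent.P167.N.BT.JunB
import Vale.Agent.P167.N.BT.IdDefs

/-!
# P167, `0 < q < 1`, bridge: the base junction of the shapes
-/

set_option autoImplicit false

namespace Vale.Agent.P167.N.BT

open Finset Relation Vale.Agent.P167 Vale.Agent.P167.BR Vale.Agent.P167.FK
open Vale.Agent.P167.E6 (IsPolygon Encloses dir face)
open Vale.Agent.P167.E2 (face0 face3 f4_0m)
open Vale.Agent.P167.H718 (Dob Chordless)
open Vale.Agent.P167.H436.ND (Win FltO)
open Vale.Agent.P167.QT (Sh4 F4 mirq mirS)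
open Vale.Agent.P167.BQ460 (eN ka md q_zero q_md md_add ka_le mirq_line)

variable {n k : ℕ} {q : ZMod n → ℤ × ℤ} {D : Finset (ℤ × ℤ)} {R R' : ℤ} {η : Cfg}

/-- A boundary site in the flat window is on the line. -/
theorem bd_line (hD : Encloses q D) (hq : IsPolygon q) {b : ℤ × ℤ} (hF : Flt D b R) {i : ZMod n}
    (h1 : b.1 - R < (q i).1) (h2 : (q i).1 < b.1 + R) (h3 : b.2 - R < (q i).2)
    (h4 : (q i).2 < b.2 + R) : (q i).2 = b.2 := by
  obtain ⟨r, hr⟩ := hq.2.2 i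
  obtain ⟨g1, g2⟩ := (hD (q i) r).1 ⟨i, rfl, hr⟩
  generalize q i = z at *
  have hf : ∀ r' : Fin 4, (z.1 - 1 ≤ (face z r').1 ∧ (face z r').1 ≤ z.1) ∧
      z.2 - 1 ≤ (face z r').2 ∧ (face z r').2 ≤ z.2 := by
    intro r'
    fin_cases r' <;> simp [face]
  obtain ⟨⟨a1, a2⟩, a3, a4⟩ := hf r
  obtain ⟨⟨b1, b2⟩, b3, b4⟩ := hf (r - 1)
  rw [hF _ (by omega) (by omega) (by omega) (by omega)] at g1
  rw [hF _ (by omega) (by omega) (by omega) (by omega)] at g2
  omega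

/-- The window at the base. -/
theorem wj_of (hq : IsPolygon q) (hD : Encloses q D) (hF : Flt D (q 0) R) (h1 : R ≤ k)
    (h2 : (k : ℤ) + R ≤ n) (h3 : 1 ≤ R') (h4 : R' < R) : WJ q D k R' := by
  have hn : NeZero n := ⟨by have := hq.1; omega⟩
  refine ⟨hq, hD, fun v a1 a2 a3 a4 => hF v (by omega) (by omega) (by omega) (by omega), h3,
    by omega, by omega, fun hs => ?_⟩
  rw [mem_sites_hbox h3] at hs
  have h5 := bd_line hD hq hF (i := (k : ZMod n)) (by omega) (by omega) (by omega) (by omega)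
  have e0 : (0 : ZMod n) = ((0 : ℕ) : ZMod n) := by simp
  rcases le_total (q 0).1 (q k).1 with h | h
  · obtain ⟨x, hx⟩ := Int.eq_ofNat_of_zero_le (sub_nonneg.2 h)
    have hx' : ((x : ℕ) : ℤ) = (q k).1 - (q 0).1 := hx.symm
    have h6 := (walk hq hD hF x (by omega)).1
    have h7 : q (0 + (x : ZMod n)) = q k := by
      rw [h6]
      ext
      · simp only [Prod.fst_add]; omega
      · simp only [Prod.snd_add]; omega
    have h8 := hq.2.1 h7
    rw [zero_add, ZMod.natCast_eq_natCast_iff', Nat.mod_eq_of_lt (by omega),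
      Nat.mod_eq_of_lt (by omega)] at h8
    omega
  · obtain ⟨x, hx⟩ := Int.eq_ofNat_of_zero_le (sub_nonneg.2 h)
    have hx' : ((x : ℕ) : ℤ) = (q 0).1 - (q k).1 := hx.symm
    have h6 := (walk hq hD hF x (by omega)).2
    have h7 : q (0 - (x : ZMod n)) = q k := by
      rw [h6]
      ext
      · simp only [Prod.fst_sub]; omega
      · simp only [Prod.snd_sub]; omega
    have h8 := hq.2.1 h7
    have h9 : ((k + x : ℕ) : ZMod n) = 0 := by
      push_cast
      rw [← h8]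
      ring
    rw [ZMod.natCast_eq_zero_iff] at h9
    obtain ⟨y, hy⟩ := h9
    rcases y with - | y
    · omega
    · have : n ≤ n * (y + 1) := Nat.le_mul_of_pos_right n (by omega)
      omega

/-! ### The shapes -/

variable {P : Sh4} {N : ℕ}

/-- The boundary is flat at the base. -/
theorem flt_base (h : P.Ok 2) (hN : 4 ∣ N) (hN4 : 4 ≤ N) :
    Flt ((Sh4.dat h).D N) (H825.Q.qS (Sh4.dat h) N 0) ((N / 2 : ℕ) : ℤ) := by
  have hN0 : 0 < N := by omega
  have g1 := h.k_lt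
  have g2 := h.j_lt
  have g3 := h.l_lt
  obtain ⟨M, hM⟩ := hN
  have hN2 : ((N / 2 : ℕ) : ℤ) = 2 * M := by
    have : N / 2 = 2 * M := by omega
    rw [this]; push_cast; rfl
  have hNz : (N : ℤ) = 4 * M := by rw [hM]; push_cast; ring
  have hN' : (0 : ℤ) < N := by exact_mod_cast hN0
  -- the side of the small polygon
  have q0 := mirq_line h (i := 0) (by omega)
  have q1 := mirq_line h (i := 1) (by omega)
  have hs : face (-((P.m : ℤ) + 1 - P.l), 0) 0 ∈ mirS P.S ∧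
      face (-((P.m : ℤ) + 1 - P.l), 0) (0 - 1) ∉ mirS P.S := by
    refine ((Sh4.dat h).enc _ _).1 ⟨0, ?_, ?_⟩
    · show mirq P.q 0 = _
      rw [Nat.cast_zero] at q0
      rw [q0]
      ext
      · simp
      · rfl
    · show mirq P.q (0 + 1) = _
      rw [Nat.cast_one] at q1
      rw [zero_add, q1]
      ext
      · simp [dir]; ring
      · simp [dir]
  rw [f4_0m, face0, face3] at hs
  intro v h1 h2 h3 h4
  rw [q_zero h hN0] at h1 h2 h3 h4 ⊢
  simp only at h1 h2 h3 h4 ⊢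
  show v ∈ CA.enl (mirS P.S) N ↔ _
  rw [CL.mem_enl_iff hN0]
  have e1 : v.1 / N = -((P.m : ℤ) + 1 - P.l) := by
    rw [Int.ediv_eq_iff_of_pos hN']
    constructor
    · linarith
    · linarith
  rw [e1]
  rcases le_or_gt 0 v.2 with h5 | h5
  · have e2 : v.2 / N = 0 := by
      rw [Int.ediv_eq_iff_of_pos hN']
      constructor <;> linarith
    rw [e2]
    exact ⟨fun _ => h5, fun _ => hs.1⟩
  · have e2 : v.2 / N = -1 := by
      rw [Int.ediv_eq_iff_of_pos hN']
      constructor <;> linarith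
    rw [e2]
    refine ⟨fun h6 => absurd h6 ?_, fun h6 => absurd h6 (by omega)⟩
    simpa using hs.2

/-- **The window at the base of a shape.** -/
theorem wj_shape (h : P.Ok 2) (hN : 4 ∣ N) (hN4 : 4 ≤ N) (h3 : 1 ≤ R)
    (h4 : R < ((N / 2 : ℕ) : ℤ)) :
    WJ (H825.Q.qS (Sh4.dat h) N) ((Sh4.dat h).D N) (ka P N) R := by
  have hN0 : 0 < N := by omega
  have g0 := h.k_pos
  have g1 := h.k_lt
  have g2 := h.j_lt
  have g3 := h.l_lt
  refine wj_of (Enl.isPolygon_qN hN0 (Sh4.dat h).poly _)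
    (Enl.encloses_qN hN0 (Sh4.dat h).poly (Sh4.dat h).enc _) (flt_base h hN hN4) ?_ ?_ h3 h4
  · have h5 : 1 * N ≤ ka P N := Nat.mul_le_mul_right N (by omega)
    have h6 : N / 2 ≤ ka P N := by omega
    exact_mod_cast h6
  · have h5 : ka P N + 1 * N ≤ P.m * N := by
      unfold ka
      rw [← add_mul]
      exact Nat.mul_le_mul_right N (by omega)
    have h6 : ka P N + N / 2 ≤ P.m * N := by omega
    exact_mod_cast h6

theorem chordless_shape (h : P.Ok 2) (hN : 2 ≤ N) : Chordless (H825.Q.qS (Sh4.dat h) N) :=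
  H825.Q.chordless_qN (Sh4.dat h).poly hN _

/-- **The configuration at the base junction of a shape.** -/
theorem base_shape (h : P.Ok 2) (hN : 4 ∣ N) (hN4 : 4 ≤ N) (h3 : 3 ≤ R)
    (h4 : R < ((N / 2 : ℕ) : ℤ)) :
    Dob (etaB ((Sh4.dat h).D N) (H825.Q.qS (Sh4.dat h) N) (ka P N) (R - 1)) ((Sh4.dat h).D N)
      (H825.Q.qS (Sh4.dat h) N) (ka P N) ∧
    FltO ((Sh4.dat h).D N) (etaB ((Sh4.dat h).D N) (H825.Q.qS (Sh4.dat h) N) (ka P N) (R - 1))
      (H825.Q.qS (Sh4.dat h) N 0) (R - 1) true false :=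
  base_conf (chordless_shape h (by omega)) (wj_shape h hN hN4 (by omega) h4) h3

/-- Every functional of the shape can be computed with the configuration at the base junction. -/
theorem ex_base (h : P.Ok 2) (hN : 4 ∣ N) (hN4 : 4 ≤ N) (h3 : 3 ≤ R) (h4 : R < ((N / 2 : ℕ) : ℤ))
    {Q : ℝ} (hQ : 0 < Q) {F : Cfg → ℝ} (hF : FKA.Loc ((Sh4.dat h).D N) F) :
    Ex Q ((Sh4.dat h).D N) (eN h N) F = Ex Q ((Sh4.dat h).D N)
      (etaB ((Sh4.dat h).D N) (H825.Q.qS (Sh4.dat h) N) (ka P N) (R - 1)) F := by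
  have hN0 : 0 < N := by omega
  exact CAQ.J.ex_dob (Enl.isPolygon_qN hN0 (Sh4.dat h).poly _)
    (Enl.encloses_qN hN0 (Sh4.dat h).poly (Sh4.dat h).enc _) (ka_le h)
    (BQ460.dob_eN h (by omega)) (base_shape h hN hN4 h3 h4).1 hQ hF

/-- The windows of the base and of the mark `d` are disjoint. -/
theorem disj_base (h : P.Ok 2) (hN0 : 0 < N) {R₁ R₂ : ℤ} (h1 : R₁ ≤ ((N / 2 : ℕ) : ℤ))
    (h2 : R₂ ≤ ((N / 2 : ℕ) : ℤ)) :
    Disjoint (hbox (H825.Q.qS (Sh4.dat h) N 0) R₁)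
      (hbox (H825.Q.qS (Sh4.dat h) N (md P N : ZMod _)) R₂) := by
  rw [q_zero h hN0, q_md h hN0, Finset.disjoint_left]
  intro v hv hv'
  rw [mem_hbox] at hv hv'
  simp only at hv hv'
  have g3 := h.l_lt
  have hml : (3 : ℤ) ≤ (P.m : ℤ) + 1 - P.l := by omega
  have hMN : 3 * (N : ℤ) ≤ ((P.m : ℤ) + 1 - P.l) * N := mul_le_mul_of_nonneg_right hml (by positivity)
  have h5 : 2 * ((N / 2 : ℕ) : ℤ) ≤ N := by
    have : 2 * (N / 2) ≤ N := Nat.mul_div_le N 2
    exact_mod_cast this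
  omega

/-- The base site is primal. -/
theorem even_base (h : P.Ok 2) (hN : 4 ∣ N) (hN4 : 4 ≤ N) :
    Even ((H825.Q.qS (Sh4.dat h) N 0).1 + (H825.Q.qS (Sh4.dat h) N 0).2) := by
  have hN0 : 0 < N := by omega
  obtain ⟨M, hM⟩ := hN
  have hN2 : ((N / 2 : ℕ) : ℤ) = 2 * M := by
    have : N / 2 = 2 * M := by omega
    rw [this]; push_cast; rfl
  have hNz : (N : ℤ) = 4 * M := by rw [hM]; push_cast; ring
  rw [q_zero h hN0, hN2, hNz]
  exact ⟨M - (P.m + 1 - P.l) * 2 * M, by simp only; ring⟩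

end Vale.Agent.P167.N.BT
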