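import Vale.Agent.P167.N.BT.Jloc
import Vale.Agent.P167.N.Wd
import Vale.Agent.P167.QB.Maj3
import Vale.Agent.P167.QB.Low

/-!
# P167, `0 < q < 1`, bridge: the junction. Majorants

`xj_maj`: the functional of `F - s₀ φ` is at most the product over the pieces off the half box times the majorant
of the bump. `FJ_le`, `FJ_lower`: the two bounds of the local functional.
-/

set_option autoImplicit false

namespace Vale.Agent.P167.N.BT

open Finset Relation Vale.Agent.P167 Vale.Agent.P167.BR Vale.Agent.P167.FK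
open Vale.Agent.P167.H562.SML Vale.Agent.P167.H45
open Vale.Agent.P167.E6 (IsPolygon Encloses dir face)
open Vale.Agent.P167.H718 (IsXY IsCl Cl isCl_strand)
open Vale.Agent.P167.QX (lo hi exists_xy lo_xy hi_xy wB)
open Vale.Agent.P167.QB (gB XG Ard LeftIn sep_ard ard_lp ard_xy inn_xy mass_sub' mass_bd' wB_hx flat_side hpoly
  dq dq_le small_mono mass_small bumps_flat MW Sq innP_mono)
open Vale.Agent.P167.H562.MAJ (bigs nb1 Sm core Sc one_le_prodR sum_nb1 sum_G near_of_ins exists_ins_of_G)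
open Vale.Agent.P167.H562.QM (BumpsQ fac fac_pos fac_one wt_le_exp YQ)
open Vale.Agent.P167.H174.ND (poly_rot encl_rot be_rot shi shi_lt shi_cast xy_rot mass_base)

variable {n : ℕ} {q : ZMod n → ℤ × ℤ} {D Z : Finset (ℤ × ℤ)} {ω : Cfg} {A : Finset Ed}
  {k l : ℕ} {θ K : ℝ} {r R : ℤ} {b : ℤ × ℤ} {φ F : ℤ × ℤ → ℝ}

/-! ### weights -/

/-- Lower bound of the weight of a small loop with a negative charge. -/
theorem exp_le_cos_neg (h1 : Real.pi / 3 < θ) (h2 : θ < Real.pi / 2) {t : ℝ} (ht1 : -(1 / 2) ≤ t)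
    (ht0 : t ≤ 0) : Real.exp (-(Real.tan θ * t) - kw θ * t ^ 2) ≤ Real.cos (θ + t) / Real.cos θ := by
  have hpi := Real.pi_gt_three
  have hc : 0 < Real.cos θ := Real.cos_pos_of_mem_Ioo ⟨by linarith, by linarith⟩
  rcases ht0.lt_or_eq with ht | ht
  swap
  · rw [ht]
    simp [hc.ne']
  have hpos : ∀ x, -(1 / 2) ≤ x → x ≤ 0 → 0 < Real.cos (θ + x) := fun x hx hx' =>
    Real.cos_pos_of_mem_Ioo ⟨by linarith, by linarith⟩
  have hk : ∀ x, -(1 / 2) ≤ x → x ≤ 0 → 1 / Real.cos (θ + x) ^ 2 ≤ kw θ := by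
    intro x hx hx'
    have k1 : Real.cos θ ≤ Real.cos (θ + x) :=
      Real.cos_le_cos_of_nonneg_of_le_pi (by linarith) (by linarith) (by linarith)
    have k2 := cos_dw_pos (θ := θ) (by linarith) h2
    have k3 : Real.cos (θ + dw θ) ≤ Real.cos θ :=
      Real.cos_le_cos_of_nonneg_of_le_pi (by linarith) (by linarith [add_dw_lt h2])
        (by linarith [dw_pos h2])
    unfold kw
    exact one_div_le_one_div_of_le (by positivity) (pow_le_pow_left₀ k2.le (k3.trans k1) 2)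
  have hk0 := kw_pos (θ := θ) (by linarith) h2
  have htan : ∀ c, -(1 / 2) ≤ c → c < 0 → Real.tan θ - Real.tan (θ + c) ≤ kw θ * (-c) := by
    intro c hc1 hc2
    obtain ⟨x, hx, e⟩ := exists_hasDerivAt_eq_slope (fun x => Real.tan (θ + x))
      (fun x => 1 / Real.cos (θ + x) ^ 2) hc2
      (fun x hx => (HasDerivAt.comp_const_add θ x (Real.hasDerivAt_tan
        (hpos x (by linarith [hx.1]) hx.2).ne')).continuousAt.continuousWithinAt)
      (fun x hx => HasDerivAt.comp_const_add θ x (Real.hasDerivAt_tan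
        (hpos x (by linarith [hx.1]) (by linarith [hx.2])).ne'))
    rw [add_zero, eq_div_iff (by linarith)] at e
    have h5 := hk x (by linarith [hx.1]) (by linarith [hx.2])
    have h6 := mul_le_mul_of_nonneg_right h5 (show (0 : ℝ) ≤ 0 - c by linarith)
    rw [e] at h6
    linarith
  obtain ⟨c, hcm, e⟩ := exists_hasDerivAt_eq_slope
    (fun x => (Real.log (Real.cos (θ + x)) - Real.log (Real.cos θ)) + Real.tan θ * x + kw θ * x ^ 2)
    (fun x => -Real.tan (θ + x) + Real.tan θ + 2 * kw θ * x) ht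
    (fun x hx => by
      have h3 := (hpos x (by linarith [hx.1]) hx.2).ne'
      refine ContinuousAt.continuousWithinAt ?_
      have : ContinuousAt (fun x => Real.cos (θ + x)) x := by fun_prop
      have h4 := this.log h3
      fun_prop)
    (fun x hx => by
      have h3 := (hpos x (by linarith [hx.1]) (by linarith [hx.2])).ne'
      have h4 : HasDerivAt (fun x => Real.cos (θ + x)) (-Real.sin (θ + x)) x :=
        HasDerivAt.comp_const_add θ x (Real.hasDerivAt_cos (θ + x))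
      have h5 := h4.log h3
      rw [neg_div, ← Real.tan_eq_sin_div_cos] at h5
      have h6 := ((h5.sub_const (Real.log (Real.cos θ))).add
        ((hasDerivAt_id x).const_mul (Real.tan θ))).add (((hasDerivAt_id x).pow 2).const_mul (kw θ))
      refine h6.congr_deriv ?_
      simp only [id]
      norm_num
      ring)
  have h7 := htan c (by linarith [hcm.1]) hcm.2
  rw [eq_div_iff (by linarith)] at e
  have h8 : -Real.tan (θ + c) + Real.tan θ + 2 * kw θ * c ≤ 0 := by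
    have := mul_neg_of_pos_of_neg hk0 hcm.2
    linarith
  have h9 : (-Real.tan (θ + c) + Real.tan θ + 2 * kw θ * c) * (0 - t) ≤ 0 :=
    mul_nonpos_of_nonpos_of_nonneg h8 (by linarith)
  rw [e] at h9
  simp only [add_zero, sub_self, mul_zero, ne_eq, OfNat.ofNat_ne_zero, not_false_eq_true, zero_pow,
    zero_sub] at h9
  have h10 := hpos t ht1 ht0
  rw [← Real.le_log_iff_exp_le (by positivity), Real.log_div h10.ne' hc.ne']
  linarith

/-- The bound of the weights. -/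
theorem wB_bdJ (h1 : 0 < θ) (h2 : θ < Real.pi / 2) (q : ZMod n → ℤ × ℤ) (D : Finset (ℤ × ℤ)) (k : ℕ)
    (A : Finset Ed) (t : ℝ) : |wB θ (gB θ) q D k A t| ≤ MW θ := by
  have hpi := Real.pi_pos
  have hs : 0 < Real.sin θ := Real.sin_pos_of_pos_of_lt_pi h1 (by linarith)
  have hc : 0 < Real.cos θ := Real.cos_pos_of_mem_Ioo ⟨by linarith, by linarith⟩
  have h3 : Real.sin θ ≤ 1 := Real.sin_le_one θ
  have h4 : Real.cos θ ≤ 1 := Real.cos_le_one θ
  have e2 : Real.sin (2 * θ) = 2 * Real.sin θ * Real.cos θ := Real.sin_two_mul θ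
  have key : ∀ x y : ℝ, |x| ≤ 1 → Real.sin θ * Real.cos θ ≤ y → |x / y| ≤ MW θ := by
    intro x y hx hy
    have hy0 : 0 < y := lt_of_lt_of_le (by positivity) hy
    rw [abs_div, abs_of_pos hy0]
    unfold MW
    exact div_le_div₀ zero_le_one hx (by positivity) hy
  unfold wB
  split_ifs
  · exact key _ _ (Real.abs_cos_le_one _) (by nlinarith)
  · exact key _ _ (Real.abs_cos_le_one _) (by nlinarith)
  · exact key _ _ (Real.abs_sin_le_one _) (by rw [e2]; nlinarith [mul_pos hs hc])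
  · exact key _ _ (Real.abs_sin_le_one _) (by nlinarith)

theorem one_le_MWJ (h1 : 0 < θ) (h2 : θ < Real.pi / 2) : 1 ≤ MW θ := by
  have hpi := Real.pi_pos
  have hs : 0 < Real.sin θ := Real.sin_pos_of_pos_of_lt_pi h1 (by linarith)
  have hc : 0 < Real.cos θ := Real.cos_pos_of_mem_Ioo ⟨by linarith, by linarith⟩
  unfold MW
  rw [le_div_iff₀ (by positivity)]
  nlinarith [Real.sin_le_one θ, Real.cos_le_one θ]

/-! ### far charges -/

section

variable (hw : WJ q D k R)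
include hw

/-- A charge in a connected zone off the window is far. -/
theorem farJ_zone (hZD : Z ⊆ D) (hZ : ECon Z) (hdis : Disjoint Z (hbox (q 0) R)) {i : ℕ}
    (hi1 : R ≤ i) (hi2 : (i : ℤ) + R ≤ n) (hiZ : q i ∈ sites Z) (hf : ∀ z, F z ≠ 0 → z ∈ sites Z) :
    FarJ q D k R F := by
  classical
  intro ζ A hA hI
  obtain ⟨hq', hD', e0, hF', hl', h0', hkn, hk1⟩ := hw.rot
  have hR1 := hw.r1
  have hkR := hw.kR
  have hnR := hw.nR
  have hV : ¬ Vz Z A := by
    rintro ⟨e, he, heZ⟩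
    rcases mem_eds.1 heZ with h | h
    · exact Finset.disjoint_left.1 hdis h ((hI e he).2.mem_hd hw.flat (hI e he).1 (hZD h))
    · exact Finset.disjoint_left.1 hdis h ((hI e he).2.mem_tl hw.flat (hI e he).1 (hZD h))
  have hi' : rq q k ((shi n k i : ℕ) : ZMod n) = q i := by
    unfold rq
    rw [shi_cast (by omega)]
  have hs1 : shi n k i ≤ n ∧ (((shi n k i : ℕ) : ℤ) ≤ ((n - k : ℕ) : ℤ) - R ∨
      ((n - k : ℕ) : ℤ) + R ≤ ((shi n k i : ℕ) : ℤ)) := by
    unfold shi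
    split_ifs <;> omega
  unfold mass
  refine sum_eq_zero fun z _ => ?_
  by_cases hz : F z = 0
  · rw [hz, ite_self]
  rw [if_neg]
  have := sep_out hq' hD' hF' hw.r1 hl' h0' (A := A) (fun e he => by rw [e0]; exact (hI e he).1)
    (fun e he => by rw [e0]; exact (hI e he).2) hs1.1 hs1.2 hZD hZ hV (by rw [hi']; exact hiZ)
    (hf z hz)
  rwa [rq_zero] at this

/-- The charge at the other junction. -/
theorem farJ_dlt (s : ℝ) : FarJ q D k R (QB.dlt (q k) s) := by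
  classical
  intro ζ A hA hI
  rw [H174.ND.mass_dlt' hw.k_mem, if_neg]
  rintro ⟨u, -, h⟩
  exact h rfl

theorem dlt_supp (s : ℝ) : ∀ z, QB.dlt (q k) s z ≠ 0 → z ∈ sites D := by
  intro z hz
  unfold QB.dlt at hz
  by_cases h : z = q k
  · rw [h]
    exact hw.k_mem
  · rw [if_neg h] at hz
    exact absurd rfl hz

omit hw in
theorem dlt_sum (p : ℤ × ℤ) (s : ℝ) : ∑ᶠ z, QB.dlt p s z = s := by
  rw [finsum_eq_single _ p fun z hz => by unfold QB.dlt; rw [if_neg hz]]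
  unfold QB.dlt
  rw [if_pos rfl]

/-! ### the bump -/

/-- The bump as a charge of the theory of the majorants. -/
theorem bumpJ (hS : Sc K r) (h2r : 2 * r ≤ R) {g : ℤ × ℤ → ℝ} (hg : ∀ z, |g z| ≤ K / (r : ℝ) ^ 2)
    (hgs : ∀ z, g z ≠ 0 → z ∈ sites (core K (q 0) r)) :
    BumpsQ ({()} : Finset Unit) D (q 0) (fun _ => core K (q 0) r) (fun _ => hbox (q 0) r)
      (fun _ => g) (fun _ => dq K r) (fun _ => True) := by
  have e : ((0 : ℕ) : ZMod n) = 0 := Nat.cast_zero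
  have h := bumps_flat hw.poly hw.enc (J := ({()} : Finset Unit)) (i := fun _ => 0)
    (r := fun _ => r) (g := fun _ => g) (K := K) (fun _ _ => hS)
    (fun _ _ => by rw [e]; exact hw.flat.mono h2r) (fun _ _ => hg)
    (fun _ _ => by rw [e]; exact hgs) (fun _ _ _ _ h => absurd rfl h)
  simp only [e] at h
  exact h

/-- The small pieces which visit the small half box are inner. -/
theorem smallJ (hS : Sc K r) (h2r : 2 * r ≤ R) (hA : A ∈ pcs ω D) (hs : Small (dq K r) A)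
    (hV : Vz (hbox (q 0) r) A) : InnP (q 0) R A :=
  innP_mono (hS.inner (hw.flat.mono h2r) hA (small_mono (dq_le hS) hs) hV) h2r

/-- Loops do not separate the two junctions. -/
theorem lp_sepJ (hA : A ∈ pcs ω D) (hI : InnP (q 0) R A) (hl : IsLp D A) :
    ¬ Sep (hbox (q 0) R) A (q 0) (top (q 0) R) := by
  intro hsep
  obtain ⟨hq', hD', -⟩ := hw.rot
  exact ard_lp hq' hD' hA hl ((sep_top hw hA hI).2.1 ((sep_top hw hA hI).1.1 hsep))

/-- The mass of the bump with respect to the two junctions. -/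
theorem mass_bumpJ (hA : A ∈ pcs ω D) (hφD : ∀ z, φ z ≠ 0 → z ∈ sites D) (hφs : ∑ᶠ z, φ z = 1)
    (h0 : mass D (q k) φ A = 0) : (¬ Sep D A (q 0) (q k) → mass D (q 0) φ A = 0) ∧
      (Sep D A (q 0) (q k) → mass D (q 0) φ A = 1) := by
  obtain ⟨m1, m2⟩ := mass_base hw.poly hw.enc hA hw.k_mem (XDL.base_mem hw.poly hw.enc) hφD hφs
  exact ⟨fun h => by rw [m1 h, h0], fun h => by rw [m2 h, h0, sub_zero]⟩

/-- A small strand which visits the small half box has no mass. -/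
theorem mass_smallJ (hS : Sc K r) (h2r : 2 * r ≤ R) (hφc : ∀ z, φ z ≠ 0 → z ∈ sites (core K (q 0) r))
    (hφs : ∑ᶠ z, φ z = 1) (hFD : ∀ z, F z ≠ 0 → z ∈ sites D)
    (hFs : ∑ᶠ z, F z = Real.pi - 2 * θ) (hF0 : FarJ q D k R F) (hA : A ∈ pcs ω D)
    (hl : ¬ IsLp D A) (hs : Small (dq K r) A) (hV : Vz (hbox (q 0) r) A) :
    mass D (q 0) (fun z => F z - (Real.pi - 2 * θ) * φ z) A = 0 := by
  classical
  obtain ⟨hq', hD', e0, hF', hl', h0', hkn, hk1⟩ := hw.rot
  have hI := smallJ hw hS h2r hA hs hV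
  have h8 := hS.r8
  have hφD : ∀ z, φ z ≠ 0 → z ∈ sites D := fun z hz => sites_mono
    (hS.core_sub.trans ((hbox_mono (by omega)).trans (hbox_sub hw.flat))) (hφc z hz)
  have h1 := mass_small hq' hD' hS (hF'.mono h2r) hl'
    (fun h => h0' (sites_mono (hbox_mono h2r) h)) (g := φ) (by rw [e0]; exact hφc) hA hl hs
    (by rw [e0]; exact hV)
  rw [rq_zero] at h1
  obtain ⟨m1, m2⟩ := mass_bumpJ hw hA hφD hφs h1
  have h2 := (sep_top hw hA hI).1
  rw [mass_sub', mass_smul, mass_far_J hw hA hI hFD hFs hF0]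
  by_cases hsep : Sep D A (q 0) (q k)
  · rw [if_pos (h2.2 hsep), m2 hsep, mul_one, sub_self]
  · rw [if_neg (fun h' => hsep (h2.1 h')), m1 hsep, mul_zero, sub_self]

/-- The mass of a small loop which visits the small half box. -/
theorem mass_lpJ (hS : Sc K r) (h2r : 2 * r ≤ R)
    (hg : ∀ z, |(Real.pi - 2 * θ) * φ z| ≤ K / (r : ℝ) ^ 2)
    (hφc : ∀ z, φ z ≠ 0 → z ∈ sites (core K (q 0) r))
    (hFD : ∀ z, F z ≠ 0 → z ∈ sites D) (hFs : ∑ᶠ z, F z = Real.pi - 2 * θ) (hF0 : FarJ q D k R F)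
    (hA : A ∈ pcs ω D) (hl : IsLp D A) (hs : Small (dq K r) A) (hV : Vz (hbox (q 0) r) A) :
    mass D (q 0) (fun z => F z - (Real.pi - 2 * θ) * φ z) A =
      G (fun z => -((Real.pi - 2 * θ) * φ z)) A ∧
    mass D (q 0) (fun z => F z - (Real.pi - 2 * θ) * φ z) A =
      -((Real.pi - 2 * θ) * mass D (q 0) φ A) := by
  classical
  have hI := smallJ hw hS h2r hA hs hV
  have hB := bumpJ hw hS h2r (g := fun z => -((Real.pi - 2 * θ) * φ z))
    (fun z => by rw [abs_neg]; exact hg z) (fun z hz => hφc z fun h => hz (by rw [h]; simp))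
  have h1 := hB.mass_lp hA trivial hl
  simp only [sum_singleton] at h1
  have h2 : mass D (q 0) F A = 0 := by
    rw [mass_far_J hw hA hI hFD hFs hF0, if_neg (lp_sepJ hw hA hI hl)]
  have h3 : mass D (q 0) (fun z => -((Real.pi - 2 * θ) * φ z)) A =
      -((Real.pi - 2 * θ) * mass D (q 0) φ A) := by
    have := mass_smul (D := D) (A := A) (-(Real.pi - 2 * θ)) (p := q 0) (f := φ)
    rw [← neg_mul, ← this]
    congr 1
    funext z
    ring
  constructor
  · rw [← h1, mass_sub', mass_smul, h2, h3]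
    ring
  · rw [mass_sub', mass_smul, h2]
    ring

/-- The factor of a piece which visits the small half box. -/
theorem fac_J (h1 : Real.pi / 3 < θ) (h2 : θ < Real.pi / 2) (hS : Sc K r) (h2r : 2 * r ≤ R)
    (hφ0 : ∀ z, 0 ≤ φ z) (hg : ∀ z, |(Real.pi - 2 * θ) * φ z| ≤ K / (r : ℝ) ^ 2)
    (hφc : ∀ z, φ z ≠ 0 → z ∈ sites (core K (q 0) r)) (hφs : ∑ᶠ z, φ z = 1)
    (hFD : ∀ z, F z ≠ 0 → z ∈ sites D) (hFs : ∑ᶠ z, F z = Real.pi - 2 * θ) (hF0 : FarJ q D k R F)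
    (hA : A ∈ pcs ω D) (hV : Vz (hbox (q 0) r) A) :
    |wB θ (gB θ) q D k A (mass D (q 0) (fun z => F z - (Real.pi - 2 * θ) * φ z) A)| ≤
      fac θ (MW θ) D (hbox (q 0) r) (fun z => -((Real.pi - 2 * θ) * φ z)) (dq K r) A := by
  classical
  have hpi := Real.pi_gt_three
  have hθ : 0 < θ := by linarith
  have hs0 : 0 < Real.sin θ := Real.sin_pos_of_pos_of_lt_pi hθ (by linarith)
  have hc : 0 < Real.cos θ := Real.cos_pos_of_mem_Ioo ⟨by linarith, by linarith⟩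
  have h8 := hS.r8
  unfold fac
  by_cases hs : Small (dq K r) A
  · rw [if_neg (fun h => h.2 hs), one_mul]
    by_cases hl : IsLp D A
    · rw [if_pos ⟨hl, hs⟩]
      obtain ⟨m1, m2⟩ := mass_lpJ hw hS h2r hg hφc hFD hFs hF0 hA hl hs hV
      have hcD : core K (q 0) r ⊆ D :=
        hS.core_sub.trans ((hbox_mono (by omega)).trans (hbox_sub hw.flat))
      obtain ⟨p0, p1⟩ := QB.mass_range (A := A) (p := q 0) hcD hφ0 hφc hφs
      have hB := bumpJ hw hS h2r (g := fun z => -((Real.pi - 2 * θ) * φ z))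
        (fun z => by rw [abs_neg]; exact hg z) (fun z hz => hφc z fun h => hz (by rw [h]; simp))
      have h3 := hB.small () (mem_singleton_self ()) ω A (BR.IsLp.isLoop hA hl) hs
      rw [← m1] at h3
      rw [← m1]
      obtain ⟨t, ht⟩ : ∃ t, t = mass D (q 0) (fun z => F z - (Real.pi - 2 * θ) * φ z) A := ⟨_, rfl⟩
      rw [← ht] at h3 m2 ⊢
      have ht0 : t ≤ 0 := by
        rw [m2]
        have := mul_nonneg (show (0 : ℝ) ≤ Real.pi - 2 * θ by linarith) p0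
        linarith
      have ht1 := (abs_le.1 h3).1
      unfold wB
      rw [if_pos hl, abs_of_nonneg]
      · exact wt_le_exp hθ h2 (h3.trans (by linarith))
      · exact div_nonneg (Real.cos_nonneg_of_mem_Icc ⟨by linarith, by linarith⟩) hc.le
    · rw [if_neg (fun h => hl h.1), mul_zero, neg_zero, Real.exp_zero,
        mass_smallJ hw hS h2r hφc hφs hFD hFs hF0 hA hl hs hV, wB_hx hs0 hc, abs_one]
  · rw [if_pos ⟨hV, hs⟩, if_neg (fun h => hs h.2), mul_zero, neg_zero, Real.exp_zero, mul_one]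
    exact wB_bdJ hθ h2 q D k A _

open Classical in
/-- **The product over the pieces which visit the small half box.** -/
theorem near_J (h1 : Real.pi / 3 < θ) (h2 : θ < Real.pi / 2) (hS : Sc K r) (h2r : 2 * r ≤ R)
    (hφ0 : ∀ z, 0 ≤ φ z) (hg : ∀ z, |(Real.pi - 2 * θ) * φ z| ≤ K / (r : ℝ) ^ 2)
    (hφc : ∀ z, φ z ≠ 0 → z ∈ sites (core K (q 0) r)) (hφs : ∑ᶠ z, φ z = 1)
    (hFD : ∀ z, F z ≠ 0 → z ∈ sites D) (hFs : ∑ᶠ z, F z = Real.pi - 2 * θ) (hF0 : FarJ q D k R F)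
    {N : ℕ} (hN : (bigs D (hbox (q 0) r) (dq K r) ω).card ≤ N) :
    |∏ A ∈ (pcs ω D).filter (Vz (hbox (q 0) r)),
        wB θ (gB θ) q D k A (mass D (q 0) (fun z => F z - (Real.pi - 2 * θ) * φ z) A)| ≤
      MW θ ^ N * Real.exp (-(Real.tan θ * Sm (fun z => -((Real.pi - 2 * θ) * φ z)) (dq K r) ω)) := by
  have hθ : 0 < θ := by have := Real.pi_pos; linarith
  have hM1 := one_le_MWJ hθ h2
  have hgs : ∀ z, -((Real.pi - 2 * θ) * φ z) ≠ 0 → z ∈ sites (core K (q 0) r) :=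
    fun z hz => hφc z fun h => hz (by rw [h]; simp)
  have hB := bumpJ hw hS h2r (g := fun z => -((Real.pi - 2 * θ) * φ z))
    (fun z => by rw [abs_neg]; exact hg z) hgs
  have k1 := hB.fac_prod (a := θ) (ω := ω) hM1 (T := (pcs ω D).filter (Vz (hbox (q 0) r)))
    (filter_subset _ _) (fun A hA hl j hj hs hG => mem_filter.2
      ⟨hA, hB.loop () (mem_singleton_self ()) ω A hA trivial hl hG⟩)
  simp only [prod_singleton] at k1
  have k2 := sum_nb1 (Z := fun _ : Unit => core K (q 0) r) (d := fun _ => dq K r)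
    (F := fun _ => fun z => -((Real.pi - 2 * θ) * φ z)) (j := ()) hgs ω
  rw [k2] at k1
  rw [abs_prod]
  refine (prod_le_prod (fun A _ => abs_nonneg _) fun A hA => ?_).trans (k1.trans ?_)
  · rw [mem_filter] at hA
    exact fac_J hw h1 h2 hS h2r hφ0 hg hφc hφs hFD hFs hF0 hA.1 hA.2
  · exact mul_le_mul_of_nonneg_right (pow_le_pow_right₀ hM1 hN) (Real.exp_pos _).le

/-- **(MAJ)** The functional with the bump. -/
theorem xj_maj (h1 : Real.pi / 3 < θ) (h2 : θ < Real.pi / 2) (hS : Sc K r) (h2r : 2 * r ≤ R)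
    (hφ0 : ∀ z, 0 ≤ φ z) (hg : ∀ z, |(Real.pi - 2 * θ) * φ z| ≤ K / (r : ℝ) ^ 2)
    (hφc : ∀ z, φ z ≠ 0 → z ∈ sites (core K (q 0) r)) (hφs : ∑ᶠ z, φ z = 1)
    (hFD : ∀ z, F z ≠ 0 → z ∈ sites D) (hFs : ∑ᶠ z, F z = Real.pi - 2 * θ) (hF0 : FarJ q D k R F)
    {N : ℕ} (hN : (bigs D (hbox (q 0) r) (dq K r) ω).card ≤ N) :
    |XG θ q D k (fun z => F z - (Real.pi - 2 * θ) * φ z) ω| ≤
      |Xof θ q D k (hbox (q 0) r) F ω| *
        (MW θ ^ N * Real.exp (-(Real.tan θ * Sm (fun z => -((Real.pi - 2 * θ) * φ z)) (dq K r) ω))) := by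
  classical
  have h8 := hS.r8
  rw [xg_split hw (by omega) (by omega) (fun z hz => sites_mono hS.core_sub (hφc z hz)), abs_mul,
    mul_comm]
  exact mul_le_mul_of_nonneg_left (near_J hw h1 h2 hS h2r hφ0 hg hφc hφs hFD hFs hF0 hN)
    (abs_nonneg _)

/-- The upper bound of the local functional, with a polygon. -/
theorem FJ_le_poly (h1 : Real.pi / 3 < θ) (h2 : θ < Real.pi / 2) (hS : Sc K r) (h2r : 2 * r ≤ R)
    (hφ0 : ∀ z, 0 ≤ φ z) (hg : ∀ z, |(Real.pi - 2 * θ) * φ z| ≤ K / (r : ℝ) ^ 2)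
    (hφc : ∀ z, φ z ≠ 0 → z ∈ sites (core K (q 0) r)) (hφs : ∑ᶠ z, φ z = 1)
    {N : ℕ} (hN : (bigs D (hbox (q 0) r) (dq K r) ω).card ≤ N) :
    |FJ θ (q 0) r R φ ω| ≤ MW θ ^ N *
      Real.exp (-(Real.tan θ * Sm (fun z => -((Real.pi - 2 * θ) * φ z)) (dq K r) ω)) := by
  classical
  have h8 := hS.r8
  have hθ : 0 < θ := by have := Real.pi_pos; linarith
  have hM1 := one_le_MWJ hθ h2
  by_cases hI : Iso (q 0) r R ω
  · rw [FJ_eq hw (by omega) hI (dlt_supp hw _) (dlt_sum _ _) (farJ_dlt hw _)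
      (fun z hz => sites_mono (hS.core_sub.trans (hbox_mono (by omega))) (hφc z hz))]
    exact near_J hw h1 h2 hS h2r hφ0 hg hφc hφs (dlt_supp hw _) (dlt_sum _ _) (farJ_dlt hw _) hN
  · rw [FJ_not hI, abs_zero]
    positivity

/-- On `Iso` the weights of the pieces which visit the small half box are at least one. -/
theorem one_le_wBJ (h1 : Real.pi / 3 < θ) (h2 : θ < Real.pi / 2) (hφ0 : ∀ z, 0 ≤ φ z)
    (hf : ∀ z, φ z ≠ 0 → z ∈ sites (hbox (q 0) R)) (hφs : ∑ᶠ z, φ z = 1)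
    (hFD : ∀ z, F z ≠ 0 → z ∈ sites D) (hFs : ∑ᶠ z, F z = Real.pi - 2 * θ) (hF0 : FarJ q D k R F)
    (hA : A ∈ pcs ω D) (hI : InnP (q 0) R A) :
    1 ≤ wB θ (gB θ) q D k A (mass D (q 0) (fun z => F z - (Real.pi - 2 * θ) * φ z) A) := by
  obtain ⟨m0, m1⟩ := mass_bd' (A := A) (p := q 0) (Subset.refl (hbox (q 0) R)) hφ0 hf
  rw [hφs] at m1
  rw [wB_J hw hA hI, mass_J hw hA hI hFD hFs hF0 hf]
  exact one_le_wJ h1 h2 m0 m1 fun hl => lp_sepJ hw hA hI fun e he => hbox_sub hw.flat (hl e he)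

/-- The lower bound of the local functional, with a polygon. -/
theorem FJ_lower_poly (h1 : Real.pi / 3 < θ) (h2 : θ < Real.pi / 2) (hS : Sc K r) (h2r : 2 * r ≤ R)
    (hφ0 : ∀ z, 0 ≤ φ z) (hg : ∀ z, |(Real.pi - 2 * θ) * φ z| ≤ K / (r : ℝ) ^ 2)
    (hφc : ∀ z, φ z ≠ 0 → z ∈ sites (core K (q 0) r)) (hφs : ∑ᶠ z, φ z = 1)
    {Az : Finset (ℤ × ℤ)} (hAz : ∀ s, φ s ≠ 0 → ∀ v : ℤ × ℤ, (nm (v - s) : ℝ) < dq K r → v ∈ Az)
    (hI : Iso (q 0) r R ω) :
    Real.exp (-(Real.tan θ * Sm (fun z => -((Real.pi - 2 * θ) * φ z)) (dq K r) ω) -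
      kw θ * Sq Az (fun z => -((Real.pi - 2 * θ) * φ z)) (dq K r) ω) ≤ FJ θ (q 0) r R φ ω := by
  classical
  have hpi := Real.pi_gt_three
  have h8 := hS.r8
  have hθ : 0 < θ := by linarith
  have hF0 := farJ_dlt hw (Real.pi - 2 * θ)
  have hFD := dlt_supp hw (Real.pi - 2 * θ)
  have hFs := dlt_sum (q k) (Real.pi - 2 * θ)
  have hf : ∀ z, φ z ≠ 0 → z ∈ sites (hbox (q 0) R) := fun z hz =>
    sites_mono (hS.core_sub.trans (hbox_mono (by omega))) (hφc z hz)
  have hgs : ∀ z, -((Real.pi - 2 * θ) * φ z) ≠ 0 → z ∈ sites (core K (q 0) r) :=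
    fun z hz => hφc z fun h => hz (by rw [h]; simp)
  have hB := bumpJ hw hS h2r (g := fun z => -((Real.pi - 2 * θ) * φ z))
    (fun z => by rw [abs_neg]; exact hg z) hgs
  have hcD : core K (q 0) r ⊆ D :=
    hS.core_sub.trans ((hbox_mono (by omega)).trans (hbox_sub hw.flat))
  rw [FJ_eq hw (by omega) hI hFD hFs hF0 hf]
  set T := (pcs ω D).filter (Vz (hbox (q 0) r)) with hT
  set g : ℤ × ℤ → ℝ := fun z => -((Real.pi - 2 * θ) * φ z) with hgd
  have key : ∀ A ∈ T, Real.exp (if IsLp D A ∧ Small (dq K r) A then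
      -(Real.tan θ * G g A) - kw θ * (G g A) ^ 2 else 0) ≤
      wB θ (gB θ) q D k A (mass D (q 0) (fun z => QB.dlt (q k) (Real.pi - 2 * θ) z -
        (Real.pi - 2 * θ) * φ z) A) := by
    intro A hA
    rw [hT, mem_filter] at hA
    have hi := innP_iso hw (by omega) hI hA.1 hA.2
    by_cases hls : IsLp D A ∧ Small (dq K r) A
    · rw [if_pos hls]
      obtain ⟨m1, m2⟩ := mass_lpJ hw hS h2r hg hφc hFD hFs hF0 hA.1 hls.1 hls.2 hA.2
      obtain ⟨p0, p1⟩ := QB.mass_range (A := A) (p := q 0) hcD hφ0 hφc hφs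
      have h3 := hB.small () (mem_singleton_self ()) ω A (BR.IsLp.isLoop hA.1 hls.1) hls.2
      rw [← m1] at h3
      rw [← m1]
      obtain ⟨t, ht⟩ : ∃ t, t = mass D (q 0) (fun z => QB.dlt (q k) (Real.pi - 2 * θ) z -
        (Real.pi - 2 * θ) * φ z) A := ⟨_, rfl⟩
      rw [← ht] at h3 m2 ⊢
      have ht0 : t ≤ 0 := by
        rw [m2]
        have := mul_nonneg (show (0 : ℝ) ≤ Real.pi - 2 * θ by linarith) p0
        linarith
      unfold wB
      rw [if_pos hls.1]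
      exact exp_le_cos_neg h1 h2 (abs_le.1 h3).1 ht0
    · rw [if_neg hls, Real.exp_zero]
      exact one_le_wBJ hw h1 h2 hφ0 hf hφs hFD hFs hF0 hA.1 hi
  refine le_trans (le_of_eq ?_) (prod_le_prod (fun A _ => (Real.exp_pos _).le) key)
  rw [← Real.exp_sum, ← sum_filter]
  congr 1
  unfold Sq
  rw [← sum_G (f := g) (F := sites (core K (q 0) r)) hgs (A := Az)
    (fun s hs => hAz s fun h => hs (by rw [hgd]; simp only; rw [h]; simp)) ω, mul_sum, mul_sum,
    ← sum_neg_distrib, ← sum_sub_distrib]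
  have e1 : ∑ A ∈ T.filter (fun A => IsLp D A ∧ Small (dq K r) A),
      (-(Real.tan θ * G g A) - kw θ * (G g A) ^ 2) =
      ∑ A ∈ (T.filter (fun A => IsLp D A ∧ Small (dq K r) A)).filter (fun A => G g A ≠ 0),
        (-(Real.tan θ * G g A) - kw θ * (G g A) ^ 2) := by
    symm
    refine sum_filter_of_ne fun A _ hA => ?_
    intro h'
    exact hA (by rw [h']; ring)
  have e2 : ∑ A ∈ smf Az (dq K r) ω, (-(Real.tan θ * G g A) - kw θ * (G g A) ^ 2) =
      ∑ A ∈ (smf Az (dq K r) ω).filter (fun A => G g A ≠ 0),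
        (-(Real.tan θ * G g A) - kw θ * (G g A) ^ 2) := by
    symm
    refine sum_filter_of_ne fun A _ hA => ?_
    intro h'
    exact hA (by rw [h']; ring)
  rw [e1, e2]
  refine sum_congr ?_ fun _ _ => rfl
  ext A
  simp only [mem_filter]
  constructor
  · rintro ⟨h3, h6⟩
    obtain ⟨k1, -, k3⟩ := mem_smf.1 h3
    obtain ⟨k4, k5⟩ := hB.mem_pcs (mem_singleton_self ()) k1 k3 h6
    exact ⟨⟨mem_filter.2 ⟨k4, hB.loop () (mem_singleton_self ()) ω A k4 trivial k5 h6⟩, k5, k3⟩, h6⟩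
  · rintro ⟨⟨h3, h4, h5⟩, h6⟩
    rw [hT, mem_filter] at h3
    have hL := BR.IsLp.isLoop h3.1 h4
    refine ⟨mem_smf.2 ⟨hL, ?_, h5⟩, h6⟩
    obtain ⟨z, hz, hfz⟩ := exists_ins_of_G h6
    obtain ⟨w, hw'⟩ := vs_nonempty hL
    exact ⟨w, hw', hAz z (fun h => hfz (by rw [hgd]; simp only; rw [h]; simp)) w
      (near_of_ins hL h5 hz hw')⟩

end

/-! ### without the polygon -/

/-- The half box of radius `2 R` as a polygon with the base `b`. -/
theorem exists_wJ (b : ℤ × ℤ) (hR : 1 ≤ R) : ∃ (n : ℕ) (q : ZMod n → ℤ × ℤ) (k : ℕ),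
    WJ q (hbox b (2 * R)) k R ∧ q 0 = b := by
  obtain ⟨n, q, l, hq, hD, hl, hb, ht⟩ := hpoly b (R := 2 * R) (by omega)
  have hn : NeZero n := ⟨by omega⟩
  have hF : Flt (hbox b (2 * R)) (q l) R := by rw [hb]; exact QB.flt_hbox hR
  have h0 : q 0 ∉ sites (hbox (q l) R) := by rw [hb, ht]; exact QB.top_notin hR
  obtain ⟨f1, f2⟩ := flat_range hq hD hF hR hl h0
  have e0 : rq q l 0 = b := by rw [rq_zero, hb]
  have ek : rq q l ((n - l : ℕ) : ZMod n) = q 0 := rq_base q hl.le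
  refine ⟨n, rq q l, n - l, ⟨poly_rot hq fun i => rfl, encl_rot hD fun i => rfl, ?_, hR, by omega,
    by omega, ?_⟩, e0⟩
  · rw [e0, ← hb]
    exact hb ▸ hF
  · rw [e0, ek, ← hb]
    exact h0

/-- **The upper bound of the local functional.** -/
theorem FJ_le (h1 : Real.pi / 3 < θ) (h2 : θ < Real.pi / 2) (hS : Sc K r) (h2r : 2 * r ≤ R)
    (hφ0 : ∀ z, 0 ≤ φ z) (hg : ∀ z, |(Real.pi - 2 * θ) * φ z| ≤ K / (r : ℝ) ^ 2)
    (hφc : ∀ z, φ z ≠ 0 → z ∈ sites (core K b r)) (hφs : ∑ᶠ z, φ z = 1)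
    {N : ℕ} (hN : ∀ D : Finset (ℤ × ℤ), (bigs D (hbox b r) (dq K r) ω).card ≤ N) :
    |FJ θ b r R φ ω| ≤ MW θ ^ N *
      Real.exp (-(Real.tan θ * Sm (fun z => -((Real.pi - 2 * θ) * φ z)) (dq K r) ω)) := by
  have h8 := hS.r8
  obtain ⟨n, q, k, hw, hb⟩ := exists_wJ b (R := R) (by omega)
  subst hb
  exact FJ_le_poly hw h1 h2 hS h2r hφ0 hg hφc hφs (hN _)

/-- **The lower bound of the local functional.** -/
theorem FJ_lower (h1 : Real.pi / 3 < θ) (h2 : θ < Real.pi / 2) (hS : Sc K r) (h2r : 2 * r ≤ R)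
    (hφ0 : ∀ z, 0 ≤ φ z) (hg : ∀ z, |(Real.pi - 2 * θ) * φ z| ≤ K / (r : ℝ) ^ 2)
    (hφc : ∀ z, φ z ≠ 0 → z ∈ sites (core K b r)) (hφs : ∑ᶠ z, φ z = 1)
    {Az : Finset (ℤ × ℤ)} (hAz : ∀ s, φ s ≠ 0 → ∀ v : ℤ × ℤ, (nm (v - s) : ℝ) < dq K r → v ∈ Az)
    (hI : Iso b r R ω) :
    Real.exp (-(Real.tan θ * Sm (fun z => -((Real.pi - 2 * θ) * φ z)) (dq K r) ω) -
      kw θ * Sq Az (fun z => -((Real.pi - 2 * θ) * φ z)) (dq K r) ω) ≤ FJ θ b r R φ ω := by
  have h8 := hS.r8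
  obtain ⟨n, q, k, hw, hb⟩ := exists_wJ b (R := R) (by omega)
  subst hb
  exact FJ_lower_poly hw h1 h2 hS h2r hφ0 hg hφc hφs hAz hI

end Vale.Agent.P167.N.BT
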