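import Vale.Agent.P167.N.BT.Du3
import Vale.Agent.P167.N.BT.Jmaj

/-!
# P167, `0 < q < 1`, bridge: the junction. The majorant of the far factor

`xof_le`: for the t-charges of two rings at `q l` the product over the pieces which do not visit a set `Z` off the
window of `q l` is at most the product of the two majorants `Yu`.
-/

set_option autoImplicit false

namespace Vale.Agent.P167.N.BT

open Finset Relation Vale.Agent.P167.BR Vale.Agent.P167
open Vale.Agent.P167.QX (lo hi exists_xy lo_xy hi_xy wB XB)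
open Vale.Agent.P167.QB (gB gB_cos Ard ard_lp wB_hx dlt XG)
open Vale.Agent.P167.H436.ND
open Vale.Agent.P167.H542 (isSeg_piece)
open Vale.Agent.P167.H542.Q (cB wR thB wR_thB)
open Vale.Agent.P167.H542.Q.PT (snk snk_spec prod_le_pow abs_wR_le)
open Vale.Agent.P167.H542.Q.PW (exists_vs vz_of sum_Sm)
open Vale.Agent.P167.N.H542.Q (Phs)
open Vale.Agent.P167.N.H542.Q.PW (prod_small wR_pos wR_le_exp)
open Vale.Agent.P167.H562.QM (MajA)
open Vale.Agent.P167.H562.MAJ (Sm)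
open Vale.Agent.P167.H562.SML (smf)
open Vale.Agent.P167.H208.ND (rng_ring range_i mass_lin)

section

variable {θ c M : ℝ} {D : Finset (ℤ × ℤ)} {th : Finset Ed → ℝ} {p : ℤ × ℤ} {m : ℕ}
  {Z : Fin m → Finset (ℤ × ℤ)} {K : Fin m → Set (ℤ × ℤ)} {d : Fin m → ℝ} {f : Fin m → ℤ × ℤ → ℝ}
  {E : ℤ × ℤ → ℝ} {ω : Cfg} {A : Finset Ed} {P : Finset Ed → Prop}

open Classical in
/-- (PW), the upper bound, for a part of the pieces which contains the small ones. -/
theorem sub_PW (h : Phs θ c D th) (hR : Rng D p Z K d) (hf : ∀ i z, f i z ≠ 0 → z ∈ K i)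
    (hsm : ∀ i ℓ, IsLoop ω ℓ → Small (d i) ℓ → |G (f i) ℓ| ≤ dw θ)
    (hH : ∀ A ∈ pcs ω D, (∃ i, Vz (Z i) A ∧ Small (d i) A) → mass D p E A = 0 ∧
      (¬ IsLp D A → mass D p (Ft (fun _ => 1) f E) A = 0))
    (hP : ∀ A ∈ pcs ω D, (∃ i, Vz (Z i) A ∧ Small (d i) A) → P A)
    {N : Fin m → ℕ} (hN : ∀ i, MajA (Z i) (d i) ω (N i)) (hM1 : 1 ≤ M) (hMc : c⁻¹ ≤ M) :
    |∏ A ∈ (pcs ω D).filter (fun A => P A ∧ ∃ i, Vz (Z i) A),
        wR (th A) (mass D p (Ft (fun _ => 1) f E) A)| ≤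
      ∏ i, M ^ (N i) * Real.exp (-(Real.tan θ * Sm (f i) (d i) ω)) := by
  set w : Finset Ed → ℝ := fun A => wR (th A) (mass D p (Ft (fun _ => 1) f E) A) with hw
  set vis := (pcs ω D).filter (fun A => P A ∧ ∃ i, Vz (Z i) A) with hvis
  have hsplit : ∏ A ∈ vis, w A =
      (∏ A ∈ vis.filter (fun A => ¬ ∃ i, Vz (Z i) A ∧ Small (d i) A), w A) *
      ∏ i, ∏ A ∈ snk (K i) (d i) D ω, wR θ (G (f i) A) := by
    rw [← prod_small h hR hf hH, ← Finset.prod_filter_mul_prod_filter_not vis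
      (fun A => ∃ i, Vz (Z i) A ∧ Small (d i) A), mul_comm]
    congr 1
    refine Finset.prod_congr ?_ fun _ _ => rfl
    rw [hvis, Finset.filter_filter]
    refine Finset.filter_congr fun A hA => ?_
    constructor
    · exact fun h1 => h1.2
    · exact fun h1 => ⟨⟨hP A hA h1, h1.imp fun i h2 => h2.1⟩, h1⟩
  set big := vis.filter (fun A => ¬ ∃ i, Vz (Z i) A ∧ Small (d i) A) with hbig
  have hcard : big.card ≤ ∑ i, N i := by
    have hsub : big ⊆ Finset.univ.biUnion fun i =>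
        (pcs ω D).filter (fun A => Vz (Z i) A ∧ ¬ Small (d i) A) := by
      intro A hA
      obtain ⟨h1, h2⟩ := Finset.mem_filter.1 hA
      obtain ⟨h3, -, i, h4⟩ := Finset.mem_filter.1 h1
      exact Finset.mem_biUnion.2 ⟨i, Finset.mem_univ i, Finset.mem_filter.2
        ⟨h3, h4, fun h5 => h2 ⟨i, h4, h5⟩⟩⟩
    refine (Finset.card_le_card hsub).trans (Finset.card_biUnion_le.trans ?_)
    refine Finset.sum_le_sum fun i _ => ?_
    refine hN i _ (fun γ hγ => isSeg_piece (Finset.mem_filter.1 hγ).1) ?_ ?_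
    · intro γ hγ γ' hγ' hne
      rw [Finset.disjoint_left]
      intro e he he'
      exact hne (eq_of_mem_pcs (Finset.mem_filter.1 hγ).1 (Finset.mem_filter.1 hγ').1 he he')
    · intro γ hγ
      obtain ⟨h1, h2, h3⟩ := Finset.mem_filter.1 hγ
      refine ⟨exists_vs (hR.sub i) h1 h2, ?_⟩
      unfold Small at h3
      push Not at h3
      obtain ⟨u, hu, v, hv, h4⟩ := h3
      obtain ⟨e1, he1, rfl⟩ := Finset.mem_image.1 hu
      obtain ⟨e2, he2, rfl⟩ := Finset.mem_image.1 hv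
      exact ⟨e1, he1, e2, he2, h4⟩
  have hspec : ∀ i, ∀ A ∈ snk (K i) (d i) D ω, |G (f i) A| ≤ dw θ := by
    intro i A hA
    have hpos := hR.pos i
    obtain ⟨-, h2, -, h3, -, -⟩ := snk_spec (hR.geo i) (by linarith) hA
    exact hsm i A h3 h2
  have hnn : ∀ i, 0 ≤ ∏ A ∈ snk (K i) (d i) D ω, wR θ (G (f i) A) := fun i =>
    Finset.prod_nonneg fun A hA => (wR_pos h.m0 h.m1 (hspec i A hA)).le
  rw [hsplit, abs_mul, abs_of_nonneg (Finset.prod_nonneg fun i _ => hnn i),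
    Finset.prod_mul_distrib, Finset.prod_pow_eq_pow_sum]
  refine mul_le_mul ?_ ?_ (Finset.prod_nonneg fun i _ => hnn i) (by positivity)
  · have h1 : |∏ A ∈ big, w A| ≤ M ^ big.card := prod_le_pow big fun A _ =>
      (abs_wR_le h.c0 (h.cs A) _).trans hMc
    exact h1.trans (pow_le_pow_right₀ hM1 hcard)
  · refine Finset.prod_le_prod (fun i _ => hnn i) fun i _ => ?_
    calc ∏ A ∈ snk (K i) (d i) D ω, wR θ (G (f i) A)
        ≤ ∏ A ∈ snk (K i) (d i) D ω, Real.exp (-(Real.tan θ * G (f i) A)) :=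
          Finset.prod_le_prod (fun A hA => (wR_pos h.m0 h.m1 (hspec i A hA)).le) fun A hA =>
            wR_le_exp h.m0 h.m1 (hspec i A hA)
      _ = Real.exp (-(Real.tan θ * Sm (f i) (d i) ω)) := by
          rw [← Real.exp_sum, Finset.sum_neg_distrib, ← Finset.mul_sum, (sum_Sm hR hf i).1]

end

variable {D Z : Finset (ℤ × ℤ)} {ω : Cfg} {n : ℕ} {q : ZMod n → ℤ × ℤ} {A : Finset Ed}
  {l k : ℕ} {θ : ℝ} {R : ℤ} {a : Fin 2 → ℤ} {M : ℝ} {f : Fin 2 → ℤ × ℤ → ℝ}

/-- A small piece which visits a ring does not visit a set off the window. -/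
theorem small_off (hF : Flt D (q l) R) (ha : Scl 4000 4 R a) {i : Fin 2} (hA : A ∈ pcs ω D)
    (hV : Vz (Zr (q l) (a i)) A) (hs : Small (kp * a i) A) (hZD : Z ⊆ D)
    (hZ : Disjoint Z (hbox (q l) R)) : ¬ Vz Z A := by
  intro hV'
  have ht := ha.top i
  have hp := ha.pos i
  have hsub : Zr (q l) (a i) ⊆ D := by
    refine Finset.sdiff_subset.trans fun v hv => ?_
    rw [mem_hbox] at hv
    exact (hF v (by omega) (by omega) (by omega) (by omega)).2 (by omega)
  obtain ⟨e, he, h1⟩ := exists_vs hsub hA hV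
  obtain ⟨e', he', h2⟩ := exists_vs hZD hA hV'
  have h3 := hs _ (Finset.mem_image_of_mem _ he) _ (Finset.mem_image_of_mem _ he')
  have h4 : hdv e' ∉ hbox (q l) R := fun h => Finset.disjoint_left.1 hZ h2 h
  have h5 : hdv e' ∈ D := hZD h2
  have h6 : 400 * nm (hdv e - hdv e') < a i := by
    rw [kp] at h3
    have h' : (((400 * nm (hdv e - hdv e') : ℤ)) : ℝ) < ((a i : ℤ) : ℝ) := by
      push_cast
      linarith
    exact_mod_cast h'
  obtain ⟨d, hd1, hd2⟩ : ∃ d : ℤ, 400 * d ≤ a i ∧ nm (hdv e - hdv e') ≤ d :=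
    ⟨nm (hdv e - hdv e'), h6.le, le_rfl⟩
  rw [nm, max_le_iff, abs_le, abs_le] at hd2
  simp only [Prod.fst_sub, Prod.snd_sub] at hd2
  unfold Zr at h1
  rw [Finset.mem_sdiff, mem_hbox, mem_hbox] at h1
  rw [mem_hbox] at h4
  have h7 := hF (hdv e') (by omega) (by omega) (by omega) (by omega)
  have h8 := h7.1 h5
  omega

section

variable (hw : Win q D l R) (ha : Scl 4000 4 R a) (hk : (l : ℤ) + R ≤ k) (hkn : k ≤ n)

include hw ha hk hkn in
open Classical in
/-- **The majorant of the far factor of the t-charges.** -/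
theorem xof_le (h1 : Ang θ) (hM : Md θ M) (hb : ∀ i, Bp2 (q l) (a i) (f i)) {N : Fin 2 → ℕ}
    (hN : ∀ i, MajA (Zr (q l) (a i)) (kp * a i) ω (N i)) (hZD : Z ⊆ D)
    (hZ : Disjoint Z (hbox (q l) R)) :
    |Xof θ q D k Z (Ft (tb θ) f 0) ω| ≤ ∏ i, Yu θ M (tb θ i) (f i) (a i) (N i) ω := by
  have hbp : ∀ i, Bp 1000 (q l) (a i) (f i) := fun i => (hb i).toBp
  have hfs : ∀ i z, f i z ≠ 0 → z ∈ Kr (q l) (a i) := fun i => (hbp i).supp
  have hf1 : ∀ i, ∑ᶠ z, f i z = 1 := fun i => (hb i).sum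
  have hM1 := hM.h1
  have e1 : Ft (fun _ => 1) (fun i z => tb θ i * f i z) 0 = Ft (tb θ) f 0 := by
    funext z
    simp [Ft]
  have key := sub_PW (P := fun A => ¬ Vz Z A) (phs_tb (D := D) (q := q) (k := k) h1 (gB_cos θ))
    (rng_ring hw ha) (f := fun i z => tb θ i * f i z) (E := 0)
    (fun i z hz => hfs i z (right_ne_zero_of_mul hz)) (ω := ω)
    (fun i ℓ hℓ hs => g_small h1.gt h1.lt (range_i hw ha i).1 (hbp i) hℓ hs)
    (fun A hA hv => ⟨mass_zero A, fun hl => ?_⟩)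
    (fun A hA ⟨i, hv, hs⟩ => small_off hw.flat ha hA hv hs hZD hZ) hN hM.h1 hM.cb
  · rw [e1] at key
    simp only [wR_thB (gB_cos θ)] at key
    have hX : Xof θ q D k Z (Ft (tb θ) f 0) ω =
        (∏ A ∈ (pcs ω D).filter (fun A => ¬ Vz Z A ∧ ∀ i, ¬ Vz (Zr (q l) (a i)) A),
          wB θ (gB θ) q D k A (mass D (q 0) (Ft (tb θ) f 0) A)) *
        ∏ A ∈ (pcs ω D).filter (fun A => ¬ Vz Z A ∧ ∃ i, Vz (Zr (q l) (a i)) A),
          wB θ (gB θ) q D k A (mass D (q 0) (Ft (tb θ) f 0) A) := by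
      unfold Xof
      rw [← prod_filter_mul_prod_filter_not ((pcs ω D).filter fun A => ¬ Vz Z A)
        (fun A => ∀ i, ¬ Vz (Zr (q l) (a i)) A), filter_filter, filter_filter]
      congr 1
      refine prod_congr ?_ fun _ _ => rfl
      refine filter_congr fun A _ => ?_
      push Not
      rfl
    have key2 : |∏ A ∈ (pcs ω D).filter (fun A => ¬ Vz Z A ∧ ∃ i, Vz (Zr (q l) (a i)) A),
        wB θ (gB θ) q D k A (mass D (q 0) (Ft (tb θ) f 0) A)| ≤
        ∏ i, Yu θ M (tb θ i) (f i) (a i) (N i) ω := by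
      unfold Yu
      refine le_trans (le_of_eq (congrArg _ ?_)) key
      refine prod_congr ?_ fun _ _ => rfl
      ext A
      simp only [mem_filter]
    rw [hX, abs_mul]
    have h01 : ∀ A ∈ (pcs ω D).filter (fun A => ¬ Vz Z A ∧ ∀ i, ¬ Vz (Zr (q l) (a i)) A),
        0 ≤ wB θ (gB θ) q D k A (mass D (q 0) (Ft (tb θ) f 0) A) ∧
          wB θ (gB θ) q D k A (mass D (q 0) (Ft (tb θ) f 0) A) ≤ 1 := by
      intro A hA
      rw [mem_filter] at hA
      exact av_01 hw ha hk hkn h1.gt h1.lt hfs hf1 hA.1 hA.2.2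
    rw [abs_of_nonneg (prod_nonneg fun A hA => (h01 A hA).1)]
    refine (mul_le_mul (prod_le_one (fun A hA => (h01 A hA).1) fun A hA => (h01 A hA).2) key2
      (abs_nonneg _) zero_le_one).trans ?_
    rw [one_mul]
  · obtain ⟨h2, h3⟩ := H135.ND.s_small n q D l R hw 2 a ha ω A hA hv
    rw [e1, mass_lin, mass_zero, add_zero]
    refine sum_eq_zero fun i _ => ?_
    have : mass D (q 0) (f i) A = 0 := by
      unfold mass
      refine sum_eq_zero fun z _ => ?_
      by_cases hz : f i z = 0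
      · rw [hz, ite_self]
      · rw [if_neg (h3 hl i z (hfs i z hz))]
    rw [this, mul_zero]

end

end Vale.Agent.P167.N.BT
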