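import Vale.Agent.P167.N.BT.BBlow
import Vale.Agent.P167.N.BT.BBup
import Vale.Agent.P167.N.BT.Xof
import Vale.Agent.P167.N.BT.JunS
import Vale.Agent.P167.H208.SH.PS2

/-!
# P167, `0 < q < 1`, block BT: **[BB]**

`s_BB_of` : `S_BB` from the comparison theorem `S_One` at one junction.
-/

set_option autoImplicit false

open Complex Set Filter Topology Metric MeasureTheory

namespace Vale.Agent.P167.N.BT

open Vale.Agent.P167 Vale.Agent.P167.BR Vale.Agent.P167.FK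
open Vale.Agent.P167.QT (Sh4 F4 F4_le)
open Vale.Agent.P167.BQ460 (eN ka md lb a2 num_a q_md q_zero)
open Vale.Agent.P167.CA (cms Dat)
open Vale.Agent.P167.H411.Q (fb rN rN_bd)
open Vale.Agent.P167.H208.SH (chp RotN)
open Vale.Agent.P167.H562.QM (NbP MajA)
open Vale.Agent.P167.H562.MAJ (core Sc)
open Vale.Agent.P167.QB (XG Bq' dq)
open Vale.Agent.P167.H519 (IsLim)
open Vale.Agent.P167.H718 (Dob)
open Vale.Agent.P167.H436.ND (FltO Ft Yu Zg Ex0 Scl kp Zr)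
open Vale.Agent.P167.FKA (Ind Loc)
open Vale.Agent.P167.E6 (pt)

variable {μ θ : ℝ} {P₀ : Measure Cfg}

/-- **One junction.** The bump `g` of mass `π - 2 θ` at the base junction; `V` depends only on `r`, `R` and `g`. -/
def S_One (θ : ℝ) (P₀ : Measure Cfg) : Prop := ∃ γ : ℝ, 0 < γ ∧ ∃ K₀ : ℝ, 1 ≤ K₀ ∧ ∀ K : ℝ, K₀ ≤ K →
  ∃ (C : ℝ) (r0 : ℤ), 1 ≤ C ∧ ∀ (r R : ℤ) (g : ℤ × ℤ → ℝ), r0 ≤ r → C * r ≤ R → Sc K r →
    Bq' (Real.pi - 2 * θ) K (0, 0) r g → ∃ V : ℝ, 0 < V ∧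
    V ≤ C * Real.exp (Real.tan θ * (Real.pi - 2 * θ) * NbP P₀ (dq K r)) ∧
    ∀ (n : ℕ) (q : ZMod n → ℤ × ℤ) (D : Finset (ℤ × ℤ)) (k : ℕ) (η : Cfg) (F : ℤ × ℤ → ℝ)
      (U : Cfg → ℝ), WJ q D k R → Even ((q 0).1 + (q 0).2) → Dob η D q k →
      FltO D η (q 0) R true false → (∀ z, F z ≠ 0 → z ∈ sites D) →
      ∑ᶠ z, F z = Real.pi - 2 * θ → FarJ q D k R F → (∀ ω, 0 ≤ U ω) → Ind (hbox (q 0) R) U →
      (∀ r' : ℤ, r' ≤ R → ∀ ω, |Xof θ q D k (hbox (q 0) r') F ω| ≤ U ω) →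
      |Ex (2 * Real.cos θ) D η (XG θ q D k fun z => F z - g (z - q 0)) -
        V * Ex (2 * Real.cos θ) D η (XG θ q D k F)| ≤
        C * ((r : ℝ) / R) ^ γ * (V * Ex (2 * Real.cos θ) D η U)

/-! ### The bump -/

/-- The base point on the lattice. -/
theorem bp_lat {P : Sh4} (h : P.Ok 2) {N : ℕ} (hN : 4 ∣ N) (hN0 : 0 < N) :
    (N : ℂ) * (Sh4.dat h).bp = pt (H825.Q.qS (Sh4.dat h) N 0) := by
  rw [q_zero h hN0, H872.Asm.bp_dat h]
  obtain ⟨M, hM⟩ := hN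
  have hN2 : N / 2 = 2 * M := by omega
  have g3 := h.l_lt
  rw [hN2, hM]
  apply Complex.ext
  · simp [pt]
    ring
  · simp [pt]

theorem qb_eq {P : Sh4} (h : P.Ok 2) {χp : ℂ → ℝ} {ρ : ℝ} {N : ℕ} (hN : 4 ∣ N) (hN0 : 0 < N)
    (z : ℤ × ℤ) : qb μ χp h ρ N z =
      (Real.pi - 2 * μ) * lb χp 0 ρ N (z - H825.Q.qS (Sh4.dat h) N 0) := by
  unfold qb lb
  rw [Vale.Agent.P167.N.H386.cms_shift χp Complex.I (c := (Sh4.dat h).bp) (c' := ((0 : ℤ) : ℂ)) ρ hN0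
    (a := H825.Q.qS (Sh4.dat h) N 0) (by rw [Int.cast_zero, sub_zero]; exact bp_lat h hN hN0) z]

/-- The bump is admissible. -/
theorem bump_ok {J : ℕ} {K : ℤ} (hJ : 0 < J) (hK : 1 ≤ K) {σ : ℝ} (hσ : 0 < σ) :
    ∃ K₀ : ℝ, 1 ≤ K₀ ∧ ∀ K' : ℝ, K₀ ≤ K' → ∃ r0 : ℝ, ∀ (N : ℕ) (ρ : ℝ), 0 < N → 0 < ρ →
      r0 ≤ N * ρ → Sc K' (rN N ρ) ∧
        Bq' σ K' (0, 0) (rN N ρ) (fun z => σ * lb (chp J K) 0 ρ N z) := by
  obtain ⟨K₀, hK₀, hb⟩ := H208.SH.bq_chp (θ := σ) hJ hK hσ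
  refine ⟨K₀, hK₀, fun K' hK' => ?_⟩
  obtain ⟨r0, hb⟩ := hb K' hK'
  have hrot : RotN H135.idM Complex.I := by
    intro z
    rw [show (H135.idM.t z) = z by simp [H135.idM, H135.tra, Prod.ext_iff]]
    rw [Complex.conj_I, mul_neg, Complex.I_mul_I, neg_neg, one_mul]
  refine ⟨max r0 (max 1 (8 * K')), fun N ρ hN hρ hr => ⟨⟨hK₀.trans hK', ?_⟩, ?_⟩⟩
  · have h1 : 1 ≤ (N : ℝ) * ρ := ((le_max_left _ _).trans (le_max_right _ _)).trans hr
    obtain ⟨a1, -⟩ := rN_bd h1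
    have h2 : 8 * K' ≤ (N : ℝ) * ρ := ((le_max_right _ _).trans (le_max_right _ _)).trans hr
    linarith
  · have key := hb H135.idM Complex.I 0 0 0 N ρ hrot (by simp) (by simp [pt]) hN hρ
      ((le_max_left _ _).trans hr)
    have e1 : H135.idM.t (0 : ℤ × ℤ) = (0, 0) := by simp [H135.idM, H135.tra]
    have e2 : H135.idM.F (H208.SH.Fp σ (chp J K) Complex.I 0 ρ N 0) =
        fun z => σ * lb (chp J K) 0 ρ N z := by
      funext z
      show H208.SH.Fp σ (chp J K) Complex.I 0 ρ N 0 (H135.idM.t.symm z) = _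
      have : H135.idM.t.symm z = z := by simp [H135.idM, H135.tra, Prod.ext_iff]
      rw [this]
      unfold H208.SH.Fp lb
      simp
    rw [e1, e2] at key
    exact key

/-! ### The majorant of the far factor -/

/-- The configuration `ω` in `D`, `η` outside. -/
def glu (D : Finset (ℤ × ℤ)) (η ω : Cfg) : Cfg := fun v => if v ∈ D then ω v else η v

theorem glu_in {D : Finset (ℤ × ℤ)} {η ω : Cfg} {v : ℤ × ℤ} (h : v ∈ D) : glu D η ω v = ω v := by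
  unfold glu
  rw [if_pos h]

theorem glu_out {D : Finset (ℤ × ℤ)} {η ω : Cfg} {v : ℤ × ℤ} (h : v ∉ D) : glu D η ω v = η v := by
  unfold glu
  rw [if_neg h]

theorem glu_cf (D : Finset (ℤ × ℤ)) (η : Cfg) (S : Finset (ℤ × ℤ)) :
    glu D η (cf D η S) = cf D η S := by
  funext v
  unfold glu cf
  split_ifs <;> rfl

theorem glu_congr {D : Finset (ℤ × ℤ)} {η ω ω' : Cfg} (h : ∀ v ∈ D, ω v = ω' v) :
    glu D η ω = glu D η ω' := by
  funext v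
  unfold glu
  split_ifs with hv
  · exact h v hv
  · rfl

theorem xof_congr {n : ℕ} {q : ZMod n → ℤ × ℤ} {D Z : Finset (ℤ × ℤ)} {k : ℕ} {F : ℤ × ℤ → ℝ}
    {ω ω' : Cfg} (h : ∀ v ∈ D, ω v = ω' v) : Xof θ q D k Z F ω = Xof θ q D k Z F ω' := by
  unfold Xof
  rw [pcs_congr h]

/-- **The majorant of the far factor in the shapes.** -/
theorem exists_U (h1 : Ang μ) (hY : S_Y2 μ P₀) (hw : S_winT) {Kc : ℤ} (hKc : 8 ≤ Kc) :
    ∃ C : ℝ, 0 < C ∧ ∀ (P : Sh4) (h : P.Ok 2) (η : ℝ), 0 < η → η ≤ 1 / 8 → ∀ᶠ N : ℕ in F4,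
      ∃ U : Cfg → ℝ, (∀ ω, 0 ≤ U ω) ∧ Loc ((Sh4.dat h).D N) U ∧
        Ind (hbox (H825.Q.qS (Sh4.dat h) N 0) ((N / 2 : ℕ) : ℤ)) U ∧
        (∀ r' : ℤ, r' ≤ ((N / 2 : ℕ) : ℤ) → ∀ ω, |Xof μ (H825.Q.qS (Sh4.dat h) N) ((Sh4.dat h).D N)
          (ka P N) (hbox (H825.Q.qS (Sh4.dat h) N 0) r') (qd μ (chq Kc) η N) ω| ≤ U ω) ∧
        Ex (2 * Real.cos μ) ((Sh4.dat h).D N) (eN h N) U ≤
          C * Real.exp (-(Ex0 μ P₀ (tb μ) (a2 Kc η N))) ∧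
        (∀ z, qd μ (chq Kc) η N z ≠ 0 → z ∈ sites ((Sh4.dat h).D N)) ∧
        ∀ R : ℤ, 1 ≤ R → R < ((N / 2 : ℕ) : ℤ) → FarJ (H825.Q.qS (Sh4.dat h) N)
          ((Sh4.dat h).D N) (ka P N) R (qd μ (chq Kc) η N) := by
  have hpi := Real.pi_pos
  have hcos := h1.kit.pos
  obtain ⟨M, hM⟩ := exists_md h1.gt h1.lt
  obtain ⟨C, a₀, hC, HU⟩ := ring_U hcos hY hM.h1
  have hKr : (8 : ℝ) ≤ Kc := by exact_mod_cast hKc
  refine ⟨C, hC, fun P h η hη hη8 => ?_⟩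
  have h2 : Tendsto (fun n : ℕ => η / Kc * (n : ℝ)) atTop atTop :=
    Tendsto.const_mul_atTop (by positivity) tendsto_natCast_atTop_atTop
  have h4 : ∀ᶠ N : ℕ in F4, 4 ∣ N := by
    have h4 : F4 ≤ 𝓟 {n | 4 ∣ n} := inf_le_right
    exact h4 (mem_principal.2 fun n hn => hn)
  filter_upwards [h4, F4_le (h2.eventually_ge_atTop 100),
    F4_le (h2.eventually_ge_atTop (4 * |((max a₀ 4000 : ℤ) : ℝ)|)),
    F4_le (bp2_lb (show 0 < η / Kc by positivity)), F4_le (bp2_lb hη),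
    F4_le (eventually_ge_atTop 8)] with N hN4 k1 k2 hb0 hb1 hN8
  have hN0 : 0 < N := by omega
  obtain ⟨m1, m2, m3, m4, m5, m6, m7, m8⟩ := num_a (max a₀ 4000) hKc k2 k1
  have hb := fun i => bp2_g2 hb0 hb1 i
  obtain ⟨a, ha⟩ : ∃ a, a = a2 Kc η N := ⟨_, rfl⟩
  obtain ⟨f, hf⟩ : ∃ f, f = g2 Kc η N := ⟨_, rfl⟩
  obtain ⟨q, hq⟩ : ∃ q, q = H825.Q.qS (Sh4.dat h) N := ⟨_, rfl⟩
  obtain ⟨D, hD⟩ : ∃ D, D = (Sh4.dat h).D N := ⟨_, rfl⟩
  have hqd : qd μ (chq Kc) η N = Ft (tb μ) f 0 := by rw [hf, Ft_g2 (by omega) hη]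
  have hW := hw P h N hN4 (by omega)
  have hmd := q_md h hN0
  have hq0 := q_zero h hN0
  have hsupp : ∀ z, qd μ (chq Kc) η N z ≠ 0 → z ∈ sites (hbox (0, 0) (4 * a2 Kc η N 1)) :=
    fun z hz => qd_supp (by omega) hη hb m4 (by omega) hz
  rw [← ha] at m1 m2 m3 m4 m5 m8 hb hsupp ⊢
  rw [← hf] at hb
  rw [← hq, ← hD] at hW
  rw [← hq] at hmd hq0 ⊢
  rw [← hD]
  have hNr : (8 : ℝ) ≤ N := by exact_mod_cast hN8
  have hR2 : (((N / 2 : ℕ) : ℤ) : ℝ) = N / 2 := by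
    obtain ⟨x, hx⟩ := hN4
    have : N / 2 = 2 * x := by omega
    rw [this, hx]
    push_cast
    ring
  have ha8 : 8 * a 1 ≤ ((N / 2 : ℕ) : ℤ) := by
    have : 8 * (a 1 : ℝ) ≤ (((N / 2 : ℕ) : ℤ) : ℝ) := by
      rw [hR2]
      have : η * N ≤ 1 / 8 * N := mul_le_mul_of_nonneg_right hη8 (by linarith)
      linarith
    exact_mod_cast this
  have ha4 : 4000 ≤ a 0 := (le_max_right _ _).trans m1
  have ha0 : a₀ ≤ a 0 := (le_max_left _ _).trans m1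
  have hga : 8 * a 0 ≤ a 1 := by nlinarith
  have hge : ∀ i, a 0 ≤ a i ∧ a i ≤ a 1 := by
    intro i
    fin_cases i <;> simp only [Fin.zero_eta, Fin.mk_one] <;> omega
  have hScl : Scl 4000 4 ((N / 2 : ℕ) : ℤ) a := scl_of_r2 ⟨ha4, hga, ha8⟩
  obtain ⟨Nn, hN1, hN2⟩ := HU (0, 0) a fun i => ha0.trans (hge i).1
  have hwin := hW.win
  have hflt0 : Flt D (0, 0) ((N / 2 : ℕ) : ℤ) := by
    have := hwin.flat
    rwa [hmd] at this
  have hflo0 : FltO D (eN h N) (0, 0) ((N / 2 : ℕ) : ℤ) false false := by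
    have := hW.flt
    rwa [hmd] at this
  have hb' : ∀ i, Bp2 (q (md P N : ZMod _)) (a i) (f i) := by rw [hmd]; exact hb
  have hRs : Rs2 a ((N / 2 : ℕ) : ℤ) ((N / 2 : ℕ) : ℤ) := ⟨by omega, hga, ha8, le_rfl⟩
  have hlt := h1.lt
  have hgt := h1.gt
  obtain ⟨g1, g2⟩ := hN2 D (eN h N) ((N / 2 : ℕ) : ℤ) hflt0 hflo0
    (fun i => by have := (hge i).2; omega) (zones_disj hRs) (fun i => by have := hge i; omega) f
    (fun i => (hb i).toBp) (tb μ) (fun i => by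
      unfold tb
      rw [abs_of_pos (by linarith)]
      have := Real.pi_lt_d2
      linarith)
  have hdis : ∀ R : ℤ, R ≤ ((N / 2 : ℕ) : ℤ) → Disjoint (hbox (q 0) R)
      (hbox (0, 0) ((N / 2 : ℕ) : ℤ)) := by
    intro R hR
    have := disj_base h hN0 hR le_rfl
    rwa [← hq, hmd] at this
  have hfb : Flt D (q 0) ((N / 2 : ℕ) : ℤ) := by
    have := flt_base h hN4 (by omega)
    rwa [← hq, ← hD] at this
  have hM0 : 0 ≤ M := zero_le_one.trans hM.h1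
  refine ⟨fun ω => ∏ i, Yu μ M (tb μ i) (f i) (a i) (Nn i (glu D (eN h N) ω)) (glu D (eN h N) ω),
    fun ω => Finset.prod_nonneg fun i _ => H452.BE.Yu_nonneg hM0 _ _ _ _, fun ω ω' hω => ?_,
    fun ω ω' hω => ?_, fun r' hr' ω => ?_, ?_, fun z hz => ?_, fun R hR1 hR2' => ?_⟩
  · simp only [glu_congr (η := eN h N) hω]
  · refine Finset.prod_congr rfl fun i _ => ?_
    refine g1 i _ _ (fun v hv => ?_) fun v hv => ?_
    · have hv0 : v ∈ hbox (0, 0) ((N / 2 : ℕ) : ℤ) := by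
        rw [H436.ND.mem_Zg] at hv
        rw [mem_hbox]
        have := (hge i).2
        simp only at hv ⊢
        omega
      have hvD : v ∈ D := hbox_sub hflt0 hv0
      rw [glu_in hvD, glu_in hvD]
      exact hω v fun hv' => Finset.disjoint_left.1 (hdis _ le_rfl) hv' hv0
    · rw [glu_out hv, glu_out hv]
  · rw [hqd, xof_congr (ω' := glu D (eN h N) ω) fun v hv => (glu_in hv).symm]
    have hZD : hbox (q 0) r' ⊆ D := (hbox_mono hr').trans (hbox_sub hfb)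
    exact xof_le hwin hScl hW.lR hW.kn h1 hM hb' (fun i => by rw [hmd]; exact hN1 i _) hZD
      (by rw [hmd]; exact hdis _ hr')
  · refine le_trans (le_of_eq ?_) g2
    refine FKA.Ex_congr fun S _ => ?_
    simp only [glu_cf]
  · exact sites_mono ((hbox_mono (by omega)).trans (hbox_sub hflt0)) (hsupp z hz)
  · have hWJ := wj_shape h hN4 (by omega) hR1 hR2'
    rw [← hq, ← hD] at hWJ
    have hlR := hW.lR
    have hkn := hW.kn
    refine farJ_zone hWJ (Z := hbox (0, 0) (4 * a 1)) ((hbox_mono (by omega)).trans (hbox_sub hflt0))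
      (econ_hbox (by omega)) ?_ (i := md P N) ?_ ?_ ?_ hsupp
    · have := (hdis R hR2'.le).symm
      exact Finset.disjoint_of_subset_left (hbox_mono (by omega)) this
    · have := (flat_range hwin.poly hwin.enc hwin.flat (by omega) hwin.l1 hwin.off).1
      omega
    · have := (flat_range hwin.poly hwin.enc hwin.flat (by omega) hwin.l1 hwin.off).2
      omega
    · rw [hmd, mem_sites_hbox (by omega)]
      simp only
      omega

end Vale.Agent.P167.N.BT
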