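import Vale.Agent.P167.N.BT.BB

/-!
# P167, `0 < q < 1`, block BT: **[BB]**, the assembly
-/

set_option autoImplicit false

open Complex Set Filter Topology Metric MeasureTheory

namespace Vale.Agent.P167.N.BT

open Vale.Agent.P167 Vale.Agent.P167.BR Vale.Agent.P167.FK
open Vale.Agent.P167.QT (Sh4 F4 F4_le)
open Vale.Agent.P167.BQ460 (eN ka md lb a2 num_a q_md q_zero)
open Vale.Agent.P167.H411.Q (rN rN_bd)
open Vale.Agent.P167.H208.SH (chp)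
open Vale.Agent.P167.H562.QM (NbP)
open Vale.Agent.P167.H562.MAJ (Sc)
open Vale.Agent.P167.QB (XG Bq' dq)
open Vale.Agent.P167.H519 (IsLim)
open Vale.Agent.P167.H718 (Dob)
open Vale.Agent.P167.H436.ND (FltO Ex0)
open Vale.Agent.P167.FKA (Ind Loc)

variable {μ θ : ℝ} {P₀ : Measure Cfg}

/-- The arithmetic of the end. -/
theorem fin_BB {X1 X0 A V EU κ ε B : ℝ} (hV : 0 < V) (hA : X0 ≤ A)
    (h1 : |X1 - V * X0| ≤ κ * (V * EU)) (h2 : V * EU ≤ B * X1) (hκ0 : 0 ≤ κ) (hX1 : 0 < X1)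
    (hκ1 : κ * B ≤ 1 / 2) (hκ2 : κ * B ≤ ε / 2) (hε : 0 < ε) : |X1 - V * X0| ≤ ε * (V * A) := by
  have h3 : |X1 - V * X0| ≤ κ * B * X1 := by
    refine h1.trans ?_
    calc κ * (V * EU) ≤ κ * (B * X1) := mul_le_mul_of_nonneg_left h2 hκ0
      _ = κ * B * X1 := by ring
  have h4 : κ * B * X1 ≤ 1 / 2 * X1 := mul_le_mul_of_nonneg_right hκ1 hX1.le
  have h5 : κ * B * X1 ≤ ε / 2 * X1 := mul_le_mul_of_nonneg_right hκ2 hX1.le
  have h6 := abs_le.1 (h3.trans h4)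
  have h7 : V * X0 ≤ V * A := mul_le_mul_of_nonneg_left hA hV.le
  have h8 : X1 ≤ 2 * (V * A) := by linarith [h6.2]
  calc |X1 - V * X0| ≤ ε / 2 * X1 := h3.trans h5
    _ ≤ ε / 2 * (2 * (V * A)) := mul_le_mul_of_nonneg_left h8 (by positivity)
    _ = ε * (V * A) := by ring

/-- Small radii. -/
theorem small_BB {γ C B x : ℝ} (hγ : 0 < γ) (hx : 0 < x) : ∃ δ : ℝ, 0 < δ ∧
    ∀ ρ : ℝ, 0 < ρ → ρ ≤ δ → C * (12 * ρ) ^ γ * B ≤ x := by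
  have h2 : Tendsto (fun x : ℝ => C * (12 * x) ^ γ * B) (𝓝 0) (𝓝 (C * (12 * (0 : ℝ)) ^ γ * B)) := by
    refine ((Tendsto.const_mul C ?_).mul_const B)
    have h3 : Tendsto (fun x : ℝ => 12 * x) (𝓝 0) (𝓝 (12 * (0 : ℝ))) :=
      Tendsto.const_mul 12 tendsto_id
    exact (Real.continuousAt_rpow_const _ γ (Or.inr hγ.le)).tendsto.comp h3
  rw [mul_zero, Real.zero_rpow hγ.ne', mul_zero, zero_mul] at h2
  have h3 := h2.eventually (gt_mem_nhds hx)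
  obtain ⟨δ, hδ, h4⟩ := Metric.eventually_nhds_iff.1 h3
  refine ⟨δ / 2, by positivity, fun ρ hρ hρδ => (h4 ?_).le⟩
  rw [Real.dist_eq, sub_zero, abs_of_pos hρ]
  linarith

/-- **[BB]** from the comparison at one junction. -/
theorem s_BB_of (h1 : Ang μ) (I : Vale.Agent.P167.N.H872.Asm.In2 μ h1.pos h1)
    (hP : IsLim (2 * Real.cos μ) P₀) (hY : S_Y2 μ P₀) (hO : S_One μ P₀) (hw : S_winT) :
    ∃ χp : ℂ → ℝ, (∀ χ : ℂ → ℝ, Vale.Agent.P167.H411.B7.Shp Complex.I χ → S_IdP μ χp χ) ∧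
      ∀ Kc : ℤ, 8 ≤ Kc → S_BB μ χp (chq Kc) := by
  obtain ⟨J, hJ, HL⟩ := low_VT h1 I hP
  obtain ⟨K, hK, HL⟩ := HL J le_rfl
  obtain ⟨hs, HI, HL⟩ := HL K le_rfl
  refine ⟨chp J K, HI, fun Kc hKc => ?_⟩
  have hpi := Real.pi_pos
  have hlt := h1.lt
  have hcos := h1.kit.pos
  have hσ : 0 < Real.pi - 2 * μ := by linarith
  have htan : 0 < Real.tan μ := Real.tan_pos_of_pos_of_lt_pi_div_two h1.pos hlt
  obtain ⟨K₁, hK₁, HL⟩ := HL (chq Kc) (shp_chq (by omega))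
  obtain ⟨γ, hγ, K₂, hK₂, HO⟩ := hO
  obtain ⟨K₃, hK₃, Hb⟩ := bump_ok (J := J) (K := K) hJ (by omega) hσ
  obtain ⟨K', hK'⟩ : ∃ K', K' = max K₁ (max K₂ K₃) := ⟨_, rfl⟩
  have e1 : K₁ ≤ K' := by rw [hK']; exact le_max_left _ _
  have e2 : K₂ ≤ K' := by rw [hK']; exact (le_max_left _ _).trans (le_max_right _ _)
  have e3 : K₃ ≤ K' := by rw [hK']; exact (le_max_right _ _).trans (le_max_right _ _)
  obtain ⟨C, r0, hC, HO⟩ := HO K' e2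
  obtain ⟨rb, Hb⟩ := Hb K' e3
  obtain ⟨CU, hCU, HU⟩ := exists_U h1 hY hw hKc
  have HL := HL K' e1
  -- the constant
  have hτ : ∃ τ : ℝ → ℕ → ℝ, (∀ ρ N, 0 < τ ρ N) ∧ ∀ (ρ : ℝ) (N : ℕ), r0 ≤ rN N ρ →
      C * rN N ρ ≤ ((N / 4 : ℕ) : ℤ) → Sc K' (rN N ρ) →
      Bq' (Real.pi - 2 * μ) K' (0, 0) (rN N ρ)
        (fun z => (Real.pi - 2 * μ) * lb (chp J K) 0 ρ N z) →
      τ ρ N ≤ C * Real.exp (Real.tan μ * (Real.pi - 2 * μ) * NbP P₀ (dq K' (rN N ρ))) ∧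
      ∀ (n : ℕ) (q : ZMod n → ℤ × ℤ) (D : Finset (ℤ × ℤ)) (k : ℕ) (η : Cfg) (F : ℤ × ℤ → ℝ)
        (U : Cfg → ℝ), WJ q D k ((N / 4 : ℕ) : ℤ) → Even ((q 0).1 + (q 0).2) → Dob η D q k →
        FltO D η (q 0) ((N / 4 : ℕ) : ℤ) true false → (∀ z, F z ≠ 0 → z ∈ sites D) →
        ∑ᶠ z, F z = Real.pi - 2 * μ → FarJ q D k ((N / 4 : ℕ) : ℤ) F → (∀ ω, 0 ≤ U ω) →
        Ind (hbox (q 0) ((N / 4 : ℕ) : ℤ)) U →
        (∀ r' : ℤ, r' ≤ ((N / 4 : ℕ) : ℤ) → ∀ ω, |Xof μ q D k (hbox (q 0) r') F ω| ≤ U ω) →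
        |Ex (2 * Real.cos μ) D η (XG μ q D k fun z => F z -
            (Real.pi - 2 * μ) * lb (chp J K) 0 ρ N (z - q 0)) -
          τ ρ N * Ex (2 * Real.cos μ) D η (XG μ q D k F)| ≤
          C * ((rN N ρ : ℝ) / ((N / 4 : ℕ) : ℤ)) ^ γ *
            (τ ρ N * Ex (2 * Real.cos μ) D η U) := by
    have key : ∀ (ρ : ℝ) (N : ℕ), ∃ V : ℝ, 0 < V ∧ (r0 ≤ rN N ρ →
      C * rN N ρ ≤ ((N / 4 : ℕ) : ℤ) → Sc K' (rN N ρ) →
      Bq' (Real.pi - 2 * μ) K' (0, 0) (rN N ρ)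
        (fun z => (Real.pi - 2 * μ) * lb (chp J K) 0 ρ N z) →
      V ≤ C * Real.exp (Real.tan μ * (Real.pi - 2 * μ) * NbP P₀ (dq K' (rN N ρ))) ∧
      ∀ (n : ℕ) (q : ZMod n → ℤ × ℤ) (D : Finset (ℤ × ℤ)) (k : ℕ) (η : Cfg) (F : ℤ × ℤ → ℝ)
        (U : Cfg → ℝ), WJ q D k ((N / 4 : ℕ) : ℤ) → Even ((q 0).1 + (q 0).2) → Dob η D q k →
        FltO D η (q 0) ((N / 4 : ℕ) : ℤ) true false → (∀ z, F z ≠ 0 → z ∈ sites D) →
        ∑ᶠ z, F z = Real.pi - 2 * μ → FarJ q D k ((N / 4 : ℕ) : ℤ) F → (∀ ω, 0 ≤ U ω) →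
        Ind (hbox (q 0) ((N / 4 : ℕ) : ℤ)) U →
        (∀ r' : ℤ, r' ≤ ((N / 4 : ℕ) : ℤ) → ∀ ω, |Xof μ q D k (hbox (q 0) r') F ω| ≤ U ω) →
        |Ex (2 * Real.cos μ) D η (XG μ q D k fun z => F z -
            (Real.pi - 2 * μ) * lb (chp J K) 0 ρ N (z - q 0)) -
          V * Ex (2 * Real.cos μ) D η (XG μ q D k F)| ≤
          C * ((rN N ρ : ℝ) / ((N / 4 : ℕ) : ℤ)) ^ γ * (V * Ex (2 * Real.cos μ) D η U)) := by
      intro ρ N
      by_cases hh : r0 ≤ rN N ρ ∧ C * rN N ρ ≤ ((N / 4 : ℕ) : ℤ) ∧ Sc K' (rN N ρ) ∧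
        Bq' (Real.pi - 2 * μ) K' (0, 0) (rN N ρ)
          (fun z => (Real.pi - 2 * μ) * lb (chp J K) 0 ρ N z)
      · obtain ⟨V, hV, H⟩ := HO _ _ _ hh.1 hh.2.1 hh.2.2.1 hh.2.2.2
        exact ⟨V, hV, fun _ _ _ _ => H⟩
      · exact ⟨1, one_pos, fun a b c d => absurd ⟨a, b, c, d⟩ hh⟩
    choose τ hτ1 hτ2 using key
    exact ⟨τ, hτ1, hτ2⟩
  obtain ⟨τ, hτ0, hτ⟩ := hτ
  refine ⟨τ, hτ0, fun P h u v hp => ?_⟩
  obtain ⟨δ₁, hδ₁, HL⟩ := HL P h u v hp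
  refine ⟨min δ₁ (1 / 8), by positivity, fun η hη hηδ ε hε => ?_⟩
  obtain ⟨c, hc, HL⟩ := HL η hη (hηδ.trans (min_le_left _ _))
  obtain ⟨CE, hCE, HE⟩ := ex0_ge h1 hP hKc (hK₁.trans e1) hη
  obtain ⟨B, hB⟩ : ∃ B, B = C * (CU * Real.exp CE) / c := ⟨_, rfl⟩
  have hB0 : 0 < B := by
    rw [hB]
    have : 0 < C := by linarith
    positivity
  obtain ⟨δ₂, hδ₂, HS⟩ := small_BB (γ := γ) (C := C) (B := B) (x := min (1 / 2) (ε / 2)) hγ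
    (by positivity)
  have hC0 : 0 < C := by linarith
  refine ⟨min (min δ₁ δ₂) (1 / (12 * C)), by positivity, fun ρ hρ hρδ => ?_⟩
  have ρ1 : ρ ≤ δ₁ := hρδ.trans ((min_le_left _ _).trans (min_le_left _ _))
  have ρ2 : ρ ≤ δ₂ := hρδ.trans ((min_le_left _ _).trans (min_le_right _ _))
  have ρ3 : ρ ≤ 1 / (12 * C) := hρδ.trans (min_le_right _ _)
  have h4 : ∀ᶠ N : ℕ in F4, 4 ∣ N := by
    have h4 : F4 ≤ 𝓟 {n | 4 ∣ n} := inf_le_right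
    exact h4 (mem_principal.2 fun n hn => hn)
  have hlim : Tendsto (fun n : ℕ => (n : ℝ) * ρ) atTop atTop :=
    tendsto_natCast_atTop_atTop.atTop_mul_const hρ
  filter_upwards [HL ρ hρ ρ1, F4_le HE, HU P h η hη (hηδ.trans (min_le_right _ _)), h4,
    F4_le (hlim.eventually_ge_atTop rb), F4_le (hlim.eventually_ge_atTop r0),
    F4_le (hlim.eventually_ge_atTop 1), F4_le (eventually_ge_atTop 16)] with N hL hE hU hN4 n1 n2 n3
    hN16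
  have hN0 : 0 < N := by omega
  obtain ⟨U, u1, u2, u3, u4, u5, u6, u7⟩ := hU
  obtain ⟨b1, b2⟩ := rN_bd n3
  obtain ⟨s1, s2⟩ := Hb N ρ hN0 hρ n1
  have hr0 : r0 ≤ rN N ρ := by
    have : (r0 : ℝ) ≤ rN N ρ := by linarith
    exact_mod_cast this
  -- the radius
  obtain ⟨x, hx⟩ := hN4
  have hx4 : 4 ≤ x := by omega
  have hR : ((N / 2 : ℕ) : ℤ) = 2 * x := by
    have : N / 2 = 2 * x := by omega
    rw [this]; push_cast; rfl
  have hNx : (N : ℝ) = 4 * x := by rw [hx]; push_cast; ring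
  have hN4' : 4 ∣ N := ⟨x, hx⟩
  obtain ⟨d1, d2⟩ := base_shape h hN4' (by omega) (R := (x : ℤ) + 1) (by omega) (by rw [hR]; omega)
  have exb := fun {F : Cfg → ℝ} (hF : Loc ((Sh4.dat h).D N) F) => ex_base h hN4' (by omega)
    (R := (x : ℤ) + 1) (by omega) (by rw [hR]; omega) hcos hF
  rw [add_sub_cancel_right] at d1 d2 exb
  have hWJ := wj_shape h hN4' (by omega) (R := (x : ℤ)) (by omega) (by rw [hR]; omega)
  have hCr : C * rN N ρ ≤ ((x : ℤ) : ℝ) := by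
    have h5 : (rN N ρ : ℝ) ≤ 3 * (N * ρ) := by linarith
    have h6 : ρ * (12 * C) ≤ 1 := by
      rwa [le_div_iff₀ (by positivity)] at ρ3
    calc C * (rN N ρ : ℝ) ≤ C * (3 * (N * ρ)) := mul_le_mul_of_nonneg_left h5 hC0.le
      _ = ρ * (12 * C) * (N / 4) := by ring
      _ ≤ 1 * (N / 4) := mul_le_mul_of_nonneg_right h6 (by positivity)
      _ = ((x : ℤ) : ℝ) := by rw [hNx]; push_cast; ring
  have hNq : ((N / 4 : ℕ) : ℤ) = (x : ℤ) := by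
    have : N / 4 = x := by omega
    rw [this]
  obtain ⟨t1, t2⟩ := hτ ρ N hr0 (by rw [hNq]; exact hCr) s1 s2
  rw [hNq] at t2
  have key := t2 _ (H825.Q.qS (Sh4.dat h) N) ((Sh4.dat h).D N) (ka P N) _ (qd μ (chq Kc) η N) U
    hWJ (even_base h hN4' (by omega)) d1 d2 u6 (qd_sum (by omega) hη hN0)
    (u7 x (by omega) (by rw [hR]; omega)) u1
    (fun ω ω' hω => u3 ω ω' fun v hv => hω v fun hv' => hv (hbox_mono (by rw [hR]; omega) hv'))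
    (fun r' hr' ω => u4 r' (by rw [hR]; omega) ω)
  rw [← exb (H436.ND.loc_XG _ _ _ _ _), ← exb (H436.ND.loc_XG _ _ _ _ _), ← exb u2] at key
  have e4 : (fun z => qd μ (chq Kc) η N z - (Real.pi - 2 * μ) * lb (chp J K) 0 ρ N
      (z - H825.Q.qS (Sh4.dat h) N 0)) = fun z => qd μ (chq Kc) η N z - qb μ (chp J K) h ρ N z := by
    funext z
    rw [qb_eq h hN4' hN0]
  rw [e4] at key
  have hx0 : (0 : ℝ) < x := by exact_mod_cast (by omega : 0 < x)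
  have hrx : ((rN N ρ : ℝ) / ((x : ℤ) : ℝ)) ≤ 12 * ρ := by
    rw [div_le_iff₀ (by exact_mod_cast (by omega : 0 < x))]
    have h5 : (rN N ρ : ℝ) ≤ 3 * (N * ρ) := by linarith
    refine h5.trans (le_of_eq ?_)
    rw [hNx]
    push_cast
    ring
  have hrpow : ((rN N ρ : ℝ) / ((x : ℤ) : ℝ)) ^ γ ≤ (12 * ρ) ^ γ :=
    Real.rpow_le_rpow (div_nonneg (by linarith) (by positivity)) hrx hγ.le
  have hEU : 0 ≤ Ex (2 * Real.cos μ) ((Sh4.dat h).D N) (eN h N) U :=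
    FKA.Ex_nonneg hcos fun S _ => u1 _
  -- the comparison of `V E U` and the functional
  have hVU : τ ρ N * Ex (2 * Real.cos μ) ((Sh4.dat h).D N) (eN h N) U ≤
      B * VT μ h N (fun z => qd μ (chq Kc) η N z - qb μ (chp J K) h ρ N z) := by
    have f1 : Real.exp (-(Ex0 μ P₀ (tb μ) (a2 Kc η N))) ≤ Real.exp CE *
        Real.exp (-(Real.tan μ * (Real.pi - 2 * μ) * NbP P₀ (dq K' (rN N η)))) := by
      rw [← Real.exp_add]
      exact Real.exp_le_exp.2 (by linarith)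
    have f2 := u5.trans (mul_le_mul_of_nonneg_left f1 hCU.le)
    have f3 := mul_le_mul t1 f2 hEU (by positivity)
    refine f3.trans ?_
    have f4 := mul_le_mul_of_nonneg_left hL hB0.le
    refine le_trans (le_of_eq ?_) f4
    have e5 : ∀ s x y : ℝ, Real.exp (s * (x - y)) = Real.exp (s * x) * Real.exp (-(s * y)) := by
      intro s x y
      rw [← Real.exp_add]
      congr 1
      ring
    rw [hB, e5]
    generalize Real.exp (-(Real.tan μ * (Real.pi - 2 * μ) * NbP P₀ (dq K' (rN N η)))) = y1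
    generalize Real.exp (Real.tan μ * (Real.pi - 2 * μ) * NbP P₀ (dq K' (rN N ρ))) = y2
    field_simp
  have hX1 : 0 < VT μ h N (fun z => qd μ (chq Kc) η N z - qb μ (chp J K) h ρ N z) :=
    lt_of_lt_of_le (by positivity) hL
  refine fin_BB (κ := C * (12 * ρ) ^ γ) (hτ0 ρ N) ?_ ?_ hVU (by positivity) hX1
    ((HS ρ hρ ρ2).trans (min_le_left _ _)) ((HS ρ hρ ρ2).trans (min_le_right _ _)) hε
  · exact FKA.Ex_mono hcos fun S _ => le_abs_self _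
  · refine key.trans ?_
    exact mul_le_mul_of_nonneg_right (mul_le_mul_of_nonneg_left hrpow hC0.le)
      (mul_nonneg (hτ0 ρ N).le hEU)

end Vale.Agent.P167.N.BT
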