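import Vale.Agent.P167.N.BT.IdP
import Vale.Agent.P167.N.H411.Q.Zn
import Vale.Agent.P167.N.KitQ

/-!
# P167, `0 < q < 1`, block BT: lower bound of the functional with the two charges

`low_VT` : the functional of the shape with the charge `π - 2 μ` at `d` and `- (π - 2 μ)` at the base point is at least
`c exp (tan μ (π - 2 μ) (B (ρ) - B (η)))`, with the exponents `B` of the small loops at the two scales.
-/

set_option autoImplicit false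

open Complex Set Filter Topology Metric MeasureTheory

namespace Vale.Agent.P167.N.BT

open Vale.Agent.P167 Vale.Agent.P167.BR Vale.Agent.P167.FK
open Vale.Agent.P167.QT (Sh4 F4 F4_le)
open Vale.Agent.P167.CA (Dat)
open Vale.Agent.P167.H411.Q (bpt nrm zN rN Evl Okl Mxl Wl tW exists_mxl PSide qw)
open Vale.Agent.P167.H411.B7 (JJ)
open Vale.Agent.P167.N.H411.Q (zN_bds kbp)
open Vale.Agent.P167.H208.SH (chp Gd WS)
open Vale.Agent.P167.H562.QM (NbP)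
open Vale.Agent.P167.QB (Nf dq)
open Vale.Agent.P167.H519 (IsLim)
open Vale.Agent.P167.N.H386 (PSideU HasB tU tU_pos exists_far tW_spec pos_of_mul SameB trv trv_self psideUF)

variable {μ θ : ℝ} {P₀ : Measure Cfg}

/-- Two-sided bounds of the universal normalisation. -/
theorem tU_bd {χp : ℂ → ℝ} (hU : PSideU θ P₀ χp) {tp : ℝ} {r : Fin 4} {νp : ℂ} (hB : HasB tp r νp)
    (w : Bool) : ∃ K₀ : ℝ, 1 ≤ K₀ ∧ ∀ K : ℝ, K₀ ≤ K → ∃ c C δ : ℝ, 0 < c ∧ 0 < C ∧ 0 < δ ∧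
      ∀ ρ : ℝ, 0 < ρ → ρ ≤ δ → ∀ᶠ n : ℕ in atTop,
        c ≤ tU θ χp tp r νp w ρ n * Nf θ K P₀ (rN n ρ) ∧
        tU θ χp tp r νp w ρ n * Nf θ K P₀ (rN n ρ) ≤ C := by
  have e : tU θ χp tp r νp w = tW θ (Classical.choose hB) w χp νp := by
    unfold tU
    rw [dif_pos hB]
  obtain ⟨S, hS⟩ : ∃ S, S = Classical.choose hB := ⟨_, rfl⟩
  obtain ⟨a1, a2, rp, hF⟩ := Classical.choose_spec hB
  rw [e]
  rw [← hS] at a1 a2 hF ⊢
  obtain ⟨α, hα, K₀, hK₀, h⟩ := hU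
  refine ⟨K₀, hK₀, fun K hK => ?_⟩
  obtain ⟨-, c, C, τ, hc, hC, hτ, h⟩ := h K hK
  obtain ⟨r₁, hr₁, hex₁⟩ := exists_far S w
  have hm0 : 0 < min (min rp rp) r₁ := lt_min (lt_min hF.pos hF.pos) hr₁
  refine ⟨c, C, τ * min (min rp rp) r₁, hc, hC, by positivity, fun ρ hρ hρδ => ?_⟩
  have h1 := h S S νp rp rp (SameB.refl S) hF hF w r₁ hr₁ ρ hρ hρδ
  filter_upwards [h1, hex₁] with n h1 hex₁
  have h1 := h1 (by rw [trv_self]; exact ⟨0, rfl⟩)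
  have hN : 0 < Nf θ K P₀ (rN n ρ) := QB.Nf_pos _ _ _ _
  obtain ⟨l₁, f1, f2⟩ := tW_spec (θ := θ) (S := S) (w := w) (χp := χp) (νp := νp) (ρ := ρ)
    (r := r₁) (fun l hl => pos_of_mul hN hc (h1 l l hl hl).1) hex₁
  rw [f2]
  exact ⟨(h1 l₁ l₁ f1 f1).1, (h1 l₁ l₁ f1 f1).2.1⟩

/-- A shape has a base point of the kind in question. -/
theorem hasB_dat {P : Sh4} (h : P.Ok 2) : HasB (1 / 2) 0 Complex.I := by
  have hF := H411.Q.flat_bpt (Sh4.dat h) 0 (Sh4.dat h).tp0 (Sh4.dat h).tp1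
  rw [Int.cast_zero, zero_add, H411.Q.bpt_bp, nrm_dat h] at hF
  exact ⟨Sh4.dat h, rfl, rfl, _, hF⟩

theorem low_aux {σ μ t z Ct Cz NR NE V a b G : ℝ} (hμ : 0 < μ) (hσ : 0 < σ) (ht : 0 < t) (hz : 0 < z)
    (_hCt : 0 < Ct) (hCz : 0 < Cz) (h1 : t * Real.exp NR ≤ Ct) (h2 : z ≤ Cz * Real.exp NE)
    (hG : G = -(σ / μ) * (Real.log t + Real.log z) + a) (hV : 0 < V)
    (h3 : |Real.log V - (G + b)| ≤ 1) :
    Real.exp (-(σ / μ) * (Real.log Ct + Real.log Cz) + a + b - 1) *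
      Real.exp (σ / μ * (NR - NE)) ≤ V := by
  have k1 : Real.log t + NR ≤ Real.log Ct := by
    have := Real.log_le_log (by positivity) h1
    rwa [Real.log_mul ht.ne' (Real.exp_pos _).ne', Real.log_exp] at this
  have k2 : Real.log z ≤ Real.log Cz + NE := by
    have := Real.log_le_log hz h2
    rwa [Real.log_mul hCz.ne' (Real.exp_pos _).ne', Real.log_exp] at this
  have k3 := (abs_le.1 h3).1
  rw [← Real.exp_add]
  have k4 : Real.exp (Real.log V) = V := Real.exp_log hV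
  rw [← k4]
  refine Real.exp_le_exp.2 ?_
  have hA : 0 < σ / μ := by positivity
  have k5 : σ / μ * (Real.log t + Real.log z) ≤
      σ / μ * (Real.log Ct - NR + (Real.log Cz + NE)) :=
    mul_le_mul_of_nonneg_left (by linarith) hA.le
  rw [hG] at k3
  nlinarith

/-- **The lower bound.** -/
theorem low_VT (h1 : Ang μ) (I : Vale.Agent.P167.N.H872.Asm.In2 μ h1.pos h1)
    (hP : IsLim (2 * Real.cos μ) P₀) :
    ∃ J₀ : ℕ, 0 < J₀ ∧ ∀ J : ℕ, J₀ ≤ J → ∃ K₀ : ℤ, 4 ≤ K₀ ∧ ∀ K : ℤ, K₀ ≤ K →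
      Vale.Agent.P167.H411.B7.Shp Complex.I (chp J K) ∧ (∀ χ : ℂ → ℝ, Vale.Agent.P167.H411.B7.Shp Complex.I χ → S_IdP μ (chp J K) χ) ∧
      ∀ χ : ℂ → ℝ, Vale.Agent.P167.H411.B7.Shp Complex.I χ → ∃ K₁ : ℝ, 1 ≤ K₁ ∧ ∀ K' : ℝ, K₁ ≤ K' →
      ∀ (P : Sh4) (h : P.Ok 2) (u v : ℝ), P.Pos u v → ∃ δ : ℝ, 0 < δ ∧
        ∀ η : ℝ, 0 < η → η ≤ δ → ∃ c : ℝ, 0 < c ∧ ∀ ρ : ℝ, 0 < ρ → ρ ≤ δ → ∀ᶠ N : ℕ in F4,
          c * Real.exp (Real.tan μ * (Real.pi - 2 * μ) *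
            (NbP P₀ (dq K' (rN N ρ)) - NbP P₀ (dq K' (rN N η)))) ≤
          VT μ h N (fun z => qd μ χ η N z - qb μ (chp J K) h ρ N z) := by
  obtain ⟨J₀, hJ₀, H⟩ := idP_exp h1 I
  obtain ⟨J₁, hJ₁, H'⟩ := psideUF h1 hP
  refine ⟨max J₀ J₁, lt_of_lt_of_le hJ₀ (le_max_left _ _), fun J hJ => ?_⟩
  obtain ⟨K₀, hK₀, H⟩ := H J ((le_max_left _ _).trans hJ)
  obtain ⟨K₁, hK₁, H'⟩ := H' J ((le_max_right _ _).trans hJ)
  refine ⟨max K₀ K₁, hK₀.trans (le_max_left _ _), fun K hK => ?_⟩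
  obtain ⟨hs, H⟩ := H K ((le_max_left _ _).trans hK)
  have hU := H' K ((le_max_right _ _).trans hK)
  refine ⟨hs, fun χ hχ => ⟨Gid μ (chp J K) χ, H χ hχ⟩, fun χ hχ => ?_⟩
  by_cases hB : HasB (1 / 2) 0 Complex.I
  · obtain ⟨K₂, hK₂, Ht⟩ := tU_bd hU hB false
    obtain ⟨K₃, hK₃, Hz⟩ := zN_bds h1.pos h1 h1.kit.rsw hP hχ
    refine ⟨max K₂ K₃, hK₂.trans (le_max_left _ _), fun K' hK' P h u v hp => ?_⟩
    obtain ⟨ct, Ct, δt, hct, hCt, hδt, Ht⟩ := Ht K' ((le_max_left _ _).trans hK')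
    obtain ⟨cz, Cz, r0, hcz, hCz, Hz⟩ := Hz K' ((le_max_right _ _).trans hK')
    obtain ⟨δ, hδ, H⟩ := H χ hχ P h u v hp 1 one_pos
    have hμ := h1.pos
    have hπ : μ < Real.pi / 2 := h1.lt
    have hσ : 0 < Real.pi - 2 * μ := by linarith
    refine ⟨min δ δt, lt_min hδ hδt, fun η hη hηδ => ?_⟩
    refine ⟨Real.exp (-((Real.pi - 2 * μ) / μ) * (Real.log Ct + Real.log Cz) +
      ((Real.pi - 2 * μ) / Real.pi * ((2 * Real.log η + JJ 0 Complex.I χ χ) / 2) -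
        (Real.pi - 2 * μ) * kbp (chp J K)) + H375.hT μ * Real.log (v * (1 - u)) - 1),
      Real.exp_pos _, fun ρ hρ hρδ => ?_⟩
    have hz1 : ∀ᶠ N : ℕ in F4, r0 ≤ N * η := F4_le
      ((tendsto_natCast_atTop_atTop.atTop_mul_const hη).eventually_ge_atTop r0)
    filter_upwards [H η hη (hηδ.trans (min_le_left _ _)) ρ hρ (hρδ.trans (min_le_left _ _)),
      F4_le (Ht ρ hρ (hρδ.trans (min_le_right _ _))), hz1] with N hN1 hN2 hN3
    obtain ⟨g1, g2⟩ := Hz N η hN3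
    have hNf : ∀ r : ℤ, Nf μ K' P₀ r = Real.exp (Real.tan μ * μ * NbP P₀ (dq K' r)) := fun r => rfl
    rw [hNf] at g1 g2
    have hz0 : 0 < zN μ χ N η := lt_of_lt_of_le (by positivity) g1
    have key := low_aux hμ hσ (tU_pos μ (chp J K) (1 / 2) 0 Complex.I false ρ N) hz0 hCt hCz
      (by rw [← hNf]; exact hN2.2) g2
      (G := Gid μ (chp J K) χ η ρ N)
      (a := (Real.pi - 2 * μ) / Real.pi * ((2 * Real.log η + JJ 0 Complex.I χ χ) / 2) -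
        (Real.pi - 2 * μ) * kbp (chp J K))
      (by unfold Gid; ring) hN1.1 hN1.2
    refine le_trans (le_of_eq ?_) key
    congr 2
    field_simp
  · exact ⟨1, le_rfl, fun K' _ P h => absurd (hasB_dat h) hB⟩

end Vale.Agent.P167.N.BT
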