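import Vale.Agent.P167.N.BT.Du1
import Vale.Agent.P167.H640.ND.Cls
import Vale.Agent.P167.QB.Circ
import Vale.Agent.P167.H192.TA.Arc2

/-!
# P167, `0 < q < 1`, t-bridge: planar topology (`s_T1T`)

If no dual path crosses the half annulus `(r, s)` there is a primal half circuit. If its cluster is not joined to
the wired arc, the strand which starts behind the last boundary site of the cluster surrounds `q l`, has its primal
side inside and does not visit the half box of radius `r`.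
-/

set_option autoImplicit false

namespace Vale.Agent.P167.N.BT

open Finset Relation Vale.Agent.P167 Vale.Agent.P167.BR
open Vale.Agent.P145.FB (PStep)
open Vale.Agent.P167.QB (Ard sep_ard flat_side ard_iff_of_eq novis ard_lp ard_xy sg_xy lp_side)
open Vale.Agent.P167.QX (lo hi exists_xy lo_xy hi_xy)
open Vale.Agent.P167.H718 (IsXY)
open Vale.Agent.P167.H436.ND
open Vale.Agent.P167.H192.TA (Xc Pw dq sr arc_full sc run_sc)
open Vale.Agent.P167.H632 (cs pr)

/-- **Outer boundary of a primal cluster.** A primal path from `q w1` to `q w2` on both sides of the half box of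
radius `r`, off this half box: the cluster of the path is joined to the wired arc, or a strand with both ends on
the free side surrounds `q l`, has the sign `- 1` and does not visit the half box of radius `r`. -/
theorem outer {D : Finset (ℤ × ℤ)} {ω : Cfg} {n : ℕ} {q : ZMod n → ℤ × ℤ} {l k : ℕ} {R r : ℤ}
    (hw : Win q D l R) (hkn : k ≤ n) (hr : 1 ≤ r) (hrR : r < R) {w1 w2 : ℕ}
    (h1 : (w1 : ℤ) ≤ l - r) (h2 : (l : ℤ) + r ≤ w2) (hw2 : w2 < k)
    (hev : Even ((q w1).1 + (q w1).2))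
    (hα : ReflTransGen (Stp ω (D \ hbox (q l) r)) (q w1) (q w2)) :
    (∃ i : ℕ, k ≤ i ∧ i ≤ n ∧ ReflTransGen (Stp ω D) (q w1) (q i)) ∨
      ∃ A ∈ pcs ω D, ¬ Vz (hbox (q l) r) A ∧ Ard q l A ∧ hi q A < k ∧ QB.sg q A = -1 := by
  classical
  obtain ⟨hq, hD, hF, hl, h0⟩ := hw
  have hn : NeZero n := ⟨by omega⟩
  have hR : 1 ≤ R := by omega
  obtain ⟨hr1, hr2⟩ := flat_range hq hD hF hR hl h0
  have hαD : ReflTransGen (Stp ω D) (q w1) (q w2) := QB.stp_mono sdiff_subset hα
  by_cases hJ : ∃ i : ℕ, k ≤ i ∧ i ≤ n ∧ ReflTransGen (Stp ω D) (q w1) (q i)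
  · exact Or.inl hJ
  right
  push Not at hJ
  -- the last boundary site of the cluster
  obtain ⟨wm, hwm, hmax⟩ := exists_max_image ((range k).filter fun i : ℕ =>
    ReflTransGen (Stp ω D) (q w1) (q i)) id ⟨w2, mem_filter.2 ⟨mem_range.2 hw2, hαD⟩⟩
  rw [mem_filter, mem_range] at hwm
  obtain ⟨hwk, hwp⟩ := hwm
  have hw2m : w2 ≤ wm := hmax w2 (mem_filter.2 ⟨mem_range.2 hw2, hαD⟩)
  have hpar : (((q w1).1 + (q w1).2) % 2 : ℤ) = pr true := by
    rw [Int.even_iff] at hev
    rw [hev]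
    rfl
  have hwm2 : Even ((q wm).1 + (q wm).2) := by
    have h3 := ((reach_iff hpar).1 hwp)
    have h4 : Pw (cs true ω ∩ ↑D) (q w1) (q wm) := h3
    rw [Int.even_iff, ← h4.parity, hpar]
    rfl
  -- the strand
  have hbe : be q (wm : ZMod n) ∈ eds D := be_mem hq hD _
  obtain ⟨A, hA, hbA⟩ : ∃ A ∈ pcs ω D, be q (wm : ZMod n) ∈ A :=
    ⟨_, piece_mem_pcs hbe, self_mem_piece hbe⟩
  have hlp : ¬ IsLp D A := fun h => lp_side hq hD hA h wm hbA
  obtain ⟨x, y, h⟩ := exists_xy hq hD hA hlp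
  have hx : wm = x := by
    rcases (h.iff hq hD hA (z := wm) (by omega)).1 hbA with h3 | h3
    · exact h3
    · exact absurd (h3 ▸ hwm2) h.2.2.2.2.2
  subst hx
  have hyn := h.2.1
  have hyA := h.2.2.2.1
  -- the site behind the exit
  have hls : ReflTransGen (Stp ω D) (q wm) (q ((y + 1 : ℕ) : ZMod n)) := by
    have e1 : ls (be q (wm : ZMod n)) = q wm := (be_even hq hD hwm2).1
    have e2 : ls (be q (y : ZMod n)) = q ((y + 1 : ℕ) : ZMod n) := by
      rw [(be_odd hq hD h.2.2.2.2.2).2.1]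
      push_cast
      rfl
    have hpm : (((q wm).1 + (q wm).2) % 2 : ℤ) = pr true := by
      rw [Int.even_iff] at hwm2
      rw [hwm2]
      rfl
    refine (reach_iff hpm).2 ?_
    have h3 : Pw (cs true ω ∩ ↑D) (ls (be q (wm : ZMod n))) (ls (be q (y : ZMod n))) := by
      obtain ⟨j, hj | hj⟩ := run_of_mem hA hbA hyA
      · exact run_sc true hj
      · exact (run_sc true hj).symm
    rw [e1, e2] at h3
    exact h3
  have hcl := hwp.trans hls
  have hy1 : y + 1 < k := by
    by_contra hcon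
    exact hJ (y + 1) (by omega) (by omega) hcl
  have hym : y + 1 ≤ wm := hmax (y + 1) (mem_filter.2 ⟨mem_range.2 hy1, hcl⟩)
  have hlo : lo q A = y := by rw [lo_xy hq hD hA h, min_eq_right (by omega)]
  have hhi : hi q A = wm := by rw [hi_xy hq hD hA h, max_eq_left (by omega)]
  -- it surrounds the first foot
  have hA1 : Ard q w1 A := by
    obtain ⟨u, hu⟩ := exists_pot hq hD hA
    rw [ard_iff_of_eq hq hD hA hu (w' := wm) (by omega) (by omega) (pot_reach hA hu hwp)]
    unfold Ard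
    omega
  have hlow : lo q A < w1 := hA1.1
  refine ⟨A, hA, ?_, ?_, by omega, ?_⟩
  · exact novis hq hD hF hR hl h0 (r := r) hr hrR h1 h2 (by omega) hα hA (i := lo q A) hlow
      (by rw [hlo]; exact hyA)
  · unfold Ard
    omega
  · rw [sg_xy hq hD hA h, if_neg (by omega)]

/-- The last exit of a path from a half box. -/
theorem jn_last {D : Finset (ℤ × ℤ)} {ω : Cfg} {W : Set (ℤ × ℤ)} {b : ℤ × ℤ} {s : ℤ} (hs : 1 ≤ s)
    (h : Jn true D ω (sites (hbox b s)) W) :
    Jn true (D \ hbox b s) ω (sites (hbox b s)) W := by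
  classical
  obtain ⟨u, hu, w, hw, hp, hpath⟩ := h
  have key : (∃ v ∈ sites (hbox b s), (v.1 + v.2) % 2 = pr true ∧
      ReflTransGen (PStep (cs true ω ∩ (↑(D \ hbox b s) : Set (ℤ × ℤ)))) v w) ∨
      (u ∉ sites (hbox b s) ∧
        ReflTransGen (PStep (cs true ω ∩ (↑(D \ hbox b s) : Set (ℤ × ℤ)))) u w) := by
    clear hu
    revert hp
    induction hpath using Relation.ReflTransGen.head_induction_on with
    | refl =>
      intro hp
      by_cases h : w ∈ sites (hbox b s)
      · exact Or.inl ⟨w, h, hp, ReflTransGen.refl⟩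
      · exact Or.inr ⟨h, ReflTransGen.refl⟩
    | @head x y hxy _ ih =>
      intro hp
      have hpy : (y.1 + y.2) % 2 = pr true := by
        obtain ⟨h1, h2, -⟩ := hxy
        omega
      rcases ih hpy with h | ⟨h1, h2⟩
      · exact Or.inl h
      · have hst : PStep (cs true ω ∩ (↑(D \ hbox b s) : Set (ℤ × ℤ))) x y := by
          obtain ⟨k1, k2, k3, k4⟩ := hxy
          refine ⟨k1, k2, k3, ?_⟩
          rw [mem_coe, mem_sdiff]
          refine ⟨k4, fun k5 => h1 ?_⟩
          rw [mem_hbox] at k5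
          rw [mem_sites_hbox (by omega)]
          simp only at k5
          omega
        by_cases h : x ∈ sites (hbox b s)
        · exact Or.inl ⟨x, h, hp, ReflTransGen.head hst h2⟩
        · exact Or.inr ⟨h, ReflTransGen.head hst h2⟩
  rcases key with ⟨v, h1, h2, h3⟩ | ⟨h1, -⟩
  · exact ⟨v, h1, w, hw, h2, h3⟩
  · exact absurd hu h1

/-- The elementary form of `StT`, one direction. -/
theorem st_out {D : Finset (ℤ × ℤ)} {ω : Cfg} {n : ℕ} {q : ZMod n → ℤ × ℤ} {l k : ℕ} {R : ℤ}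
    {a : Fin 2 → ℤ} (hw : Win q D l R) (g0 : 1 ≤ a 0) (g1 : a 0 ≤ a 1) (g2 : 2 * a 1 ≤ R)
    (hSt : ω ∈ StT q D k l a) {A : Finset Ed} (hA : A ∈ pcs ω D)
    (hV : ¬ Vz (hbox (q l) (2 * a 1)) A) (hl : Ard q l A) (hh : hi q A < k) : QB.sg q A = 1 := by
  classical
  have ha1 : ∀ i, 1 ≤ a i ∧ a i ≤ a 1 := by
    intro i
    fin_cases i <;> simp only [Fin.zero_eta, Fin.mk_one] <;> omega
  refine hSt A hA ?_ ?_ hh
  · rintro ⟨e, he, heZ⟩
    refine hV ⟨e, he, eds_mono (fun v hv => ?_) heZ⟩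
    unfold UU at hv
    simp only [mem_biUnion, mem_univ, true_and, rh_zero, sg_zero] at hv
    obtain ⟨i, hi⟩ := hv
    rw [mem_Zg] at hi
    rw [mem_hbox]
    have := ha1 i
    omega
  · unfold clz
    have hsub : hbox (q l) (2 * a 1) ⊆ D := hbox_sub (hw.flat.mono g2)
    have e1 : Sep D A (q l) (q 0) := (sep_ard hw.poly hw.enc hA hw.l1.le).2 hl
    rw [filter_true_of_mem]
    · rfl
    · intro i _
      have h3 := ha1 i
      refine (sep_zone hsub (econ_hbox (by omega)) hV ?_ ?_).1 e1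
      · rw [mem_sites_hbox (by omega)]
        omega
      · rw [mem_sites_hbox (by omega)]
        unfold zf
        simp only
        omega

/-- **(BT2)** -/
theorem s_T1T : S_T1T := by
  classical
  refine ⟨1, ?_⟩
  intro n q D η k l R hwD a ha ω hSt r s hr hrs hsR
  have hw' := hwD.win
  have hk := hwD.lR
  have hkn := hwD.kn
  obtain ⟨hq, hD, hF, hl, h0⟩ := hwD.win
  obtain ⟨ha0, ha1, ha2⟩ := ha
  have hn : NeZero n := ⟨by omega⟩
  have hR : 1 ≤ R := by omega
  obtain ⟨hr1, hr2⟩ := flat_range hq hD hF hR hl h0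
  by_contra hcon
  push Not at hcon
  obtain ⟨hc2, hJ⟩ := hcon
  -- the primal half circuit
  obtain ⟨x2, y2, cx1, cx2, cy1, cy2, cp, hα⟩ := arc_full (F := cs false ω) (b := q l) (r := r)
    (R := s) (e := 1) (Or.inr rfl) (by omega) hrs (fun y y' h1 h2 h3 h4 => by
      by_contra h5
      push Not at h5
      exact hc2 ⟨y, y', h1, h2, h3, h4, h5⟩)
  have hfs : ∀ i : ℕ, (l : ℤ) - R ≤ i → (i : ℤ) < l + R →
      q (i : ℕ) = ((q l).1 + ((i : ℤ) - l), (q l).2) := fun i k1 k2 =>
    (flat_side hq hD hF hR hl h0 k1 k2).1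
  have hidx : ∀ x : ℤ, (q l).1 - s ≤ x → x ≤ (q l).1 + s → ∃ i : ℕ, (i : ℤ) = l + (x - (q l).1) ∧
      q (i : ℕ) = (x, (q l).2) := by
    intro x k1 k2
    refine ⟨((l : ℤ) + (x - (q l).1)).toNat, by omega, ?_⟩
    rw [hfs _ (by omega) (by omega)]
    ext
    · simp only
      omega
    · rfl
  obtain ⟨w1, i3, e3⟩ := hidx x2 (by omega) (by omega)
  obtain ⟨w2, i4, e4⟩ := hidx y2 (by omega) (by omega)
  have heven1 : Even ((q (w1 : ℕ)).1 + (q (w1 : ℕ)).2) := by
    rw [e3, Int.even_iff]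
    simp only
    omega
  have hα' : ReflTransGen (Stp ω (D \ hbox (q l) r)) (q (w1 : ℕ)) (q (w2 : ℕ)) := by
    rw [e3, e4]
    rw [e3] at heven1
    refine (reach_iff (c := true) ?_).2 (ReflTransGen.mono (fun x y h => ⟨h.1, h.2.1, ?_⟩) _ _ hα)
    · show _ = (0 : ℤ)
      rw [Int.even_iff] at heven1
      exact heven1
    · obtain ⟨-, -, h1, h2⟩ := h
      refine ⟨?_, ?_⟩
      · simpa [cs] using h1
      · simp only [dq, Set.mem_ofPred_eq] at h2
        rw [mem_coe, mem_sdiff]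
        refine ⟨hbox_sub (hF.mono (show s ≤ R by omega)) ?_, ?_⟩ <;> rw [mem_hbox] <;> simp only <;>
          omega
  rcases outer hw' hkn (r := r) (by omega) (by omega) (w1 := w1) (w2 := w2) (by omega) (by omega)
    (by omega) heven1 hα' with ⟨i, hi1, hi2, hi3⟩ | ⟨A, hA, hv, har, hh, hsg⟩
  · apply hJ
    have hpar : (((q w1).1 + (q w1).2) % 2 : ℤ) = pr true := by
      rw [Int.even_iff] at heven1
      rw [heven1]
      rfl
    refine jn_last (by omega) ⟨q w1, ?_, q i, ⟨i, hi1, hi2, rfl⟩, hpar, (reach_iff hpar).1 hi3⟩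
    rw [e3]
    exact (mem_sites_hbox (by omega)).2 (by simp only; omega)
  · have h5 := st_out hw' ha0 (by omega) (by omega) hSt hA
      (fun h => hv (h.mono (hbox_mono (by omega)))) har hh
    omega

end Vale.Agent.P167.N.BT
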