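import Vale.Agent.P167.N.BT.QuadH
import Vale.Agent.P167.N.BT.T1
import Vale.Agent.P167.H469.PU

/-!
# P167, `0 < q < 1`, block BT: gluing of the primal arms (`s_CHT`)

`land_WC`: the arm from the half box to the wired arc is joined to the right flat side. `ext_W`: it is extended to
an inner half box of comparable radius. `glue_W`: an arm of the half annulus `ρ .. R₁` and the arm from the half
box of radius `R₁` to the wired arc are joined: `a(ρ, R₁) a_D(R₁) ≤ C a_D(ρ)`. `s_CHT_of`.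
-/

set_option autoImplicit false
set_option linter.unusedSectionVars false

namespace Vale.Agent.P167.N.BT

open Finset Vale.Agent.P167 Vale.Agent.P167.BR Vale.Agent.P167.FK Vale.Agent.P167.FKA
open Vale.Agent.P145.FB (PStep)
open Vale.Agent.P167.H436.ND (Win FltO)
open Vale.Agent.P167.H192.TA (Xc Pw dq dF mem_dF)
open Vale.Agent.P167.H632 (cs pr)
open Vale.Agent.P167.H469 (hx A6 A7 FlF mem_Bq')
open Vale.Agent.P167.N.NET (Cor Vc Quad Fan arcQ fl So arcQ_per Nx Bd VT VRS quad1 fan_dF nx_flR nx_flL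
  nx_out nx_in mem_dFc net1 net2_Pr HK1 HK2 At dF_sub dF_bd fl_bd vc_dF VT_dF VT_arch arch mem_arch
  land_out ind_Jn dF_disj ind_nn Ex_nn Xc_eq)
open Relation (ReflTransGen)

variable {Q : ℝ} {n k l : ℕ} {q : ZMod n → ℤ × ℤ} {D T : Finset (ℤ × ℤ)} {η : Cfg} {b : ℤ × ℤ}
  {r m R N x y x' y' : ℤ} {e : Bool} {F : Cfg → ℝ} {B : Set (ℤ × ℤ)}

/-- The primal arm as a connection of arcs. -/
theorem PAr_eq (hr : 1 ≤ r) : PAr D (Wr q k) b r =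
    NET.Jn true (↑(D \ hbox b r) : Set (ℤ × ℤ)) (Vc true (hbox b r : Set (ℤ × ℤ))) (arcQ true q k n) := by
  ext ω
  constructor
  · rintro ⟨u, hu, w, ⟨j, h1, h2, h3⟩, hp, h⟩
    refine ⟨u, ?_, w, ?_, h⟩
    · rw [vc_hbox hr]
      rw [mem_coe, mem_sites_hbox hr] at hu
      exact ⟨hu.1, hu.2.1, hu.2.2.1, hu.2.2.2, hp⟩
    · refine ⟨j, h1, h2, h3.symm, ?_⟩
      rw [← hp]
      exact (H192.TA.Pw.parity h).symm
  · rintro ⟨u, hu, w, ⟨j, h1, h2, h3, h4⟩, h⟩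
    rw [vc_hbox hr] at hu
    exact ⟨u, (mem_sites_hbox hr).2 ⟨hu.1, hu.2.1, hu.2.2.1, hu.2.2.2.1⟩, w, ⟨j, h1, h2, h3.symm⟩,
      hu.2.2.2.2, h⟩

/-! ### Arcs and sites -/

theorem arcQ_mono {i j i' j' : ℕ} (h1 : i' ≤ i) (h2 : j ≤ j') : arcQ e q i j ⊆ arcQ e q i' j' := by
  rintro x ⟨t, g1, g2, g3, g4⟩
  exact ⟨t, by omega, by omega, g3, g4⟩

theorem flR_sub (hw : Win q D l R) (hR : 1 ≤ R) (hk : (l : ℤ) + R ≤ k) (h1 : x' ≤ x) (h2 : -R ≤ x)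
    (h3 : y < R) : fl e (q l) x y ⊆ arcQ e q (l + x').toNat k := by
  rw [← arc_fl hw hR h2 h3]
  exact arcQ_mono (by omega) (by omega)

theorem flL_sub (hw : Win q D l R) (hR : 1 ≤ R) (h1 : y ≤ y') (h2 : -R ≤ x)
    (h3 : y < R) : fl e (q l) x y ⊆ arcQ e q n ((l + y').toNat + n) := by
  have hrg := flat_rg hw hR
  rw [← arc_fl hw hR h2 h3, ← arcQ_per]
  exact arcQ_mono (by omega) (by omega)

theorem nx_mono' {G G' S S' : Set (ℤ × ℤ)} {z : ℤ × ℤ} (h : Nx e G S z) (hG : G ⊆ G') (hS : S ⊆ S') :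
    Nx e G' S' z := by
  obtain ⟨g, hg, h1, t, ht, h2⟩ := h
  exact ⟨g, hG hg, h1, t, hS ht, h2⟩

/-- The half annuli are outside of the half box. -/
theorem dF_holeC (hw : Win q D l R) (hrm : m ≤ R) (hr : 0 ≤ r) : dF (q l) r m ⊆ D \ hbox (q l) r := by
  intro v hv
  have h1 := mem_dFc.1 (mem_coe.2 hv)
  rw [mem_sdiff, mem_hbox]
  refine ⟨(hw.flat v (by omega) (by omega) (by omega) (by omega)).2 (by omega), by omega⟩

/-- A common corner of the half box and of the squares outside. -/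
theorem vc_meet (hw : Win q D l R) (hr : 1 ≤ r) (hrR : r < R) {y : ℤ × ℤ}
    (h1 : y ∈ Vc e (hbox (q l) r : Set (ℤ × ℤ))) (h2 : y ∈ Vc e (↑(D \ hbox (q l) r) : Set (ℤ × ℤ))) :
    y ∈ So e (q l) r := by
  rw [vc_hbox hr] at h1
  obtain ⟨v, hv, c1, c2, c3⟩ := h2
  rw [mem_coe, mem_sdiff, mem_hbox] at hv
  have h3 := (hw.flat v (by omega) (by omega) (by omega) (by omega)).1 hv.1
  refine ⟨?_, ?_, ?_, ?_, ?_, c3⟩ <;> omega

/-- The common corners are next to the half box. -/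
theorem nx_hole (hw : Win q D l R) (hr : 1 ≤ r) (hrR : r < R) {y : ℤ × ℤ}
    (h1 : y ∈ Vc e (hbox (q l) r : Set (ℤ × ℤ))) (h2 : y ∈ Vc e (↑(D \ hbox (q l) r) : Set (ℤ × ℤ))) :
    Nx e (↑(D \ hbox (q l) r) : Set (ℤ × ℤ)) (Vc (!e) (hbox (q l) r : Set (ℤ × ℤ))) y := by
  refine nx_mono' (nx_in hr (show r < R from hrR) (vc_meet hw hr hrR h1 h2))
    (coe_subset.2 (dF_holeC hw le_rfl (by omega))) ?_
  rintro u ⟨u1, u2, u3, u4, u5, u6⟩
  rw [vc_hbox hr]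
  exact ⟨u1, u2, u3, u4, u6⟩

/-! ### Landing -/

/-- The arm from the half box to the arc is joined to the right flat side. -/
theorem land_WC (hQ : 0 < Q) (hQ1 : Q ≤ 1) (hη : Good η) (hw : Win q D l R) (hk : (l : ℤ) + R ≤ k)
    (hkn : k ≤ n) (hr : 1 ≤ r) (hrm : r < m) (hmR : m < R) (hF0 : ∀ ω, 0 ≤ F ω)
    (hF : Ind (dF (q l) r m) F) :
    VT Q e (dF (q l) r m) (fl e (q l) (-m) (-r)) (fl e (q l) r m) *
        Ex Q D η (fun ω => F ω * (NET.Jn e (↑(D \ hbox (q l) r) : Set (ℤ × ℤ))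
          (Vc e (hbox (q l) r : Set (ℤ × ℤ))) (arcQ e q k n)).indicator 1 ω) ≤
      Ex Q D η (fun ω => F ω * (NET.Jn e (↑(D \ hbox (q l) r) : Set (ℤ × ℤ))
        (fl e (q l) r m) (arcQ e q k n)).indicator 1 ω) := by
  have hR : 1 ≤ R := by omega
  have hsub : dF (q l) r m ⊆ D \ hbox (q l) r := dF_holeC hw hmR.le (by omega)
  have h := net1 (e := e) hQ hQ1 hη (hsub.trans sdiff_subset) (G := D \ hbox (q l) r) sdiff_subset
    (quadW0 hw hk hkn hr (by omega) e).swap24 (fan_hole hw (by omega) e)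
    (A := fl e (q l) (-m) (-r)) (B := fl e (q l) r m) (fl_bd dF_bd)
    (fun a ha => nx_mono' (nx_flL hr hrm le_rfl (by omega) le_rfl ha) (coe_subset.2 hsub)
      (flL_sub hw hR (by omega) (by omega) (by omega)))
    (fun t ht ht' => absurd (hsub ht) ht') (fl_bd dF_bd)
    (fun z hz _ => nx_mono' (nx_flR hr hrm le_rfl hrm le_rfl hz) (coe_subset.2 hsub)
      (flR_sub hw hR hk le_rfl (by omega) (by omega)))
    (F := F) hF0 (fun ω ω' h => hF ω' ω fun v hv => h v fun h' => hv (mem_sdiff.1 h').1)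
  refine h.trans (NET.Ex_sub hQ hF0 ?_)
  rintro ω ⟨a, ⟨u, -, v, hv, -, k1⟩, z, hz, k2⟩
  exact ⟨z, hz, v, hv, (k2.mono (Set.inter_subset_inter_right _ (coe_subset.2 hsub))).symm.trans k1⟩

/-- The landed arm is extended through a tube which starts on the right flat side. -/
theorem ext_W (hQ : 0 < Q) (hQ1 : Q ≤ 1) (hη : Good η) (hw : Win q D l R) (hk : (l : ℤ) + R ≤ k)
    (hkn : k ≤ n) (hr : 1 ≤ r) (hrm : r < m) (hx : m ≤ x) (hxy : x < y) (hy : y < R) (hT : T ⊆ D)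
    (hTb : ∀ t ∈ T, (q l).2 ≤ t.2) (hB : B ⊆ Bd e T)
    (hBo : ∀ z ∈ B, z ∈ Vc e (↑(D \ hbox (q l) r) : Set (ℤ × ℤ)) →
      z ∈ Vc e (hbox (q l) r : Set (ℤ × ℤ))) (hF0 : ∀ ω, 0 ≤ F ω) (hF : Ind T F) :
    VT Q e T (fl e (q l) x y) B *
        Ex Q D η (fun ω => F ω * (NET.Jn e (↑(D \ hbox (q l) r) : Set (ℤ × ℤ))
          (fl e (q l) r m) (arcQ e q k n)).indicator 1 ω) ≤
      Ex Q D η (fun ω => F ω * (NET.Jn e ((↑(D \ hbox (q l) r) : Set (ℤ × ℤ)) ∪ ↑T)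
        B (arcQ e q k n)).indicator 1 ω) := by
  have hR : 1 ≤ R := by omega
  have h := net1 (e := e) hQ hQ1 hη hT (G := D \ hbox (q l) r) sdiff_subset
    (quadW1 hw hk hkn hr hrm.le (by omega) e) (fan_hole hw (by omega) e)
    (A := fl e (q l) x y) (B := B) (fl_bd hTb)
    (fun a ha => nx_mono' (nx_flR (R := R) hr (by omega) (by omega) hxy (by omega) ha)
      (coe_subset.2 (dF_holeC hw le_rfl (by omega)))
      (flR_sub hw hR hk hx (by omega) (by omega)))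
    (fun t ht ht' y hy hyG => by
      have ht2 : t ∈ hbox (q l) r := by
        by_contra hc
        exact ht' (mem_coe.2 (mem_sdiff.2 ⟨hT (mem_coe.1 ht), hc⟩))
      exact (nx_hole hw hr (by omega) ⟨t, mem_coe.2 ht2, hy⟩ hyG).mono Set.subset_union_right) hB
    (fun z hz hzG => (nx_hole hw hr (by omega) (hBo z hz hzG) hzG).mono Set.subset_union_right)
    (F := F) hF0 (fun ω ω' h => hF ω' ω fun v hv => h v fun h' => hv (mem_sdiff.1 h').1)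
  refine h.trans (NET.Ex_sub hQ hF0 ?_)
  rintro ω ⟨a, ⟨u, -, v, hv, -, k1⟩, z, hz, k2⟩
  exact ⟨z, hz, v, hv, (k2.mono (Set.inter_subset_inter_right _ Set.subset_union_right)).symm.trans
    (k1.mono (Set.inter_subset_inter_right _ Set.subset_union_left))⟩

/-- Monotonicity of the outer arm. -/
theorem PAr_mono {W : Set (ℤ × ℤ)} {s : ℤ} (hr : 1 ≤ r) (hrs : r ≤ s) : PAr D W b r ⊆ PAr D W b s := by
  rintro ω ⟨u, hu, w, hw, hp, h⟩
  refine jn_last (by omega) ⟨u, ?_, w, hw, hp, ReflTransGen.mono (fun a c h => ⟨h.1, h.2.1, h.2.2.1, ?_⟩) _ _ h⟩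
  · rw [mem_coe, mem_sites_hbox hr] at hu
    rw [mem_coe, mem_sites_hbox (by omega)]
    omega
  · exact (mem_sdiff.1 (mem_coe.1 h.2.2.2)).1

theorem ind_PAr' {W : Set (ℤ × ℤ)} {s : ℤ} :
    Ind (hbox b s) ((PAr D W b s).indicator (1 : Cfg → ℝ)) := by
  have key : ∀ ω ω' : Cfg, (∀ v, v ∉ hbox b s → ω v = ω' v) → ω ∈ PAr D W b s →
      ω' ∈ PAr D W b s := by
    rintro ω ω' hω ⟨u, hu, t, ht, h1, h2⟩
    refine ⟨u, hu, t, ht, h1, ReflTransGen.mono ?_ _ _ h2⟩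
    rintro x y ⟨k1, k2, k3, k4⟩
    refine ⟨k1, k2, ?_, k4⟩
    rw [mem_coe, mem_sdiff] at k4
    show ω' _ = true
    rw [← hω _ k4.2]
    exact k3
  intro ω ω' hω
  by_cases h2 : ω ∈ PAr D W b s
  · rw [Set.indicator_of_mem h2, Set.indicator_of_mem (key ω ω' hω h2)]
    rfl
  · rw [Set.indicator_of_notMem h2, Set.indicator_of_notMem fun h3 =>
      h2 (key ω' ω (fun v hv => (hω v hv).symm) h3)]

/-! ### Gluing -/

theorem hbox_D (hw : Win q D l R) (hrR : r ≤ R) : hbox (q l) r ⊆ D :=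
  (hbox_mono hrR).trans (hbox_sub hw.flat)

/-- **Comparable radii.** -/
theorem step_W (hQ : 0 < Q) (hQ1 : Q ≤ 1) (hV : VRS Q) : ∃ κ : ℝ, 0 < κ ∧ κ ≤ 1 ∧
    ∀ (n k l : ℕ) (q : ZMod n → ℤ × ℤ) (D : Finset (ℤ × ℤ)) (η : Cfg) (R ρ R₁ : ℤ), Good η →
      Win q D l R → (l : ℤ) + R ≤ k → k ≤ n → 1 ≤ ρ → ρ ≤ R₁ → R₁ ≤ 8 * ρ → 4 * R₁ ≤ R →
      κ * aD Q D η (Wr q k) (q l) R₁ ≤ aD Q D η (Wr q k) (q l) ρ := by
  obtain ⟨κ₁, h1, h1', H1⟩ := VT_dF hQ hQ1 hV 4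
  obtain ⟨κ₂, h2, h2', H2⟩ := VT_arch hQ hQ1 hV 8
  refine ⟨κ₂ * κ₁, by positivity, mul_le_one₀ h2' h1.le h1', ?_⟩
  intro n k l q D η R ρ R₁ hη hw hk hkn hρ hρR hR8 hR4
  have hn0 : 0 ≤ aD Q D η (Wr q k) (q l) R₁ := Pr_nonneg hQ _
  rcases hρR.eq_or_lt with h | hlt
  · rw [h]
    exact mul_le_of_le_one_left hn0 (mul_le_one₀ h2' h1.le h1')
  have hR1 : 1 ≤ R₁ := by omega
  have k1 := land_WC (e := true) (F := fun _ => 1) hQ hQ1 hη hw hk hkn hR1 (m := 2 * R₁) (by omega)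
    (by omega) (fun _ => zero_le_one) (fun _ _ _ => rfl)
  simp only [one_mul] at k1
  rw [← PAr_eq hR1] at k1
  have k2 := H1 true (q l) R₁ (2 * R₁) (by omega) (by omega) (by push_cast; omega)
  have k1' : κ₁ * aD Q D η (Wr q k) (q l) R₁ ≤ Pr Q D η (NET.Jn true
      (↑(D \ hbox (q l) R₁) : Set (ℤ × ℤ)) (fl true (q l) R₁ (2 * R₁)) (arcQ true q k n)) :=
    (mul_le_mul_of_nonneg_right k2 hn0).trans k1
  obtain ⟨T, hT⟩ : ∃ T : Finset (ℤ × ℤ), T = arch ((q l).1 - ρ) ((q l).1 + ρ) ((q l).1 + 2 * R₁)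
    ((q l).1 + 3 * R₁) ((q l).2 + ρ) (q l).2 ((q l).2 + R₁) ((q l).2 + 2 * R₁) := ⟨_, rfl⟩
  have hmT : ∀ t ∈ T, (q l).1 - ρ ≤ t.1 ∧ t.1 < (q l).1 + 3 * R₁ ∧ (q l).2 ≤ t.2 ∧
      t.2 < (q l).2 + 2 * R₁ ∧ ((q l).1 + ρ ≤ t.1 ∨ (q l).2 + ρ ≤ t.2) := by
    intro t ht
    rw [hT, mem_arch] at ht
    omega
  have hTD : T ⊆ D := by
    intro t ht
    have := hmT t ht
    exact (hw.flat t (by omega) (by omega) (by omega) (by omega)).2 (by omega)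
  have k3 := (H2 true ((q l).1 - ρ) ((q l).1 + ρ) ((q l).1 + 2 * R₁) ((q l).1 + 3 * R₁) ((q l).2 + ρ)
    (q l).2 ((q l).2 + R₁) ((q l).2 + 2 * R₁) (by omega) (by omega) (by omega) (by omega) (by omega)
    (by omega) (by push_cast; omega) (by push_cast; omega) (by push_cast; omega)).2
  rw [← hT] at k3
  have hB : NET.Hs true ((q l).2 + ρ) ((q l).1 - ρ) ((q l).1 + ρ) ⊆ Bd true T := by
    rintro u ⟨u1, u2, u3, u4⟩
    by_cases c : u.1 = (q l).1 + ρ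
    · refine ⟨(u.1 - 1, u.2 - 1), fun h => ?_, by unfold NET.Cor; dsimp only; omega⟩
      have := hmT _ h
      dsimp only at this
      omega
    · refine ⟨(u.1, u.2 - 1), fun h => ?_, by unfold NET.Cor; dsimp only; omega⟩
      have := hmT _ h
      dsimp only at this
      omega
  have k4 := ext_W (e := true) (F := fun _ => 1) (r := R₁) (m := 2 * R₁) (x := 2 * R₁) (y := 3 * R₁)
    (T := T) (B := NET.Hs true ((q l).2 + ρ) ((q l).1 - ρ) ((q l).1 + ρ)) hQ hQ1 hη hw hk hkn hR1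
    (by omega) le_rfl (by omega) (by omega) hTD (fun t ht => (hmT t ht).2.2.1) hB
    (fun z hz _ => by
      obtain ⟨z1, z2, z3, z4⟩ := hz
      rw [vc_hbox hR1]
      refine ⟨?_, ?_, ?_, ?_, z4⟩ <;> omega)
    (fun _ => zero_le_one) (fun _ _ _ => rfl)
  simp only [one_mul] at k4
  have hn1 : 0 ≤ Pr Q D η (NET.Jn true (↑(D \ hbox (q l) R₁) : Set (ℤ × ℤ))
    (fl true (q l) R₁ (2 * R₁)) (arcQ true q k n)) := Pr_nonneg hQ _
  rw [mul_assoc]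
  refine (mul_le_mul_of_nonneg_left k1' h2.le).trans ((mul_le_mul_of_nonneg_right k3 hn1).trans
    (k4.trans ?_))
  unfold aD
  rw [PAr_eq hρ]
  refine Pr_mono hQ ?_
  refine NET.Jn.mono ?_ ?_ (Set.Subset.refl _)
  · rintro t (ht | ht)
    · rw [mem_coe, mem_sdiff, mem_hbox] at ht ⊢
      exact ⟨ht.1, by omega⟩
    · have := hmT t (mem_coe.1 ht)
      rw [mem_coe, mem_sdiff, mem_hbox]
      exact ⟨hTD (mem_coe.1 ht), by omega⟩
  · rintro u ⟨u1, u2, u3, u4⟩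
    rw [vc_hbox hρ]
    refine ⟨?_, ?_, ?_, ?_, u4⟩ <;> omega

/-- The arm in the half box and the outer arm. -/
theorem arm_mul (hQ : 0 < Q) (hη : Good η) (hw : Win q D l R) (hout : FltO D η (q l) R false false)
    {C7 : ℝ} {K7 ρ R₁ s' : ℤ} {W : Set (ℤ × ℤ)}
    (H7 : ∀ (e : Bool) (b : ℤ × ℤ) (r R N : ℤ) (D : Finset (ℤ × ℤ)) (η : Cfg), 1 ≤ r → r ≤ R →
      K7 * R ≤ N → Good η → FlF D η b (K7 * R) →
      Pr Q D η (Xc e b r R) ≤ C7 * hx Q e b r R N ∧ hx Q e b r R N ≤ C7 * Pr Q D η (Xc e b r R))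
    (hρ : 1 ≤ ρ) (hρR : ρ ≤ R₁) (h1 : K7 * R₁ ≤ s') (h2 : s' ≤ R) (hN : K7 * R₁ ≤ N) :
    hx Q true (q l) ρ R₁ N * aD Q D η W (q l) s' ≤
      C7 * Ex Q D η (fun ω => (PAr D W (q l) s').indicator 1 ω * (Xc true (q l) ρ R₁).indicator 1 ω) := by
  rw [markov H259.f_markov hQ (hbox_D hw h2) hη ind_PAr', ← Ex_mul_left]
  unfold aD Pr
  rw [← Ex_mul_left]
  refine Ex_mono hQ fun S _ => ?_
  have hFl : FlF (hbox (q l) s') (cf D η S) (q l) (K7 * R₁) := by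
    refine ⟨fun v hv => ?_, fun v hv hv' => ?_⟩
    · rw [mem_Bq'] at hv
      rw [mem_hbox]
      omega
    · rw [mem_Bq'] at hv
      rw [mem_hbox] at hv'
      have h3 : v.2 < (q l).2 := by omega
      have h4 : v ∉ D := fun h5 => by
        have := (hw.flat v (by omega) (by omega) (by omega) (by omega)).1 h5
        omega
      rw [cf_out h4, hout.out v (by omega) (by omega) (by omega) h3]
      simp
  have h := (H7 true (q l) ρ R₁ N (hbox (q l) s') (cf D η S) hρ hρR hN (good_cf D hη S) hFl).2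
  have hi := ind_nonneg (PAr D W (q l) s') (cf D η S)
  unfold Pr at h
  have h5 := mul_le_mul_of_nonneg_left h hi
  linarith

/-- **The tube between the arm of a half annulus and the outer arm.** -/
theorem join_W (hQ : 0 < Q) (hQ1 : Q ≤ 1) (hη : Good η) (hw : Win q D l R) (hk : (l : ℤ) + R ≤ k)
    (hkn : k ≤ n) {ρ R₁ s' : ℤ} (hρ : 1 ≤ ρ) (hρm : ρ < m) (hmR : m ≤ R₁) (hRs : R₁ < s')
    (hsR : 3 * s' < R) (hmT : ∀ t ∈ T, (q l).1 + ρ ≤ t.1 ∧ t.1 < (q l).1 + 3 * s' ∧ (q l).2 ≤ t.2 ∧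
      t.2 < (q l).2 + 2 * s') :
    VT Q true T (fl true (q l) ρ m) (fl true (q l) (2 * s') (3 * s')) *
      Pr Q D η (NET.Jn true (dF (q l) ρ R₁ : Set (ℤ × ℤ)) (So true (q l) ρ) (fl true (q l) m R₁) ∩
        NET.Jn true (↑(D \ hbox (q l) s') : Set (ℤ × ℤ)) (fl true (q l) s' (2 * s'))
          (arcQ true q k n)) ≤ aD Q D η (Wr q k) (q l) ρ := by
  have hTD : T ⊆ D := by
    intro t ht
    have := hmT t ht
    exact (hw.flat t (by omega) (by omega) (by omega) (by omega)).2 (by omega)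
  have hs1 : 1 ≤ s' := by omega
  have hρR : ρ < R₁ := by omega
  have kE := net2_Pr (e := true) hQ hQ1 hη hTD (G := dF (q l) ρ R₁) (G' := D \ hbox (q l) s')
    ((dF_holeC hw (by omega) (by omega)).trans sdiff_subset) sdiff_subset
    (quad1 hρ hρR true (q l) (m := m) (by omega) (by omega))
    (fan_dF hρ (by omega) true)
    (quadW1 hw hk hkn hs1 (m := 2 * s') (by omega) (by omega) true) (fan_hole hw (by omega) true)
    (A := fl true (q l) ρ m) (B := fl true (q l) (2 * s') (3 * s'))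
    (fl_bd fun t ht => (hmT t ht).2.2.1)
    (fun a ha => nx_flR hρ hρR le_rfl (by omega) (by omega) ha)
    (fun t ht ht' u hu huG => by
      have g1 := hmT t (mem_coe.1 ht)
      have g2 := vc_dF huG
      rw [mem_dFc] at ht'
      obtain ⟨u1, u2, u3⟩ := hu
      refine (nx_out hρ hρR (u := u) ?_).mono Set.subset_union_left
      refine ⟨?_, ?_, ?_, ?_, ?_, u3⟩ <;> omega)
    (fl_bd fun t ht => (hmT t ht).2.2.1)
    (fun a ha => nx_mono' (nx_flR (R := R) hs1 (by omega) (by omega) (by omega) (by omega) ha)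
      (coe_subset.2 (dF_holeC hw le_rfl (by omega)))
      (flR_sub hw (by omega) hk le_rfl (by omega) (by omega)))
    (fun t ht ht' y hy hyG => by
      have ht2 : t ∈ hbox (q l) s' := by
        by_contra hc
        exact ht' (mem_coe.2 (mem_sdiff.2 ⟨hTD (mem_coe.1 ht), hc⟩))
      exact (nx_hole hw hs1 (by omega) ⟨t, mem_coe.2 ht2, hy⟩ hyG).mono Set.subset_union_right)
    (fun x hx1 hx2 => by
      have g2 := vc_dF hx1
      obtain ⟨v, hv, c1, c2, c3⟩ := hx2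
      rw [mem_coe, mem_sdiff, mem_hbox] at hv
      have := (hw.flat v (by omega) (by omega) (by omega) (by omega)).1 hv.1
      omega)
  refine kE.trans ?_
  unfold aD
  rw [PAr_eq hρ]
  refine Pr_mono hQ ?_
  rintro ω ⟨a, a', ⟨u, hu, v, -, g1, -⟩, ⟨u', -, v', hv', -, g2⟩, g3⟩
  refine ⟨u, ?_, v', hv', ?_⟩
  · obtain ⟨u1, u2, u3, u4, u5, u6⟩ := hu
    rw [vc_hbox hρ]
    exact ⟨u1, u2, u3, u4, u6⟩
  · refine ((g1.mono (Set.inter_subset_inter_right _ ?_)).trans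
      (g3.mono (Set.inter_subset_inter_right _ ?_))).trans
      (g2.mono (Set.inter_subset_inter_right _ ?_))
    · exact coe_subset.2 (dF_holeC hw (by omega) (by omega))
    · intro t ht
      have := hmT t (mem_coe.1 ht)
      rw [mem_coe, mem_sdiff, mem_hbox]
      exact ⟨hTD (mem_coe.1 ht), by omega⟩
    · intro t ht
      rw [mem_coe, mem_sdiff, mem_hbox] at ht ⊢
      exact ⟨ht.1, by omega⟩

/-- **Gluing at distant radii.** -/
theorem far_W (hQ : 0 < Q) (hQ1 : Q ≤ 1) (hV : VRS Q) {M : ℤ} (hM1 : 1 ≤ M) : ∃ κ : ℝ, 0 < κ ∧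
    ∀ (n k l : ℕ) (q : ZMod n → ℤ × ℤ) (D : Finset (ℤ × ℤ)) (η : Cfg) (R ρ R₁ s' : ℤ), Good η →
      Win q D l R → (l : ℤ) + R ≤ k → k ≤ n → 1 ≤ ρ → 8 * ρ ≤ R₁ → R₁ < s' → s' ≤ M * R₁ →
      3 * s' < R →
      κ * Ex Q D η (fun ω => (PAr D (Wr q k) (q l) s').indicator 1 ω *
        (Xc true (q l) ρ R₁).indicator 1 ω) ≤ aD Q D η (Wr q k) (q l) ρ := by
  obtain ⟨κ₁, h1, h1', H1⟩ := VT_dF hQ hQ1 hV 4
  obtain ⟨κ₂, h2, h2', H2⟩ := VT_arch hQ hQ1 hV (8 * M.toNat)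
  refine ⟨κ₁ * κ₁ * κ₂, by positivity, ?_⟩
  intro n k l q D η R ρ R₁ s' hη hw hk hkn hρ hρR hRs hsM hsR
  obtain ⟨m, hm⟩ : ∃ m : ℤ, m = R₁ / 2 := ⟨_, rfl⟩
  have hm1 : 2 * m ≤ R₁ := by omega
  have hm2 : R₁ ≤ 2 * m + 1 := by omega
  have hs1 : 1 ≤ s' := by omega
  have kC := land_out (e := true) (b := q l) (r := ρ) (m := m) (R := R₁) (D := D) (η := η)
    (F := (PAr D (Wr q k) (q l) s').indicator 1) hQ hQ1 hη hρ (by omega) (by omega)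
    ((dF_holeC hw (by omega) (by omega)).trans sdiff_subset) (fun ω => ind_nn _ _)
    (NET.Ind.sub' ind_PAr' (fun v hv => by
      have := mem_dFc.1 (mem_coe.2 hv)
      rw [mem_hbox]
      omega))
  have kC' := H1 true (q l) m R₁ (by omega) (by omega) (by push_cast; omega)
  obtain ⟨X', hX'⟩ : ∃ X' : Set Cfg, X' = NET.Jn true (dF (q l) ρ R₁ : Set (ℤ × ℤ)) (So true (q l) ρ)
    (fl true (q l) m R₁) := ⟨_, rfl⟩
  rw [← hX'] at kC
  have kD := land_WC (e := true) (F := X'.indicator 1) hQ hQ1 hη hw hk hkn hs1 (m := 2 * s')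
    (by omega) (by omega) (fun ω => ind_nn _ _) (by
      rw [hX']
      exact ind_Jn (dF_disj (by omega)))
  rw [← PAr_eq hs1] at kD
  have kD' := H1 true (q l) s' (2 * s') (by omega) (by omega) (by push_cast; omega)
  obtain ⟨T, hT⟩ : ∃ T : Finset (ℤ × ℤ), T = arch ((q l).1 + ρ) ((q l).1 + m) ((q l).1 + 2 * s')
    ((q l).1 + 3 * s') (q l).2 (q l).2 ((q l).2 + s') ((q l).2 + 2 * s') := ⟨_, rfl⟩
  have hmT : ∀ t ∈ T, (q l).1 + ρ ≤ t.1 ∧ t.1 < (q l).1 + 3 * s' ∧ (q l).2 ≤ t.2 ∧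
      t.2 < (q l).2 + 2 * s' := by
    intro t ht
    rw [hT, mem_arch] at ht
    omega
  have e5 : (((8 * M.toNat : ℕ) : ℤ)) = 8 * M := by push_cast; omega
  have hM : 2 * s' ≤ 8 * M * (m - ρ) := by
    have e6 : R₁ ≤ 4 * (m - ρ) := by omega
    have e8 : M * R₁ ≤ M * (4 * (m - ρ)) := mul_le_mul_of_nonneg_left e6 (by omega)
    linarith
  have hMs : s' ≤ M * s' := by nlinarith
  have kE' := (H2 true ((q l).1 + ρ) ((q l).1 + m) ((q l).1 + 2 * s') ((q l).1 + 3 * s') (q l).2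
    (q l).2 ((q l).2 + s') ((q l).2 + 2 * s') (by omega) (by omega) (by omega) (by omega) (by omega)
    (by omega) (by
      rw [show (q l).2 + 2 * s' - (q l).2 = 2 * s' by ring,
        show (q l).1 + m - ((q l).1 + ρ) = m - ρ by ring, e5]
      exact hM) (by
      rw [show (q l).2 + 2 * s' - (q l).2 = 2 * s' by ring,
        show (q l).1 + 3 * s' - ((q l).1 + 2 * s') = s' by ring, e5]
      linarith) (by
      rw [show (q l).1 + 3 * s' - ((q l).1 + ρ) = 3 * s' - ρ by ring,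
        show (q l).2 + 2 * s' - ((q l).2 + s') = s' by ring, e5]
      linarith)).1
  rw [← hT] at kE'
  have kE := join_W (T := T) hQ hQ1 hη hw hk hkn hρ (m := m) (R₁ := R₁) (s' := s') (by omega)
    (by omega) hRs hsR hmT
  rw [← hX'] at kE
  obtain ⟨Y', hY'⟩ : ∃ Y' : Set Cfg, Y' = NET.Jn true (↑(D \ hbox (q l) s') : Set (ℤ × ℤ))
        (fl true (q l) s' (2 * s')) (arcQ true q k n) := ⟨_, rfl⟩
  rw [← hY'] at kD kE
  obtain ⟨P', hP'⟩ : ∃ P' : Set Cfg, P' = PAr D (Wr q k) (q l) s' := ⟨_, rfl⟩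
  rw [← hP'] at kC kD ⊢
  obtain ⟨Z', hZ'⟩ : ∃ Z' : Set Cfg, Z' = Xc true (q l) ρ R₁ := ⟨_, rfl⟩
  rw [← hZ'] at kC ⊢
  obtain ⟨E₀, hE₀⟩ : ∃ E₀ : ℝ, E₀ = Ex Q D η (fun ω => P'.indicator 1 ω * Z'.indicator 1 ω) :=
    ⟨_, rfl⟩
  obtain ⟨E₁, hE₁⟩ : ∃ E₁ : ℝ, E₁ = Ex Q D η (fun ω => P'.indicator 1 ω * X'.indicator 1 ω) :=
    ⟨_, rfl⟩
  have n0 : 0 ≤ E₀ := by
    rw [hE₀]
    exact Ex_nn hQ fun ω => mul_nonneg (ind_nn _ _) (ind_nn _ _)
  have n1 : 0 ≤ E₁ := by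
    rw [hE₁]
    exact Ex_nn hQ fun ω => mul_nonneg (ind_nn _ _) (ind_nn _ _)
  have e1 : Ex Q D η (fun ω => X'.indicator 1 ω * P'.indicator 1 ω) = E₁ := by
    rw [hE₁]
    exact Ex_congr fun S _ => mul_comm _ _
  have e2 : Ex Q D η (fun ω => X'.indicator 1 ω * Y'.indicator 1 ω) = Pr Q D η (X' ∩ Y') := by
    unfold Pr
    exact Ex_congr fun S _ => (ind_inter X' Y' _).symm
  rw [← hE₀] at kC ⊢
  rw [← hE₁] at kC
  rw [e1, e2] at kD
  have q0 : κ₁ * E₀ ≤ E₁ := (mul_le_mul_of_nonneg_right kC' n0).trans kC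
  have q1 : κ₁ * E₁ ≤ Pr Q D η (X' ∩ Y') := (mul_le_mul_of_nonneg_right kD' n1).trans kD
  have q2 : κ₂ * Pr Q D η (X' ∩ Y') ≤ aD Q D η (Wr q k) (q l) ρ :=
    (mul_le_mul_of_nonneg_right kE' (Pr_nonneg hQ _)).trans kE
  calc κ₁ * κ₁ * κ₂ * E₀ = κ₂ * (κ₁ * (κ₁ * E₀)) := by ring
    _ ≤ κ₂ * (κ₁ * E₁) := by
        exact mul_le_mul_of_nonneg_left (mul_le_mul_of_nonneg_left q0 h1.le) h2.le
    _ ≤ κ₂ * Pr Q D η (X' ∩ Y') := mul_le_mul_of_nonneg_left q1 h2.le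
    _ ≤ _ := q2

theorem chain_fin1 {h aR a' E C7 κ κ₀ a : ℝ} (hh : 0 ≤ h) (k1 : aR ≤ a') (k2 : h * a' ≤ C7 * E)
    (k3 : κ * E ≤ a) (hC : 0 < C7) (hκ : 0 < κ) (hκ₀ : 0 < κ₀) (ha : 0 ≤ a) :
    h * aR ≤ (1 / κ₀ + C7 / κ) * a := by
  have q4 : E ≤ a / κ := by
    rw [le_div_iff₀ hκ]
    linarith
  have g3 : 0 ≤ 1 / κ₀ * a := by positivity
  calc h * aR ≤ h * a' := mul_le_mul_of_nonneg_left k1 hh
    _ ≤ C7 * E := k2
    _ ≤ C7 * (a / κ) := mul_le_mul_of_nonneg_left q4 hC.le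
    _ = C7 / κ * a := by ring
    _ ≤ _ := by rw [add_mul]; linarith

theorem chain_fin2 {h aR C7 κ κ₀ a : ℝ} (h1 : h ≤ 1) (haR : 0 ≤ aR) (k1 : κ₀ * aR ≤ a) (hC : 0 < C7)
    (hκ : 0 < κ) (hκ₀ : 0 < κ₀) (ha : 0 ≤ a) : h * aR ≤ (1 / κ₀ + C7 / κ) * a := by
  have g1 : h * aR ≤ aR := mul_le_of_le_one_left haR h1
  have g2 : aR ≤ 1 / κ₀ * a := by
    rw [one_div_mul_eq_div, le_div_iff₀ hκ₀]
    linarith
  have g3 : 0 ≤ C7 / κ * a := by positivity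
  rw [add_mul]
  linarith

theorem chain_fin3 {dR d1 d2 a2 aR a C6 C4 C : ℝ} (k6 : dR ≤ C6 * (d1 * d2)) (k4 : d2 ≤ C4 * a2)
    (kg : a2 * aR ≤ C * a) (haR : 0 ≤ aR) (hd : 0 ≤ d1) (h6 : 0 < C6) (h4 : 0 < C4) :
    dR * aR ≤ C6 * (C4 * C) * (d1 * a) := by
  calc dR * aR ≤ C6 * (d1 * d2) * aR := mul_le_mul_of_nonneg_right k6 haR
    _ = C6 * d1 * (d2 * aR) := by ring
    _ ≤ C6 * d1 * (C4 * a2 * aR) :=
        mul_le_mul_of_nonneg_left (mul_le_mul_of_nonneg_right k4 haR) (by positivity)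
    _ = C6 * C4 * d1 * (a2 * aR) := by ring
    _ ≤ C6 * C4 * d1 * (C * a) := mul_le_mul_of_nonneg_left kg (by positivity)
    _ = _ := by ring

/-- **Gluing of an arm of a half annulus and of the outer arm.** -/
theorem glue_W (hQ : 0 < Q) (hQ1 : Q ≤ 1) (hV : VRS Q) (h7 : A7 Q) : ∃ (C : ℝ) (K : ℤ), 0 < C ∧
    4 ≤ K ∧ ∀ (n k l : ℕ) (q : ZMod n → ℤ × ℤ) (D : Finset (ℤ × ℤ)) (η : Cfg) (R N ρ R₁ : ℤ),
      WinD q D η k l R → 1 ≤ ρ → ρ ≤ R₁ → K * R₁ ≤ R → K * R₁ ≤ N →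
      hx Q true (q l) ρ R₁ N * aD Q D η (Wr q k) (q l) R₁ ≤ C * aD Q D η (Wr q k) (q l) ρ := by
  obtain ⟨κ₀, h0, h0', H0⟩ := step_W hQ hQ1 hV
  obtain ⟨C7, K7, hC7, hK7, H7⟩ := h7
  obtain ⟨κ, h1, H1⟩ := far_W hQ hQ1 hV (M := K7 + 1) (by omega)
  refine ⟨1 / κ₀ + C7 / κ, 4 * (K7 + 1), by positivity, by omega, ?_⟩
  intro n k l q D η R N ρ R₁ hwD hρ hρR hR hN
  obtain ⟨hw, hk, hkn, -, hout⟩ := hwD
  have hη := hout.good
  have hn0 : 0 ≤ aD Q D η (Wr q k) (q l) R₁ := Pr_nonneg hQ _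
  have hn1 : 0 ≤ aD Q D η (Wr q k) (q l) ρ := Pr_nonneg hQ _
  have hx1 : hx Q true (q l) ρ R₁ N ≤ 1 := Pr_le_one hQ _
  have hx0 : 0 ≤ hx Q true (q l) ρ R₁ N := Pr_nonneg hQ _
  obtain ⟨p, hp⟩ : ∃ p : ℤ, p = K7 * R₁ := ⟨_, rfl⟩
  have hpR : R₁ ≤ p := by rw [hp]; nlinarith
  have e4 : 4 * (K7 + 1) * R₁ = 4 * (p + R₁) := by rw [hp]; ring
  rw [e4] at hR hN
  by_cases hc : R₁ < 8 * ρ
  · have h := H0 n k l q D η R ρ R₁ hη hw hk hkn hρ hρR (by omega) (by omega)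
    exact chain_fin2 hx1 hn0 h hC7 h1 h0 hn1
  have kA := arm_mul (W := Wr q k) (s' := p + R₁) hQ hη hw hout H7 hρ hρR (by omega) (by omega)
    (show K7 * R₁ ≤ N by omega)
  have kB : aD Q D η (Wr q k) (q l) R₁ ≤ aD Q D η (Wr q k) (q l) (p + R₁) :=
    Pr_mono hQ (PAr_mono (by omega) (by omega))
  have kC := H1 n k l q D η R ρ R₁ (p + R₁) hη hw hk hkn hρ (by omega) (by omega)
    (by rw [hp]; linarith) (by omega)
  exact chain_fin1 hx0 kB kA kC hC7 h1 h0 hn1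

/-- A dual arm is not more likely than a primal arm. -/
def A4d (Q : ℝ) : Prop := ∃ (C : ℝ) (K s0 : ℤ), 0 < C ∧ 1 ≤ K ∧ 1 ≤ s0 ∧
  ∀ (b : ℤ × ℤ) (r R N : ℤ), s0 ≤ r → r ≤ R → K * R ≤ N → hx Q false b r R N ≤ C * hx Q true b r R N

/-- **(CH)** The chain of the arms. -/
theorem s_CHT_of (hQ : 0 < Q) (hQ1 : Q ≤ 1) (hV : VRS Q) (h4 : A4d Q) (h6 : A6 Q) (h7 : A7 Q) :
    S_CHT Q := by
  obtain ⟨C, K, hC, hK, H⟩ := glue_W hQ hQ1 hV h7
  obtain ⟨C4, K4, s4, hC4, hK4, hs4, H4⟩ := h4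
  obtain ⟨C6, K6, s6, hC6, hK6, hs6, H6⟩ := h6
  obtain ⟨K0, hK0⟩ : ∃ K0, K0 = max K (max K4 K6) := ⟨_, rfl⟩
  refine ⟨C6 * (C4 * C), K0, max s4 s6, by positivity, by omega, by omega, ?_⟩
  intro n q D η k l R N hwD r ρ R₁ hr hrρ hρR hR hN
  have hR1 : 0 ≤ R₁ := by omega
  have m1 : K * R₁ ≤ K0 * R₁ := mul_le_mul_of_nonneg_right (by omega) hR1
  have m4 : K4 * R₁ ≤ K0 * R₁ := mul_le_mul_of_nonneg_right (by omega) hR1
  have m6 : K6 * R₁ ≤ K0 * R₁ := mul_le_mul_of_nonneg_right (by omega) hR1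
  have k6 := H6 false (q l) r ρ R₁ N (by omega) hrρ hρR (by omega)
  have k4 := H4 (q l) ρ R₁ N (by omega) hρR (by omega)
  have kg := H n k l q D η R N ρ R₁ hwD (by omega) hρR (by omega) (by omega)
  have a0 : 0 ≤ aD Q D η (Wr q k) (q l) R₁ := Pr_nonneg hQ _
  have a1 : 0 ≤ hx Q false (q l) r ρ N := Pr_nonneg hQ _
  exact chain_fin3 k6 k4 kg a0 a1 hC6 hC4

end Vale.Agent.P167.N.BT
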