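import Vale.Agent.P167.N.BT.Chain
import Vale.Agent.P167.N.BT.Arms

/-!
# P167, `0 < q < 1`, block BT: the chain of the arms (`s_CHT`)
-/

set_option autoImplicit false

namespace Vale.Agent.P167.N.BT

open Vale.Agent.P167

/-- **(CH)** The chain of the arms. -/
theorem s_CHT {Q : ℝ} (hQ : Kit Q) : S_CHT Q :=
  s_CHT_of hQ.pos hQ.le (NET.vrs hQ.pos hQ.lt) (a4 hQ) (a6 hQ) (a7 hQ)

end Vale.Agent.P167.N.BT
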