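import Vale.Agent.P167.N.BT.FactT
import Vale.Agent.P167.QB.Circ

/-!
# P167, t-bridge, BT3 (4): the functional on a primal half circuit

`clusE`: the strands around a boundary site and the primal clusters. `prodT`: if a primal half circuit of the
flat box surrounds the small box, the product of the factors of the strands around `q m` is a local
functional times the indicator that the half circuit is joined by a primal path to the wired arc.
-/

set_option autoImplicit false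

namespace Vale.Agent.P167.N.BT

open Finset Relation Vale.Agent.P167 Vale.Agent.P167.BR Vale.Agent.P167.QB
open Vale.Agent.P145.FB (PStep)
open Vale.Agent.P167.E6 (IsPolygon Encloses)
open Vale.Agent.P167.H718 (IsXY IsCl Cl isCl_strand)
open Vale.Agent.P167.QX (lo hi exists_xy lo_xy hi_xy wB XB)

variable {D : Finset (ℤ × ℤ)} {ω : Cfg} {n : ℕ} {q : ZMod n → ℤ × ℤ} {A : Finset Ed}
  {θ : ℝ} {k m w t1 t2 : ℕ} {r R : ℤ}

theorem stpE_of {F : Set (ℤ × ℤ)} (hF : ∀ v ∈ F, ω v = true ∧ v ∈ D) {s t : ℤ × ℤ}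
    (hs : Even (s.1 + s.2)) (h : ReflTransGen (PStep F) s t) :
    ReflTransGen (Stp ω D) s t ∧ Even (t.1 + t.2) := by
  induction h with
  | refl => exact ⟨ReflTransGen.refl, hs⟩
  | tail _ h ih =>
    have hp := pstep_par h
    obtain ⟨h1, h2, h3⟩ := h
    refine ⟨ih.1.tail (Or.inl ⟨ih.2, h1, h2, ?_⟩), ?_⟩
    · have := hF _ h3
      simp only [Set.mem_inter_iff, mem_coe]
      exact ⟨this.1, this.2⟩
    · have := ih.2
      rw [Int.even_iff] at *
      omega

theorem ofE_stp {s t : ℤ × ℤ} (hs : Even (s.1 + s.2)) (h : ReflTransGen (Stp ω D) s t) :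
    ReflTransGen (PStep {v | ω v = true ∧ v ∈ D}) s t ∧ Even (t.1 + t.2) := by
  induction h with
  | refl => exact ⟨ReflTransGen.refl, hs⟩
  | tail _ h ih =>
    have hp := h.par
    rcases h with ⟨-, h1, h2, h3⟩ | ⟨h0, -⟩
    · refine ⟨ih.1.tail ⟨h1, h2, ?_⟩, ?_⟩
      · exact ⟨h3.1, h3.2⟩
      · have := ih.2
        rw [Int.even_iff] at *
        omega
    · exact absurd ih.2 h0

open Classical in
/-- The local product over the inner strands. -/
noncomputable def GinT (θ : ℝ) (b : ℤ × ℤ) (r R : ℤ) (ω : Cfg) : ℝ :=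
  ∏ A ∈ (pcs ω (hbox b R)).filter (GI b r R), if LeftIn b A then kq θ else 0

section

variable (hq : IsPolygon q) (hD : Encloses q D)
include hq hD

open Classical in
/-- **Clusters and strands**: `C` is a union of primal clusters. -/
theorem clusE (C : Set (ℤ × ℤ)) (hC : ∀ s t, Stp ω D s t → (s ∈ C ↔ t ∈ C))
    (hCe : ∀ s ∈ C, Even (s.1 + s.2)) (hw : w ≤ n) :
    (if q w ∈ C then (1 : ℤ) else 0) = (if q 0 ∈ C then 1 else 0) -
      ∑ A ∈ (pcs ω D).filter (fun A => (∃ e ∈ A, ls e ∈ C) ∧ Ard q w A), QB.sg q A := by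
  have hCr : ∀ A ∈ pcs ω D, ∀ e ∈ A, ∀ e' ∈ A, (ls e ∈ C ↔ ls e' ∈ C) := by
    intro A hA e he e' he'
    refine piece_const (P := fun e => ls e ∈ C) hA (fun e he => ?_) he he'
    rcases ls_stp (ω := ω) he with h1 | h1
    · simp only [h1]
    · exact hC _ _ h1
  choose! U hU using fun A (hA : A ∈ pcs ω D) => exists_pot hq hD hA
  let τ : Finset Ed → ℤ := fun A => if ∃ e ∈ A, ls e ∈ C then 1 else 0
  have hg : ∀ e ∈ eds D, (fun s => if s ∈ C then (1 : ℤ) else 0) (ls e) =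
      (fun s => if s ∈ C then (1 : ℤ) else 0) (rs e) + τ (piece ω D e) := by
    intro e he
    have h1 : rs e ∉ C := fun h => odd_rs e (hCe _ h)
    have h2 : (∃ e' ∈ piece ω D e, ls e' ∈ C) ↔ ls e ∈ C :=
      ⟨fun ⟨e', he', h'⟩ => (hCr _ (piece_mem_pcs he) e' he' e (self_mem_piece he)).1 h',
        fun h' => ⟨e, self_mem_piece he, h'⟩⟩
    simp only [τ, h1, h2, if_false]
    ring
  have h1 := const_bd hq hD hU (g := fun s => if s ∈ C then (1 : ℤ) else 0) (τ := τ) hg w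
  have h2 : ∑ A ∈ pcs ω D, τ A * U A (q w) = ∑ A ∈ pcs ω D, τ A * U A (q 0) -
      ∑ A ∈ (pcs ω D).filter (fun A => (∃ e ∈ A, ls e ∈ C) ∧ Ard q w A), QB.sg q A := by
    rw [sum_filter, ← sum_sub_distrib]
    refine sum_congr rfl fun A hA => ?_
    rw [pot_val hq hD hA (hU A hA) hw]
    simp only [τ]
    by_cases a1 : ∃ e ∈ A, ls e ∈ C <;> by_cases a2 : Ard q w A <;> (simp [a1, a2]; try ring)
  linarith

variable (hF : Flt D (q m) R) (hR : 1 ≤ R) (hm : m < n) (h0 : q 0 ∉ sites (hbox (q m) R))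
include hF hR hm h0

open Classical in
/-- **If the half circuit is not joined to the wired arc** there is a strand around `q m` with both ends
on the free side and sign `- 1` (the outer boundary of its cluster). -/
theorem exists_zero (hr : 1 ≤ r) (hrR : r < R) (h1' : (t1 : ℤ) ≤ m - r)
    (h2 : (m : ℤ) + r ≤ t2) (h2' : (t2 : ℤ) ≤ m + R) (hmk : (m : ℤ) + R ≤ k) (hkn : k ≤ n)
    (hev : Even ((q t2).1 + (q t2).2))
    (hTB : ReflTransGen (Stp ω (hbox (q m) R)) (q t1) (q t2))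
    (hTZ : ReflTransGen (Stp ω (D \ hbox (q m) r)) (q t1) (q t2))
    (hJ : ¬ ∃ j : ℕ, k ≤ j ∧ j ≤ n ∧ ReflTransGen (Stp ω D) (q t2) (q j)) :
    ∃ A ∈ pcs ω D, ¬ Vz (hbox (q m) r) A ∧ Ard q m A ∧ hi q A < k ∧ QB.sg q A = -1 := by
  push Not at hJ
  have hTD := stp_mono (hbox_sub hF) hTB
  set C : Set (ℤ × ℤ) := {s | ReflTransGen (Stp ω D) (q t2) s} with hCdef
  have hC : ∀ s t, Stp ω D s t → (s ∈ C ↔ t ∈ C) := fun s t h =>
    ⟨fun h' => ReflTransGen.tail h' h, fun h' => ReflTransGen.tail h' h.symm⟩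
  have hCe : ∀ s ∈ C, Even (s.1 + s.2) := fun s hs => (ofE_stp hev hs).2
  have e1 := clusE hq hD (ω := ω) C hC hCe (w := t2) (by omega)
  have hq0 : q 0 ∉ C := by
    have := hJ n hkn le_rfl
    rwa [ZMod.natCast_self] at this
  rw [if_pos (show q t2 ∈ C from ReflTransGen.refl), if_neg hq0] at e1
  have hex : ∃ A ∈ (pcs ω D).filter (fun A => (∃ e ∈ A, ls e ∈ C) ∧ Ard q t2 A),
      QB.sg q A = -1 := by
    by_contra hcon
    push Not at hcon
    have : 0 ≤ ∑ A ∈ (pcs ω D).filter (fun A => (∃ e ∈ A, ls e ∈ C) ∧ Ard q t2 A), QB.sg q A := by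
      refine sum_nonneg fun A hA => ?_
      rcases ep_cases (q := q) (lo q A) with h5 | h5
      · show (0 : ℤ) ≤ ep q (lo q A)
        rw [h5]
        norm_num
      · exact absurd h5 (hcon A hA)
    omega
  obtain ⟨A, hAf, hsg⟩ := hex
  rw [mem_filter] at hAf
  obtain ⟨hA, ⟨e, he, heC⟩, ha⟩ := hAf
  have hl' : ¬ IsLp D A := fun h => ard_lp hq hD hA h ha
  obtain ⟨x, y, h⟩ := exists_xy hq hD hA hl'
  have h6 := sg_xy hq hD hA h
  have hyx : y < x := by
    have hne := h.ne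
    by_contra hc
    rw [if_pos (by omega)] at h6
    omega
  have hhx : hi q A = x := by
    rw [hi_xy hq hD hA h, max_eq_left hyx.le]
  have hxC : ls (be q (x : ZMod n)) ∈ C := by
    have : ∀ e ∈ A, ∀ e' ∈ A, (ls e ∈ C ↔ ls e' ∈ C) := by
      intro e he e' he'
      refine piece_const (P := fun e => ls e ∈ C) hA (fun e he => ?_) he he'
      rcases ls_stp (ω := ω) he with h1 | h1
      · simp only [h1]
      · exact hC _ _ h1
    exact (this e he _ h.2.2.1).1 heC
  rw [(be_even hq hD h.2.2.2.2.1).1] at hxC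
  have hxk : x < k := by
    by_contra hc
    exact hJ x (not_lt.1 hc) h.1.le hxC
  obtain ⟨u, hu⟩ := exists_pot hq hD hA
  have c1 := ard_iff_of_eq hq hD hA hu (by omega) (by omega) (pot_reach hA hu hTD)
  have ha1 := c1.2 ha
  have hlo := lo_xy hq hD hA h
  have hlA : be q (lo q A) ∈ A := by
    rw [hlo, min_eq_right hyx.le]
    exact h.2.2.2.1
  have hV := novis hq hD hF hR hm h0 hr hrR h1' h2 (by omega) hTZ hA ha1.1 hlA
  refine ⟨A, hA, hV, ?_, by omega, hsg⟩
  unfold Ard at ha ha1 ⊢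
  omega

open Classical in
/-- **The strands around `q m` on a primal half circuit.** -/
theorem prodT (hr : 1 ≤ r) (hrR : r < R) (h1 : (m : ℤ) - R ≤ t1) (h1' : (t1 : ℤ) ≤ m - r)
    (h2 : (m : ℤ) + r ≤ t2) (h2' : (t2 : ℤ) ≤ m + R) (hmk : (m : ℤ) + R ≤ k)
    (hkn : k ≤ n) (hev : Even ((q t2).1 + (q t2).2))
    (hT : ReflTransGen (PStep {v | ω v = true ∧ v ∈ hbox (q m) R ∧ v ∉ hbox (q m) r})
      (q t1) (q t2)) :
    ∏ A ∈ (pcs ω D).filter (fun A => ¬ Vz (hbox (q m) r) A), gmT θ q k m A =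
      GinT θ (q m) r R ω * (if ∃ j : ℕ, k ≤ j ∧ j ≤ n ∧
        ReflTransGen (PStep {v | ω v = true ∧ v ∈ D}) (q t2) (q j) then 1 else 0) := by
  have hTs : ReflTransGen (PStep {v | ω v = true ∧ v ∈ hbox (q m) R ∧ v ∉ hbox (q m) r})
      (q t2) (q t1) := preach_symm hT
  have hTB : ReflTransGen (Stp ω (hbox (q m) R)) (q t1) (q t2) :=
    reach_symm (stpE_of (D := hbox (q m) R) (fun v hv => ⟨hv.1, hv.2.1⟩) hev hTs).1
  have hTZ : ReflTransGen (Stp ω (D \ hbox (q m) r)) (q t1) (q t2) :=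
    reach_symm (stpE_of (D := D \ hbox (q m) r) (fun v hv => ⟨hv.1,
      mem_sdiff.2 ⟨hbox_sub hF hv.2.1, hv.2.2⟩⟩) hev hTs).1
  have hJJ : (∃ j : ℕ, k ≤ j ∧ j ≤ n ∧
      ReflTransGen (PStep {v | ω v = true ∧ v ∈ D}) (q t2) (q j)) ↔
      ∃ j : ℕ, k ≤ j ∧ j ≤ n ∧ ReflTransGen (Stp ω D) (q t2) (q j) := by
    refine exists_congr fun j => and_congr_right fun _ => and_congr_right fun _ => ?_
    exact ⟨fun h => (stpE_of (D := D) (fun v hv => hv) hev h).1, fun h => (ofE_stp hev h).1⟩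
  rw [if_congr hJJ rfl rfl]
  by_cases hJ : ∃ j : ℕ, k ≤ j ∧ j ≤ n ∧ ReflTransGen (Stp ω D) (q t2) (q j)
  · rw [if_pos hJ, mul_one]
    have key : ∀ A, (A ∈ pcs ω D ∧ MO q (hbox (q m) r) m k A) ↔
        (A ∈ pcs ω (hbox (q m) R) ∧ GI (q m) r R A) := fun A =>
      mo_gi hq hD hF hR hm h0 hr h1 h1' h2 h2' hmk le_rfl hTB hJ
    unfold GinT
    have e1 : (pcs ω (hbox (q m) R)).filter (GI (q m) r R) =
        (pcs ω D).filter (MO q (hbox (q m) r) m k) := by
      ext A
      rw [mem_filter, mem_filter]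
      exact (key A).symm
    rw [e1]
    have hsub : (pcs ω D).filter (MO q (hbox (q m) r) m k) ⊆
        (pcs ω D).filter (fun A => ¬ Vz (hbox (q m) r) A) := fun A hA => by
      rw [mem_filter] at hA ⊢
      exact ⟨hA.1, hA.2.2.2⟩
    rw [← prod_subset hsub]
    · refine prod_congr rfl fun A hA => ?_
      rw [mem_filter] at hA
      obtain ⟨hA, ha, hna, hV⟩ := hA
      obtain ⟨hA', hG⟩ := (key A).1 ⟨hA, ha, hna, hV⟩
      have hsg := gi_sg hq hD hF hR hm h0 hA' hG
      have hk : ¬ k ≤ hi q A := fun h => hna ⟨by unfold Ard at ha; omega, h⟩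
      unfold gmT
      rw [if_pos ha, if_neg hk]
      by_cases hL : LeftIn (q m) A
      · rw [if_pos hL]
        rcases ep_cases (q := q) (lo q A) with h5 | h5
        · exact if_pos h5
        · exact absurd hL (hsg.1 h5)
      · rw [if_neg hL, if_neg]
        rw [hsg.2 hL]
        norm_num
    · intro A hA hnA
      rw [mem_filter] at hA
      unfold gmT
      by_cases ha : Ard q m A
      · by_cases hk : k ≤ hi q A
        · rw [if_pos ha, if_pos hk]
        · exfalso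
          apply hnA
          rw [mem_filter]
          exact ⟨hA.1, ha, fun h => hk h.2, hA.2⟩
      · rw [if_neg ha]
  · rw [if_neg hJ, mul_zero]
    obtain ⟨A, hA, hV, ha, hk, hsg⟩ := exists_zero hq hD hF hR hm h0 hr hrR h1' h2 h2' hmk hkn hev
      hTB hTZ hJ
    refine prod_eq_zero (mem_filter.2 ⟨hA, hV⟩) ?_
    unfold gmT
    rw [if_pos ha, if_neg (by omega), if_neg]
    rw [hsg]
    norm_num

end

theorem kq_nonneg (h : 1 / 4 ≥ Real.cos θ ^ 2) (hx : Real.sin θ ≠ 0) : 0 ≤ kq θ := by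
  rw [kq_eq hx]
  nlinarith

end Vale.Agent.P167.N.BT
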