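import Vale.Agent.P167.H640.CZ.Step
import Vale.Agent.P167.BR.Sym
import Vale.Agent.P167.H718.Par3

/-!
# P167, t-bridge, BT3 (1): the set explored from inside, dual colour

`HArmD b r R ω`: a closed path (of odd sites) of squares of the half annulus from distance `r` to distance
`R` of `b`. `CxD b r1 R1 ω`: odd sites joined to the half box of radius `r1` by closed squares of the half
annulus. `ZxD b r1 R1 ω`: the squares of the half box of radius `R1` at `CxD`. All of this is the image of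
`HArm`, `Cx`, `Zx` (`H640.CZ`) under the shift by `(1, 0)` with exchange of the colours.
-/

set_option autoImplicit false

namespace Vale.Agent.P167.N.BT

open Finset Relation Vale.Agent.P167 Vale.Agent.P167.BR
open Vale.Agent.P145.FB (PStep)
open Vale.Agent.P167.QB (ha HArm)
open Vale.Agent.P167.H135 (shC shE shC_od shC_neg)
open Vale.Agent.P167.H640.CZ (Cx Zx Cor mem_Zx)

variable {b : ℤ × ℤ} {r r1 R1 R : ℤ} {ω ω' : Cfg} {D : Finset (ℤ × ℤ)} {A : Finset Ed}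
  {s t v w z : ℤ × ℤ}

/-- The vector of the shift. -/
def ax : ℤ × ℤ := (1, 0)

theorem ax_odd : ¬ Even (ax.1 + ax.2) := by decide

theorem ax1 (z : ℤ × ℤ) : (z + ax).1 = z.1 + 1 := rfl

theorem ax2 (z : ℤ × ℤ) : (z + ax).2 = z.2 := by simp [ax]

theorem ax_par (z : ℤ × ℤ) : Even ((z + ax).1 + (z + ax).2) ↔ ¬ Even (z.1 + z.2) := by
  rw [ax1, ax2, Int.even_iff, Int.even_iff]
  omega

theorem shC_ax (ω : Cfg) (z : ℤ × ℤ) : shC ax ω (z + ax) = !ω z := shC_od ax_odd ω z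

theorem shC_ax' (ω : Cfg) (z : ℤ × ℤ) : shC ax ω (z + ax) = true ↔ ω z = false := by
  rw [shC_ax]; simp

theorem hbox_ax : z + ax ∈ hbox (b + ax) R ↔ z ∈ hbox b R := by
  rw [hbox_tr, mem_tr]

theorem sites_ax : z + ax ∈ sites (D.image (· + ax)) ↔ z ∈ sites D := by
  rw [sites_tr, mem_tr]

theorem sites_hb_ax : z + ax ∈ sites (hbox (b + ax) R) ↔ z ∈ sites (hbox b R) := by
  rw [hbox_tr, sites_ax]

/-- The closed squares of the half annulus. -/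
def hd (b : ℤ × ℤ) (r R : ℤ) (ω : Cfg) : Set (ℤ × ℤ) :=
  {w | w ∈ hbox b R ∧ w ∉ hbox b r ∧ ω w = false}

/-- A closed path of squares of the half annulus from distance `r` to distance `R` of `b`. -/
def HArmD (b : ℤ × ℤ) (r R : ℤ) (ω : Cfg) : Prop :=
  ∃ u v : ℤ × ℤ, ¬ Even (u.1 + u.2) ∧ nm (u - b) ≤ r ∧ R ≤ nm (v - b) ∧
    ReflTransGen (PStep (hd b r R ω)) u v

theorem hd_ax : z + ax ∈ ha (b + ax) r R (shC ax ω) ↔ z ∈ hd b r R ω := by
  unfold ha hd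
  simp only [Set.mem_ofPred_eq, hbox_ax, shC_ax']

theorem rtg_ax {F F' : Set (ℤ × ℤ)} (h : ∀ z, z + ax ∈ F' ↔ z ∈ F) :
    ReflTransGen (PStep F') (s + ax) (t + ax) ↔ ReflTransGen (PStep F) s t := by
  constructor
  · intro h1
    have h2 : ∀ z, z + (-ax) ∈ F ↔ z ∈ F' := fun z => by
      rw [← h, neg_add_cancel_right]
    have := steps_sh h2 h1
    rwa [add_neg_cancel_right, add_neg_cancel_right] at this
  · exact steps_sh h

/-- The dual arm is the image of the primal arm. -/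
theorem harmD_iff : HArm (b + ax) r R (shC ax ω) ↔ HArmD b r R ω := by
  constructor
  · rintro ⟨u, v, h1, h2, h3, h4⟩
    refine ⟨u - ax, v - ax, ?_, ?_, ?_, ?_⟩
    · rw [← ax_par, sub_add_cancel]; exact h1
    · rwa [sub_sub, add_comm ax b]
    · rwa [sub_sub, add_comm ax b]
    · rw [← rtg_ax (fun z => hd_ax), sub_add_cancel, sub_add_cancel]; exact h4
  · rintro ⟨u, v, h1, h2, h3, h4⟩
    refine ⟨u + ax, v + ax, (ax_par u).2 h1, ?_, ?_, (rtg_ax (fun z => hd_ax)).2 h4⟩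
    · rwa [add_sub_add_right_eq_sub]
    · rwa [add_sub_add_right_eq_sub]

/-- The odd sites joined to the half box of radius `r1` by closed squares of the half annulus. -/
def CxD (b : ℤ × ℤ) (r1 R1 : ℤ) (ω : Cfg) : Set (ℤ × ℤ) :=
  {s | ∃ u ∈ sites (hbox b r1), ¬ Even (u.1 + u.2) ∧ ReflTransGen (PStep (hd b r1 R1 ω)) u s}

theorem cxD_iff : s + ax ∈ Cx (b + ax) r1 R1 (shC ax ω) ↔ s ∈ CxD b r1 R1 ω := by
  constructor
  · rintro ⟨u, h1, h2, h3⟩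
    refine ⟨u - ax, ?_, ?_, ?_⟩
    · rw [← sites_hb_ax, sub_add_cancel]; exact h1
    · rw [← ax_par, sub_add_cancel]; exact h2
    · rw [← rtg_ax (fun z => hd_ax), sub_add_cancel]; exact h3
  · rintro ⟨u, h1, h2, h3⟩
    exact ⟨u + ax, sites_hb_ax.2 h1, (ax_par u).2 h2, (rtg_ax (fun z => hd_ax)).2 h3⟩

theorem cor_ax : Cor (s + ax) (v + ax) ↔ Cor s v := by
  unfold Cor
  rw [ax1, ax2, ax1, ax2]
  omega

open Classical in
/-- The squares of the half box of radius `R1` at `CxD`. -/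
noncomputable def ZxD (b : ℤ × ℤ) (r1 R1 : ℤ) (ω : Cfg) : Finset (ℤ × ℤ) :=
  (hbox b R1).filter fun v => ∃ s ∈ CxD b r1 R1 ω, Cor s v

theorem mem_ZxD : v ∈ ZxD b r1 R1 ω ↔ v ∈ hbox b R1 ∧ ∃ s ∈ CxD b r1 R1 ω, Cor s v := by
  classical
  unfold ZxD
  rw [mem_filter]

theorem zxD_iff : v + ax ∈ Zx (b + ax) r1 R1 (shC ax ω) ↔ v ∈ ZxD b r1 R1 ω := by
  rw [mem_Zx, mem_ZxD, hbox_ax]
  refine and_congr_right fun _ => ?_
  constructor
  · rintro ⟨s, h1, h2⟩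
    refine ⟨s - ax, ?_, ?_⟩
    · rw [← cxD_iff, sub_add_cancel]; exact h1
    · rw [← cor_ax, sub_add_cancel]; exact h2
  · rintro ⟨s, h1, h2⟩
    exact ⟨s + ax, cxD_iff.2 h1, cor_ax.2 h2⟩

theorem zxD_im : Zx (b + ax) r1 R1 (shC ax ω) = (ZxD b r1 R1 ω).image (· + ax) := by
  ext z
  rw [mem_tr', ← zxD_iff, sub_add_cancel]

theorem sites_zxD : z + ax ∈ sites (Zx (b + ax) r1 R1 (shC ax ω)) ↔ z ∈ sites (ZxD b r1 R1 ω) := by
  rw [zxD_im, sites_ax]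

theorem cxD_odd (h : s ∈ CxD b r1 R1 ω) : ¬ Even (s.1 + s.2) := by
  rw [← ax_par]
  exact H640.CZ.cx_even (cxD_iff.2 h)

theorem cxD_base (hs : s ∈ sites (hbox b r1)) (ho : ¬ Even (s.1 + s.2)) : s ∈ CxD b r1 R1 ω :=
  ⟨s, hs, ho, ReflTransGen.refl⟩

theorem cxD_in (h1 : 1 ≤ r1) (hH : ¬ HArmD b r1 R1 ω) (h : s ∈ CxD b r1 R1 ω) :
    b.1 - R1 < s.1 ∧ s.1 < b.1 + R1 ∧ b.2 ≤ s.2 ∧ s.2 < b.2 + R1 := by
  have h2 := H640.CZ.cx_in h1 (fun h' => hH (harmD_iff.1 h')) (cxD_iff.2 h)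
  rw [ax1, ax2, ax1, ax2] at h2
  omega

theorem ZxD_sub : ZxD b r1 R1 ω ⊆ hbox b R1 := fun _ h => (mem_ZxD.1 h).1

theorem ZxD_low (h : r1 ≤ R1) : hbox b r1 ⊆ ZxD b r1 R1 ω := fun _ hv =>
  zxD_iff.1 (H640.CZ.Zx_low h (hbox_ax.2 hv))

/-- The explored set is sealed. -/
theorem ZxD_sld (h1 : 1 ≤ r1) (hH : ¬ HArmD b r1 R1 ω) (hv : v ∈ ZxD b r1 R1 ω)
    (hw : w ∉ ZxD b r1 R1 ω) (hw2 : b.2 ≤ w.2) (hs : Cor s v) (hs' : Cor s w)
    (ho : ¬ Even (s.1 + s.2)) : ω v = true := by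
  have h2 := H640.CZ.Zx_sld h1 (fun h' => hH (harmD_iff.1 h')) (zxD_iff.2 hv)
    (fun h' => hw (zxD_iff.1 h')) (by rw [ax2, ax2]; exact hw2) (cor_ax.2 hs) (cor_ax.2 hs')
    ((ax_par s).2 ho)
  rw [shC_ax] at h2
  simpa using h2

theorem shC_agree {Z : Finset (ℤ × ℤ)} (h : ∀ v ∈ Z, ω v = ω' v) :
    ∀ v ∈ Z.image (· + ax), shC ax ω v = shC ax ω' v := by
  intro v hv
  rw [mem_tr'] at hv
  have := h _ hv
  rw [← sub_add_cancel v ax, shC_ax, shC_ax, this]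

theorem CxD_congr (h : ∀ v ∈ ZxD b r1 R1 ω, ω v = ω' v) : CxD b r1 R1 ω = CxD b r1 R1 ω' := by
  ext s
  rw [← cxD_iff, ← cxD_iff, H640.CZ.Cx_congr (by rw [zxD_im]; exact shC_agree h)]

theorem ZxD_congr (h : ∀ v ∈ ZxD b r1 R1 ω, ω v = ω' v) : ZxD b r1 R1 ω = ZxD b r1 R1 ω' := by
  ext v
  rw [mem_ZxD, mem_ZxD, CxD_congr h]

theorem noarmD_congr (h1 : 1 ≤ r1) (h2 : r1 < R1) (h : ∀ v ∈ ZxD b r1 R1 ω, ω v = ω' v)
    (hH : ¬ HArmD b r1 R1 ω) : ¬ HArmD b r1 R1 ω' := by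
  rw [← harmD_iff] at hH ⊢
  exact H640.CZ.noarm_congr h1 h2 (by rw [zxD_im]; exact shC_agree h) hH

/-- Off the arm the visitors of the small half box are inner. -/
theorem iso_cz (h1 : 1 ≤ r1) (hr : r ≤ r1) (hR : R1 ≤ R) (hH : ¬ HArm b r1 R1 ω) :
    Iso b r R ω := by
  intro A hA hV e he
  have h2 := H640.CZ.cx_vis h1 hH (fun v hv => H640.CZ.hbox_up hv) hr hA hV he
  have h3 := H640.CZ.cx_in h1 hH h2
  have h4 := H640.CZ.cor_ls e
  rw [mem_hbox, mem_hbox]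
  omega

/-- Off the dual arm the visitors of the small half box are inner. -/
theorem iso_noarmD (h1 : 1 ≤ r1) (hr : r ≤ r1) (hR : R1 ≤ R) (hH : ¬ HArmD b r1 R1 ω) :
    Iso b r R ω := by
  rw [← iso_sh (a := ax)]
  exact iso_cz h1 hr hR fun h' => hH (harmD_iff.1 h')

theorem image_shE_inj {A B : Finset Ed} (h : A.image (shE ax) = B.image (shE ax)) : A = B := by
  rw [← shE_image_neg A ax, h, shE_image_neg]

theorem mem_pcs_ax : A.image (shE ax) ∈ pcs (shC ax ω) (D.image (· + ax)) ↔ A ∈ pcs ω D := by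
  rw [pcs_sh]
  constructor
  · intro h
    obtain ⟨B, hB, h2⟩ := mem_image.1 h
    rwa [← image_shE_inj h2]
  · exact fun h => mem_image.2 ⟨A, h, rfl⟩

/-- The visitors of the small half box depend only on the explored squares. -/
theorem visD_imp (h1 : 1 ≤ r1) (hH : ¬ HArmD b r1 R1 ω) (hr : r ≤ r1)
    (h : ∀ v ∈ ZxD b r1 R1 ω, ω v = ω' v) (hA : A ∈ pcs ω (hbox b R))
    (hV : Vz (hbox b r) A) : A ∈ pcs ω' (hbox b R) ∧ Vz (hbox b r) A := by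
  refine ⟨?_, hV⟩
  rw [← mem_pcs_ax, ← hbox_tr] at hA ⊢
  exact (H640.CZ.vis_imp h1 (fun h' => hH (harmD_iff.1 h')) hr
    (by rw [zxD_im]; exact shC_agree h) hA (by rw [hbox_tr, vz_sh]; exact hV)).1

end Vale.Agent.P167.N.BT
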