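import Vale.Agent.P167.N.BT.Defs
import Vale.Agent.P167.H208.ND.Red
import Vale.Agent.P167.H562.MAJ3

/-!
# P167, `0 < q < 1`, t-bridge: the deterministic part, constants and avoiding pieces

Charges `π / 2 - θ, π / 2 - θ` in two rings around a flat free boundary point `q l`, `l < k`. The pieces which
avoid the rings have a weight between `0` and `1`: `sin (θ - s) / sin θ` or `sin (2 θ + s) / sin (2 θ)` for the
strands with both ends on the free side, `s` the charge of the rings which they surround; the strands from the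
free to the wired part surround all rings or none and have the weight `sin (θ + π - 2 θ) / sin θ = 1` or `1`.
-/

set_option autoImplicit false

namespace Vale.Agent.P167.N.BT

open Finset Relation Vale.Agent.P167.BR Vale.Agent.P167
open Vale.Agent.P167.QX (lo hi exists_xy lo_xy hi_xy wB XB)
open Vale.Agent.P167.QB (gB gB_cos Ard ard_lp wB_hx dlt XG sg_cases sg_xy sep_ard inn_xy)
open Vale.Agent.P167.H436.ND
open Vale.Agent.P167.H192.TA (Xc Pw)
open Vale.Agent.P167.H542.Q (cB wR thB wR_thB)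
open Vale.Agent.P167.H640.ND (mem_sites_Zg stay sep_zn)
open Vale.Agent.P167.H208.ND (Sj Sj_zero cls sL sR sL_eq sR_eq zn_ring rng_ring range_i mass_av mass_01
  mass_lin mass_ring kr_sites ard_l ard_r sep_iff vz_iff dlt_zero wB_free pos_bd cls_iff cls_le a_mono Zn
  eds_far)

variable {D : Finset (ℤ × ℤ)} {ω : Cfg} {n : ℕ} {q : ZMod n → ℤ × ℤ} {A : Finset Ed}
  {l k : ℕ} {θ : ℝ} {R : ℤ} {a : Fin 2 → ℤ} {M : ℝ} {f : Fin 2 → ℤ × ℤ → ℝ}

/-! ### constants -/

/-- The constant `M`. -/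
structure Md (θ M : ℝ) : Prop where
  h1 : 1 ≤ M
  cb : (cB θ)⁻¹ ≤ M
  w1 : ∀ t, 0 ≤ t → t ≤ 9 / 10 * (Real.pi / 2 - θ) → M⁻¹ ≤ Real.cos (θ + t) / Real.cos θ
  w3 : ∀ t, 0 ≤ t → t ≤ 2 * (Real.pi / 2 - θ) → M⁻¹ ≤ Real.sin (θ - t) / Real.sin θ
  w4 : ∀ t, 0 ≤ t → t ≤ 19 / 10 * (Real.pi / 2 - θ) → M⁻¹ ≤ Real.sin (2 * θ + t) / Real.sin (2 * θ)

theorem cb_pos (h1 : Real.pi / 3 < θ) (h2 : θ < Real.pi / 2) : 0 < cB θ := by
  have hpi := Real.pi_pos
  refine lt_min (Real.cos_pos_of_mem_Ioo ⟨by linarith, by linarith⟩)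
    (lt_min (Real.sin_pos_of_pos_of_lt_pi (by linarith) (by linarith))
      (Real.sin_pos_of_pos_of_lt_pi (by linarith) (by linarith)))

theorem exists_md (h1 : Real.pi / 3 < θ) (h2 : θ < Real.pi / 2) : ∃ M, Md θ M := by
  have hpi := Real.pi_pos
  have hs : 0 < Real.sin θ := Real.sin_pos_of_pos_of_lt_pi (by linarith) (by linarith)
  have hs2 : 0 < Real.sin (2 * θ) := Real.sin_pos_of_pos_of_lt_pi (by linarith) (by linarith)
  have hc : 0 < Real.cos θ := Real.cos_pos_of_mem_Ioo ⟨by linarith, by linarith⟩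
  obtain ⟨c1, hc1, k1⟩ := pos_bd (g := fun t => Real.cos (θ + t) / Real.cos θ) (by fun_prop)
    (a := 0) (b := 9 / 10 * (Real.pi / 2 - θ)) fun t ht => div_pos (Real.cos_pos_of_mem_Ioo
      ⟨by linarith [ht.1], by linarith [ht.2]⟩) hc
  obtain ⟨c3, hc3, k3⟩ := pos_bd (g := fun t => Real.sin (θ - t) / Real.sin θ) (by fun_prop)
    (a := 0) (b := 2 * (Real.pi / 2 - θ)) fun t ht => div_pos (Real.sin_pos_of_pos_of_lt_pi
      (by linarith [ht.2]) (by linarith [ht.1])) hs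
  obtain ⟨c4, hc4, k4⟩ := pos_bd (g := fun t => Real.sin (2 * θ + t) / Real.sin (2 * θ))
    (by fun_prop) (a := 0) (b := 19 / 10 * (Real.pi / 2 - θ)) fun t ht => div_pos
      (Real.sin_pos_of_pos_of_lt_pi (by linarith [ht.1]) (by linarith [ht.2])) hs2
  have hcb := cb_pos h1 h2
  obtain ⟨M, hM⟩ : ∃ M, M = 1 + (cB θ)⁻¹ + c1⁻¹ + c3⁻¹ + c4⁻¹ := ⟨_, rfl⟩
  have p1 : 0 < (cB θ)⁻¹ := inv_pos.2 hcb
  have p4 := inv_pos.2 hc1
  have p6 := inv_pos.2 hc3
  have p7 := inv_pos.2 hc4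
  refine ⟨M, by linarith, by linarith, fun t ht ht' => ?_, fun t ht ht' => ?_, fun t ht ht' => ?_⟩
  · exact (inv_anti₀ (by positivity) (by linarith : c1⁻¹ ≤ M)).trans (by
      rw [inv_inv]; exact k1 t ⟨ht, ht'⟩)
  · exact (inv_anti₀ (by positivity) (by linarith : c3⁻¹ ≤ M)).trans (by
      rw [inv_inv]; exact k3 t ⟨ht, ht'⟩)
  · exact (inv_anti₀ (by positivity) (by linarith : c4⁻¹ ≤ M)).trans (by
      rw [inv_inv]; exact k4 t ⟨ht, ht'⟩)

/-! ### weights -/

/-- The weight of a strand from the free to the wired part. -/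
theorem wB_fw (hl : ¬ IsLp D A) (h1 : lo q A < k) (h2 : k ≤ hi q A) (t : ℝ) :
    wB θ (gB θ) q D k A t = Real.sin (θ + t) / Real.sin θ := by
  unfold wB
  rw [if_neg hl, if_pos ⟨h1, h2⟩]
  have e : θ / 2 + gB θ + t = (θ + t) - Real.pi / 2 := by unfold gB; ring
  rw [e, Real.cos_sub_pi_div_two]

/-- The weight of a wired strand: one of the two weights of the strands on the free side. -/
theorem wB_wi (hl : ¬ IsLp D A) (h1 : k ≤ lo q A) (t : ℝ) :
    wB θ (gB θ) q D k A t = Real.sin (2 * θ + t) / Real.sin (2 * θ) ∨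
    wB θ (gB θ) q D k A t = Real.sin (θ - t) / Real.sin θ := by
  unfold wB
  rw [if_neg hl, if_neg (fun h => by omega)]
  split_ifs
  · exact Or.inl rfl
  · exact Or.inr rfl

section

variable (h1 : Real.pi / 3 < θ) (h2 : θ < Real.pi / 2)
include h1 h2

theorem d_01 {t : ℝ} (ht0 : 0 ≤ t) (ht1 : t ≤ 2 * (Real.pi / 2 - θ)) :
    0 ≤ Real.sin (θ - t) / Real.sin θ ∧ Real.sin (θ - t) / Real.sin θ ≤ 1 := by
  have hpi := Real.pi_pos
  have hs : 0 < Real.sin θ := Real.sin_pos_of_pos_of_lt_pi (by linarith) (by linarith)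
  constructor
  · exact div_nonneg (Real.sin_nonneg_of_nonneg_of_le_pi (by linarith) (by linarith)) hs.le
  · rw [div_le_one hs]
    exact Real.sin_le_sin_of_le_of_le_pi_div_two (by linarith) h2.le (by linarith)

theorem p_01 {t : ℝ} (ht0 : 0 ≤ t) (ht1 : t ≤ 2 * (Real.pi / 2 - θ)) :
    0 ≤ Real.sin (2 * θ + t) / Real.sin (2 * θ) ∧ Real.sin (2 * θ + t) / Real.sin (2 * θ) ≤ 1 := by
  have hpi := Real.pi_pos
  have hs2 : 0 < Real.sin (2 * θ) := Real.sin_pos_of_pos_of_lt_pi (by linarith) (by linarith)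
  constructor
  · exact div_nonneg (Real.sin_nonneg_of_nonneg_of_le_pi (by linarith) (by linarith)) hs2.le
  · rw [div_le_one hs2, ← Real.sin_pi_sub (2 * θ + t), ← Real.sin_pi_sub (2 * θ)]
    exact Real.sin_le_sin_of_le_of_le_pi_div_two (by linarith) (by linarith) (by linarith)

theorem fw_ge {t : ℝ} (ht0 : 0 ≤ t) (ht1 : t ≤ 2 * (Real.pi / 2 - θ)) :
    1 ≤ Real.sin (θ + t) / Real.sin θ := by
  have hpi := Real.pi_pos
  have hs : 0 < Real.sin θ := Real.sin_pos_of_pos_of_lt_pi (by linarith) (by linarith)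
  rw [le_div_iff₀ hs, one_mul]
  rcases le_total (θ + t) (Real.pi / 2) with h | h
  · exact Real.sin_le_sin_of_le_of_le_pi_div_two (by linarith) h (by linarith)
  · rw [← Real.sin_pi_sub (θ + t)]
    exact Real.sin_le_sin_of_le_of_le_pi_div_two (by linarith) (by linarith) (by linarith)

end

/-! ### the charges -/

theorem sj_val (θ : ℝ) : Sj (tb θ) 0 0 = 0 ∧ Sj (tb θ) 0 1 = Real.pi / 2 - θ ∧
    Sj (tb θ) 0 2 = 2 * (Real.pi / 2 - θ) := by
  unfold Sj tb
  refine ⟨?_, ?_, ?_⟩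
  · simp
  · simp
  · simp
    ring

theorem sj_bd (h2 : θ < Real.pi / 2) {j : ℕ} (hj : j ≤ 2) :
    0 ≤ Sj (tb θ) 0 j ∧ Sj (tb θ) 0 j ≤ 2 * (Real.pi / 2 - θ) := by
  obtain ⟨e0, e1, e2⟩ := sj_val θ
  have : j = 0 ∨ j = 1 ∨ j = 2 := by omega
  rcases this with rfl | rfl | rfl
  · rw [e0]; constructor <;> linarith
  · rw [e1]; constructor <;> linarith
  · rw [e2]; constructor <;> linarith

theorem mass_zero (A : Finset Ed) : mass D (q 0) 0 A = 0 := by
  unfold mass
  refine sum_eq_zero fun z _ => ?_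
  simp

theorem mass_t (A : Finset Ed) : mass D (q 0) (Ft (tb θ) f 0) A =
    (Real.pi / 2 - θ) * (mass D (q 0) (f 0) A + mass D (q 0) (f 1) A) := by
  rw [mass_lin, mass_zero, Fin.sum_univ_two]
  simp only [tb]
  ring

/-! ### the avoiding pieces -/

section

variable (hw : Win q D l R) (ha : Scl 4000 4 R a) (hk : (l : ℤ) + R ≤ k) (hkn : k ≤ n)
  (h1 : Real.pi / 3 < θ) (h2 : θ < Real.pi / 2)
  (hfs : ∀ i z, f i z ≠ 0 → z ∈ Kr (q l) (a i)) (hf1 : ∀ i, ∑ᶠ z, f i z = 1)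
include hw ha hk hkn

/-- The strands from the free to the wired part which surround `q l` and avoid the rings surround both rings. -/
theorem fw_cls (hA : A ∈ pcs ω D) (hV : ∀ i, ¬ Vz (Zr (q l) (a i)) A) (hl : Ard q l A)
    (hk2 : k ≤ hi q A) : cls q (sL l a) A = 2 := by
  have hZ := zn_ring hw ha hk hkn
  refine H208.ND.cls_eq le_rfl fun i => ⟨fun _ => i.2, fun _ => ?_⟩
  rw [← ard_r hw.poly hw.enc hZ i hA (hV i)]
  have h3 := hZ.lr i
  have h4 := hZ.rk i
  unfold Ard at *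
  omega

include h1 h2 hfs hf1

/-- The weight of a piece which avoids the rings. -/
theorem av_w (hA : A ∈ pcs ω D) (hV : ∀ i, ¬ Vz (Zr (q l) (a i)) A) :
    wB θ (gB θ) q D k A (mass D (q 0) (Ft (tb θ) f 0) A) = (open Classical in
      if Ard q l A ∧ hi q A < k then (if QB.sg q A = 1 then
          Real.sin (θ - Sj (tb θ) 0 (cls q (sL l a) A)) / Real.sin θ
        else Real.sin (2 * θ + Sj (tb θ) 0 (cls q (sL l a) A)) / Real.sin (2 * θ)) else 1) := by
  classical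
  have hpi := Real.pi_pos
  have hs : 0 < Real.sin θ := Real.sin_pos_of_pos_of_lt_pi (by linarith) (by linarith)
  have hc : 0 < Real.cos θ := Real.cos_pos_of_mem_Ioo ⟨by linarith, by linarith⟩
  rw [← dlt_zero (q l), mass_av hw ha hk hkn hfs hf1 hA hV]
  by_cases hl : Ard q l A
  · have hlp : ¬ IsLp D A := fun h => ard_lp hw.poly hw.enc hA h hl
    by_cases hh : hi q A < k
    · rw [if_pos hl, if_pos ⟨hl, hh⟩, wB_free hw.poly hw.enc hA hlp hh]
    · have hlk : lo q A < k := by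
        have := hl.1
        have := (range_i hw ha 0).1
        have := (range_i hw ha 0).2.1
        omega
      rw [if_pos hl, if_neg (fun h => hh h.2), fw_cls hw ha hk hkn hA hV hl (not_lt.1 hh),
        (sj_val θ).2.2, wB_fw hlp hlk (not_lt.1 hh)]
      have e : θ + 2 * (Real.pi / 2 - θ) = Real.pi - θ := by ring
      rw [e, Real.sin_pi_sub, div_self hs.ne']
  · rw [if_neg hl, if_neg (fun h => hl h.1), wB_hx hs hc]

/-- The weight of a piece which avoids the rings is between `0` and `1`. -/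
theorem av_01 (hA : A ∈ pcs ω D) (hV : ∀ i, ¬ Vz (Zr (q l) (a i)) A) :
    0 ≤ wB θ (gB θ) q D k A (mass D (q 0) (Ft (tb θ) f 0) A) ∧
      wB θ (gB θ) q D k A (mass D (q 0) (Ft (tb θ) f 0) A) ≤ 1 := by
  rw [av_w hw ha hk hkn h1 h2 hfs hf1 hA hV]
  obtain ⟨b0, b1⟩ := sj_bd h2 (cls_le (q := q) (s := sL l a) A)
  split_ifs
  · exact d_01 h1 h2 b0 b1
  · exact p_01 h1 h2 b0 b1
  · exact ⟨zero_le_one, le_rfl⟩

open Classical in
/-- The product over the avoiding pieces is between `0` and `1`. -/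
theorem av_up :
    0 ≤ ∏ A ∈ (pcs ω D).filter (fun A => ∀ i, ¬ Vz (Zr (q l) (a i)) A),
      wB θ (gB θ) q D k A (mass D (q 0) (Ft (tb θ) f 0) A) ∧
    ∏ A ∈ (pcs ω D).filter (fun A => ∀ i, ¬ Vz (Zr (q l) (a i)) A),
      wB θ (gB θ) q D k A (mass D (q 0) (Ft (tb θ) f 0) A) ≤ 1 := by
  have key : ∀ A ∈ (pcs ω D).filter (fun A => ∀ i, ¬ Vz (Zr (q l) (a i)) A), _ := fun A hA =>
    av_01 hw ha hk hkn h1 h2 hfs hf1 (mem_filter.1 hA).1 (mem_filter.1 hA).2
  exact ⟨prod_nonneg fun A hA => (key A hA).1, prod_le_one (fun A hA => (key A hA).1)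
    fun A hA => (key A hA).2⟩

omit h1 h2 hfs hf1 in
/-- A piece which surrounds `q l` and does not visit the half box of the ring `1` has the class two. -/
theorem out_cls (hA : A ∈ pcs ω D) (hV : ¬ Vz (hbox (q l) (2 * a 1)) A) (hl : Ard q l A) :
    (∀ i, ¬ Vz (Zr (q l) (a i)) A) ∧ cls q (sL l a) A = 2 := by
  have hZ := zn_ring hw ha hk hkn
  obtain ⟨k1, k2, k3, k4⟩ := range_i hw ha 1
  obtain ⟨k1', k2', k3', k4'⟩ := range_i hw ha 0
  have k5 := a_mono hw ha (show (0 : Fin 2) < 1 by decide)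
  have hV' : ∀ i, ¬ Vz (Zr (q l) (a i)) A := by
    rintro i ⟨e, he, heZ⟩
    refine hV ⟨e, he, eds_mono (fun v hv => ?_) heZ⟩
    have hv' : v ∈ Zg (q l) (a i) (2 * a i) := hv
    rw [mem_Zg] at hv'
    rw [mem_hbox]
    have : a i ≤ a 1 := by fin_cases i <;> simp only [Fin.zero_eta, Fin.mk_one] <;> omega
    omega
  refine ⟨hV', H208.ND.cls_eq le_rfl fun i => ⟨fun _ => i.2, fun _ => ?_⟩⟩
  -- the half box is a connected zone
  have hsub : hbox (q l) (2 * a 1) ⊆ D := hbox_sub (hw.flat.mono (by omega))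
  have e1 : Sep D A (q l) (q 0) := (sep_ard hw.poly hw.enc hA hw.l1.le).2 hl
  have hsl := hZ.sl i
  rw [← sep_ard hw.poly hw.enc hA (w := sL l a i) (by omega)]
  refine (sep_zone hsub (econ_hbox (by omega)) hV ?_ ?_).1 e1
  · rw [mem_sites_hbox (by omega)]
    omega
  · have h5 := sL_eq hw ha i
    have : a i ≤ a 1 ∧ 4000 ≤ a i := by
      refine ⟨?_, (range_i hw ha i).1⟩
      fin_cases i <;> simp only [Fin.zero_eta, Fin.mk_one] <;> omega
    obtain ⟨h6, -⟩ := QB.flat_side hw.poly hw.enc hw.flat (by omega) hw.l1 hw.off (i := sL l a i)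
      (by omega) (by omega)
    rw [h6, mem_sites_hbox (by omega)]
    simp only
    omega

omit h1 h2 hfs hf1 hkn hk in
/-- The two forms of the class. -/
theorem clz_cls (hk : (l : ℤ) + R ≤ k) (hkn : k ≤ n) (hA : A ∈ pcs ω D)
    (hV : ∀ i, ¬ Vz (Zr (q l) (a i)) A) : clz q D (zf (q l) a) A = cls q (sL l a) A := by
  classical
  unfold cls clz
  refine congrArg Finset.card ?_
  refine filter_congr fun i _ => ?_
  refine sep_iff hw.poly hw.enc (zn_ring hw ha hk hkn) i hA (hV i) ?_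
  have h1 := range_i hw ha i
  show zf (q l) a i ∈ sites (Zg (q l) (a i) (2 * a i))
  rw [mem_sites_Zg (by omega) (by omega)]
  unfold zf
  simp only
  omega

omit h1 h2 hfs hf1 hkn hk in
/-- A strand which surrounds both rings without visiting them does not visit the half box of the ring `1`. -/
theorem av_out (hA : A ∈ pcs ω D) (hV : ∀ i, ¬ Vz (Zr (q l) (a i)) A) (hlp : ¬ IsLp D A)
    (hl : Ard q (sL l a 1) A) : ¬ Vz (hbox (q l) (2 * a 1)) A := by
  obtain ⟨k1, k2, k3, k4⟩ := range_i hw ha 1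
  have s1 := sL_eq hw ha 1
  rintro ⟨e, he, hz⟩
  -- the piece visits the inner half box
  have hb : Vz (hbox (q l) (a 1)) A := by
    by_contra hcon
    have h3 : e ∉ eds (hbox (q l) (a 1)) := fun h => hcon ⟨e, he, h⟩
    have h4 : e ∉ eds (Zg (q l) (a 1) (2 * a 1)) := fun h => hV 1 ⟨e, he, h⟩
    rw [mem_eds, mem_hbox, mem_hbox] at h3 hz
    rw [mem_eds, mem_Zg, mem_Zg] at h4
    omega
  have h5 := stay hw.flat (by omega) (by omega) (by omega) hA (hV 1) hb
  obtain ⟨x, y, h, g1, g2, g3, g4, -⟩ := QB.inn_xy hw.poly hw.enc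
    (hw.flat.mono (by omega : a 1 ≤ R)) (by omega) hw.l1
    (fun h' => hw.off (sites_mono (hbox_mono (by omega)) h')) hA (fun d hd => (h5 d hd).1)
    (fun d hd => (h5 d hd).2) hlp
  have hlo := lo_xy hw.poly hw.enc hA h
  have h6 := hl.1
  rcases le_total x y with h7 | h7
  · rw [min_eq_left h7] at hlo; omega
  · rw [min_eq_right h7] at hlo; omega

omit h1 h2 hfs hf1 in
/-- **The elementary form of `StT`.** -/
theorem st_iff : ω ∈ StT q D k l a ↔ ∀ A ∈ pcs ω D, ¬ Vz (hbox (q l) (2 * a 1)) A → Ard q l A →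
    hi q A < k → QB.sg q A = 1 := by
  constructor
  · intro h A hA hV hl hh
    obtain ⟨hV', hcls⟩ := out_cls hw ha hk hkn hA hV hl
    refine h A hA (fun hv => ?_) ?_ hh
    · rw [vz_iff] at hv
      obtain ⟨i, hi⟩ := hv
      exact hV' i hi
    · rw [clz_cls hw ha hk hkn hA hV', hcls]
  · intro h A hA hV hc hh
    have hV' : ∀ i, ¬ Vz (Zr (q l) (a i)) A := fun i hi => hV (vz_iff.2 ⟨i, hi⟩)
    rw [clz_cls hw ha hk hkn hA hV'] at hc
    have hZ := zn_ring hw ha hk hkn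
    have hall : ∀ i, Ard q (sL l a i) A := by
      intro i
      classical
      by_contra hcon
      have h3 : cls q (sL l a) A < 2 := by
        unfold cls
        have h4 := card_lt_card (filter_ssubset.2 ⟨i, mem_univ i, hcon⟩ :
          univ.filter (fun i : Fin 2 => Ard q (sL l a i) A) ⊂ univ)
        simpa using h4
      omega
    have hl : Ard q l A := ard_l hw.poly hw.enc hZ 1 hA (hV' 1) (hall 1)
    have hlp : ¬ IsLp D A := fun h => ard_lp hw.poly hw.enc hA h hl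
    exact h A hA (av_out hw ha hA hV' hlp (hall 1)) hl hh

/-- **A nonzero value excludes the outer strands with the sign `- 1`.** -/
theorem st_of_ne (hX : XT θ q D k f ω ≠ 0) : ω ∈ StT q D k l a := by
  classical
  rw [st_iff hw ha hk hkn]
  intro A hA hV hl hh
  by_contra hsg
  apply hX
  obtain ⟨hV', hcls⟩ := out_cls hw ha hk hkn hA hV hl
  show ∏ A ∈ pcs ω D, _ = 0
  refine prod_eq_zero hA ?_
  rw [av_w hw ha hk hkn h1 h2 hfs hf1 hA hV', if_pos ⟨hl, hh⟩, if_neg hsg, hcls, (sj_val θ).2.2]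
  have e : 2 * θ + 2 * (Real.pi / 2 - θ) = Real.pi := by ring
  rw [e, Real.sin_pi, zero_div]

end

end Vale.Agent.P167.N.BT
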