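import Vale.Agent.P167.N.BT.Du1
import Vale.Agent.P167.H437Q.Du2

/-!
# P167, `0 < q < 1`, t-bridge: the deterministic part, masses and weights of all pieces
-/

set_option autoImplicit false

namespace Vale.Agent.P167.N.BT

open Finset Relation Vale.Agent.P167.BR Vale.Agent.P167
open Vale.Agent.P167.H718 (side_const)
open Vale.Agent.P167.QX (lo hi exists_xy lo_xy hi_xy wB XB)
open Vale.Agent.P167.QB (gB gB_cos Ard ard_lp wB_hx dlt XG sg_cases sg_xy sep_ard inn_xy ard_xy)
open Vale.Agent.P167.H436.ND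
open Vale.Agent.P167.H192.TA (Xc Pw sc_par)
open Vale.Agent.P167.H192.ND (xc_piece site_in site_out)
open Vale.Agent.P167.H542.Q (cB wR thB wR_thB)
open Vale.Agent.P167.H632 (pr cs)
open Vale.Agent.P167.H640.ND (mem_sites_Zg stay sep_zn)
open Vale.Agent.P167.H437Q.Du (sep_of_pot stp_of_pw)
open Vale.Agent.P167.H208.ND (Sj Sj_zero cls sL sR sL_eq sR_eq zn_ring rng_ring range_i mass_av mass_01
  mass_lin mass_ring kr_sites ard_l ard_r sep_iff vz_iff dlt_zero wB_free pos_bd cls_iff cls_le a_mono Zn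
  eds_far)

variable {D : Finset (ℤ × ℤ)} {ω : Cfg} {n : ℕ} {q : ZMod n → ℤ × ℤ} {A : Finset Ed}
  {l k : ℕ} {θ : ℝ} {R : ℤ} {a : Fin 2 → ℤ} {M : ℝ} {f : Fin 2 → ℤ × ℤ → ℝ}

/-! ### masses -/

section

variable (hw : Win q D l R) (ha : Scl 4000 4 R a) (hk : (l : ℤ) + R ≤ k) (hkn : k ≤ n)
  (h1 : Real.pi / 3 < θ) (h2 : θ < Real.pi / 2)
  (hf0 : ∀ i z, 0 ≤ f i z)
  (hfs : ∀ i z, f i z ≠ 0 → z ∈ Kr (q l) (a i)) (hf1 : ∀ i, ∑ᶠ z, f i z = 1)

include hw ha hk hkn hfs hf1 in
/-- A loop which meets the mass of a ring visits the ring. -/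
theorem lp_vis (hA : A ∈ pcs ω D) (hl : IsLp D A) (i : Fin 2) (h : 0 < mass D (q 0) (f i) A) :
    Vz (Zr (q l) (a i)) A := by
  classical
  by_contra hV
  rw [mass_ring hw ha hk hkn i (hfs i) (hf1 i) hA hV, if_neg (ard_lp hw.poly hw.enc hA hl)] at h
  exact lt_irrefl _ h

include ha hw in
theorem zns_a : Zns R a (fun i => 2 * a i) := by
  refine ⟨fun i => ?_, fun i => ?_, fun i j hij => ?_, fun i => ?_⟩
  · have := range_i hw ha i; omega
  · have := range_i hw ha i; omega
  · have := range_i hw ha i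
    have h2 := a_mono hw ha hij
    omega
  · have := range_i hw ha i; omega

include hw ha in
/-- A piece which visits the two rings crosses the gap with both colours. -/
theorem cross01 (hA : A ∈ pcs ω D) (hv0 : Vz (Zr (q l) (a 0)) A) (hv1 : Vz (Zr (q l) (a 1)) A)
    (c : Bool) : ω ∈ Xc c (q l) (2 * a 0) (a 1) :=
  H192.ND.s_cross n q D l R hw 2 a (fun i => 2 * a i) (zns_a hw ha) ω A hA 0 1 rfl
    ⟨0, le_rfl, hv0⟩ ⟨1, le_rfl, hv1⟩ c

include hw ha hf0 hfs hf1 in
/-- The range of the mass. -/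
theorem mass_rg (h2 : θ < Real.pi / 2) (A : Finset Ed) : 0 ≤ mass D (q 0) (Ft (tb θ) f 0) A ∧
    mass D (q 0) (Ft (tb θ) f 0) A ≤ 2 * (Real.pi / 2 - θ) := by
  have m0 := mass_01 hw ha 0 (hf0 0) (hfs 0) (hf1 0) A
  have m1 := mass_01 hw ha 1 (hf0 1) (hfs 1) (hf1 1) A
  rw [mass_t]
  have h3 : 0 < Real.pi / 2 - θ := by linarith
  constructor
  · exact mul_nonneg h3.le (by linarith)
  · nlinarith

include hw ha hk hkn hfs hf1 in
/-- If one colour does not cross the gap, a loop meets at most one of the masses. -/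
theorem lp_one (hf0 : ∀ i z, 0 ≤ f i z) {c : Bool} (hc : ω ∉ Xc c (q l) (2 * a 0) (a 1))
    (hA : A ∈ pcs ω D) (hl : IsLp D A) :
    mass D (q 0) (f 0) A = 0 ∨ mass D (q 0) (f 1) A = 0 := by
  have m0 := mass_01 hw ha 0 (hf0 0) (hfs 0) (hf1 0) A
  have m1 := mass_01 hw ha 1 (hf0 1) (hfs 1) (hf1 1) A
  by_contra hcon
  push Not at hcon
  have v0 := lp_vis hw ha hk hkn hfs hf1 hA hl 0 (lt_of_le_of_ne m0.1 (Ne.symm hcon.1))
  have v1 := lp_vis hw ha hk hkn hfs hf1 hA hl 1 (lt_of_le_of_ne m1.1 (Ne.symm hcon.2))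
  exact hc (cross01 hw ha hA v0 v1 c)

include hw ha hk hkn h1 h2 hf0 hfs hf1 in
/-- **The weights are nonnegative.** -/
theorem w_nonneg (hb : ω ∉ BadT (q l) a) (hA : A ∈ pcs ω D) :
    0 ≤ wB θ (gB θ) q D k A (mass D (q 0) (Ft (tb θ) f 0) A) := by
  have hpi := Real.pi_pos
  have hs : 0 < Real.sin θ := Real.sin_pos_of_pos_of_lt_pi (by linarith) (by linarith)
  have hc : 0 < Real.cos θ := Real.cos_pos_of_mem_Ioo ⟨by linarith, by linarith⟩
  obtain ⟨u1, u2⟩ := mass_rg hw ha hf0 hfs hf1 h2 A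
  by_cases hl : IsLp D A
  · have hc' : ∃ c : Bool, ω ∉ Xc c (q l) (2 * a 0) (a 1) := by
      by_contra hcon
      push Not at hcon
      exact hb ⟨hcon true, hcon false⟩
    obtain ⟨c, hc'⟩ := hc'
    have m0 := mass_01 hw ha 0 (hf0 0) (hfs 0) (hf1 0) A
    have m1 := mass_01 hw ha 1 (hf0 1) (hfs 1) (hf1 1) A
    have h3 : mass D (q 0) (Ft (tb θ) f 0) A ≤ Real.pi / 2 - θ := by
      rw [mass_t]
      have h4 : 0 < Real.pi / 2 - θ := by linarith
      rcases lp_one hw ha hk hkn hfs hf1 hf0 hc' hA hl with h | h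
      · rw [h]; nlinarith
      · rw [h]; nlinarith
    unfold wB
    rw [if_pos hl]
    exact div_nonneg (Real.cos_nonneg_of_mem_Icc ⟨by linarith, by linarith⟩) hc.le
  · rcases lt_or_ge (hi q A) k with hh | hh
    · rw [wB_free hw.poly hw.enc hA hl hh]
      split_ifs
      · exact (d_01 h1 h2 u1 u2).1
      · exact (p_01 h1 h2 u1 u2).1
    · rcases lt_or_ge (lo q A) k with hh' | hh'
      · rw [wB_fw hl hh' hh]
        exact zero_le_one.trans (fw_ge h1 h2 u1 u2)
      · rcases wB_wi hl hh' (mass D (q 0) (Ft (tb θ) f 0) A) with h | h <;> rw [h]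
        · exact (p_01 h1 h2 u1 u2).1
        · exact (d_01 h1 h2 u1 u2).1

/-! ### the favourable event -/

include hw ha in
/-- A piece which does not separate a part of the bump. -/
theorem mass_part (i : Fin 2) (hf0 : ∀ z, 0 ≤ f i z) (hfs : ∀ z, f i z ≠ 0 → z ∈ Kr (q l) (a i))
    (hf1 : ∑ᶠ z, f i z = 1) {P : ℤ × ℤ → Prop} [DecidablePred P]
    (hP : 1 / 10 ≤ ∑ᶠ z, if P z then f i z else 0)
    (hS : ∀ z, f i z ≠ 0 → P z → ¬ Sep D A z (q 0)) : mass D (q 0) (f i) A ≤ 9 / 10 := by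
  classical
  have h1 := range_i hw ha i
  have hsub : Zr (q l) (a i) ⊆ D := H640.ND.zone_sub hw.flat (by omega)
  have hs : Function.support (f i) ⊆ (sites D : Set (ℤ × ℤ)) := fun z hz =>
    sites_mono hsub (kr_sites (by omega) (hfs z hz))
  have hs' : Function.support (fun z => if P z then f i z else 0) ⊆ (sites D : Set (ℤ × ℤ)) := by
    intro z hz
    rw [Function.mem_support] at hz
    by_cases h : P z
    · rw [if_pos h] at hz
      exact hs hz
    · rw [if_neg h] at hz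
      exact absurd rfl hz
  rw [finsum_eq_sum_of_support_subset _ hs'] at hP
  rw [finsum_eq_sum_of_support_subset (f i) hs] at hf1
  have h3 : mass D (q 0) (f i) A + ∑ z ∈ sites D, (if P z then f i z else 0) ≤ 1 := by
    rw [← hf1]
    unfold mass
    rw [← sum_add_distrib]
    refine sum_le_sum fun z _ => ?_
    by_cases hz : f i z = 0
    · simp [hz]
    · by_cases hPz : P z
      · rw [if_neg (hS z hz hPz), if_pos hPz, zero_add]
      · rw [if_neg hPz, add_zero]
        split_ifs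
        · exact le_rfl
        · exact hf0 z
  linarith

include hw ha in
/-- **A piece which visits the inner half box of a ring or does not surround `q l` meets at most `9 / 10` of the
mass of the ring.** -/
theorem m_le (hG : ∀ i, ∃ c : Bool, ω ∉ Xc c (q l) (r1 (a i)) (r2 (a i))) (i : Fin 2) (hb : Bp2 (q l) (a i) (f i))
    (hA : A ∈ pcs ω D)
    (h : Vz (hbox (q l) (r1 (a i))) A ∨ ¬ Ard q l A) : mass D (q 0) (f i) A ≤ 9 / 10 := by
  classical
  obtain ⟨k1, k2, k3, k4⟩ := range_i hw ha i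
  have hri : r1 (a i) = 7 * a i / 5 + 1 := rfl
  have hro : r2 (a i) = 8 * a i / 5 - 1 := rfl
  by_cases hv : Vz (hbox (q l) (r1 (a i))) A
  · -- the piece does not visit the outer part of the ring
    obtain ⟨c, hc⟩ := hG i
    have hnv : ¬ Vz (Zg (q l) (r2 (a i)) (2 * a i)) A := by
      rintro ⟨e', he', hz'⟩
      obtain ⟨e, he, hz⟩ := hv
      exact hc (xc_piece hA (R := r2 (a i)) (r := r1 (a i)) (hw.flat.mono (by omega)) (by omega) he he'
        (fun c => site_in hz c) (fun c => site_out hz' c) c)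
    refine mass_part hw ha i hb.nonneg hb.supp hb.sum hb.hi fun z hz hP => ?_
    have hz' := hb.supp z hz
    simp only [Kr, Set.mem_ofPred_eq] at hz'
    rw [sep_zn hw (by omega) (by omega) (by omega) hA hnv (by
      rw [mem_sites_Zg (by omega) (by omega)]
      omega)]
    rintro ⟨g5, g6⟩
    have hlp : ¬ IsLp D A := by
      intro hlp
      apply ard_lp hw.poly hw.enc hA hlp (w := l)
      unfold Ard
      omega
    have h5 := stay hw.flat (by omega) (by omega) (by omega) hA hnv (hv.mono (hbox_mono (by omega)))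
    obtain ⟨x, y, h, g1, g2, g3, g4, -⟩ := inn_xy hw.poly hw.enc
      (hw.flat.mono (by omega : r2 (a i) ≤ R)) (by omega) hw.l1
      (fun h' => hw.off (sites_mono (hbox_mono (by omega)) h')) hA (fun d hd => (h5 d hd).1)
      (fun d hd => (h5 d hd).2) hlp
    have hlo := lo_xy hw.poly hw.enc hA h
    rcases le_total x y with h7 | h7
    · rw [min_eq_left h7] at hlo; omega
    · rw [min_eq_right h7] at hlo; omega
  · have hl := h.resolve_left hv
    refine mass_part hw ha i hb.nonneg hb.supp hb.sum hb.lo fun z hz hP => ?_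
    have hz' := hb.supp z hz
    simp only [Kr, Set.mem_ofPred_eq] at hz'
    have hsub : hbox (q l) (r1 (a i)) ⊆ D := hbox_sub (hw.flat.mono (by omega))
    intro hS
    apply hl
    rw [← sep_ard hw.poly hw.enc hA hw.l1.le]
    refine (sep_zone hsub (econ_hbox (by omega)) hv ?_ ?_).1 hS
    · rw [mem_sites_hbox (by omega)]
      omega
    · rw [mem_sites_hbox (by omega)]
      omega

include hw in
/-- The sign of a strand which does not separate its left side. -/
theorem sg_of_sep (hA : A ∈ pcs ω D) (hl : ¬ IsLp D A) {e : Ed} (he : e ∈ A)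
    (hs : ¬ Sep D A (ls e) (q 0)) : QB.sg q A = 1 := by
  obtain ⟨x, y, h⟩ := exists_xy hw.poly hw.enc hA hl
  have h3 : ¬ Sep D A (q x) (q 0) := by
    rintro ⟨u, hu, h4⟩
    refine hs ⟨u, hu, ?_⟩
    rw [← (side_const hA hu hA he h.2.2.1).1, (be_even hw.poly hw.enc h.2.2.2.2.1).1]
    exact h4
  rw [sep_ard hw.poly hw.enc hA h.1.le, ard_xy hw.poly hw.enc hA h] at h3
  rw [sg_xy hw.poly hw.enc hA h, if_pos]
  have hne := h.ne
  by_contra h5
  push Not at h5
  apply h3
  rw [min_eq_right h5, max_eq_left h5]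
  omega

include hw ha in
/-- **A strand with both ends on the free side which surrounds `q l` and does not visit the inner half box of
the ring `1` contains a fixed edge and has the sign `1`.** -/
theorem strand_fav (hG : LkT D (Wr q k) (q l) (r1 (a 1)) ω) : ∃ e : Ed, ∀ A ∈ pcs ω D,
    ¬ Vz (hbox (q l) (r1 (a 1))) A → Ard q l A → hi q A < k → e ∈ A ∧ QB.sg q A = 1 := by
  obtain ⟨k1, k2, k3, k4⟩ := range_i hw ha 1
  have hri : r1 (a 1) = 7 * a 1 / 5 + 1 := rfl
  obtain ⟨z0, hz0, e, he, w0, ⟨i, hi1, hi2, rfl⟩, -, -, hp1, hp2⟩ := hG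
  refine ⟨e, fun A hA hv hl hh => ?_⟩
  have hlp : ¬ IsLp D A := fun h => ard_lp hw.poly hw.enc hA h hl
  have hsub : hbox (q l) (r1 (a 1)) ⊆ D := hbox_sub (hw.flat.mono (by omega))
  have q0 : Sep D A z0 (q 0) := by
    refine (sep_zone hsub (econ_hbox (by omega)) hv ?_ hz0).1
      ((sep_ard hw.poly hw.enc hA hw.l1.le).2 hl)
    rw [mem_sites_hbox (by omega)]
    omega
  have q1 : Sep D A z0 (q 0) ↔ Sep D A (rs e) (q 0) := sep_of_pot fun u hu =>
    pot_reach hA hu (stp_of_pw hp1 (by rw [hp1.parity]; exact sc_par false e))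
  have q2 : Sep D A (ls e) (q 0) ↔ Sep D A (q i) (q 0) := sep_of_pot fun u hu =>
    pot_reach hA hu (stp_of_pw hp2 (sc_par true e))
  have q3 : ¬ Sep D A (q i) (q 0) := by
    rw [sep_ard hw.poly hw.enc hA hi2]
    unfold Ard
    omega
  by_cases heA : e ∈ A
  · exact ⟨heA, sg_of_sep hw hA hlp heA (fun h => q3 (q2.1 h))⟩
  · exfalso
    apply q3
    rw [← q2, sep_of_pot (s' := rs e) fun u hu => hu.eq he heA, ← q1]
    exact q0

include hw ha hk hkn h1 h2 in
/-- **The weights of the pieces on the favourable event.** -/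
theorem w_fav (hb : ∀ i, Bp2 (q l) (a i) (f i)) (hM : Md θ M) (hF : ω ∈ FavT q D k l a)
    (hA : A ∈ pcs ω D) :
    M⁻¹ ≤ wB θ (gB θ) q D k A (mass D (q 0) (Ft (tb θ) f 0) A) := by
  have hf0 : ∀ i z, 0 ≤ f i z := fun i => (hb i).nonneg
  have hfs : ∀ i z, f i z ≠ 0 → z ∈ Kr (q l) (a i) := fun i => (hb i).supp
  have hf1 : ∀ i, ∑ᶠ z, f i z = 1 := fun i => (hb i).sum
  obtain ⟨hG1, -, hG2, hG3⟩ := hF
  have hτ : 0 < Real.pi / 2 - θ := by linarith
  obtain ⟨u1, u2⟩ := mass_rg hw ha hf0 hfs hf1 h2 A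
  have m0 := mass_01 hw ha 0 (hf0 0) (hfs 0) (hf1 0) A
  have m1 := mass_01 hw ha 1 (hf0 1) (hfs 1) (hf1 1) A
  -- pieces with a small mass
  have small : mass D (q 0) (f 1) A ≤ 9 / 10 →
      mass D (q 0) (Ft (tb θ) f 0) A ≤ 19 / 10 * (Real.pi / 2 - θ) := fun h => by
    rw [mass_t]; nlinarith
  by_cases hl : IsLp D A
  · have e0 := m_le hw ha hG1 0 (hb 0) hA (Or.inr (ard_lp hw.poly hw.enc hA hl))
    have e1 := m_le hw ha hG1 1 (hb 1) hA (Or.inr (ard_lp hw.poly hw.enc hA hl))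
    have h3 : mass D (q 0) (Ft (tb θ) f 0) A ≤ 9 / 10 * (Real.pi / 2 - θ) := by
      rw [mass_t]
      rcases lp_one hw ha hk hkn hfs hf1 hf0 hG2 hA hl with h | h
      · rw [h]; nlinarith
      · rw [h]; nlinarith
    unfold wB
    rw [if_pos hl]
    exact hM.w1 _ u1 h3
  · rcases lt_or_ge (hi q A) k with hh | hh
    · rw [wB_free hw.poly hw.enc hA hl hh]
      by_cases hcase : Vz (hbox (q l) (r1 (a 1))) A ∨ ¬ Ard q l A
      · have h3 := small (m_le hw ha hG1 1 (hb 1) hA hcase)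
        split_ifs
        · exact hM.w3 _ u1 u2
        · exact hM.w4 _ u1 h3
      · push Not at hcase
        obtain ⟨e, he⟩ := strand_fav hw ha hG3
        obtain ⟨-, h4⟩ := he A hA hcase.1 hcase.2 hh
        rw [if_pos h4]
        exact hM.w3 _ u1 u2
    · rcases lt_or_ge (lo q A) k with hh' | hh'
      · rw [wB_fw hl hh' hh]
        exact (inv_le_one_of_one_le₀ hM.h1).trans (fw_ge h1 h2 u1 u2)
      · have hna : ¬ Ard q l A := by
          have := range_i hw ha 0
          unfold Ard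
          omega
        have h3 := small (m_le hw ha hG1 1 (hb 1) hA (Or.inr hna))
        rcases wB_wi hl hh' (mass D (q 0) (Ft (tb θ) f 0) A) with h | h <;> rw [h]
        · exact hM.w4 _ u1 h3
        · exact hM.w3 _ u1 u2

end

end Vale.Agent.P167.N.BT
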