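import Vale.Agent.P167.N.BT.Du2
import Vale.Agent.P167.N.H542.Q.PW

/-!
# P167, `0 < q < 1`, t-bridge: the deterministic part (`s_DT`)
-/

set_option autoImplicit false

namespace Vale.Agent.P167.N.BT

open Finset Relation Vale.Agent.P167.BR Vale.Agent.P167
open Vale.Agent.P167.QX (lo hi exists_xy lo_xy hi_xy wB XB)
open Vale.Agent.P167.QB (gB gB_cos Ard ard_lp wB_hx dlt XG sg_cases sep_ard)
open Vale.Agent.P167.H436.ND
open Vale.Agent.P167.H192.TA (Xc Pw)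
open Vale.Agent.P167.H542.Q (cB wR thB wR_thB)
open Vale.Agent.P167.N.H542.Q (Phs)
open Vale.Agent.P167.H562.QM (MajA)
open Vale.Agent.P167.H562.MAJ (Sm)
open Vale.Agent.P167.H562.SML (smf bd_G)
open Vale.Agent.P167.H640.ND (mem_sites_Zg stay)
open Vale.Agent.P167.H208.ND (Sj Sj_zero cls sL sR sL_eq sR_eq zn_ring rng_ring range_i mass_av mass_01
  mass_lin mass_ring kr_sites ard_l ard_r sep_iff vz_iff dlt_zero wB_free pos_bd cls_iff cls_le a_mono Zn
  eds_far)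

variable {D : Finset (ℤ × ℤ)} {ω : Cfg} {n : ℕ} {q : ZMod n → ℤ × ℤ} {A : Finset Ed}
  {l k : ℕ} {θ : ℝ} {R : ℤ} {a : Fin 2 → ℤ} {M : ℝ} {f : Fin 2 → ℤ × ℤ → ℝ}

theorem phs_tb (h1 : Ang θ) {β : ℝ} (hβ : Real.cos (θ / 2 + β) = Real.sin θ) :
    Phs θ (cB θ) D (thB θ β q D k) := by
  refine ⟨h1.pos.le, h1, cb_pos h1.gt h1.lt, fun A hA => ?_, fun A => ?_⟩
  · unfold thB
    rw [if_pos hA]
  · unfold thB cB
    split_ifs
    · exact min_le_left _ _
    · rw [hβ]; exact (min_le_right _ _).trans (min_le_left _ _)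
    · rw [Real.cos_sub_pi_div_two]; exact (min_le_right _ _).trans (min_le_right _ _)
    · rw [Real.cos_pi_div_two_sub]; exact (min_le_right _ _).trans (min_le_left _ _)

section

variable (hw : Win q D l R) (ha : Scl 4000 4 R a) (hk : (l : ℤ) + R ≤ k) (hkn : k ≤ n)
  (h1 : Real.pi / 3 < θ) (h2 : θ < Real.pi / 2)

include hw ha hk hkn in
/-- **The avoiding strands on the favourable event**: they surround no ring, or end on the wired part, or contain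
a fixed edge and have the sign `1`. -/
theorem av_fav (hF : ω ∈ FavT q D k l a) : ∃ e : Ed, ∀ A ∈ pcs ω D,
    (∀ i, ¬ Vz (Zr (q l) (a i)) A) → Ard q l A → hi q A < k →
      cls q (sL l a) A = 0 ∨ (e ∈ A ∧ QB.sg q A = 1) := by
  obtain ⟨-, hc, -, hG3⟩ := hF
  obtain ⟨e, he⟩ := strand_fav hw ha hG3
  refine ⟨e, fun A hA hV hl hh => ?_⟩
  have hZ := zn_ring hw ha hk hkn
  have hcl := cls_iff hZ.sl hZ.anti hl
  have hlp : ¬ IsLp D A := fun h => ard_lp hw.poly hw.enc hA h hl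
  have h3 := cls_le (q := q) (s := sL l a) A
  have g := H640.ND.s_gap n q D l R hw 2 a (fun i => 2 * a i) (zns_a hw ha) ω A hA hV 0 1 rfl
    true hc (q (sL l a 0)) (hZ.ms 0) (q (sL l a 1)) (hZ.ms 1)
  rw [sep_iff hw.poly hw.enc hZ 0 hA (hV 0) (hZ.ms 0),
    sep_iff hw.poly hw.enc hZ 1 hA (hV 1) (hZ.ms 1)] at g
  have i0 := hcl 0
  have i1 := hcl 1
  by_cases hs : Ard q (sL l a 1) A
  · right
    have hv := av_out hw ha hA hV hlp hs
    obtain ⟨k1, k2, k3, k4⟩ := range_i hw ha 1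
    exact he A hA (fun h => hv (h.mono (hbox_mono (by unfold r1; omega)))) hl hh
  · left
    have h4 : ¬ Ard q (sL l a 0) A := fun h => hs (g.1 h)
    rw [i0] at h4
    simp only [Fin.val_zero] at h4
    omega

include hw ha hk hkn h1 h2 in
open Classical in
/-- The product over the avoiding pieces on the favourable event. -/
theorem av_lo (hfs : ∀ i z, f i z ≠ 0 → z ∈ Kr (q l) (a i)) (hf1 : ∀ i, ∑ᶠ z, f i z = 1)
    (hM : Md θ M) (hF : ω ∈ FavT q D k l a) :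
    M⁻¹ ≤ ∏ A ∈ (pcs ω D).filter (fun A => ∀ i, ¬ Vz (Zr (q l) (a i)) A),
      wB θ (gB θ) q D k A (mass D (q 0) (Ft (tb θ) f 0) A) := by
  have hpi := Real.pi_pos
  have hs : 0 < Real.sin θ := Real.sin_pos_of_pos_of_lt_pi (by linarith) (by linarith)
  have hs2 : 0 < Real.sin (2 * θ) := Real.sin_pos_of_pos_of_lt_pi (by linarith) (by linarith)
  have hM1 := hM.h1
  obtain ⟨e, he⟩ := av_fav hw ha hk hkn hF
  -- the weights
  have key : ∀ A ∈ (pcs ω D).filter (fun A => ∀ i, ¬ Vz (Zr (q l) (a i)) A),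
      wB θ (gB θ) q D k A (mass D (q 0) (Ft (tb θ) f 0) A) = 1 ∨
      (e ∈ A ∧ M⁻¹ ≤ wB θ (gB θ) q D k A (mass D (q 0) (Ft (tb θ) f 0) A)) := by
    intro A hA
    rw [mem_filter] at hA
    rw [av_w hw ha hk hkn h1 h2 hfs hf1 hA.1 hA.2]
    by_cases hl : Ard q l A ∧ hi q A < k
    · rw [if_pos hl]
      rcases he A hA.1 hA.2 hl.1 hl.2 with h3 | ⟨h3, h4⟩
      · left
        rw [h3, (sj_val θ).1, sub_zero, add_zero, div_self hs.ne', div_self hs2.ne', ite_self]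
      · right
        rw [if_pos h4]
        obtain ⟨b0, b1⟩ := sj_bd h2 (cls_le (q := q) (s := sL l a) A)
        exact ⟨h3, hM.w3 _ b0 b1⟩
    · left
      rw [if_neg hl]
  by_cases hall : ∀ A ∈ (pcs ω D).filter (fun A => ∀ i, ¬ Vz (Zr (q l) (a i)) A),
      wB θ (gB θ) q D k A (mass D (q 0) (Ft (tb θ) f 0) A) = 1
  · rw [prod_eq_one hall]
    exact inv_le_one_of_one_le₀ hM1
  · push Not at hall
    obtain ⟨A0, hA0, hne⟩ := hall
    obtain ⟨h3, h4⟩ := (key A0 hA0).resolve_left hne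
    rw [prod_eq_single A0]
    · exact h4
    · intro B hB hBA
      by_contra h5
      obtain ⟨h6, -⟩ := (key B hB).resolve_left h5
      rw [mem_filter] at hA0 hB
      exact hBA (eq_of_mem_pcs hB.1 hA0.1 h6 h3)
    · intro h5
      exact absurd hA0 h5

include hw ha hk hkn in
/-- The favourable event is contained in `StT`. -/
theorem fav_st (hF : ω ∈ FavT q D k l a) : ω ∈ StT q D k l a := by
  obtain ⟨e, he⟩ := strand_fav hw ha hF.2.2.2
  rw [st_iff hw ha hk hkn]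
  intro A hA hV hl hh
  obtain ⟨k1, k2, k3, k4⟩ := range_i hw ha 1
  exact (he A hA (fun h => hV (h.mono (hbox_mono (by unfold r1; omega)))) hl hh).2

/-! ### the visiting pieces -/

/-- The small loops have a small charge. -/
theorem g_small (h1 : Real.pi / 3 < θ) (h2 : θ < Real.pi / 2) {b : ℤ × ℤ} {i : Fin 2}
    (ha : 4000 ≤ a i) (hb : Bp 1000 b (a i) (f i)) {ℓ : Finset Ed} (hℓ : IsLoop ω ℓ)
    (hs : Small (kp * a i) ℓ) : |G (fun z => tb θ i * f i z) ℓ| ≤ dw θ := by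
  have hpi := Real.pi_lt_d2
  have ha' : (4000 : ℝ) ≤ a i := by exact_mod_cast ha
  have hτ : 0 < Real.pi / 2 - θ := by linarith
  have hm : ∀ v, |tb θ i * f i v| ≤ (1000 * (Real.pi / 2 - θ)) / (a i : ℝ) ^ 2 := fun v => by
    unfold tb
    rw [abs_mul, abs_of_nonneg (hb.nonneg v), abs_of_pos hτ]
    have h2 := hb.le v
    calc (Real.pi / 2 - θ) * f i v ≤ (Real.pi / 2 - θ) * (1000 / (a i : ℝ) ^ 2) :=
          mul_le_mul_of_nonneg_left h2 hτ.le
      _ = _ := by ring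
  have h := bd_G (κ := kp) (ρ := a i) (Cm := 1000 * (Real.pi / 2 - θ)) (by linarith)
    (by positivity) hm ω ℓ (kp * a i) hℓ le_rfl hs
  refine h.trans ?_
  have e : kp * (a i : ℝ) / a i = kp := by field_simp
  rw [e]
  unfold kp dw
  refine le_min ?_ ?_
  · nlinarith
  · nlinarith

variable (hM : Md θ M) (hbp : ∀ i, Bp 1000 (q l) (a i) (f i))

include hw ha hM hbp in
open Classical in
/-- The product over the visiting pieces. -/
theorem vis_bd (h1 : Ang θ) {N : Fin 2 → ℕ} (hN : ∀ i, MajA (Zr (q l) (a i)) (kp * a i) ω (N i)) :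
    |∏ A ∈ (pcs ω D).filter (fun A => ∃ i, Vz (Zr (q l) (a i)) A),
      wB θ (gB θ) q D k A (mass D (q 0) (Ft (tb θ) f 0) A)| ≤
      ∏ i, Yu θ M (tb θ i) (f i) (a i) (N i) ω ∧
    ((∀ A ∈ pcs ω D, (∃ i, Vz (Zr (q l) (a i)) A) →
        M⁻¹ ≤ wB θ (gB θ) q D k A (mass D (q 0) (Ft (tb θ) f 0) A)) →
      ∏ i, (Vale.Agent.P167.N.H436.ND.Yl θ M (tb θ i) (f i) (q l) (a i) (N i) ω)⁻¹ ≤
      ∏ A ∈ (pcs ω D).filter (fun A => ∃ i, Vz (Zr (q l) (a i)) A),
        wB θ (gB θ) q D k A (mass D (q 0) (Ft (tb θ) f 0) A)) := by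
  have hfs : ∀ i z, f i z ≠ 0 → z ∈ Kr (q l) (a i) := fun i => (hbp i).supp
  have e1 : Ft (fun _ => 1) (fun i z => tb θ i * f i z) 0 = Ft (tb θ) f 0 := by
    funext z
    simp [Ft]
  have key := Vale.Agent.P167.N.H542.Q.PW.s_PW θ (cB θ) D (thB θ (gB θ) q D k) (q 0)
    (phs_tb h1 (gB_cos θ)) 2
    (fun i => Zr (q l) (a i)) (fun i => Kr (q l) (a i)) (fun i => kp * a i) (rng_ring hw ha)
    (fun i z => tb θ i * f i z) 0 (fun i z hz => hfs i z (right_ne_zero_of_mul hz)) ω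
    (fun i ℓ hℓ hs => g_small h1.gt h1.lt (range_i hw ha i).1 (hbp i) hℓ hs)
    (fun A hA hv => ⟨mass_zero A, fun hl => ?_⟩) N hN M hM.h1 hM.cb
  · rw [e1] at key
    simp only [wR_thB (gB_cos θ)] at key
    refine ⟨key.1, fun hgood => ?_⟩
    refine le_trans (le_of_eq ?_) (key.2 fun A hA hv => ?_)
    · refine prod_congr rfl fun i _ => ?_
      unfold Vale.Agent.P167.N.H436.ND.Yl
      rw [mul_inv, ← Real.exp_neg, inv_pow]
      congr 2
      ring
    · obtain ⟨i, hv, -⟩ := hv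
      exact hgood A hA ⟨i, hv⟩
  · obtain ⟨h2, h3⟩ := H135.ND.s_small n q D l R hw 2 a ha ω A hA hv
    rw [e1, mass_lin, mass_zero, add_zero]
    refine sum_eq_zero fun i _ => ?_
    have : mass D (q 0) (f i) A = 0 := by
      unfold mass
      refine sum_eq_zero fun z _ => ?_
      by_cases hz : f i z = 0
      · rw [hz, ite_self]
      · rw [if_neg (h3 hl i z (hfs i z hz))]
    rw [this, mul_zero]

end

/-- **The four properties.** -/
theorem du (hw : Win q D l R) (ha : Scl 4000 4 R a) (hk : (l : ℤ) + R ≤ k) (hkn : k ≤ n)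
    (h1 : Ang θ) (hM : Md θ M) (hb : ∀ i, Bp2 (q l) (a i) (f i)) {N : Fin 2 → ℕ}
    (hN : ∀ i, MajA (Zr (q l) (a i)) (kp * a i) ω (N i)) :
    |XT θ q D k f ω| ≤ ∏ i, Yu θ M (tb θ i) (f i) (a i) (N i) ω ∧
    (XT θ q D k f ω ≠ 0 → ω ∈ StT q D k l a) ∧
    (ω ∉ BadT (q l) a → 0 ≤ XT θ q D k f ω) ∧
    (ω ∈ FavT q D k l a → ω ∈ StT q D k l a ∧ 1 ≤ M * (XT θ q D k f ω *
      ∏ i, Vale.Agent.P167.N.H436.ND.Yl θ M (tb θ i) (f i) (q l) (a i) (N i) ω)) := by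
  classical
  have hf0 : ∀ i z, 0 ≤ f i z := fun i => (hb i).nonneg
  have hfs : ∀ i z, f i z ≠ 0 → z ∈ Kr (q l) (a i) := fun i => (hb i).supp
  have hf1 : ∀ i, ∑ᶠ z, f i z = 1 := fun i => (hb i).sum
  have hM1 := hM.h1
  have hM0 : 0 < M := by linarith
  obtain ⟨k1, k2⟩ := vis_bd hw ha hM (fun i => (hb i).toBp) h1 hN
  obtain ⟨k3, k4⟩ := av_up hw ha hk hkn h1.gt h1.lt hfs hf1 (ω := ω)
  have hX : XT θ q D k f ω = (∏ A ∈ (pcs ω D).filter (fun A => ∀ i, ¬ Vz (Zr (q l) (a i)) A),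
      wB θ (gB θ) q D k A (mass D (q 0) (Ft (tb θ) f 0) A)) *
      ∏ A ∈ (pcs ω D).filter (fun A => ∃ i, Vz (Zr (q l) (a i)) A),
        wB θ (gB θ) q D k A (mass D (q 0) (Ft (tb θ) f 0) A) := by
    unfold XT XG QX.XB
    rw [← prod_filter_mul_prod_filter_not (pcs ω D) (fun A => ∀ i, ¬ Vz (Zr (q l) (a i)) A)]
    congr 1
    refine prod_congr ?_ fun _ _ => rfl
    refine filter_congr fun A _ => ?_
    push Not
    rfl
  refine ⟨?_, st_of_ne hw ha hk hkn h1.gt h1.lt hfs hf1, fun hbad => ?_, fun hF =>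
    ⟨fav_st hw ha hk hkn hF, ?_⟩⟩
  · rw [hX, abs_mul, abs_of_nonneg k3]
    refine (mul_le_mul k4 k1 (abs_nonneg _) zero_le_one).trans ?_
    rw [one_mul]
  · show 0 ≤ ∏ A ∈ pcs ω D, _
    exact prod_nonneg fun A hA => w_nonneg hw ha hk hkn h1.gt h1.lt hf0 hfs hf1 hbad hA
  · have k5 := av_lo hw ha hk hkn h1.gt h1.lt hfs hf1 hM hF
    have k6 := k2 fun A hA _ => w_fav hw ha hk hkn h1.gt h1.lt hb hM hF hA
    rw [hX]
    obtain ⟨W, hW⟩ : ∃ W, W = ∏ A ∈ (pcs ω D).filter (fun A => ∀ i, ¬ Vz (Zr (q l) (a i)) A),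
      wB θ (gB θ) q D k A (mass D (q 0) (Ft (tb θ) f 0) A) := ⟨_, rfl⟩
    obtain ⟨U, hU⟩ : ∃ U, U = ∏ A ∈ (pcs ω D).filter (fun A => ∃ i, Vz (Zr (q l) (a i)) A),
      wB θ (gB θ) q D k A (mass D (q 0) (Ft (tb θ) f 0) A) := ⟨_, rfl⟩
    obtain ⟨Y, hY⟩ : ∃ Y, Y = ∏ i, Vale.Agent.P167.N.H436.ND.Yl θ M (tb θ i) (f i) (q l) (a i)
      (N i) ω := ⟨_, rfl⟩
    rw [← hW] at k5 ⊢
    rw [← hU] at k6 ⊢
    rw [← hY]
    rw [prod_inv_distrib, ← hY] at k6
    have hY0 : 0 < Y := by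
      rw [hY]
      refine prod_pos fun i _ => ?_
      unfold Vale.Agent.P167.N.H436.ND.Yl
      positivity
    have h6 : 1 ≤ U * Y := by
      have := mul_le_mul_of_nonneg_right k6 hY0.le
      rwa [inv_mul_cancel₀ hY0.ne'] at this
    have h8 : 1 ≤ M * W := by
      have := mul_le_mul_of_nonneg_left k5 hM0.le
      rwa [mul_inv_cancel₀ hM0.ne'] at this
    calc (1 : ℝ) ≤ M * W * (U * Y) := one_le_mul_of_one_le_of_one_le h8 h6
      _ = _ := by ring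

theorem scl_of_r2 (h : R2 4000 8 R a) : Scl 4000 4 R a := by
  obtain ⟨h1, h2, h3⟩ := h
  refine ⟨fun i => ?_, fun i j hij => ?_, fun i => ?_⟩
  · fin_cases i
    · exact h1
    · show 4000 ≤ a 1; omega
  · have hc : i = 0 ∧ j = 1 := by
      revert hij
      fin_cases i <;> fin_cases j <;> simp
    obtain ⟨rfl, rfl⟩ := hc
    omega
  · fin_cases i
    · show 8 * a 0 ≤ R; omega
    · show 8 * a 1 ≤ R; omega

/-- **(BT1)** -/
theorem s_DUT (h1 : Ang θ) : S_DUT θ := by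
  obtain ⟨M, hM⟩ := exists_md h1.gt h1.lt
  have hM1 := hM.h1
  refine ⟨M, M, 8, 4000, by linarith, hM1, by norm_num, by norm_num, ?_⟩
  intro n q D η k l R hw a ha f hf ω N hN
  obtain ⟨d1, d2, d3, d4⟩ := du hw.win (scl_of_r2 ha) hw.lR hw.kn h1 hM hf hN
  refine ⟨d1.trans ?_, d2, d3, d4⟩
  refine le_mul_of_one_le_left (prod_nonneg fun i _ => ?_) hM1
  unfold Yu
  have : 0 < M := by linarith
  positivity

end Vale.Agent.P167.N.BT
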