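import Vale.Agent.P167.N.BT.Du

/-!
# P167, t-bridge, BT3 (2): the wall around the closed cluster of a half box

`wallD`: if there is no dual arm in the half annulus, there is an open path from the boundary site `q y` on
the left to the boundary site `q (j0 + 1)` on the right of the half box of radius `r1`; it is joined to an
arc of the boundary away from `q m` if and only if the explored set `ZxD` is joined to this arc outside of
`ZxD`; in this case the inner strands around `q m` are at the closed cluster.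
-/

set_option autoImplicit false

namespace Vale.Agent.P167.N.BT

open Finset Relation Vale.Agent.P167 Vale.Agent.P167.BR
open Vale.Agent.P145.FB (PStep)
open Vale.Agent.P167.QB (ha HArm GI)
open Vale.Agent.P167.H135 (shC shE shC_od shC_neg hdv_sh')
open Vale.Agent.P167.H640.CZ (Cx Zx Cor mem_Zx Se Wl GIz)
open Vale.Agent.P167.E6 (IsPolygon Encloses)

variable {b : ℤ × ℤ} {r r1 R1 R : ℤ} {ω ω' : Cfg} {D : Finset (ℤ × ℤ)} {A : Finset Ed}
  {s t v w z : ℤ × ℤ} {n m k l : ℕ} {q : ZMod n → ℤ × ℤ}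

/-- The setting: a flat window at `q m`, no closed arm in the half annulus. -/
structure SeD (q : ZMod n → ℤ × ℤ) (D : Finset (ℤ × ℤ)) (m : ℕ) (r1 R1 R : ℤ) (ω : Cfg) :
    Prop where
  poly : IsPolygon q
  enc : Encloses q D
  flat : Flt D (q m) R
  mn : m < n
  off : q 0 ∉ sites (hbox (q m) R)
  h1 : 1 ≤ r1
  h2 : r1 < R1
  h3 : R1 + 2 ≤ R
  noarm : ¬ HArmD (q m) r1 R1 ω

theorem flt_ax : Flt (D.image (· + ax)) (b + ax) R ↔ Flt D b R := by
  unfold Flt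
  constructor
  · intro h v h1 h2 h3 h4
    have := h (v + ax) (by rw [ax1, ax1]; omega) (by rw [ax1, ax1]; omega)
      (by rw [ax2, ax2]; omega) (by rw [ax2, ax2]; omega)
    rwa [mem_tr, ax2, ax2] at this
  · intro h v h1 h2 h3 h4
    rw [ax1] at h1 h2
    rw [ax2] at h3 h4
    have e1 : (v - ax).1 = v.1 - 1 := rfl
    have e2 : (v - ax).2 = v.2 := by simp [ax]
    have := h (v - ax) (by rw [e1]; omega) (by rw [e1]; omega) (by rw [e2]; omega)
      (by rw [e2]; omega)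
    rw [mem_tr', this, ax2, e2]

theorem SeD.se (S : SeD q D m r1 R1 R ω) :
    Se (fun i => q i + ax) (D.image (· + ax)) m r1 R1 R (shC ax ω) where
  poly := H718.poly_add S.poly ax
  enc := H718.encl_add S.enc ax
  flat := flt_ax.2 S.flat
  mn := S.mn
  off := fun h => S.off (sites_hb_ax.1 h)
  h1 := S.h1
  h2 := S.h2
  h3 := S.h3
  noarm := fun h => S.noarm (harmD_iff.1 h)

theorem inn_ax {e : Ed} : Inn (b + ax) R (shE ax e) ↔ Inn b R e := by
  unfold Inn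
  rw [hdv_sh' ax_odd, tlv_sh' ax_odd, hbox_ax, hbox_ax, ax2, ax2, ax2]
  exact and_comm

theorem gi_ax : GI (b + ax) r R (A.image (shE ax)) ↔ GI b r R A := by
  unfold GI
  rw [hbox_tr, hbox_tr, top_tr, sep_sh, vz_sh, forall_mem_image]
  simp only [inn_ax]

/-- The local form: strands at the closed cluster. -/
def GIzD (b : ℤ × ℤ) (r r1 R1 : ℤ) (ω : Cfg) (A : Finset Ed) : Prop :=
  (∀ e ∈ A, rs e ∈ CxD b r1 R1 ω) ∧ Sep (hbox b R1) A b (top b R1) ∧ ¬ Vz (hbox b r) A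

theorem giz_ax : GIz (b + ax) r r1 R1 (shC ax ω) (A.image (shE ax)) ↔ GIzD b r r1 R1 ω A := by
  unfold GIz GIzD
  rw [hbox_tr, hbox_tr, top_tr, sep_sh, vz_sh, forall_mem_image]
  simp only [(ls_sh' ax_odd _).1, cxD_iff]

/-- The sites of an arc of the boundary. -/
def arcS (q : ZMod n → ℤ × ℤ) (l k : ℕ) : Set (ℤ × ℤ) := {z | ∃ j : ℕ, l ≤ j ∧ j ≤ k ∧ q j = z}

theorem arcS_ax : arcS (fun i => q i + ax) l k = (· + ax) '' arcS q l k := by
  ext z
  unfold arcS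
  simp only [Set.mem_ofPred_eq, Set.mem_image]
  constructor
  · rintro ⟨j, h1, h2, h3⟩
    exact ⟨q j, ⟨j, h1, h2, rfl⟩, h3⟩
  · rintro ⟨w, ⟨j, h1, h2, h3⟩, h4⟩
    exact ⟨j, h1, h2, by rw [h3]; exact h4⟩

theorem coe_image_ax (Z : Finset (ℤ × ℤ)) :
    ((Z.image (· + ax) : Finset (ℤ × ℤ)) : Set (ℤ × ℤ)) = (· + ax) '' (Z : Set (ℤ × ℤ)) :=
  coe_image

theorem sdiff_ax (D Z : Finset (ℤ × ℤ)) :
    D.image (· + ax) \ Z.image (· + ax) = (D \ Z).image (· + ax) := by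
  ext z
  rw [mem_sdiff, mem_tr', mem_tr', mem_tr', mem_sdiff]

theorem jn_ax {Z : Finset (ℤ × ℤ)} {T : Set (ℤ × ℤ)} :
    Jn false (D.image (· + ax) \ Z.image (· + ax)) (shC ax ω) ↑(sites (Z.image (· + ax)))
      ((· + ax) '' T) ↔ Jn true (D \ Z) ω ↑(sites Z) T := by
  rw [sdiff_ax, sites_tr, coe_image_ax]
  have := jn_sh (ω := ω) (D := D \ Z) (a := ax) (c := true) (U := ↑(sites Z)) (T := T)
  rwa [if_neg ax_odd] at this

theorem rtgF_ax {F : ℤ × ℤ → Prop} {F' : ℤ × ℤ → Prop} (h : ∀ z, F' (z + ax) ↔ F z) :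
    ReflTransGen (PStep {v | shC ax ω v = false ∧ F' v}) (s + ax) (t + ax) ↔
      ReflTransGen (PStep {v | ω v = true ∧ F v}) s t := by
  refine rtg_ax fun z => ?_
  simp only [Set.mem_ofPred_eq, h, shC_ax]
  simp

/-- **The wall.** -/
theorem wallD (S : SeD q D m r1 R1 R ω) : ∃ y j0 : ℕ, (m : ℤ) - R1 ≤ y ∧ (y : ℤ) + r1 ≤ m ∧
    (m : ℤ) + r1 ≤ j0 + 1 ∧ (j0 : ℤ) < m + R1 ∧
    Even ((q (j0 + 1 : ℕ)).1 + (q (j0 + 1 : ℕ)).2) ∧
    ReflTransGen (PStep {v | ω v = true ∧ v ∈ hbox (q m) R1 ∧ v ∉ hbox (q m) r1}) (q y)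
      (q (j0 + 1 : ℕ)) ∧
    ∀ l k : ℕ, (m : ℤ) + R ≤ l → k ≤ n →
      ((∃ j : ℕ, l ≤ j ∧ j ≤ k ∧
        ReflTransGen (PStep {v | ω v = true ∧ v ∈ D}) (q (j0 + 1 : ℕ)) (q j)) ↔
        Jn true (D \ ZxD (q m) r1 R1 ω) ω ↑(sites (ZxD (q m) r1 R1 ω)) (arcS q l k)) ∧
      ((∃ j : ℕ, l ≤ j ∧ j ≤ k ∧
        ReflTransGen (PStep {v | ω v = true ∧ v ∈ D}) (q (j0 + 1 : ℕ)) (q j)) →
        ∀ r : ℤ, ∀ A ∈ pcs ω (hbox (q m) R1),
          (GI (q m) r R1 A ↔ GIzD (q m) r r1 R1 ω A)) := by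
  have S' := S.se
  obtain ⟨W, y, j0, u, w⟩ := H640.CZ.exists_wall S'
  refine ⟨y, j0, w.y1, w.y2, w.j1, w.j2, ?_, ?_, fun l k hl hk => ?_⟩
  · have h := H640.CZ.wl_odd S' w
    have h2 : ¬ ¬ Even ((q (j0 + 1 : ℕ)).1 + (q (j0 + 1 : ℕ)).2) := fun h' => h ((ax_par _).2 h')
    exact not_not.1 h2
  · have h := H640.CZ.wl_path S' w
    exact (rtgF_ax (F' := fun v => v ∈ hbox (q m + ax) R1 ∧ v ∉ hbox (q m + ax) r1)
      (F := fun v => v ∈ hbox (q m) R1 ∧ v ∉ hbox (q m) r1)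
      (fun z => by rw [hbox_ax, hbox_ax])).1 h
  · have hJ : (∃ j : ℕ, l ≤ j ∧ j ≤ k ∧
        ReflTransGen (PStep {v | ω v = true ∧ v ∈ D}) (q (j0 + 1 : ℕ)) (q j)) ↔
        (∃ j : ℕ, l ≤ j ∧ j ≤ k ∧
          ReflTransGen (PStep {v | shC ax ω v = false ∧ v ∈ D.image (· + ax)})
            (q (j0 + 1 : ℕ) + ax) (q j + ax)) := by
      refine exists_congr fun j => and_congr_right fun _ => and_congr_right fun _ => ?_
      exact (rtgF_ax (F' := fun v => v ∈ D.image (· + ax)) (F := fun v => v ∈ D)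
        (fun z => mem_tr)).symm
    constructor
    · rw [hJ]
      have h := H640.CZ.wl_join S' w (l := l) (k := k) hl hk
      refine h.trans ?_
      have e1 := arcS_ax (q := q) (l := l) (k := k)
      unfold arcS at e1
      rw [e1]
      have e2 : Zx (q m + ax) r1 R1 (shC ax ω) = (ZxD (q m) r1 R1 ω).image (· + ax) := zxD_im
      rw [e2]
      exact jn_ax
    · intro h r A hA
      rw [hJ] at h
      have h2 := H640.CZ.gi_giz S' w (l := l) (k := k) (r := r) (A := A.image (shE ax)) hl hk h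
        (by
          show A.image (shE ax) ∈ pcs (shC ax ω) (hbox (q m + ax) R1)
          rw [hbox_tr, mem_pcs_ax]
          exact hA)
      exact gi_ax.symm.trans (h2.trans giz_ax)

end Vale.Agent.P167.N.BT
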