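import Vale.Agent.P167.N.BT.LocT
import Vale.Agent.P167.N.NET.Piv
import Vale.Agent.P167.H452.BE.Top
import Vale.Agent.P167.H192.Q.Arm2

/-!
# P167, `0 < q < 1`, block BT, part BT7: the explored dual cluster

`Xs`: the squares which touch the dual cluster of the half box of radius `r`; `kO`: the configuration which
is open off `Xs`. `Gd`: the local part of the favourable event, determined by the explored squares;
`Ev`: moreover the explored squares are joined to `W` by a primal path off them.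
-/

set_option autoImplicit false

namespace Vale.Agent.P167.N.BT

open Finset Relation Vale.Agent.P167 Vale.Agent.P167.BR Vale.Agent.P167.FK
open Vale.Agent.P145.FB (PStep)
open Vale.Agent.P167.H192.TA (Xc Pw dq sr cut_dq excl mem_dF)
open Vale.Agent.P167.H192.ND (xc_path)
open Vale.Agent.P167.H192.Q (Xc_congr Xc_restrict)
open Vale.Agent.P167.H632 (cs pr nm_le le_nm cs_compl)
open Vale.Agent.P167.H452.BE (join1 half_of edge_cor)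
open Vale.Agent.P167.H558 (StopSet)

variable {D : Finset (ℤ × ℤ)} {ω ω' : Cfg} {W : Set (ℤ × ℤ)} {b : ℤ × ℤ} {m m' r R : ℤ}

/-- The odd corners of the half box. -/
def Sd (b : ℤ × ℤ) (r : ℤ) : Set (ℤ × ℤ) := NET.Vc false ↑(hbox b r)

theorem sd_odd : ∀ z ∈ Sd b r, (z.1 + z.2) % 2 = pr false := by
  rintro z ⟨v, -, hz⟩
  exact hz.2.2

theorem sd_near {z : ℤ × ℤ} (hz : z ∈ Sd b r) : nm (z - b) ≤ r ∧ b.2 ≤ z.2 := by
  obtain ⟨v, hv, h1, h2, -⟩ := hz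
  rw [mem_coe, mem_hbox] at hv
  rw [nm_le]
  simp only [Prod.fst_sub, Prod.snd_sub]
  omega

theorem sd_of (hr : 1 ≤ r) {y : ℤ × ℤ} (h : nm (y - b) ≤ r) (h2 : b.2 ≤ y.2)
    (h3 : (y.1 + y.2) % 2 = pr false) : y ∈ Sd b r := by
  rw [nm_le] at h
  simp only [Prod.fst_sub, Prod.snd_sub] at h
  refine ⟨(min y.1 (b.1 + r - 1), min y.2 (b.2 + r - 1)), ?_, ?_, ?_, h3⟩
  · rw [mem_coe, mem_hbox]
    omega
  · dsimp only
    omega
  · dsimp only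
    omega

theorem sd_sites {z : ℤ × ℤ} (hz : z ∈ Sd b r) : z ∈ sites (hbox b r) := by
  obtain ⟨v, hv, h1, h2, -⟩ := hz
  exact mem_sites.2 ⟨v, mem_coe.1 hv, h1, h2⟩

/-- The dual cluster of the half box. -/
def Kd (D : Finset (ℤ × ℤ)) (b : ℤ × ℤ) (r : ℤ) (ω : Cfg) : Set (ℤ × ℤ) :=
  NET.Cl false ↑D (Sd b r) ω

/-- The squares which touch the dual cluster of the half box. -/
noncomputable def Xs (D : Finset (ℤ × ℤ)) (b : ℤ × ℤ) (r : ℤ) (ω : Cfg) : Finset (ℤ × ℤ) :=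
  NET.Rv false D (Sd b r) ω

theorem mem_xs {v : ℤ × ℤ} : v ∈ Xs D b r ω ↔ v ∈ D ∧ ∃ x ∈ Kd D b r ω, NET.Cor false v x := by
  unfold Xs
  rw [NET.mem_Rv]
  exact Iff.rfl

theorem xs_congr (h : ∀ v ∈ Xs D b r ω, ω' v = ω v) : Xs D b r ω' = Xs D b r ω := by
  apply Finset.coe_injective
  unfold Xs
  rw [NET.coe_Rv, NET.coe_Rv]
  exact NET.Rs_congr sd_odd fun v hv => h v (NET.mem_Rv.2 hv)

theorem xs_sub : Xs D b r ω ⊆ D := NET.Rv_sub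

theorem kd_odd {x : ℤ × ℤ} (h : x ∈ Kd D b r ω) : (x.1 + x.2) % 2 = pr false := by
  obtain ⟨s, hs, h1⟩ := h
  rw [← sd_odd s hs]
  exact (Pw.parity h1).symm

theorem kd_tail {x y : ℤ × ℤ} (h : x ∈ Kd D b r ω) (h1 : Pw (cs false ω ∩ ↑D) x y) :
    y ∈ Kd D b r ω := by
  obtain ⟨s, hs, h2⟩ := h
  exact ⟨s, hs, h2.trans h1⟩

theorem hbox_xs (hr : hbox b r ⊆ D) : hbox b r ⊆ Xs D b r ω := by
  intro v hv
  obtain ⟨x, hx⟩ := NET.exists_cor false v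
  exact mem_xs.2 ⟨hr hv, x, NET.Cl_seed ⟨v, mem_coe.2 hv, hx⟩, hx⟩

/-! ### The configuration which is open off the explored squares -/

/-- The configuration which is open off the explored squares. -/
noncomputable def kO (D : Finset (ℤ × ℤ)) (b : ℤ × ℤ) (r : ℤ) (ω : Cfg) : Cfg :=
  fun v => open Classical in if v ∈ Xs D b r ω then ω v else true

theorem kO_false {v : ℤ × ℤ} : kO D b r ω v = false ↔ v ∈ Xs D b r ω ∧ ω v = false := by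
  classical
  unfold kO
  by_cases h : v ∈ Xs D b r ω
  · simp only [h, true_and, if_true]
  · simp [h]

theorem kO_off {v : ℤ × ℤ} (h : v ∉ Xs D b r ω) : kO D b r ω v = true := by
  classical
  unfold kO
  simp only [if_neg h]

theorem kO_in {v : ℤ × ℤ} (h : v ∈ Xs D b r ω) : kO D b r ω v = ω v := by
  classical
  unfold kO
  simp only [if_pos h]

theorem kO_congr (h : ∀ v ∈ Xs D b r ω, ω' v = ω v) : kO D b r ω' = kO D b r ω := by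
  classical
  funext v
  unfold kO
  rw [xs_congr h]
  by_cases h1 : v ∈ Xs D b r ω
  · simp only [if_pos h1]
    exact h v h1
  · simp only [if_neg h1]

theorem le_kO {v : ℤ × ℤ} (h : ω v = true) : kO D b r ω v = true := by
  by_cases h1 : v ∈ Xs D b r ω
  · rw [kO_in h1, h]
  · exact kO_off h1

theorem xc_kO (h : kO D b r ω ∉ Xc true b m m') : ω ∉ Xc true b m m' := by
  rintro ⟨y, y', h1, h2, h3, h4, h5⟩
  refine h ⟨y, y', h1, h2, h3, h4.mono ?_, h5⟩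
  rintro v ⟨hv1, hv2⟩
  exact ⟨le_kO hv1, hv2⟩

/-- **The cluster contains the half circuit.** -/
theorem half_kO (hm : 1 ≤ m) (hmm : m ≤ m') (hsub : ∀ v ∈ dq b m m', v ∈ D) {y y' : ℤ × ℤ}
    (hyK : y ∈ Kd D b r ω) (hy : b.2 ≤ y.2) {G : Set (ℤ × ℤ)}
    (hG : G ⊆ cs false ω ∩ ↑D ∩ {v | b.2 ≤ v.2}) (h : Pw G y y') (h1 : nm (y - b) ≤ m)
    (h2 : m' ≤ nm (y' - b)) (hX : ω ∉ Xc true b m m') : kO D b r ω ∉ Xc true b m m' := by
  obtain ⟨p, q, p1, p2, p3, p4, p5, p6, p7⟩ := half_of (e := false) hm hmm hX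
  have hye : (y.1 + y.2) % 2 = pr false := kd_odd hyK
  have hH : cs false ω ∩ dq b m m' ⊆ cs false ω ∩ ↑D := fun v hv => ⟨hv.1, hsub v hv.2⟩
  have k1 : Pw (cs false ω ∩ ↑D) y p := join1 (e := false) (H := cs false ω ∩ ↑D) hm hmm
    (fun v hv => ⟨(hG hv).1.1, (hG hv).2⟩) (fun v hv => (hG hv).1) hH hy hye h h1 h2 p1 p2 p3 p4
    p5 p6 p7
  have hpK : p ∈ Kd D b r ω := kd_tail hyK k1
  have key : ∀ z, Pw (cs false ω ∩ dq b m m') p z → Pw (cs false (kO D b r ω) ∩ dq b m m') p z := by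
    intro z hz
    induction hz with
    | refl => exact ReflTransGen.refl
    | @tail u w hu huw ih =>
      have huK : u ∈ Kd D b r ω := kd_tail hpK (Pw.mono hH hu)
      have h3 : (min u.1 w.1, min u.2 w.2) ∈ Xs D b r ω :=
        mem_xs.2 ⟨hsub _ huw.2.2.2, u, huK, (NET.cor_of_step huw (kd_odd huK)).1⟩
      exact ih.tail ⟨huw.1, huw.2.1, kO_false.2 ⟨h3, huw.2.2.1⟩, huw.2.2.2⟩
  rintro ⟨z, z', g1, g2, g3, g4, g5⟩
  have e1 : (cs true (kO D b r ω))ᶜ = cs false (kO D b r ω) := by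
    rw [cs_compl]; rfl
  refine excl (F := cs true (kO D b r ω)) (e := 0) (Or.inl rfl) hm hmm g1 g3 g5 g2 g4 p1 p2 p3
    ?_ p5 p6 ?_
  · rw [p4]; rfl
  · rw [e1]
    exact key _ p7

/-- The same from a dual arm of the half box. -/
theorem half_arm {ρ : ℤ} (hr : 1 ≤ r) (hrm : r ≤ m) (hmm : m ≤ m') (hm' : m' ≤ ρ)
    (hsub : hbox b ρ ⊆ D) (h : ω ∈ Xc false b r ρ) (hX : ω ∉ Xc true b m m') :
    kO D b r ω ∉ Xc true b m m' := by
  obtain ⟨y, y', h1, h2, h3, h4, h5⟩ := h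
  have hy : b.2 ≤ y.2 := by
    simp only [sr, Set.mem_ofPred_eq] at h1
    omega
  have hdq : ∀ v ∈ dq b r ρ, v ∈ hbox b ρ := by
    intro v hv
    simp only [dq, Set.mem_ofPred_eq] at hv
    rw [mem_hbox]
    omega
  refine half_kO (hr.trans hrm) hmm (fun v hv => hsub ?_) (NET.Cl_seed (sd_of hr h3 hy h2)) hy
    (G := cs false ω ∩ dq b r ρ) ?_ h4 (h3.trans hrm) (hm'.trans h5) hX
  · simp only [dq, Set.mem_ofPred_eq] at hv
    rw [mem_hbox]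
    omega
  · rintro v ⟨hv1, hv2⟩
    refine ⟨⟨hv1, mem_coe.2 (hsub (hdq v hv2))⟩, ?_⟩
    simp only [dq, Set.mem_ofPred_eq] at hv2 ⊢
    omega

/-- The cluster does not leave the half box. -/
theorem xs_box (hF : Flt D b m') (hrm : r ≤ m) (hmm : m ≤ m') (hX : ω ∉ Xc false b m m') :
    Xs D b r ω ⊆ hbox b m' := by
  intro v hv
  obtain ⟨hvD, x, ⟨s, hs, hsx⟩, hvx⟩ := mem_xs.1 hv
  by_contra hc
  apply hX
  obtain ⟨s1, s2⟩ := sd_near hs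
  refine xc_path hF hmm s2 (sd_odd s hs) hsx (s1.trans hrm) ?_
  rw [le_nm]
  simp only [Prod.fst_sub, Prod.snd_sub]
  rw [mem_hbox] at hc
  obtain ⟨c1, c2, -⟩ := hvx
  by_contra hn
  apply hc
  have h3 := hF v (by omega) (by omega) (by omega) (by omega)
  have := h3.1 hvD
  omega

/-- A half circuit has an explored square in the half annulus. -/
theorem xs_far (hm : 1 ≤ m) (hmm : m ≤ m') (h : kO D b r ω ∉ Xc true b m m') :
    ∃ v ∈ dq b m m', v ∈ Xs D b r ω := by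
  obtain ⟨p, q, p1, p2, p3, p4, p5, p6, p7⟩ := half_of (e := false) hm hmm h
  rcases ReflTransGen.cases_head p7 with h1 | ⟨w, h1, -⟩
  · exfalso
    rw [h1] at p2
    omega
  · exact ⟨_, h1.2.2.2, (kO_false.1 h1.2.2.1).1⟩

/-- **The link.** -/
theorem lk_of {u w0 : ℤ × ℤ} (hu : u ∈ NET.Vc true ↑(Xs D b r ω)) (hw : w0 ∈ W)
    (h : Pw (cs true ω ∩ ↑D) u w0) : LkT D W b r ω := by
  obtain ⟨v, hv, hvu⟩ := hu
  obtain ⟨hvD, x, ⟨z0, hz0, hz0x⟩, hvx⟩ := mem_xs.1 (mem_coe.1 hv)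
  have hxo : (x.1 + x.2) % 2 = 1 := hvx.2.2
  have hue : (u.1 + u.2) % 2 = 0 := hvu.2.2
  obtain ⟨e, he, e1, e2⟩ := edge_cor hvD (⟨hvu.1, hvu.2.1⟩) (⟨hvx.1, hvx.2.1⟩) hue hxo
  refine ⟨z0, sd_sites hz0, e, he, w0, hw, sd_odd z0 hz0, ?_, ?_, ?_⟩
  · rw [← Pw.parity h]
    exact hue
  · rw [e2]
    exact hz0x
  · rw [e1]
    exact h

/-! ### The events -/

/-- The local part, determined by the explored squares. -/
def Gd (D : Finset (ℤ × ℤ)) (b : ℤ × ℤ) (a0 a1 ρ ρ1 ρ2 : ℤ) : Set Cfg :=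
  {ω | (∃ c : Bool, ω ∉ Xc c b (r1 a0) (r2 a0)) ∧ ω ∈ Xc true b (2 * a0) a1 ∧
    ω ∉ Xc false b (2 * a0) a1 ∧ kO D b (r1 a1) ω ∉ Xc true b (r1 a1) (r2 a1) ∧
    (a1 < ρ → kO D b (r1 a1) ω ∉ Xc true b ρ ρ1) ∧ Xs D b (r1 a1) ω ⊆ hbox b ρ2}

/-- The event of the scale. -/
def Ev (D : Finset (ℤ × ℤ)) (W : Set (ℤ × ℤ)) (b : ℤ × ℤ) (a0 a1 ρ ρ1 ρ2 : ℤ) : Set Cfg :=
  Gd D b a0 a1 ρ ρ1 ρ2 ∩ {ω | ω ∈ NET.Jn true ↑(D \ Xs D b (r1 a1) ω)
    (NET.Vc true ↑(Xs D b (r1 a1) ω)) W}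

theorem r1_ge {a : ℤ} (ha : 0 ≤ a) : a ≤ r1 a := by
  unfold r1
  omega

theorem r12 {a : ℤ} (ha : 10 ≤ a) : r1 a ≤ r2 a := by
  unfold r1 r2
  omega

theorem r2_le {a : ℤ} (ha : 0 ≤ a) : r2 a ≤ 2 * a := by
  unfold r2
  omega

/-- The local event implies the explored one. -/
theorem gloc_sub {a0 a1 ρ ρ1 ρ2 : ℤ} (h0 : 10 ≤ a1) (h1 : 2 * a1 ≤ ρ1) (h2 : ρ1 ≤ ρ2)
    (hρ : a1 < ρ → r1 a1 ≤ ρ) (hρ1 : ρ ≤ ρ1) (hF : Flt D b ρ2) :
    GLoc b a0 a1 ρ ρ1 ρ2 ⊆ Gd D b a0 a1 ρ ρ1 ρ2 := by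
  rintro ω ⟨g1, g2, g3, g4, g5, g6, g7⟩
  have k1 := r1_ge (a := a1) (by omega)
  have k2 := r12 h0
  have k3 := r2_le (a := a1) (by omega)
  have hsub : hbox b ρ1 ⊆ D := by
    intro v hv
    rw [mem_hbox] at hv
    exact (hF v (by omega) (by omega) (by omega) (by omega)).2 (by omega)
  refine ⟨g1, g2, g3, half_arm (by omega) le_rfl k2 (by omega) hsub g5 g4, fun h => ?_, ?_⟩
  · exact half_arm (by omega) (hρ h) hρ1 le_rfl hsub g5 (g7 h)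
  · exact xs_box hF (by omega) h2 g6

/-- The explored event is determined by the explored squares. -/
theorem gd_det {a0 a1 ρ ρ1 ρ2 : ℤ} (h0 : 2 * a0 ≤ a1) (h1 : 0 ≤ a0) (hs : hbox b (r1 a1) ⊆ D)
    (h : ∀ v ∈ Xs D b (r1 a1) ω, ω' v = ω v) (hω : ω ∈ Gd D b a0 a1 ρ ρ1 ρ2) :
    ω' ∈ Gd D b a0 a1 ρ ρ1 ρ2 := by
  obtain ⟨⟨c, g1⟩, g2, g3, g4, g5, g6⟩ := hω
  have k1 := r1_ge (a := a1) (by omega)
  have k3 := r2_le (a := a0) (by omega)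
  have hb : ∀ v ∈ hbox b (r1 a1), ω' v = ω v := fun v hv => h v (hbox_xs hs hv)
  have hdF : ∀ m m' : ℤ, m' ≤ r1 a1 → ∀ v ∈ H192.TA.dF b m m', ω' v = ω v := by
    intro m m' hm v hv
    rw [mem_dF] at hv
    simp only [dq, Set.mem_ofPred_eq] at hv
    refine hb v ?_
    rw [mem_hbox]
    omega
  refine ⟨⟨c, fun hc => g1 (Xc_congr (hdF _ _ (by omega)) hc)⟩,
    Xc_congr (fun v hv => (hdF _ _ (by omega) v hv).symm) g2,
    fun hc => g3 (Xc_congr (hdF _ _ (by omega)) hc), ?_, ?_, ?_⟩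
  · rw [kO_congr h]
    exact g4
  · rw [kO_congr h]
    exact g5
  · rw [xs_congr h]
    exact g6

theorem ev_fav {n : ℕ} {q : ZMod n → ℤ × ℤ} {k l : ℕ} {a : Fin 2 → ℤ} {ρ ρ1 ρ2 : ℤ} (hω : ω ∈
    Ev D (Wr q k) (q l) (a 0) (a 1) ρ ρ1 ρ2) : ω ∈ FavT q D k l a := by
  obtain ⟨⟨g1, g2, g3, g4, -, -⟩, u, hu, w0, hw, h⟩ := hω
  refine ⟨fun i => ?_, g2, g3, lk_of hu hw (h.mono ?_)⟩
  · by_cases hi : i = 0
    · subst hi
      exact g1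
    · have : i = 1 := by omega
      subst this
      exact ⟨true, xc_kO g4⟩
  · rintro v ⟨hv1, hv2⟩
    refine ⟨hv1, ?_⟩
    rw [coe_sdiff] at hv2
    exact hv2.1

theorem ev_disj {a0 a1 ρ ρ1 ρ2 ρ' ρ1' ρ2' : ℤ} (h1 : 1 ≤ ρ') (h2 : ρ2 ≤ ρ') (h3 : ρ' ≤ ρ1')
    (h4 : a1 < ρ') : Disjoint (Ev D W b a0 a1 ρ ρ1 ρ2) (Ev D W b a0 a1 ρ' ρ1' ρ2') := by
  rw [Set.disjoint_left]
  rintro ω ⟨⟨-, -, -, -, -, g⟩, -⟩ ⟨⟨-, -, -, -, g', -⟩, -⟩
  obtain ⟨v, hv, hvX⟩ := xs_far h1 h3 (g' h4)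
  have h5 := g hvX
  rw [mem_hbox] at h5
  simp only [dq, Set.mem_ofPred_eq] at hv
  omega

end Vale.Agent.P167.N.BT
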