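import Vale.Agent.P167.QB.FactD

/-!
# P167, t-bridge, BT3 (3): factorisation at `t = q m` with one charge of mass `π - 2 θ`

`factT`: on `Iso`, the functional with a bump of mass `π - 2 θ` near the flat free boundary point `q m` is
the product of the weights of the visitors of the small half box and of the factors `gmT` of the other
strands around `q m`: `1` for the strands to the wired side, `kq θ = - sin 3 θ / sin θ` for the strands of
sign `1` with both ends on the free side, `0` for the other strands.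
-/

set_option autoImplicit false

namespace Vale.Agent.P167.N.BT

open Finset Relation Vale.Agent.P167 Vale.Agent.P167.BR Vale.Agent.P167.QB
open Vale.Agent.P167.E6 (IsPolygon Encloses)
open Vale.Agent.P167.H718 (IsXY IsCl Cl isCl_strand)
open Vale.Agent.P167.QX (lo hi exists_xy lo_xy hi_xy wB XB)

variable {D : Finset (ℤ × ℤ)} {ω : Cfg} {n : ℕ} {q : ZMod n → ℤ × ℤ} {A : Finset Ed}
  {θ : ℝ} {k m : ℕ} {r R : ℤ}

/-- The weight of a strand of sign `1` with both ends on the free side, with the full mass. -/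
noncomputable def kq (θ : ℝ) : ℝ := Real.sin (θ - (Real.pi - 2 * θ)) / Real.sin θ

/-- `kq θ = 1 - q`, `q = (2 cos θ) ^ 2`. -/
theorem kq_eq (hx : Real.sin θ ≠ 0) : kq θ = 1 - (2 * Real.cos θ) ^ 2 := by
  unfold kq
  rw [show θ - (Real.pi - 2 * θ) = 3 * θ - Real.pi by ring, Real.sin_sub_pi,
    Real.sin_three_mul, div_eq_iff hx]
  have := Real.sin_sq_add_cos_sq θ
  have e : Real.cos θ ^ 2 = 1 - Real.sin θ ^ 2 := by linarith
  rw [mul_pow, e]
  ring

open Classical in
/-- The factor of a strand around `m`. -/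
noncomputable def gmT (θ : ℝ) (q : ZMod n → ℤ × ℤ) (k m : ℕ) (A : Finset Ed) : ℝ :=
  if Ard q m A then (if k ≤ hi q A then 1 else if QB.sg q A = 1 then kq θ else 0) else 1

section

variable (hq : IsPolygon q) (hD : Encloses q D)
include hq hD

/-- The weight of a strand with the full mass. -/
theorem wB_fullT (hx : 0 < Real.sin θ) (hA : A ∈ pcs ω D) (ha : Ard q m A) (hmk : m ≤ k) :
    wB θ (gB θ) q D k A (Real.pi - 2 * θ) =
      if k ≤ hi q A then 1 else if QB.sg q A = 1 then kq θ else 0 := by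
  have hl : ¬ IsLp D A := fun h => ard_lp hq hD hA h ha
  obtain ⟨x, y, h⟩ := exists_xy hq hD hA hl
  have hne := h.ne
  have hsg := sg_xy hq hD hA h
  have hcl := isCl_strand (k := k) hq hD hA hl h
  have hlo : lo q A < k := lt_of_lt_of_le ha.1 hmk
  unfold wB
  rw [if_neg hl]
  by_cases hk : k ≤ hi q A
  · rw [if_pos ⟨hlo, hk⟩, if_pos hk]
    unfold gB
    rw [show θ / 2 + (θ - Real.pi) / 2 + (Real.pi - 2 * θ) = Real.pi / 2 - θ by ring,
      Real.cos_pi_div_two_sub, div_self hx.ne']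
  · rw [if_neg (fun h' => hk h'.2), if_neg hk, hsg]
    rw [hi_xy hq hD hA h] at hk
    have hx2 : x < k := lt_of_le_of_lt (le_max_left _ _) (not_le.1 hk)
    have hy2 : y < k := lt_of_le_of_lt (le_max_right _ _) (not_le.1 hk)
    rcases lt_or_gt_of_ne hne with h1 | h1
    · rw [if_neg (fun h' => by have := hcl.1 h'; unfold Cl at this; omega), if_pos h1, if_pos rfl]
      rfl
    · rw [if_pos (hcl.2 (Or.inl ⟨hx2, hy2, h1⟩)), if_neg (by omega : ¬ x < y),
        if_neg (by norm_num : ¬ (-1 : ℤ) = 1), show 2 * θ + (Real.pi - 2 * θ) = Real.pi by ring,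
        Real.sin_pi, zero_div]

open Classical in
/-- **Factorisation at `t = q m`.** -/
theorem factT (hx : 0 < Real.sin θ) (hc : 0 < Real.cos θ) (hF : Flt D (q m) R) (hr : 1 ≤ r)
    (hrR : r ≤ R) (hmn : m < n) (h0 : q 0 ∉ sites (hbox (q m) R)) (hmk : (m : ℤ) + R ≤ k)
    {f : ℤ × ℤ → ℝ} (hf : ∀ z, f z ≠ 0 → z ∈ sites (hbox (q m) r))
    (hs : ∑ᶠ z, f z = Real.pi - 2 * θ) (hI : Iso (q m) r R ω) :
    XG θ q D k f ω = FL θ (q m) r R 0 f ω *
      ∏ A ∈ (pcs ω D).filter (fun A => ¬ Vz (hbox (q m) r) A), gmT θ q k m A := by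
  have hR : 1 ≤ R := by omega
  have hf' : ∀ z, f z ≠ 0 → z ∈ sites (hbox (q m) R) := fun z hz =>
    sites_mono (hbox_mono hrR) (hf z hz)
  unfold XG QX.XB
  rw [← prod_filter_mul_prod_filter_not (pcs ω D) (Vz (hbox (q m) r))
      (fun A => wB θ (gB θ) q D k A (mass D (q 0) f A))]
  congr 1
  · unfold FL
    rw [if_pos hI]
    have e3 : (pcs ω (hbox (q m) R)).filter (Vz (hbox (q m) r)) =
        (pcs ω D).filter (Vz (hbox (q m) r)) := by
      ext A
      rw [mem_filter, mem_filter]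
      exact (iso_iff hF hrR hI).symm
    rw [e3]
    refine prod_congr rfl fun A hA => ?_
    rw [mem_filter] at hA
    obtain ⟨hE, hInn⟩ := inn_of_iso hq hD hF hR hmn h0 hrR hI hA.1 hA.2
    rw [wB_inn (θ := θ) hq hD hF hR hmn h0 hmk hA.1 hE hInn,
      mass_inn hq hD hF hR hmn h0 hA.1 hE hInn hf', zero_mul, zpow_zero, mul_one]
  · refine prod_congr rfl fun A hA => ?_
    rw [mem_filter] at hA
    rw [mass_off hq hD hF hr hrR hmn.le hf hs hA.1 hA.2]
    unfold gmT
    by_cases ha : Ard q m A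
    · rw [if_pos ha, if_pos ha, wB_fullT hq hD hx hA.1 ha (by omega)]
    · rw [if_neg ha, if_neg ha, wB_hx hx hc]

end

end Vale.Agent.P167.N.BT
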