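import Vale.Agent.P167.N.BT.DuW
import Vale.Agent.P167.QB.Hpoly

/-!
# P167, t-bridge, BT3 (7): the filled explored set

`Fill b R1 Z`: the squares of the half box of radius `R1` which are not joined to the outside by squares
(with common corners) outside of `Z`, above the line. `fill_adj`: the squares of `Fill` at the outside are
in `Z`. `rim_conn`: off the dual arm the even corners between the filled explored set and the outside are
joined by open squares of the explored set. `jn_fill`: a primal path to a far set from the explored set is a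
primal path from the filled set.
-/

set_option autoImplicit false

namespace Vale.Agent.P167.N.BT

open Finset Relation Vale.Agent.P167 Vale.Agent.P167.BR
open Vale.Agent.P145.FB (PStep)
open Vale.Agent.P167.QB (HArm)
open Vale.Agent.P167.E6 (IsPolygon Encloses)
open Vale.Agent.P167.H640.CZ (Cx Zx Cor mem_Zx mem_sites_one exists_ed Se Wl)
open Vale.Agent.P167.H135 (shC shE)

variable {b : ℤ × ℤ} {r r1 R1 R : ℤ} {ω ω' : Cfg} {D Z : Finset (ℤ × ℤ)}
  {s t v w : ℤ × ℤ}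

/-! ### the filled set -/

/-- Squares above the line, outside of the half box of radius `R1`. -/
def Far (b : ℤ × ℤ) (R1 : ℤ) (w : ℤ × ℤ) : Prop := w ∉ hbox b R1 ∧ b.2 ≤ w.2

/-- `w'` is outside of `Z`, above the line, and has a corner in common with `w`. -/
def Nb (b : ℤ × ℤ) (Z : Finset (ℤ × ℤ)) (w w' : ℤ × ℤ) : Prop :=
  w' ∉ Z ∧ b.2 ≤ w'.2 ∧ ∃ s, Cor s w ∧ Cor s w'

/-- `w` is joined to the outside. -/
def Ot (b : ℤ × ℤ) (R1 : ℤ) (Z : Finset (ℤ × ℤ)) (w : ℤ × ℤ) : Prop :=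
  ∃ w0, Far b R1 w0 ∧ ReflTransGen (Nb b Z) w0 w

open Classical in
/-- The filled set. -/
noncomputable def Fill (b : ℤ × ℤ) (R1 : ℤ) (Z : Finset (ℤ × ℤ)) : Finset (ℤ × ℤ) :=
  (hbox b R1).filter fun w => ¬ Ot b R1 Z w

theorem mem_Fill : v ∈ Fill b R1 Z ↔ v ∈ hbox b R1 ∧ ¬ Ot b R1 Z v := by
  classical
  unfold Fill
  rw [mem_filter]

theorem fill_sub : Fill b R1 Z ⊆ hbox b R1 := fun _ h => (mem_Fill.1 h).1

theorem ot_off (hZ : Z ⊆ hbox b R1) (h : Ot b R1 Z w) : w ∉ Z ∧ b.2 ≤ w.2 := by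
  obtain ⟨w0, h0, hp⟩ := h
  rcases ReflTransGen.cases_tail hp with h1 | ⟨x, -, h1⟩
  · rw [h1]
    exact ⟨fun h => h0.1 (hZ h), h0.2⟩
  · exact ⟨h1.1, h1.2.1⟩

theorem sub_fill (hZ : Z ⊆ hbox b R1) : Z ⊆ Fill b R1 Z := fun _ hv =>
  mem_Fill.2 ⟨hZ hv, fun h => (ot_off hZ h).1 hv⟩

theorem ot_of (h : w ∉ Fill b R1 Z) (h2 : b.2 ≤ w.2) : Ot b R1 Z w := by
  by_contra hc
  by_cases h1 : w ∈ hbox b R1
  · exact h (mem_Fill.2 ⟨h1, hc⟩)
  · exact hc ⟨w, ⟨h1, h2⟩, ReflTransGen.refl⟩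

/-- **The squares of the filled set at the outside are in `Z`.** -/
theorem fill_adj (hv : v ∈ Fill b R1 Z) (hw : w ∉ Fill b R1 Z)
    (h2 : b.2 ≤ w.2) (hs : Cor s v) (hs' : Cor s w) : v ∈ Z := by
  by_contra hc
  obtain ⟨hvR, hO⟩ := mem_Fill.1 hv
  obtain ⟨w0, h0, hp⟩ := ot_of hw h2
  exact hO ⟨w0, h0, hp.tail ⟨hc, H640.CZ.hbox_up hvR, s, hs', hs⟩⟩

/-! ### the rim of the explored set, primal colours -/

section

variable {n m y j0 : ℕ} {q : ZMod n → ℤ × ℤ} {W : Finset Ed} {u : ℤ × ℤ → ℤ}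

/-- The corners of the outer squares are on the outer side of the wall. -/
theorem ot_pot (S : Se q D m r1 R1 R ω) (wl : Wl q D m r1 R1 ω W y j0 u)
    (h : Ot (q m) R1 (Zx (q m) r1 R1 ω) w) : ∀ z ∈ sites D, Cor z w → u z = u (q 0) := by
  have hfar : ∀ w, w ∉ hbox (q m) R1 → (q m).2 ≤ w.2 → ∀ z ∈ sites D, Cor z w →
      u z = u (q 0) := by
    intro w h1 h2 z hz hc
    by_contra hne
    have h3 := wl.near z hz hne
    apply h1
    unfold Cor at hc
    rw [mem_hbox]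
    omega
  obtain ⟨w0, h0, hp⟩ := h
  induction hp with
  | refl => exact hfar _ h0.1 h0.2
  | @tail x w' _ hx ih =>
    obtain ⟨h1, h2, s, hs, hs'⟩ := hx
    by_cases hB : w' ∈ hbox (q m) R1
    · have hwD : w' ∈ D := hbox_sub (S.flat.mono (by have := S.h3; omega)) hB
      have hin : ∀ z, Cor z w' → z ∈ sites D := fun z hz =>
        mem_sites.2 ⟨w', hwD, hz⟩
      have hstep : ∀ a c, Even (a.1 + a.2) → ¬ Even (c.1 + c.2) → Cor a w' → Cor c w' →
          u a = u c := by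
        intro a c ha hc ca cc
        obtain ⟨e, he1, he2, he3⟩ := exists_ed ha hc ca cc
        have heD : e ∈ eds D := by
          rw [mem_eds]
          rcases he3 with h4 | h4
          · left; rw [h4]; exact hwD
          · right; rw [h4]; exact hwD
        have heW : e ∉ W := fun h4 => by
          have h5 := wl.ls e h4
          rw [he1] at h5
          exact h1 (mem_Zx.2 ⟨hB, a, h5, ca⟩)
        have h6 := wl.pot.eq heD heW
        rw [he1, he2] at h6
        exact h6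
      -- an even and an odd corner
      obtain ⟨a, c, ha, hc, ca, cc⟩ : ∃ a c : ℤ × ℤ, Even (a.1 + a.2) ∧ ¬ Even (c.1 + c.2) ∧
          Cor a w' ∧ Cor c w' := by
        by_cases hp : Even (w'.1 + w'.2)
        · refine ⟨w', (w'.1 + 1, w'.2), hp, ?_, ⟨Or.inl rfl, Or.inl rfl⟩, Or.inr rfl, Or.inl rfl⟩
          rw [Int.even_iff] at *
          simp only
          omega
        · refine ⟨(w'.1 + 1, w'.2), w', ?_, hp, ⟨Or.inr rfl, Or.inl rfl⟩, Or.inl rfl, Or.inl rfl⟩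
          rw [Int.even_iff] at *
          simp only
          omega
      have hall : ∀ z, Cor z w' → u z = u a := by
        intro z hz
        by_cases hp : Even (z.1 + z.2)
        · rw [hstep z c hp hc hz cc, hstep a c ha hc ca cc]
        · rw [hstep a z ha hp ca hz]
      intro z hz hzc
      rw [hall z hzc, ← hall s hs']
      exact ih s (hin s hs') hs
    · exact hfar _ hB h2

/-- **The rim**: the odd corners between the explored set and the outside are joined. -/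
theorem rim_cz (S : Se q D m r1 R1 R ω) {x x' : ℤ × ℤ}
    (hs : s ∈ sites (Zx (q m) r1 R1 ω)) (hso : ¬ Even (s.1 + s.2))
    (hx : Ot (q m) R1 (Zx (q m) r1 R1 ω) x) (hsx : Cor s x)
    (ht : t ∈ sites (Zx (q m) r1 R1 ω)) (hto : ¬ Even (t.1 + t.2))
    (hx' : Ot (q m) R1 (Zx (q m) r1 R1 ω) x') (htx : Cor t x') :
    ReflTransGen (PStep {v | ω v = false ∧ v ∈ Zx (q m) r1 R1 ω ∧ v ∉ hbox (q m) r1}) s t := by
  obtain ⟨W, y, j0, u, wl⟩ := H640.CZ.exists_wall S
  have key : ∀ s x : ℤ × ℤ, s ∈ sites (Zx (q m) r1 R1 ω) → ¬ Even (s.1 + s.2) →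
      Ot (q m) R1 (Zx (q m) r1 R1 ω) x → Cor s x → ∃ e ∈ W, rs e = s := by
    intro s x hs hso hx hsx
    obtain ⟨e, he, hc, hr⟩ := H640.CZ.zx_edge S hs hso
    refine ⟨e, ?_, hr⟩
    by_contra hc'
    have h6 := wl.pot.eq he hc'
    rw [hr, ot_pot S wl hx s (sites_mono (H640.CZ.Zx_D S) hs) hsx] at h6
    exact wl.cx _ hc h6
  obtain ⟨e, he, h1⟩ := key s x hs hso hx hsx
  obtain ⟨e', he', h2⟩ := key t x' ht hto hx' htx
  have := H640.CZ.rs_path S wl.mem wl.ls he he'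
  rwa [h1, h2] at this

end

/-- The rim, without polygon. -/
theorem rim_box (h1 : 1 ≤ r1) (h2 : r1 < R1) (hH : ¬ HArm b r1 R1 ω) {x x' : ℤ × ℤ}
    (hs : s ∈ sites (Zx b r1 R1 ω)) (hso : ¬ Even (s.1 + s.2))
    (hx : Ot b R1 (Zx b r1 R1 ω) x) (hsx : Cor s x)
    (ht : t ∈ sites (Zx b r1 R1 ω)) (hto : ¬ Even (t.1 + t.2))
    (hx' : Ot b R1 (Zx b r1 R1 ω) x') (htx : Cor t x') :
    ReflTransGen (PStep {v | ω v = false ∧ v ∈ Zx b r1 R1 ω ∧ v ∉ hbox b r1}) s t := by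
  obtain ⟨n, q, m, hq, hD, hm, hqm, h0⟩ := QB.hpoly b (R := R1 + 3) (by omega)
  have S : Se q (hbox b (R1 + 3)) m r1 R1 (R1 + 2) ω := by
    refine ⟨hq, hD, ?_, hm, ?_, h1, h2, le_rfl, ?_⟩
    · rw [hqm]
      intro v a1 a2 a3 a4
      rw [mem_hbox]
      omega
    · rw [hqm, h0, mem_sites_hbox (by omega)]
      unfold top
      simp only
      omega
    · rw [hqm]
      exact hH
  have := rim_cz S (s := s) (t := t) (x := x) (x' := x')
  rw [hqm] at this
  exact this hs hso hx hsx ht hto hx' htx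

/-! ### the rim of the explored set, dual colours -/

theorem ot_ax (h : Ot b R1 Z w) : Ot (b + ax) R1 (Z.image (· + ax)) (w + ax) := by
  obtain ⟨w0, h0, hp⟩ := h
  refine ⟨w0 + ax, ⟨fun h => h0.1 (hbox_ax.1 h), by rw [ax2, ax2]; exact h0.2⟩, ?_⟩
  refine ReflTransGen.lift (· + ax) (fun x y h => ?_) _ _ hp
  obtain ⟨h1, h2, s, h3, h4⟩ := h
  exact ⟨fun h => h1 (mem_tr.1 h), by rw [ax2, ax2]; exact h2, s + ax, cor_ax.2 h3, cor_ax.2 h4⟩

/-- **The rim**: the even corners between the explored set and the outside are joined by open squares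
of the explored set. -/
theorem rim_conn (h1 : 1 ≤ r1) (h2 : r1 < R1) (hH : ¬ HArmD b r1 R1 ω) {x x' : ℤ × ℤ}
    (hs : s ∈ sites (ZxD b r1 R1 ω)) (hso : Even (s.1 + s.2))
    (hx : Ot b R1 (ZxD b r1 R1 ω) x) (hsx : Cor s x)
    (ht : t ∈ sites (ZxD b r1 R1 ω)) (hto : Even (t.1 + t.2))
    (hx' : Ot b R1 (ZxD b r1 R1 ω) x') (htx : Cor t x') :
    ReflTransGen (PStep {v | ω v = true ∧ v ∈ ZxD b r1 R1 ω ∧ v ∉ hbox b r1}) s t := by
  have h5 := rim_box (b := b + ax) h1 h2 (ω := shC ax ω) (fun h => hH (harmD_iff.1 h))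
    (s := s + ax) (t := t + ax) (x := x + ax) (x' := x' + ax) (sites_zxD.2 hs)
    (fun h => (ax_par s).1 h hso) (by rw [zxD_im]; exact ot_ax hx) (cor_ax.2 hsx)
    (sites_zxD.2 ht) (fun h => (ax_par t).1 h hto) (by rw [zxD_im]; exact ot_ax hx')
    (cor_ax.2 htx)
  exact (rtgF_ax (F' := fun v => v ∈ Zx (b + ax) r1 R1 (shC ax ω) ∧ v ∉ hbox (b + ax) r1)
    (F := fun v => v ∈ ZxD b r1 R1 ω ∧ v ∉ hbox b r1)
    (fun z => by rw [hbox_ax, zxD_iff])).1 h5

/-! ### paths to a far set -/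

/-- **Joined outside of the filled set.** -/
theorem jn_fill {T : Set (ℤ × ℤ)} (hF : Flt D b R) (h3 : R1 + 2 ≤ R) (hZ : Z ⊆ hbox b R1)
    (hT : ∀ t ∈ T, t ∉ sites (hbox b R1)) :
    Jn true (D \ Z) ω ↑(sites Z) T ↔ Jn true (D \ Fill b R1 Z) ω ↑(sites (Fill b R1 Z)) T := by
  have hZF := sub_fill hZ
  constructor
  · rintro ⟨z0, hz0, t, ht, hpar, hp⟩
    have hpar' : (z0.1 + z0.2) % 2 = 0 := hpar
    have key : ∀ s, ReflTransGen (PStep (H632.cs true ω ∩ (↑(D \ Z) : Set (ℤ × ℤ)))) z0 s →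
        (s.1 + s.2) % 2 = 0 ∧ ∃ u1 ∈ sites (Fill b R1 Z), (u1.1 + u1.2) % 2 = 0 ∧
          ReflTransGen (PStep (H632.cs true ω ∩ (↑(D \ Fill b R1 Z) : Set (ℤ × ℤ)))) u1 s := by
      intro s hs
      induction hs with
      | refl => exact ⟨hpar', z0, sites_mono hZF hz0, hpar', ReflTransGen.refl⟩
      | @tail s s' _ hss ih =>
        obtain ⟨p0, u1, a1, a2, a3⟩ := ih
        obtain ⟨b1, b2, b3, b4⟩ := hss
        rw [mem_coe, mem_sdiff] at b4
        refine ⟨by omega, ?_⟩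
        by_cases hv : (min s.1 s'.1, min s.2 s'.2) ∈ Fill b R1 Z
        · exact ⟨s', mem_sites.2 ⟨_, hv, by simp only; omega⟩, by omega, ReflTransGen.refl⟩
        · refine ⟨u1, a1, a2, a3.tail ⟨b1, b2, b3, ?_⟩⟩
          rw [mem_coe, mem_sdiff]
          exact ⟨b4.1, hv⟩
    obtain ⟨-, u1, a1, a2, a3⟩ := key t hp
    exact ⟨u1, a1, t, ht, a2, a3⟩
  · rintro ⟨u1, hu1, t, ht, hpar, hp⟩
    refine ⟨u1, ?_, t, ht, hpar, ReflTransGen.mono (fun x y h => ⟨h.1, h.2.1, h.2.2.1, ?_⟩) _ _ hp⟩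
    · rcases ReflTransGen.cases_head hp with h6 | ⟨x, h7, -⟩
      · exfalso
        rw [← h6] at ht
        exact hT _ ht (sites_mono fill_sub hu1)
      · obtain ⟨c1, c2, -, c4⟩ := h7
        rw [mem_coe, mem_sdiff] at c4
        obtain ⟨v, hv, hc⟩ := mem_sites.1 hu1
        have hvB := fill_sub hv
        rw [mem_hbox] at hvB
        have hw2 := (hF _ (by simp only; omega) (by simp only; omega) (by simp only; omega)
          (by simp only; omega)).1 c4.1
        have hcw : Cor u1 (min u1.1 x.1, min u1.2 x.2) := by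
          unfold Cor
          simp only
          omega
        exact mem_sites.2 ⟨v, fill_adj hv c4.2 hw2 hc hcw, hc⟩
    · have h4 := h.2.2.2
      rw [mem_coe, mem_sdiff] at h4 ⊢
      exact ⟨h4.1, fun h' => h4.2 (hZF h')⟩

end Vale.Agent.P167.N.BT
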