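import Vale.Agent.P167.N.BT.Defs
import Vale.Agent.P167.FKA.Basic

/-!
# P167, `0 < q < 1`, block BT: the dual arm has positive probability
-/

set_option autoImplicit false

namespace Vale.Agent.P167.N.BT

open Finset Relation Vale.Agent.P167 Vale.Agent.P167.BR Vale.Agent.P167.FK Vale.Agent.P167.FKA
open Vale.Agent.P167.H192.TA (Xc dq sr Pw)
open Vale.Agent.P167.H632 (cs pr)
open Vale.Agent.P167.H469 (hx)
open Vale.Agent.P145.FB (PStep)

variable {Q : ℝ}

/-- An event which contains the configuration without open squares has positive probability. -/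
theorem pr_pos {D : Finset (ℤ × ℤ)} {η : Cfg} (hQ : 0 < Q) {E : Set Cfg} (h : cf D η ∅ ∈ E) :
    0 < Pr Q D η E := by
  classical
  unfold Pr Ex
  refine div_pos ?_ (Zq_pos hQ D η)
  have h1 := Finset.single_le_sum
    (f := fun S => Q ^ LD D (cf D η S) * E.indicator 1 (cf D η S))
    (fun S _ => mul_nonneg (pow_pos hQ _).le (ind_nonneg _ _))
    (Finset.mem_powerset.2 (Finset.empty_subset D))
  refine lt_of_lt_of_le ?_ h1
  rw [Set.indicator_of_mem h]
  simp only [Pi.one_apply, mul_one]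
  exact pow_pos hQ _

/-- The zigzag path. -/
theorem zig {F : Set (ℤ × ℤ)} {x y : ℤ} (m : ℕ)
    (h : ∀ j : ℕ, j < m → (x, y + j) ∈ F) : ReflTransGen (PStep F) (x, y) (x + (m : ℤ) % 2, y + m) := by
  induction m with
  | zero => simpa using ReflTransGen.refl
  | succ m ih =>
    refine (ih fun j hj => h j (by omega)).tail ?_
    have h1 := h m (by omega)
    rcases Nat.even_or_odd m with h2 | h2
    · obtain ⟨t, rfl⟩ := h2
      refine ⟨Or.inl (by push_cast; omega), Or.inl (by push_cast; omega), ?_⟩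
      have e1 : min (x + ((t + t : ℕ) : ℤ) % 2) (x + ((t + t + 1 : ℕ) : ℤ) % 2) = x := by
        push_cast; omega
      have e2 : min (y + ((t + t : ℕ) : ℤ)) (y + ((t + t + 1 : ℕ) : ℤ)) = y + ((t + t : ℕ) : ℤ) := by
        push_cast; omega
      simp only [e1, e2]
      exact h1
    · obtain ⟨t, rfl⟩ := h2
      refine ⟨Or.inr (by push_cast; omega), Or.inl (by push_cast; omega), ?_⟩
      have e1 : min (x + ((2 * t + 1 : ℕ) : ℤ) % 2) (x + ((2 * t + 1 + 1 : ℕ) : ℤ) % 2) = x := by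
        push_cast; omega
      have e2 : min (y + ((2 * t + 1 : ℕ) : ℤ)) (y + ((2 * t + 1 + 1 : ℕ) : ℤ)) =
          y + ((2 * t + 1 : ℕ) : ℤ) := by
        push_cast; omega
      simp only [e1, e2]
      exact h1

/-- The closed configuration has the dual arm. -/
theorem xc_closed {b : ℤ × ℤ} {r R : ℤ} (hr : 1 ≤ r) (hR : r ≤ R) {ω : Cfg} (hω : ∀ v, ω v = false) :
    ω ∈ Xc false b r R := by
  obtain ⟨s, hs0, hs1, hs⟩ : ∃ s : ℤ, 0 ≤ s ∧ s ≤ 1 ∧ (b.1 + s + (b.2 + r)) % 2 = 1 := by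
    rcases Int.emod_two_eq_zero_or_one (b.1 + (b.2 + r)) with h | h
    · exact ⟨1, by omega, by omega, by omega⟩
    · exact ⟨0, by omega, by omega, by omega⟩
  obtain ⟨m, hm⟩ : ∃ m : ℕ, (m : ℤ) = R - r := ⟨(R - r).toNat, by omega⟩
  refine ⟨(b.1 + s, b.2 + r), (b.1 + s + (m : ℤ) % 2, b.2 + r + m), ?_, ?_, ?_, ?_, ?_⟩
  · simp only [sr, Set.mem_ofPred_eq]
    omega
  · simpa [pr] using hs
  · unfold nm
    simp only [Prod.fst_sub, Prod.snd_sub]
    rw [max_le_iff, abs_le, abs_le]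
    omega
  · refine zig m fun j hj => ⟨?_, ?_⟩
    · simp only [cs, Set.mem_ofPred_eq]
      exact hω _
    · simp only [dq, Set.mem_ofPred_eq]
      omega
  · unfold nm
    simp only [Prod.fst_sub, Prod.snd_sub]
    refine le_trans ?_ (le_max_right _ _)
    refine le_trans ?_ (le_abs_self _)
    omega

theorem hx_pos (hQ : 0 < Q) {b : ℤ × ℤ} {r R N : ℤ} (hr : 1 ≤ r) (hR : r ≤ R) :
    0 < hx Q false b r R N := by
  refine pr_pos hQ (xc_closed hr hR fun v => ?_)
  unfold cf eta0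
  split_ifs <;> simp

end Vale.Agent.P167.N.BT
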