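import Vale.Agent.P167.N.BT.Mom
import Vale.Agent.P167.H452.BE.PL
import Vale.Agent.P167.N.BT.Far
import Vale.Agent.P167.N.BT.Pos

/-!
# P167, `0 < q < 1`, block BT8: the finite-volume theorem `S_BT` from its parts
-/

set_option autoImplicit false

namespace Vale.Agent.P167.N.BT

open Finset Relation MeasureTheory Vale.Agent.P167 Vale.Agent.P167.BR Vale.Agent.P167.FK Vale.Agent.P167.FKA
open Vale.Agent.P167.H562.QM (MajA NbP)
open Vale.Agent.P167.H436.ND (Ex0 kp Zr Zg Win FltO Yu)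
open Vale.Agent.P167.N.H436.ND (Yl)
open Vale.Agent.P167.H192.TA (Xc)
open Vale.Agent.P167.H192.Q (Xc_restrict)
open Vale.Agent.P167.H469 (hx)
open Vale.Agent.P167.H452.BE (Yu_nonneg ind_congr core_tail core_low ratio_small sum_disj)

variable {Q : ℝ} {D : Finset (ℤ × ℤ)} {η : Cfg} {b : ℤ × ℤ} {R : ℤ} {θ : ℝ} {P : Measure Cfg}

/-! ### the sum over the scales -/

theorem hx_nonneg (hQ : 0 < Q) (e : Bool) (b : ℤ × ℤ) (r R N : ℤ) : 0 ≤ hx Q e b r R N :=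
  Pr_nonneg hQ _

theorem aD_nonneg (hQ : 0 < Q) (W : Set (ℤ × ℤ)) (r : ℤ) : 0 ≤ aD Q D η W b r := Pr_nonneg hQ _

theorem sd_nonneg (hQ : 0 < Q) (W : Set (ℤ × ℤ)) (r R N M : ℤ) : 0 ≤ SD Q D η W b r R N M :=
  sum_nonneg fun _ _ => mul_nonneg (hx_nonneg hQ _ _ _ _ _) (aD_nonneg hQ _ _)

/-- Many scales: the dual arm up to `R₁` is much less likely than the sum. -/
theorem sd_chain (hQ : 0 < Q) {W : Set (ℤ × ℤ)} {r R₁ N M : ℤ} {C : ℝ} (hr : 1 ≤ r) (hM : 2 ≤ M)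
    (hch : ∀ ρ : ℤ, r ≤ ρ → ρ ≤ R₁ →
      hx Q false b r R₁ N * aD Q D η W b R₁ ≤ C * (hx Q false b r ρ N * aD Q D η W b ρ))
    {m : ℕ} (hm : M ^ m * r ≤ R₁) :
    (m : ℝ) * (hx Q false b r R₁ N * aD Q D η W b R₁) ≤ C * SD Q D η W b r R₁ N M := by
  obtain ⟨x, hx0⟩ : ∃ x, x = hx Q false b r R₁ N * aD Q D η W b R₁ := ⟨_, rfl⟩
  rw [← hx0] at hch ⊢
  have hxn : 0 ≤ x := by rw [hx0]; exact mul_nonneg (hx_nonneg hQ _ _ _ _ _) (aD_nonneg hQ _ _)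
  have hM1 : 1 ≤ M := by omega
  have hpow : ∀ t : ℕ, 1 ≤ M ^ t := fun t => one_le_pow₀ hM1
  unfold SD
  set T := (range (R₁.toNat + 1)).filter (fun t : ℕ => M ^ (t + 1) * r ≤ R₁) with hT
  have hR1 : 0 ≤ R₁ := le_trans (mul_nonneg (by have := hpow m; omega) (by omega)) hm
  have hsub : range m ⊆ T := by
    intro t ht
    rw [Finset.mem_range] at ht
    have h1 : M ^ (t + 1) * r ≤ R₁ := by
      refine le_trans (mul_le_mul_of_nonneg_right ?_ (by omega)) hm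
      exact pow_le_pow_right₀ hM1 ht
    refine Finset.mem_filter.2 ⟨?_, h1⟩
    rw [Finset.mem_range]
    have h2 : (t : ℤ) < M ^ (t + 1) := by
      have h3 : (t : ℤ) < 2 ^ t := by exact_mod_cast Nat.lt_two_pow_self
      have h4 : (2 : ℤ) ^ t ≤ M ^ t := pow_le_pow_left₀ (by norm_num) hM t
      have h5 : M ^ t ≤ M ^ (t + 1) := pow_le_pow_right₀ hM1 (by omega)
      omega
    have h3 : M ^ (t + 1) ≤ M ^ (t + 1) * r := by
      have := hpow (t + 1)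
      nlinarith
    omega
  have h1 : ∑ _t ∈ range m, x ≤ ∑ t ∈ T, C * (hx Q false b r (M ^ t * r) N *
      aD Q D η W b (M ^ t * r)) := by
    refine le_trans (Finset.sum_le_sum_of_subset_of_nonneg hsub fun _ _ _ => hxn)
      (Finset.sum_le_sum fun t ht => hch _ ?_ ?_)
    · have := hpow t
      nlinarith
    · have h2 := (Finset.mem_filter.1 ht).2
      refine le_trans (mul_le_mul_of_nonneg_right ?_ (by omega)) h2
      exact pow_le_pow_right₀ hM1 (by omega)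
  rw [Finset.sum_const, Finset.card_range, nsmul_eq_mul, ← Finset.mul_sum] at h1
  exact h1

/-- **The probability of the favourable event.** -/
theorem fav_low (hQ : 0 < Q) {n : ℕ} {q : ZMod n → ℤ × ℤ} {k l : ℕ} {a : Fin 2 → ℤ} {R₁ N M K0 : ℤ}
    {c : ℝ} (h1 : 1 ≤ a 1) (hK0 : 4 ≤ K0) (hM : K0 ≤ M)
    (hE : ∃ E : ℤ → Set Cfg,
      (∀ ρ, (ρ = a 1 ∨ K0 * a 1 ≤ ρ) → K0 * ρ ≤ R₁ → E ρ ⊆ FavT q D k l a ∧
        c * (hx Q true (q l) (2 * a 0) (a 1) N * (hx Q false (q l) (a 1) ρ N *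
          aD Q D η (Wr q k) (q l) ρ)) ≤ Pr Q D η (E ρ)) ∧
      ∀ ρ ρ' : ℤ, (ρ = a 1 ∨ K0 * a 1 ≤ ρ) → K0 * ρ ≤ ρ' → Disjoint (E ρ) (E ρ')) :
    c * (hx Q true (q l) (2 * a 0) (a 1) N * SD Q D η (Wr q k) (q l) (a 1) R₁ N M) ≤
      Pr Q D η (FavT q D k l a) := by
  obtain ⟨E, hE1, hE2⟩ := hE
  have hM1 : 1 ≤ M := by omega
  have hpow : ∀ t : ℕ, 1 ≤ M ^ t := fun t => one_le_pow₀ hM1
  unfold SD
  set T := (range (R₁.toNat + 1)).filter (fun t : ℕ => M ^ (t + 1) * a 1 ≤ R₁) with hT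
  have hsc : ∀ t : ℕ, (M ^ t * a 1 = a 1 ∨ K0 * a 1 ≤ M ^ t * a 1) := by
    intro t
    rcases Nat.eq_zero_or_pos t with h | h
    · left; rw [h]; ring
    · right
      refine mul_le_mul_of_nonneg_right ?_ (by omega)
      calc K0 ≤ M := hM
        _ = M ^ 1 := (pow_one M).symm
        _ ≤ M ^ t := pow_le_pow_right₀ hM1 h
  have hst : ∀ s t : ℕ, s < t → K0 * (M ^ s * a 1) ≤ M ^ t * a 1 := by
    intro s t hst
    have h8 : K0 * M ^ s ≤ M ^ t := by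
      calc K0 * M ^ s ≤ M * M ^ s := mul_le_mul_of_nonneg_right hM (by have := hpow s; omega)
        _ = M ^ (s + 1) := by rw [pow_succ]; ring
        _ ≤ M ^ t := pow_le_pow_right₀ hM1 hst
    calc K0 * (M ^ s * a 1) = K0 * M ^ s * a 1 := by ring
      _ ≤ _ := mul_le_mul_of_nonneg_right h8 (by omega)
  have hrg : ∀ t ∈ T, K0 * (M ^ t * a 1) ≤ R₁ := fun t ht =>
    (hst t (t + 1) (by omega)).trans (Finset.mem_filter.1 ht).2
  have h2 : ∑ t ∈ T, c * (hx Q true (q l) (2 * a 0) (a 1) N *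
      (hx Q false (q l) (a 1) (M ^ t * a 1) N * aD Q D η (Wr q k) (q l) (M ^ t * a 1))) ≤
      ∑ t ∈ T, Pr Q D η (E (M ^ t * a 1)) :=
    Finset.sum_le_sum fun t ht => (hE1 _ (hsc t) (hrg t ht)).2
  rw [← Finset.mul_sum, ← Finset.mul_sum] at h2
  refine h2.trans (sum_disj hQ T (fun t => E (M ^ t * a 1))
    (fun t ht => (hE1 _ (hsc t) (hrg t ht)).1) fun t ht t' ht' hne => ?_)
  rcases lt_or_gt_of_ne hne with h | h
  · exact hE2 _ _ (hsc t) (hst t t' h)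
  · exact (hE2 _ _ (hsc t') (hst t' t h)).symm

/-! ### one domain -/

/-- **The bounds in one domain.** `κ` is the constant of the lower bound. -/
theorem bt_one (hQ0 : 0 < 2 * Real.cos θ) {C1 Mw CY CU cL c8 α δ ε : ℝ} (hC1 : 0 < C1)
    (hMw : 1 ≤ Mw) (hCY : 0 < CY) (hCU : 0 < CU) (hcL : 0 < cL) (hc8 : 0 < c8)
    {n : ℕ} {q : ZMod n → ℤ × ℤ} {k l : ℕ} {a : Fin 2 → ℤ} {f : Fin 2 → ℤ × ℤ → ℝ}
    {R₁ : ℤ} (h8 : Rs2 a R₁ R) {Nf : Fin 2 → Cfg → ℕ}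
    (hDU : ∀ ω, |XT θ q D k f ω| ≤ C1 * ∏ i, Yu θ Mw (tb θ i) (f i) (a i) (Nf i ω) ω ∧
      (XT θ q D k f ω ≠ 0 → ω ∈ StT q D k l a) ∧ (ω ∉ BadT (q l) a → 0 ≤ XT θ q D k f ω) ∧
      (ω ∈ FavT q D k l a → ω ∈ StT q D k l a ∧
        1 ≤ C1 * (XT θ q D k f ω * ∏ i, Yl θ Mw (tb θ i) (f i) (q l) (a i) (Nf i ω) ω)))
    (hT : ∀ ω, ω ∈ StT q D k l a → ω ∈ AmsT D (Wr q k) (q l) (3 * a 1) (R₁ / 2))
    (hY : ∀ g : Cfg → ℝ, (∀ ω, 0 ≤ g ω) → (∀ i, Ind (Zg (q l) (a i / 2) (3 * a i)) g) →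
      Ex (2 * Real.cos θ) D η (fun ω => g ω * ∏ i, Yu θ Mw (tb θ i) (f i) (a i) (Nf i ω) ω) ≤
        CY * Real.exp (-(Ex0 θ P (tb θ) a)) * Ex (2 * Real.cos θ) D η g ∧
      Ex (2 * Real.cos θ) D η
          (fun ω => g ω * ∏ i, Yl θ Mw (tb θ i) (f i) (q l) (a i) (Nf i ω) ω) ≤
        CY * Real.exp (Ex0 θ P (tb θ) a) * Ex (2 * Real.cos θ) D η g)
    {H S dR : ℝ} (hH : c8 ≤ H) (hS : 0 ≤ S) (hdR : 0 ≤ dR)
    (hP1 : Pr (2 * Real.cos θ) D η (Xc true (q l) (3 * a 0) (a 1 / 2) ∩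
        AmsT D (Wr q k) (q l) (3 * a 1) (R₁ / 2)) ≤ CU * (H * (dR + S)))
    (hP2 : Pr (2 * Real.cos θ) D η ((Xc true (q l) (3 * a 0) (a 1 / 2) ∩
          Xc false (q l) (3 * a 0) (a 1 / 2)) ∩ AmsT D (Wr q k) (q l) (3 * a 1) (R₁ / 2)) ≤
        CU * ((a 0 : ℝ) / a 1) ^ α * (H * (dR + S)))
    (hP3 : Pr (2 * Real.cos θ) D η (Xc false (q l) (4 * a 1) R₁) ≤ CU * dR)
    (hPL : cL * (H * S) ≤ Pr (2 * Real.cos θ) D η (FavT q D k l a))
    (hS0 : 0 < S)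
    (hrat : ((a 0 : ℝ) / a 1) ^ α ≤ δ)
    (hδ : C1 * CY * CU * δ ≤ (cL / 2) ^ 2 / (2 * (C1 * CY * CU)))
    (hδ2 : C1 * CY * CU * δ ≤ ε * ((cL / 2) ^ 2 / (2 * (C1 * CY * CU))))
    (hd1 : dR ≤ S)
    (hd2 : C1 * CY * CU * dR ≤ ε * ((cL / 2) ^ 2 / (2 * (C1 * CY * CU)) * (c8 * S))) :
    0 < Ex (2 * Real.cos θ) D η (XT θ q D k f) ∧
    Ex (2 * Real.cos θ) D η (fun ω =>
        (Xc false (q l) (4 * a 1) R₁).indicator 1 ω * |XT θ q D k f ω|) ≤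
      ε * Ex (2 * Real.cos θ) D η (XT θ q D k f) ∧
    Ex (2 * Real.cos θ) D η (fun ω => max (-XT θ q D k f ω) 0) ≤
      ε * Ex (2 * Real.cos θ) D η (XT θ q D k f) := by
  have hMw0 : 0 ≤ Mw := by linarith
  have hH0 : 0 < H := lt_of_lt_of_le hc8 hH
  have hYu : ∀ ω, 0 ≤ ∏ i, Yu θ Mw (tb θ i) (f i) (a i) (Nf i ω) ω := fun ω =>
    prod_nonneg fun i _ => Yu_nonneg hMw0 _ _ _ _
  have hYl : ∀ ω, 0 ≤ ∏ i, Yl θ Mw (tb θ i) (f i) (q l) (a i) (Nf i ω) ω := fun ω =>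
    prod_nonneg fun i _ => Yl_nonneg hMw0 _ _ _ _ _
  obtain ⟨Am, hAm⟩ : ∃ Am, Am = AmsT D (Wr q k) (q l) (3 * a 1) (R₁ / 2) := ⟨_, rfl⟩
  have hXA : ∀ ω, XT θ q D k f ω ≠ 0 → ω ∈ Am := fun ω h => by
    rw [hAm]; exact hT ω ((hDU ω).2.1 h)
  have h8' := h8
  obtain ⟨e1, e2, e3, e4⟩ := h8
  have gD : Xc false (q l) (2 * a 0) (a 1) ⊆ Xc false (q l) (3 * a 0) (a 1 / 2) :=
    Xc_restrict (by omega) (by omega) (by omega)
  have gP : Xc true (q l) (2 * a 0) (a 1) ⊆ Xc true (q l) (3 * a 0) (a 1 / 2) :=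
    Xc_restrict (by omega) (by omega) (by omega)
  have hIX : ∀ i, Ind (Zg (q l) (a i / 2) (3 * a i))
      ((Xc true (q l) (3 * a 0) (a 1 / 2) ∩ Am).indicator (1 : Cfg → ℝ)) :=
    fun i => ind_congr fun ω ω' hw h => ⟨gap_ind h8' true i ω ω' hw h.1, by
      rw [hAm] at h ⊢; exact ams_ind h8' i ω ω' hw h.2⟩
  have hIB : ∀ i, Ind (Zg (q l) (a i / 2) (3 * a i))
      (((Xc true (q l) (3 * a 0) (a 1 / 2) ∩ Xc false (q l) (3 * a 0) (a 1 / 2)) ∩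
        Am).indicator (1 : Cfg → ℝ)) :=
    fun i => ind_congr fun ω ω' hw h =>
      ⟨⟨gap_ind h8' true i ω ω' hw h.1.1, gap_ind h8' false i ω ω' hw h.1.2⟩, by
        rw [hAm] at h ⊢; exact ams_ind h8' i ω ω' hw h.2⟩
  have hIR : ∀ i, Ind (Zg (q l) (a i / 2) (3 * a i))
      ((Xc false (q l) (4 * a 1) R₁ ∩ Set.univ).indicator (1 : Cfg → ℝ)) :=
    fun i => ind_congr fun ω ω' hw h => ⟨far_ind h8' (by omega) false i ω ω' hw h.1, trivial⟩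
  rw [← hAm] at hP1 hP2
  obtain ⟨B, hB⟩ : ∃ B, B = C1 * CY * CU := ⟨_, rfl⟩
  have hB0 : 0 < B := by rw [hB]; positivity
  obtain ⟨κ, hκ⟩ : ∃ κ, κ = (cL / 2) ^ 2 / (2 * (C1 * CY * CU)) := ⟨_, rfl⟩
  have hκ0 : 0 < κ := by rw [hκ]; positivity
  have hz : 0 ≤ H * (dR + S) := mul_nonneg hH0.le (by linarith)
  have hSS : H * (dR + S) ≤ 2 * (H * S) := by nlinarith
  -- the lower bound
  have k1 := core_low (D := D) (η := η) hQ0 (X := XT θ q D k f)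
    (Y := fun ω => ∏ i, Yu θ Mw (tb θ i) (f i) (a i) (Nf i ω) ω)
    (Z := fun ω => ∏ i, Yl θ Mw (tb θ i) (f i) (q l) (a i) (Nf i ω) ω)
    (Am := Am) (Gd := FavT q D k l a) (Xg := Xc true (q l) (3 * a 0) (a 1 / 2))
    (Bd := Xc true (q l) (3 * a 0) (a 1 / 2) ∩ Xc false (q l) (3 * a 0) (a 1 / 2))
    (e0 := Ex0 θ P (tb θ) a) (δ := ((a 0 : ℝ) / a 1) ^ α) (cL := cL / 2) (z := H * (dR + S))
    hC1 hCY hCU (by linarith) hz hYu hYl
    (fun ω => (hDU ω).1) hXA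
    (fun ω h => (hDU ω).2.2.1 fun h' => h ⟨gP h'.1, gD h'.2⟩)
    (fun ω h => ⟨⟨gP h.2.1, hXA ω fun h0 => by
      have := ((hDU ω).2.2.2 h).2
      rw [h0] at this
      norm_num at this⟩, ((hDU ω).2.2.2 h).2⟩)
    (hY _ (fun ω => ind_nonneg _ _) hIB).1 (hY _ (fun ω => ind_nonneg _ _) hIX).2
    (le_trans (by nlinarith) hPL) hP1 hP2
    (le_trans (mul_le_mul_of_nonneg_left hrat (by rw [← hB]; exact hB0.le)) hδ)
  rw [← hκ] at k1
  obtain ⟨e0, he0⟩ : ∃ e0, e0 = Ex0 θ P (tb θ) a := ⟨_, rfl⟩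
  rw [← he0] at k1
  obtain ⟨V, hV⟩ : ∃ V, V = Ex (2 * Real.cos θ) D η (XT θ q D k f) := ⟨_, rfl⟩
  rw [← hV] at k1 ⊢
  have x1 := Real.exp_pos e0
  have x2 := Real.exp_pos (-e0)
  have x3 : Real.exp (-e0) * Real.exp e0 = 1 := by rw [← Real.exp_add]; simp
  have k2 : κ * (H * (dR + S)) * Real.exp (-e0) ≤ V := by
    have := mul_le_mul_of_nonneg_right k1 x2.le
    rw [mul_assoc V, mul_comm (Real.exp e0), x3, mul_one] at this
    exact this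
  have hV0 : 0 < V := lt_of_lt_of_le (by positivity) k2
  -- the tails
  have t1 := core_tail (D := D) (η := η) hQ0 (X := XT θ q D k f)
    (Y := fun ω => ∏ i, Yu θ Mw (tb θ i) (f i) (a i) (Nf i ω) ω) (Am := Am)
    (F := Xc true (q l) (3 * a 0) (a 1 / 2) ∩ Xc false (q l) (3 * a 0) (a 1 / 2))
    (C1 := C1) (C' := CY) (e0 := Ex0 θ P (tb θ) a) hC1.le hYu (fun ω => (hDU ω).1) hXA
    (hY _ (fun ω => ind_nonneg _ _) hIB).1 hCY.le hP2
  have t2 := core_tail (D := D) (η := η) hQ0 (X := XT θ q D k f)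
    (Y := fun ω => ∏ i, Yu θ Mw (tb θ i) (f i) (a i) (Nf i ω) ω) (Am := Set.univ)
    (F := Xc false (q l) (4 * a 1) R₁)
    (C1 := C1) (C' := CY) (e0 := Ex0 θ P (tb θ) a) (p := CU * dR) hC1.le hYu (fun ω => (hDU ω).1)
    (fun _ _ => trivial)
    (hY _ (fun ω => ind_nonneg _ _) hIR).1 hCY.le (by rw [Set.inter_univ]; exact hP3)
  rw [← he0] at t1 t2
  have hε : 0 ≤ ε := by
    by_contra hneg
    push Not at hneg
    have h1 : ε * ((cL / 2) ^ 2 / (2 * (C1 * CY * CU)) * (c8 * S)) < 0 := by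
      rw [← hκ]
      exact mul_neg_of_neg_of_pos hneg (by positivity)
    have h2 : 0 ≤ C1 * CY * CU * dR := by positivity
    linarith
  refine ⟨hV0, ?_, ?_⟩
  · refine t2.trans ?_
    calc C1 * (CY * Real.exp (-e0) * (CU * dR)) = C1 * CY * CU * dR * Real.exp (-e0) := by ring
      _ ≤ ε * ((cL / 2) ^ 2 / (2 * (C1 * CY * CU)) * (c8 * S)) * Real.exp (-e0) :=
          mul_le_mul_of_nonneg_right hd2 x2.le
      _ = ε * (κ * (c8 * S) * Real.exp (-e0)) := by rw [hκ]; ring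
      _ ≤ ε * V := by
          refine mul_le_mul_of_nonneg_left (le_trans ?_ k2) hε
          refine mul_le_mul_of_nonneg_right (mul_le_mul_of_nonneg_left ?_ hκ0.le) x2.le
          nlinarith
  · have t3 : Ex (2 * Real.cos θ) D η (fun ω => max (-XT θ q D k f ω) 0) ≤
        Ex (2 * Real.cos θ) D η (fun ω =>
          (Xc true (q l) (3 * a 0) (a 1 / 2) ∩ Xc false (q l) (3 * a 0) (a 1 / 2)).indicator 1 ω *
            |XT θ q D k f ω|) := by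
      refine Ex_mono hQ0 fun S' _ => ?_
      generalize cf D η S' = ω
      by_cases hb : ω ∈ Xc true (q l) (3 * a 0) (a 1 / 2) ∩ Xc false (q l) (3 * a 0) (a 1 / 2)
      · rw [Set.indicator_of_mem hb, Pi.one_apply, one_mul]
        exact max_le (neg_le_abs _) (abs_nonneg _)
      · rw [Set.indicator_of_notMem hb, zero_mul]
        have h1 := (hDU ω).2.2.1 fun h' => hb ⟨gP h'.1, gD h'.2⟩
        rw [max_eq_right (by linarith)]
    refine t3.trans (t1.trans ?_)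
    calc C1 * (CY * Real.exp (-e0) * (CU * ((a 0 : ℝ) / a 1) ^ α * (H * (dR + S)))) =
          C1 * CY * CU * ((a 0 : ℝ) / a 1) ^ α * (H * (dR + S)) * Real.exp (-e0) := by ring
      _ ≤ C1 * CY * CU * δ * (H * (dR + S)) * Real.exp (-e0) := by
          refine mul_le_mul_of_nonneg_right (mul_le_mul_of_nonneg_right
            (mul_le_mul_of_nonneg_left hrat (by positivity)) hz) x2.le
      _ ≤ ε * κ * (H * (dR + S)) * Real.exp (-e0) := by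
          refine mul_le_mul_of_nonneg_right (mul_le_mul_of_nonneg_right ?_ hz) x2.le
          rw [hκ]
          exact hδ2
      _ = ε * (κ * (H * (dR + S)) * Real.exp (-e0)) := by ring
      _ ≤ ε * V := mul_le_mul_of_nonneg_left k2 hε

theorem r2_of {a₀ a₀' K K' R' : ℤ} {a : Fin 2 → ℤ} (h : R2 a₀ K R a) (ha : a₀' ≤ a₀)
    (hK : K' ≤ K) (h0 : 1 ≤ a₀) (hK1 : 1 ≤ K) (hR : R ≤ R') : R2 a₀' K' R' a := by
  obtain ⟨h1, h2, h3⟩ := h
  have e0 : 0 ≤ a 0 := by omega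
  have e1 : 0 ≤ a 1 := by nlinarith
  exact ⟨ha.trans h1, (mul_le_mul_of_nonneg_right hK e0).trans h2,
    ((mul_le_mul_of_nonneg_right hK e1).trans h3).trans hR⟩

/-- **`S_BT` from its parts.** -/
theorem s_BT_of (hQ0 : 0 < 2 * Real.cos θ) (hτ : ∀ i, |tb θ i| ≤ 2) (h8 : S_A8T (2 * Real.cos θ))
    (hCH : S_CHT (2 * Real.cos θ)) (hDU : S_DUT θ) (hT1 : S_T1T) (hPU : S_PUT (2 * Real.cos θ))
    (hPL : S_PLT (2 * Real.cos θ)) (hY : S_Y2 θ P) : S_BT θ := by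
  obtain ⟨C1, Mw, KD, aDU, hC1, hMw, hKD, haD, hDU⟩ := hDU
  obtain ⟨aT, hT1⟩ := hT1
  obtain ⟨cL, KL, aL, hcL, hKL, haL, hPL⟩ := hPL
  obtain ⟨CY, aY, hCY, hY⟩ := ring_mom hQ0 hY hMw
  obtain ⟨CU, α, KU, aU, hCU, hα, hKU, haU, hPU⟩ := hPU KL (by omega)
  obtain ⟨CC, KC, sC, hCC, hKC, hsC, hCH⟩ := hCH
  intro ε hε
  obtain ⟨B, hB⟩ : ∃ B, B = C1 * CY * CU := ⟨_, rfl⟩
  have hB0 : 0 < B := by rw [hB]; positivity
  obtain ⟨κ, hκ⟩ : ∃ κ, κ = (cL / 2) ^ 2 / (2 * B) := ⟨_, rfl⟩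
  have hκ0 : 0 < κ := by rw [hκ]; positivity
  obtain ⟨δ, hδ⟩ : ∃ δ, δ = min 1 ε * κ / B := ⟨_, rfl⟩
  have hm0 : 0 < min 1 ε := lt_min one_pos hε
  have hδ0 : 0 < δ := by rw [hδ]; positivity
  have hBδ : B * δ = min 1 ε * κ := by rw [hδ]; field_simp
  obtain ⟨K1, hK1, hrat⟩ := ratio_small hα hδ0
  refine ⟨KD + KL + KU + KC + K1 + 8, by omega, fun K₂ hK₂ c₁ hc₁ => ?_⟩
  obtain ⟨c8, s8, hc8, hs8, h8⟩ := h8 K₂ (by omega)
  obtain ⟨m, hm⟩ := exists_nat_gt (max (CC / c₁) (B * CC / (c₁ * (ε * κ * c8))))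
  have hm1 : CC / c₁ < m := (le_max_left _ _).trans_lt hm
  have hm2 : B * CC / (c₁ * (ε * κ * c8)) < m := (le_max_right _ _).trans_lt hm
  have hmp : (0 : ℝ) < m := lt_of_le_of_lt (by positivity) hm1
  obtain ⟨Kg, hKg⟩ : ∃ Kg, Kg = KD + KL + KU + KC + K1 + 8 := ⟨_, rfl⟩
  rw [← hKg] at hK₂ ⊢
  have hab := le_abs_self aT
  have hab' := abs_nonneg aT
  have hay := le_abs_self aY
  have hay' := abs_nonneg aY
  obtain ⟨aM, haM⟩ : ∃ aM : ℤ, aM = aDU + |aT| + |aY| + aL + aU + sC + s8 + 4 := ⟨_, rfl⟩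
  have hpow : 1 ≤ KL ^ m := one_le_pow₀ (by omega)
  have hKg8 : 8 ≤ Kg := by omega
  have hpR : (0 : ℝ) < (KL : ℝ) ^ m * Kg := by
    have h1 : (0 : ℝ) < (KL : ℝ) := by exact_mod_cast (by omega : 0 < KL)
    have h2 : (0 : ℝ) < (Kg : ℝ) := by exact_mod_cast (by omega : 0 < Kg)
    positivity
  refine ⟨1 / ((KL : ℝ) ^ m * Kg), aM, by positivity, ?_⟩
  intro n q D η k l R hw a ha0 hg h2g f hf R₁ hR₁ hKR hc
  -- integer inequalities
  have hR₁' : KL ^ m * Kg * a 1 ≤ R₁ := by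
    rw [one_div, inv_mul_eq_div, le_div_iff₀ hpR] at hR₁
    have : ((KL ^ m * Kg * a 1 : ℤ) : ℝ) ≤ R₁ := by push_cast; linarith
    exact_mod_cast this
  have hg' : Kg * a 0 ≤ a 1 := (mul_le_mul_of_nonneg_right hK₂ (by omega)).trans hg
  have i0 : 1 ≤ a 0 := by omega
  have i1 : aM ≤ a 1 := by nlinarith
  have i1' : 0 ≤ a 1 := by omega
  have hA1 : Kg * a 1 ≤ R₁ := by
    refine le_trans ?_ hR₁'
    rw [mul_assoc]
    have : 0 ≤ Kg * a 1 := mul_nonneg (by omega) i1'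
    nlinarith
  have hA2 : KL ^ m * a 1 ≤ R₁ := by
    refine le_trans ?_ hR₁'
    have : 0 ≤ KL ^ m * a 1 := mul_nonneg (by omega) i1'
    nlinarith
  have hR1p : 1 ≤ R₁ := by nlinarith
  have key : ∀ x y K' : ℤ, K' ≤ Kg → 0 ≤ x → Kg * x ≤ y → K' * x ≤ y := fun x y K' h1 h2 h3 =>
    (mul_le_mul_of_nonneg_right h1 h2).trans h3
  have hR1R : R₁ ≤ R := by
    have := key R₁ R 1 (by omega) (by omega) hKR
    omega
  have hR2 : R2 aM Kg R₁ a := ⟨ha0, hg', hA1⟩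
  have h8' : Rs2 a R₁ R := ⟨by omega, key _ _ _ hKg8 (by omega) hg', key _ _ _ hKg8 i1' hA1, hR1R⟩
  have h8'' := h8'
  obtain ⟨e1, e2, e3, e4⟩ := h8''
  have h3R : 3 * R₁ ≤ R := key _ _ _ (by omega) (by omega) hKR
  have hFl : Fl D η (Wr q k) (q l) R := ⟨hw.win.flat, hw.flt, hw.far (by omega)⟩
  have hi : ∀ i, aM ≤ a i := by
    intro i
    fin_cases i
    · exact ha0
    · exact i1
  have hi2 : ∀ i, a i ≤ a 1 := by
    intro i
    fin_cases i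
    · show a 0 ≤ a 1
      omega
    · exact le_rfl
  obtain ⟨Nf, hN1, hN2⟩ := hY (q l) a fun i => by have := hi i; omega
  have hN2' := hN2 D η R hw.win.flat hw.flt (fun i => by have := hi2 i; omega) (zones_disj h8')
    (fun i => by have := hi2 i; have := hi i; omega) f (fun i => (hf i).toBp) (tb θ) hτ
  obtain ⟨S, hS⟩ : ∃ S, S = SD (2 * Real.cos θ) D η (Wr q k) (q l) (a 1) R₁ R KL := ⟨_, rfl⟩
  obtain ⟨dR, hdR⟩ : ∃ dR, dR = hx (2 * Real.cos θ) false (q l) (a 1) R₁ R := ⟨_, rfl⟩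
  obtain ⟨H, hH⟩ : ∃ H, H = hx (2 * Real.cos θ) true (q l) (2 * a 0) (a 1) R := ⟨_, rfl⟩
  have hH8 : c8 ≤ H := by
    rw [hH]
    refine h8 (q l) (2 * a 0) (a 1) R (by omega) (by omega) ?_ (by omega)
    exact h2g.trans (le_of_eq (by ring))
  obtain ⟨p1, p2, p3⟩ := hPU D η (Wr q k) (q l) R R hFl a R₁
    (r2_of hR2 (by omega) (by omega) (by omega) (by omega) le_rfl)
    (key _ _ _ (by omega) (by omega) hKR) (key _ _ _ (by omega) (by omega) hKR)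
  have hPL' := fav_low (c := cL) (M := KL) (R₁ := R₁) (D := D) (η := η) hQ0 (by omega) hKL le_rfl
    (hPL n q D η k l R R hw a R₁
    (r2_of hR2 (by omega) (by omega) (by omega) (by omega) le_rfl)
    (key _ _ _ (by omega) (by omega) hKR) (key _ _ _ (by omega) (by omega) hKR))
  have hch := sd_chain (D := D) (η := η) (b := q l) (W := Wr q k) (r := a 1) (R₁ := R₁) (N := R)
    (M := KL) (C := CC) hQ0 (by omega) (by omega)
    (fun ρ h1 h2 => hCH n q D η k l R R hw (a 1) ρ R₁ (by omega) h1 h2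
      (key _ _ _ (by omega) (by omega) hKR) (key _ _ _ (by omega) (by omega) hKR)) hA2
  rw [← hS] at p1 p2 hPL' hch
  rw [← hdR] at p1 p2 p3 hch
  rw [← hH] at p1 p2 hPL'
  have hS' : 0 ≤ S := by rw [hS]; exact sd_nonneg hQ0 _ _ _ _ _
  have hdR0 : 0 ≤ dR := by rw [hdR]; exact hx_nonneg hQ0 _ _ _ _ _
  -- the dual arm against the sum
  have hch2 : (m : ℝ) * (dR * c₁) ≤ CC * S :=
    (mul_le_mul_of_nonneg_left (mul_le_mul_of_nonneg_left hc hdR0) hmp.le).trans hch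
  have hd1 : dR ≤ S := by
    rw [div_lt_iff₀ hc₁] at hm1
    by_contra hcon
    push Not at hcon
    have h1 : CC * S ≤ CC * dR := mul_le_mul_of_nonneg_left hcon.le hCC.le
    have h2 : CC * dR ≤ m * c₁ * dR := mul_le_mul_of_nonneg_right hm1.le hdR0
    have h3 : dR = 0 := by
      by_contra hne
      have h4 : 0 < dR := lt_of_le_of_ne hdR0 (Ne.symm hne)
      have h5 : CC * dR < m * c₁ * dR := mul_lt_mul_of_pos_right hm1 h4
      have h6 : (m : ℝ) * (dR * c₁) = m * c₁ * dR := by ring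
      linarith
    linarith
  have hd2 : B * dR ≤ ε * (κ * (c8 * S)) := by
    rw [div_lt_iff₀ (by positivity)] at hm2
    have h1 : B * CC * dR ≤ m * (c₁ * (ε * κ * c8)) * dR := mul_le_mul_of_nonneg_right hm2.le hdR0
    have h2 : m * (c₁ * (ε * κ * c8)) * dR = ε * κ * c8 * (m * (dR * c₁)) := by ring
    have h3 : ε * κ * c8 * (m * (dR * c₁)) ≤ ε * κ * c8 * (CC * S) :=
      mul_le_mul_of_nonneg_left hch2 (by positivity)
    have h4 : CC * (B * dR) ≤ CC * (ε * (κ * (c8 * S))) := by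
      calc CC * (B * dR) = B * CC * dR := by ring
        _ ≤ ε * κ * c8 * (CC * S) := by linarith
        _ = _ := by ring
    exact le_of_mul_le_mul_left h4 hCC
  have hS0 : 0 < S := by
    rcases hS'.lt_or_eq with h | h
    · exact h
    · exfalso
      have h1 : 0 < dR := by
        rw [hdR]
        exact hx_pos hQ0 (by omega) (by omega)
      rw [← h, mul_zero] at hch2
      have h2 : 0 < (m : ℝ) * (dR * c₁) := by positivity
      linarith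
  refine bt_one (α := α) (δ := δ) (R := R) (P := P) hQ0 hC1 hMw hCY hCU hcL hc8 h8' (Nf := Nf)
    (fun ω => ?_) (fun ω hω => ?_) hN2' hH8 hS' hdR0 p1 p2 p3 hPL' hS0 ?_ ?_ ?_ hd1 ?_
  · exact hDU n q D η k l R hw a
      (r2_of hR2 (by omega) (by omega) (by omega) (by omega) hR1R) f hf ω (fun i => Nf i ω)
      (fun i => hN1 i ω)
  · intro s hs hs'
    exact hT1 n q D η k l R hw a (r2_of hR2 (by omega) (by omega) (by omega) (by omega) hR1R) ω hω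
      (3 * a 1) s (by omega) hs (by omega)
  · exact hrat K₂ (a 0) (a 1) (by omega) (by omega) hg
  · rw [← hB, ← hκ, hBδ]
    have := mul_le_mul_of_nonneg_right (min_le_left 1 ε) hκ0.le
    linarith
  · rw [← hB, ← hκ, hBδ]
    exact mul_le_mul_of_nonneg_right (min_le_right 1 ε) hκ0.le
  · rw [← hB, ← hκ]
    exact hd2

end Vale.Agent.P167.N.BT
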