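import Vale.Agent.P167.N.BT.One
import Vale.Agent.P167.N.BT.BB

/-!
# P167, `0 < q < 1`, block BT: `S_One`
-/

set_option autoImplicit false

namespace Vale.Agent.P167.N.BT

open Finset Relation MeasureTheory Vale.Agent.P167 Vale.Agent.P167.BR Vale.Agent.P167.FK
open Vale.Agent.P167.FKA (Loc Ind)
open Vale.Agent.P167.H519 (IsLim)
open Vale.Agent.P167.H562.MAJ (core Sc)
open Vale.Agent.P167.H562.QM (FltQ NbP)
open Vale.Agent.P167.QB (dq Bq' XG S1 S2)
open Vale.Agent.P167.H440 (wak)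
open Vale.Agent.P167.H718 (Dob)
open Vale.Agent.P167.H436.ND (FltO)

variable {θ : ℝ} {P₀ : Measure Cfg}

theorem pow_pred {x y γ : ℝ} (hγ : 0 ≤ γ) (hx : 0 ≤ x) (hy : 2 ≤ y) :
    (x / (y - 1)) ^ γ ≤ 2 ^ γ * (x / y) ^ γ := by
  rw [← Real.mul_rpow (by norm_num) (by positivity)]
  refine Real.rpow_le_rpow (div_nonneg hx (by linarith)) ?_ hγ
  rw [div_le_iff₀ (by linarith), mul_comm, ← mul_assoc, mul_comm (y - 1) 2, mul_div_assoc',
    le_div_iff₀ (by linarith)]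
  nlinarith

theorem fin_alg2 {A x z C2 N0 E V c w : ℝ} (h : A ≤ C2 * w * N0 * E) (hc : 0 < c)
    (hC2 : 0 ≤ C2) (hx : 0 ≤ x) (hz : 0 ≤ z) (hN0 : 0 ≤ N0) (hE : 0 ≤ E) (hw : w ≤ z * x)
    (hV : c * N0 ≤ V) : A ≤ C2 * z / c * x * (V * E) := by
  have h1 : C2 * w * N0 * E ≤ C2 * (z * x) * N0 * E := by
    refine mul_le_mul_of_nonneg_right (mul_le_mul_of_nonneg_right
      (mul_le_mul_of_nonneg_left hw hC2) hN0) hE
  have h2 : N0 ≤ V / c := by
    rw [le_div_iff₀ hc]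
    linarith
  have h3 : C2 * (z * x) * N0 * E ≤ C2 * (z * x) * (V / c) * E := by
    refine mul_le_mul_of_nonneg_right (mul_le_mul_of_nonneg_left h2 (by positivity)) hE
  have e : C2 * (z * x) * (V / c) * E = C2 * z / c * x * (V * E) := by
    field_simp
  linarith

/-- **`S_One`.** -/
theorem s_One (h1 : Ang θ) (hP : IsLim (2 * Real.cos θ) P₀) : S_One θ P₀ := by
  have hpi := Real.pi_pos
  have hQ0 : 0 < 2 * Real.cos θ := h1.kit.pos
  have hs0 : 0 < Real.pi - 2 * θ := by linarith [h1.lt]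
  obtain ⟨γ, hγ, hcore⟩ := one_core h1 hP
  refine ⟨γ, hγ, 1, le_rfl, fun K hK => ?_⟩
  obtain ⟨c, C, r1, K1, hc, hC, hr1, hK1, hcore⟩ := hcore K hK
  set C' : ℝ := max (max C (C * 2 ^ γ / c)) (2 * K1) with hC'
  have hK1' : (4 : ℝ) ≤ K1 := by exact_mod_cast hK1
  refine ⟨C', max ⌈r1⌉ 1, le_trans (by linarith) (le_max_right _ _), ?_⟩
  intro r R g hr hrR hSc hg
  have hr2 : r1 ≤ r := (Int.le_ceil r1).trans (by exact_mod_cast (le_max_left _ _).trans hr)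
  have hr3 : 1 ≤ r := (le_max_right _ _).trans hr
  have hr4 : (1 : ℝ) ≤ r := by exact_mod_cast hr3
  have hKR : 2 * K1 * r ≤ R := by
    have h2 : (2 * K1 : ℝ) * r ≤ R := le_trans (mul_le_mul_of_nonneg_right (le_max_right _ _)
      (by linarith)) hrR
    exact_mod_cast h2
  have hKR' : K1 * r ≤ R - 1 := by nlinarith
  have hR8 : 8 ≤ R := by nlinarith
  obtain ⟨-, -, -, hcore⟩ := hcore r (R - 1) hr2 hKR'
  set s0 : ℝ := Real.pi - 2 * θ with hs
  -- the normalised bump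
  set φ₀ : ℤ × ℤ → ℝ := fun z => g z / s0 with hφ₀
  have e0 : ∀ z, s0 * φ₀ z = g z := fun z => by
    rw [hφ₀]
    field_simp
  have hφ0 : ∀ z, 0 ≤ φ₀ z := fun z => div_nonneg (hg.nonneg z) hs0.le
  have hφ1 : ∀ z, |s0 * φ₀ z| ≤ K / (r : ℝ) ^ 2 := fun z => by
    rw [e0]
    exact hg.abs_le z
  have hφ2 : ∀ z, φ₀ z ≠ 0 → z ∈ sites (core K (0, 0) r) := fun z hz =>
    hg.supp z fun h => hz (by rw [hφ₀]; simp only; rw [h, zero_div])
  have hφ3 : ∑ᶠ z, φ₀ z = 1 := by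
    have e1 := smul_finsum s0⁻¹ g
    simp only [smul_eq_mul] at e1
    have e2 : φ₀ = fun z => s0⁻¹ * g z := by
      funext z
      rw [hφ₀]
      simp only
      rw [div_eq_mul_inv, mul_comm]
    rw [e2, ← e1, hg.sum]
    exact inv_mul_cancel₀ hs0.ne'
  obtain ⟨hlow, hup, -⟩ := hcore (0, 0) φ₀ hφ0 hφ1 hφ2 hφ3 true false
  set V : ℝ := Ex (2 * Real.cos θ) (hbox (0, 0) (S2 r (R - 1)))
    (wak (0, 0) (S2 r (R - 1)) (kJ (0, 0) true false)) (FJ θ (0, 0) r (S1 r (R - 1)) φ₀) with hV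
  set N0 : ℝ := Real.exp (Real.tan θ * s0 * NbP P₀ (dq K r)) with hN0
  have hN00 : 0 < N0 := Real.exp_pos _
  refine ⟨V, lt_of_lt_of_le (mul_pos hc hN00) hlow, hup.trans (mul_le_mul_of_nonneg_right
    ((le_max_left _ _).trans (le_max_left _ _)) hN00.le), ?_⟩
  intro n q D k η F U hw hev hη hO hFD hFs hF0 hU0 hUI hU
  -- the bump at the junction
  have hw' : WJ q D k (R - 1) := hw.mono (by omega) (by omega)
  have hφ2' : ∀ z, φ₀ (z - q 0) ≠ 0 → z ∈ sites (core K (q 0) r) := by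
    intro z hz
    have h2 := hφ2 _ hz
    rw [mem_sites] at h2 ⊢
    obtain ⟨v, hv, h3, h4⟩ := h2
    refine ⟨v + q 0, ?_, ?_, ?_⟩
    · rw [H562.MAJ.mem_core] at hv ⊢
      simp only [Prod.fst_add, Prod.snd_add] at hv ⊢
      obtain ⟨k1, k2, k3, k4⟩ := hv
      refine ⟨by omega, by omega, ?_, by omega⟩
      linarith
    · simp only [Prod.fst_add, Prod.fst_sub] at h3 ⊢
      omega
    · simp only [Prod.snd_add, Prod.snd_sub] at h4 ⊢
      omega
  have hφ3' : ∑ᶠ z, φ₀ (z - q 0) = 1 := by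
    rw [← hφ3]
    exact finsum_comp_equiv (Equiv.subRight (q 0))
  obtain ⟨-, -, hmain⟩ := hcore (q 0) (fun z => φ₀ (z - q 0)) (fun z => hφ0 _) (fun z => hφ1 _)
    hφ2' hφ3' true false
  have key := hmain n q D k η F U hw' rfl hO.good (fltQ_of hw.flat hO) hFD hFs
    (hF0.mono (by omega)) hU0 (Ind.mono (hbox_mono (by omega)) hUI) fun r' hr' => hU r' (by omega)
  have eV : Ex (2 * Real.cos θ) (hbox (q 0) (S2 r (R - 1)))
      (wak (q 0) (S2 r (R - 1)) (kJ (q 0) true false))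
      (FJ θ (q 0) r (S1 r (R - 1)) fun z => φ₀ (z - q 0)) = V := by
    have h2 := ref_tr (Q := 2 * Real.cos θ) (θ := θ) (b := (0, 0)) (a := q 0) (r := r)
      (R₁ := S1 r (R - 1)) (R₂ := S2 r (R - 1)) (φ := fun z => φ₀ (z - q 0)) (pl := true)
      (pr := false) hev
    have e1 : ((0, 0) : ℤ × ℤ) + q 0 = q 0 := zero_add _
    have e2 : (fun z => φ₀ (z + q 0 - q 0)) = φ₀ := by
      funext z
      rw [add_sub_cancel_right]
    rw [e1] at h2
    rw [h2, hV]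
    simp only [e2]
  rw [eV] at key
  have eX : (fun z => F z - s0 * φ₀ (z - q 0)) = fun z => F z - g (z - q 0) := by
    funext z
    rw [e0]
  rw [eX] at key
  have hE0 : 0 ≤ Ex (2 * Real.cos θ) D η U := FKA.Ex_nonneg hQ0 fun S _ => hU0 _
  have hR' : (8 : ℝ) ≤ R := by exact_mod_cast hR8
  have hx0 : 0 ≤ ((r : ℝ) / R) ^ γ := Real.rpow_nonneg (by positivity) _
  have hcast : ((R - 1 : ℤ) : ℝ) = (R : ℝ) - 1 := by push_cast; ring
  rw [hcast] at key
  have h5 := fin_alg2 key hc hC.le hx0 (by positivity : (0 : ℝ) ≤ 2 ^ γ) hN00.le hE0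
    (pow_pred hγ.le (by linarith) (by linarith)) hlow
  refine h5.trans (mul_le_mul_of_nonneg_right (mul_le_mul_of_nonneg_right
    ((le_max_right _ _).trans (le_max_left _ _)) hx0) (mul_nonneg ?_ hE0))
  exact (mul_nonneg hc.le hN00.le).trans hlow

end Vale.Agent.P167.N.BT
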