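import Vale.Agent.P167.N.BT.Defs

/-!
# P167, `0 < q < 1`, block BT, part BT7: the local part of the favourable event (statement)

`GLoc`: half circuit between the blobs of the ring `0`; the gap is crossed by the primal colour and not by the
dual colour; dual half circuit between the blobs of the ring `1`; dual arm from the half box of radius
`r1 a1` to `ρ1`; no dual crossing of `(ρ1, ρ2)`; dual half circuit in `(ρ, ρ1)`, `a1 < ρ`.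
-/

set_option autoImplicit false

namespace Vale.Agent.P167.N.BT

open Vale.Agent.P167 Vale.Agent.P167.FK
open Vale.Agent.P167.H192.TA (Xc)
open Vale.Agent.P167.H469 (hx FlF)

/-- The local event. -/
def GLoc (b : ℤ × ℤ) (a0 a1 ρ ρ1 ρ2 : ℤ) : Set Cfg :=
  {ω | (∃ c : Bool, ω ∉ Xc c b (r1 a0) (r2 a0)) ∧ ω ∈ Xc true b (2 * a0) a1 ∧
    ω ∉ Xc false b (2 * a0) a1 ∧ ω ∉ Xc true b (r1 a1) (r2 a1) ∧ ω ∈ Xc false b (r1 a1) ρ1 ∧
    ω ∉ Xc false b ρ1 ρ2 ∧ (a1 < ρ → ω ∉ Xc true b ρ ρ1)}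

/-- **(LOC)** Lower bound of the probability of the local event. -/
def S_LOC (Q : ℝ) : Prop := ∃ (c : ℝ) (Λ K s0 : ℤ), 0 < c ∧ 2 ≤ Λ ∧ 2 * Λ ≤ K ∧ 1 ≤ s0 ∧
  ∀ (b : ℤ × ℤ) (a0 a1 ρ N : ℤ) (D : Finset (ℤ × ℤ)) (η : Cfg), s0 ≤ a0 → K * a0 ≤ a1 →
    (ρ = a1 ∨ K * a1 ≤ ρ) → K * ρ ≤ N → Good η → FlF D η b (K * ρ) →
    c * (hx Q true b (2 * a0) a1 N * hx Q false b a1 ρ N) ≤
      Pr Q D η (GLoc b a0 a1 ρ (Λ * ρ) (K * ρ))

end Vale.Agent.P167.N.BT
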