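import Vale.Agent.P167.N.BT.LocA
import Vale.Agent.P167.N.BT.LocT
import Vale.Agent.P167.N.NET.HalfI

/-!
# P167, `0 < q < 1`, block BT, part BT7: the local part of the favourable event

`s_LOC : S_LOC Q` from the standing facts, the net tools and `A7` (the environment does not matter).
-/

set_option autoImplicit false

namespace Vale.Agent.P167.N.BT

open Finset Vale.Agent.P167 Vale.Agent.P167.FK Vale.Agent.P167.FKA Vale.Agent.P167.H871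
  Vale.Agent.P167.H192.TA Vale.Agent.P167.N.NET
open Vale.Agent.P167.H632 hiding HB
open Vale.Agent.P167.QM (HB)
open Vale.Agent.P167.H469 (hx FlF)
open Vale.Agent.P167.H259 (f_markov)

variable {Q : ℝ} {D : Finset Pt} {η : Cfg} {e : Bool} {b : Pt} {r t m R N : ℤ}

theorem pow_small {α C ε : ℝ} (hα : 0 < α) (hC : 0 < C) (hε : 0 < ε) : ∃ Λ : ℤ, 2 ≤ Λ ∧
    ∀ m m' : ℤ, 1 ≤ m → Λ * m ≤ m' → C * ((m : ℝ) / m') ^ α ≤ ε := by
  obtain ⟨n, hn⟩ := exists_nat_ge (max 2 ((C / ε) ^ (1 / α)))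
  have hn2 : (2 : ℝ) ≤ n := (le_max_left _ _).trans hn
  have hnc : (C / ε) ^ (1 / α) ≤ n := (le_max_right _ _).trans hn
  refine ⟨n, by exact_mod_cast hn2, fun m m' hm hm' => ?_⟩
  have hm0 : (0 : ℝ) < m := by exact_mod_cast (by omega : 0 < m)
  have hn0 : (0 : ℝ) < n := by linarith
  have hmm : (n : ℝ) * m ≤ m' := by exact_mod_cast hm'
  have hm'0 : (0 : ℝ) < m' := lt_of_lt_of_le (by positivity) hmm
  have h1 : (m : ℝ) / m' ≤ (n : ℝ)⁻¹ := by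
    rw [div_le_iff₀ hm'0, inv_mul_eq_div, le_div_iff₀ hn0]
    linarith
  have h2 : ((m : ℝ) / m') ^ α ≤ ((n : ℝ)⁻¹) ^ α :=
    Real.rpow_le_rpow (by positivity) h1 hα.le
  have h3 : C / ε ≤ (n : ℝ) ^ α := by
    have := Real.rpow_le_rpow (by positivity) hnc hα.le
    rwa [← Real.rpow_mul (by positivity), one_div, inv_mul_cancel₀ hα.ne', Real.rpow_one] at this
  rw [Real.inv_rpow hn0.le] at h2
  have h4 : (0 : ℝ) < (n : ℝ) ^ α := by positivity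
  calc C * ((m : ℝ) / m') ^ α ≤ C * ((n : ℝ) ^ α)⁻¹ := mul_le_mul_of_nonneg_left h2 hC.le
    _ ≤ ε := by
      rw [← div_eq_mul_inv, div_le_iff₀ h4]
      rw [div_le_iff₀ hε] at h3
      linarith

theorem flF_le (h : FlF D η b R) (hm : m ≤ R) : FlF D η b m := by
  have hsub : ∀ v ∈ Bq b m, v ∈ Bq b R := by
    intro v hv
    simp only [Bq, Finset.mem_product, Finset.mem_Ico] at hv ⊢
    omega
  exact ⟨fun v hv => h.dom v (hsub v hv), fun v hv => h.out v (hsub v hv)⟩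

theorem flF_dF (h : FlF D η b R) (_hr : 0 ≤ r) : dF b r R ⊆ D := by
  intro v hv
  have := mem_dFc.1 (mem_coe.2 hv)
  refine (h.dom v ?_).2 this.2.2.1
  simp only [Bq, Finset.mem_product, Finset.mem_Ico]
  omega

/-- **The gap** is crossed by the primal colour only. -/
theorem gap_ge (hQ : Kit Q) (hV : VRS Q) (h7 : H469.A7 Q) : ∃ (c : ℝ) (K : ℤ), 0 < c ∧ 1 ≤ K ∧
    ∀ (e : Bool) (b : Pt) (a0 a1 N : ℤ) (D : Finset Pt) (η : Cfg), 1 ≤ a0 → K * a0 ≤ a1 → a1 ≤ N →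
      Good η → FlF D η b a1 →
      c * hx Q e b (2 * a0) a1 N ≤
        Pr Q D η (Xc e b (2 * a0) a1 ∩ (Xc (!e) b (2 * a0) a1)ᶜ) := by
  obtain ⟨C7, K7, hC7, hK7, H7⟩ := h7
  obtain ⟨κ, h1, h1', H1⟩ := out_F hQ.pos hQ.le hV (2 * K7.toNat)
  obtain ⟨α, C, hα, hC, H2⟩ := ins_F hQ.pos hQ.le hV
  obtain ⟨Λ, hΛ, H3⟩ := pow_small (ε := 1 / 2) hα (by linarith : 0 < C) (by norm_num)
  refine ⟨κ / C7 / 2, 2 * Λ * K7, by positivity, by nlinarith,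
    fun e b a0 a1 N D η ha0 ha1 hN hη hD => ?_⟩
  obtain ⟨m, hm1, hm2⟩ : ∃ m : ℤ, K7 * m ≤ a1 ∧ a1 < K7 * (m + 1) := by
    refine ⟨a1 / K7, ?_, ?_⟩
    · have := Int.ediv_mul_le a1 (show K7 ≠ 0 by omega)
      linarith
    · have := Int.lt_ediv_add_one_mul_self a1 (show 0 < K7 by omega)
      linarith
  have hΛK : 2 * Λ * a0 ≤ m := by
    by_contra hlt
    have h : m + 1 ≤ 2 * Λ * a0 := by omega
    have : K7 * (m + 1) ≤ K7 * (2 * Λ * a0) := mul_le_mul_of_nonneg_left h (by omega)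
    nlinarith
  have hm0 : 2 * a0 ≤ m := by nlinarith
  have hma : m ≤ a1 := by nlinarith
  have hD' : dF b (2 * a0) a1 ⊆ D := flF_dF hD (by omega)
  have q1 := (H7 e b (2 * a0) m N D η (by omega) hm0 (hm1.trans hN) hη (flF_le hD hm1)).2
  have q2 := H1 e b (2 * a0) m a1 D η (fun _ => (1 : ℝ)) (by omega) hm0 hma (by
    push_cast
    rw [Int.toNat_of_nonneg (by omega)]
    nlinarith) hη hD' (fun _ => zero_le_one) (fun _ _ _ => rfl)
  have q3 := H2 e b (2 * a0) (2 * a0) a1 a1 D η (fun _ => (1 : ℝ)) (by omega) le_rfl (by omega)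
    le_rfl hη hD' (fun _ => zero_le_one) (fun _ _ _ => rfl)
  have q4 := H3 (2 * a0) a1 (by omega) (by nlinarith)
  have e1 : ∀ U : Set Cfg, Ex Q D η (fun ω => (1 : ℝ) * U.indicator 1 ω) = Pr Q D η U := fun U =>
    congrArg (Ex Q D η) (funext fun ω => one_mul _)
  rw [e1, e1] at q2 q3
  have n1 : 0 ≤ Pr Q D η (Xc e b (2 * a0) a1) := Pr_nonneg hQ.pos _
  have q5 : Pr Q D η (Xc e b (2 * a0) a1 ∩ Xc (!e) b (2 * a0) a1) +
      Pr Q D η (Xc e b (2 * a0) a1 ∩ (Xc (!e) b (2 * a0) a1)ᶜ) = Pr Q D η (Xc e b (2 * a0) a1) := by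
    have := Ex_split (Q := Q) (D := D) (η := η) ((Xc e b (2 * a0) a1).indicator 1)
      (Xc (!e) b (2 * a0) a1)
    have e2 : ∀ U V : Set Cfg, Pr Q D η (U ∩ V) =
        Ex Q D η (fun ω => U.indicator 1 ω * V.indicator 1 ω) := fun U V =>
      congrArg (Ex Q D η) (funext fun ω => NET.ind_inter U V ω)
    rw [e2, e2]
    exact this
  have q6 := q3.trans (mul_le_mul_of_nonneg_right q4 n1)
  have q7 : hx Q e b (2 * a0) a1 N ≤ hx Q e b (2 * a0) m N :=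
    Pr_mono hQ.pos (Xc_sub le_rfl hm0 hma)
  have q8 : hx Q e b (2 * a0) a1 N / C7 ≤ Pr Q D η (Xc e b (2 * a0) m) := by
    rw [div_le_iff₀ hC7]
    linarith
  have q9 : κ * (hx Q e b (2 * a0) a1 N / C7) ≤ Pr Q D η (Xc e b (2 * a0) a1) :=
    (mul_le_mul_of_nonneg_left q8 h1.le).trans q2
  have e3 : κ / C7 / 2 * hx Q e b (2 * a0) a1 N = κ * (hx Q e b (2 * a0) a1 N / C7) / 2 := by ring
  rw [e3]
  linarith

/-- **The outer part.** -/
theorem outer_ge (hQ : Kit Q) (hV : VRS Q) (h7 : H469.A7 Q) : ∃ (c : ℝ) (Λ K s0 : ℤ), 0 < c ∧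
    2 ≤ Λ ∧ Λ ≤ K ∧ 1 ≤ s0 ∧ ∀ (b : Pt) (a1 ρ N : ℤ) (D : Finset Pt) (η : Cfg), s0 ≤ a1 →
      (ρ = a1 ∨ K * a1 ≤ ρ) → K * ρ ≤ N → Good η → FlF D η b (K * ρ) →
      c * hx Q false b a1 ρ N ≤ Pr Q D η (Xc false b (r1 a1) (Λ * ρ) ∩
        ((Xc true b (r1 a1) (r2 a1))ᶜ ∩ {ω | a1 < ρ → ω ∉ Xc true b ρ (Λ * ρ)})) := by
  obtain ⟨C7, K7, hC7, hK7, H7⟩ := h7
  obtain ⟨c₁, s0, h1, h1', hs0, H1⟩ := thin_F hQ hV 80
  obtain ⟨α, C, hα, hC, H2⟩ := ins_F hQ.pos hQ.le hV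
  obtain ⟨Λ₀, hΛ₀, H3⟩ := pow_small (ε := c₁ / 2) hα (by linarith : 0 < C) (by positivity)
  obtain ⟨Λ, hΛ⟩ : ∃ Λ : ℤ, Λ = max Λ₀ 16 := ⟨_, rfl⟩
  have hΛ1 : Λ₀ ≤ Λ := by omega
  have hΛ2 : 16 ≤ Λ := by omega
  obtain ⟨κ, h4, h4', H4⟩ := out_F hQ.pos hQ.le hV Λ.toNat
  obtain ⟨κ', h5, h5', H5⟩ := cross_F hQ.pos hQ.le hV Λ.toNat
  refine ⟨min (c₁ / 2 * κ / C7) (c₁ * κ'), Λ, max (16 * Λ) K7, 20 * s0 + 100, by positivity,
    by omega, ?_, by omega, fun b a1 ρ N D η ha1 hρ hN hη hD => ?_⟩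
  · exact le_trans (by omega) (le_max_left _ _)
  have hK1 : 16 * Λ ≤ max (16 * Λ) K7 := le_max_left _ _
  have hK2 : K7 ≤ max (16 * Λ) K7 := le_max_right _ _
  generalize max (16 * Λ) K7 = K at hK1 hK2 hρ hN hD
  have hQ0 := hQ.pos
  have hr1 : 1 ≤ r1 a1 := by unfold r1; omega
  have hr1a : a1 ≤ r1 a1 := by unfold r1; omega
  have hr1b : 10 * r1 a1 ≤ 15 * a1 := by unfold r1; omega
  have hr2 : r1 a1 + a1 / 10 ≤ r2 a1 := by unfold r1 r2; omega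
  have hr2' : r2 a1 ≤ 2 * r1 a1 := by unfold r1 r2; omega
  have hρ1 : a1 ≤ ρ := by
    rcases hρ with h | h
    · omega
    · nlinarith
  have hR0 : 16 * a1 ≤ Λ * ρ := by nlinarith
  have hR : 8 * r1 a1 ≤ Λ * ρ := by omega
  have hKρ : Λ * ρ ≤ K * ρ := mul_le_mul_of_nonneg_right (by omega) (by omega)
  have hKρ7 : K7 * ρ ≤ K * ρ := mul_le_mul_of_nonneg_right (by omega) (by omega)
  have hD' : dF b (r1 a1) (Λ * ρ) ⊆ D := flF_dF (flF_le hD hKρ) (by omega)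
  have q1 := H1 false b (r1 a1) (r2 a1) (a1 / 10) (Λ * ρ) D η (by omega) hr1 hr2 hr2' (by
    push_cast
    omega) hR hη hD'
  rw [Bool.not_false] at q1
  have e1 : ∀ U : Set Cfg, Ex Q D η (fun ω => (1 : ℝ) * U.indicator 1 ω) = Pr Q D η U := fun U =>
    congrArg (Ex Q D η) (funext fun ω => one_mul _)
  have n0 : 0 ≤ hx Q false b a1 ρ N := Pr_nonneg hQ0 _
  rcases hρ.symm with h | h
  · -- far
    have h5ρ : 5 * r1 a1 ≤ ρ := by
      have : 16 * Λ * a1 ≤ ρ := le_trans (mul_le_mul_of_nonneg_right hK1 (by omega)) h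
      nlinarith
    have q2 := H2 false b (5 * r1 a1) ρ (Λ * ρ) (Λ * ρ) D η (fun _ => (1 : ℝ)) (by omega) h5ρ
      (by nlinarith) le_rfl hη ((dF_sub (by omega) le_rfl (by omega)).trans hD')
      (fun _ => zero_le_one) (fun _ _ _ => rfl)
    rw [e1, e1, Bool.not_false] at q2
    have q3 := H3 ρ (Λ * ρ) (by omega) (mul_le_mul_of_nonneg_right hΛ1 (by omega))
    have q4 := H4 false b (5 * r1 a1) ρ (Λ * ρ) D η (fun _ => (1 : ℝ)) (by omega) h5ρ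
      (by nlinarith) (by rw [Int.toNat_of_nonneg (by omega)]) hη
      ((dF_sub (by omega) le_rfl (by omega)).trans hD') (fun _ => zero_le_one) (fun _ _ _ => rfl)
    rw [e1, e1] at q4
    have q5 := (H7 false b (5 * r1 a1) ρ N D η (by omega) h5ρ (hKρ7.trans hN) hη
      (flF_le hD hKρ7)).2
    have q6 : hx Q false b a1 ρ N ≤ hx Q false b (5 * r1 a1) ρ N :=
      Pr_mono hQ0 (Xc_sub (by omega) h5ρ le_rfl)
    have n1 : 0 ≤ Pr Q D η (Xc false b (5 * r1 a1) (Λ * ρ)) := Pr_nonneg hQ0 _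
    have q7 : Pr Q D η (Xc false b (r1 a1) (Λ * ρ) ∩ (Xc true b (r1 a1) (r2 a1))ᶜ) ≤
        Pr Q D η (Xc false b (r1 a1) (Λ * ρ) ∩
          ((Xc true b (r1 a1) (r2 a1))ᶜ ∩ {ω | a1 < ρ → ω ∉ Xc true b ρ (Λ * ρ)})) +
        Pr Q D η (Xc false b (5 * r1 a1) (Λ * ρ) ∩ Xc true b ρ (Λ * ρ)) := by
      have e3 : ∀ U V : Set Cfg, Pr Q D η U + Pr Q D η V =
          Ex Q D η (fun ω => U.indicator 1 ω + V.indicator 1 ω) := fun U V => (Ex_add _ _).symm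
      rw [e3]
      refine Ex_mono hQ0 fun S _ => ?_
      by_cases hU : cf D η S ∈ Xc false b (r1 a1) (Λ * ρ) ∩ (Xc true b (r1 a1) (r2 a1))ᶜ
      · by_cases hV' : cf D η S ∈ Xc true b ρ (Λ * ρ)
        · have : cf D η S ∈ Xc false b (5 * r1 a1) (Λ * ρ) ∩ Xc true b ρ (Λ * ρ) :=
            ⟨Xc_sub (by omega) (by nlinarith) le_rfl hU.1, hV'⟩
          rw [Set.indicator_of_mem hU, Set.indicator_of_mem this]
          have := ind_nn (Xc false b (r1 a1) (Λ * ρ) ∩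
            ((Xc true b (r1 a1) (r2 a1))ᶜ ∩ {ω | a1 < ρ → ω ∉ Xc true b ρ (Λ * ρ)})) (cf D η S)
          simp only [Pi.one_apply]
          linarith
        · have : cf D η S ∈ Xc false b (r1 a1) (Λ * ρ) ∩
              ((Xc true b (r1 a1) (r2 a1))ᶜ ∩ {ω | a1 < ρ → ω ∉ Xc true b ρ (Λ * ρ)}) :=
            ⟨hU.1, hU.2, fun _ => hV'⟩
          rw [Set.indicator_of_mem hU, Set.indicator_of_mem this]
          have := ind_nn (Xc false b (5 * r1 a1) (Λ * ρ) ∩ Xc true b ρ (Λ * ρ)) (cf D η S)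
          simp only [Pi.one_apply]
          linarith
      · rw [Set.indicator_of_notMem hU]
        exact add_nonneg (ind_nn _ _) (ind_nn _ _)
    have q8 := q2.trans (mul_le_mul_of_nonneg_right q3 n1)
    have q9 : hx Q false b a1 ρ N / C7 ≤ Pr Q D η (Xc false b (5 * r1 a1) ρ) := by
      rw [div_le_iff₀ hC7]
      linarith
    have q10 : κ * (hx Q false b a1 ρ N / C7) ≤ Pr Q D η (Xc false b (5 * r1 a1) (Λ * ρ)) :=
      (mul_le_mul_of_nonneg_left q9 h4.le).trans q4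
    have q11 : c₁ / 2 * (κ * (hx Q false b a1 ρ N / C7)) ≤
        c₁ / 2 * Pr Q D η (Xc false b (5 * r1 a1) (Λ * ρ)) :=
      mul_le_mul_of_nonneg_left q10 (by positivity)
    have q12 : min (c₁ / 2 * κ / C7) (c₁ * κ') * hx Q false b a1 ρ N ≤
        c₁ / 2 * (κ * (hx Q false b a1 ρ N / C7)) := by
      calc _ ≤ c₁ / 2 * κ / C7 * hx Q false b a1 ρ N :=
            mul_le_mul_of_nonneg_right (min_le_left _ _) n0
        _ = _ := by ring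
    linarith
  · -- near
    have q2 := H5 false b (5 * r1 a1) (Λ * ρ) D η (fun _ => (1 : ℝ)) (by omega) (by omega) (by
      rw [Int.toNat_of_nonneg (by omega)]
      exact mul_le_mul_of_nonneg_left (by omega) (by omega)) hη
      ((dF_sub (by omega) le_rfl (by omega)).trans hD') (fun _ => zero_le_one) (fun _ _ _ => rfl)
    rw [e1, Ex_const hQ0, mul_one] at q2
    have q3 : Pr Q D η (Xc false b (r1 a1) (Λ * ρ) ∩ (Xc true b (r1 a1) (r2 a1))ᶜ) ≤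
        Pr Q D η (Xc false b (r1 a1) (Λ * ρ) ∩
          ((Xc true b (r1 a1) (r2 a1))ᶜ ∩ {ω | a1 < ρ → ω ∉ Xc true b ρ (Λ * ρ)})) :=
      Pr_mono hQ0 fun ω hω => ⟨hω.1, hω.2, fun h' => absurd h' (by omega)⟩
    have q4 : hx Q false b a1 ρ N ≤ 1 := Pr_le_one hQ0 _
    have q5 : min (c₁ / 2 * κ / C7) (c₁ * κ') * hx Q false b a1 ρ N ≤ c₁ * κ' * 1 :=
      mul_le_mul (min_le_right _ _) q4 n0 (by positivity)
    have q6 := mul_le_mul_of_nonneg_left q2 h1.le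
    linarith

/-! ### The assembly -/

theorem xc_congr {ω ω' : Cfg} (hr : 1 ≤ r) (hR : r < R) {A : Finset Pt} (hd : Disjoint (dF b r R) A)
    (h : ∀ v, v ∉ A → ω v = ω' v) (hω : ω ∈ Xc e b r R) : ω' ∈ Xc e b r R := by
  rw [Xc_eq hr hR] at hω ⊢
  obtain ⟨u, hu, v, hv, h2⟩ := hω
  refine ⟨u, hu, v, hv, h2.mono ?_⟩
  rintro t ⟨ht1, ht2⟩
  refine ⟨?_, ht2⟩
  have h5 := h t fun h4 => (Finset.disjoint_left.1 hd) (mem_coe.1 ht2) h4
  simp only [cs, Set.mem_ofPred_eq] at ht1 ⊢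
  rw [← h5]
  exact ht1

theorem xc_iff {ω ω' : Cfg} (hr : 1 ≤ r) (hR : r < R) {A : Finset Pt} (hd : Disjoint (dF b r R) A)
    (h : ∀ v, v ∉ A → ω v = ω' v) : ω ∈ Xc e b r R ↔ ω' ∈ Xc e b r R :=
  ⟨xc_congr hr hR hd h, xc_congr hr hR hd fun v hv => (h v hv).symm⟩

theorem ind_of {A : Finset Pt} {U : Set Cfg}
    (h : ∀ ω ω' : Cfg, (∀ v, v ∉ A → ω v = ω' v) → (ω ∈ U ↔ ω' ∈ U)) :
    Ind A (U.indicator (1 : Cfg → ℝ)) := by
  intro ω ω' h1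
  by_cases h2 : ω ∈ U
  · rw [Set.indicator_of_mem h2, Set.indicator_of_mem ((h ω ω' h1).1 h2)]
    rfl
  · rw [Set.indicator_of_notMem h2, Set.indicator_of_notMem fun h3 => h2 ((h ω ω' h1).2 h3)]

theorem dF_HBd {s' : ℤ} (h : m ≤ s') : Disjoint (dF b s' R) (HB b m) := by
  rw [Finset.disjoint_left]
  intro v h1 h2
  have g1 := mem_dFc.1 (mem_coe.2 h1)
  rw [HB, Finset.mem_filter] at h2
  simp only [Bq, Finset.mem_product, Finset.mem_Ico] at h2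
  omega

/-- **(LOC)** -/
theorem s_LOC (hQ : Kit Q) (hV : VRS Q) (h7 : H469.A7 Q) : S_LOC Q := by
  obtain ⟨c0, s00, h0, h0', hs00, H0⟩ := ring3 hQ 80
  obtain ⟨cg, Kg, hcg, hKg, Hg⟩ := gap_ge hQ hV h7
  obtain ⟨co, Λ, Ko, s0o, hco, hΛ, hΛK, hs0o, Ho⟩ := outer_ge hQ hV h7
  obtain ⟨κ, hκ, hκ', Hd⟩ := dec_k hQ.pos hQ.le hV
  obtain ⟨k, hk⟩ := exists_pow_lt_of_lt_one (show (0 : ℝ) < 1 / 2 by norm_num)
    (show 1 - κ < 1 by linarith)
  obtain ⟨K, hK⟩ : ∃ K : ℤ, K = max (max Kg Ko) (2 ^ (k + 1) * Λ) := ⟨_, rfl⟩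
  have hK1 : Kg ≤ K := by rw [hK]; exact (le_max_left _ _).trans (le_max_left _ _)
  have hK2 : Ko ≤ K := by rw [hK]; exact (le_max_right _ _).trans (le_max_left _ _)
  have hK3 : 2 ^ (k + 1) * Λ ≤ K := by rw [hK]; exact le_max_right _ _
  have h2k : (1 : ℤ) ≤ 2 ^ k := one_le_pow₀ (by norm_num)
  have hK4 : 2 * Λ ≤ K := by
    rw [pow_succ] at hK3
    nlinarith
  have hQ0 := hQ.pos
  refine ⟨c0 * (cg * (co / 2)), Λ, K, 10 * s00 + s0o + 100, by positivity, hΛ, hK4, by omega,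
    fun b a0 a1 ρ N D η ha0 ha1 hρ hN hη hD => ?_⟩
  have ha01 : 4 * a0 ≤ a1 := by nlinarith
  have hρ1 : a1 ≤ ρ := by
    rcases hρ with h | h
    · omega
    · nlinarith
  have hΛρ : 2 * ρ ≤ Λ * ρ := mul_le_mul_of_nonneg_right hΛ (by omega)
  have hΛρ' : 2 * (Λ * ρ) ≤ K * ρ := by
    rw [← mul_assoc]
    exact mul_le_mul_of_nonneg_right hK4 (by omega)
  have hr1 : 1 ≤ r1 a1 := by unfold r1; omega
  have hr1a : a1 < r1 a1 := by unfold r1; omega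
  have hr12 : r1 a1 < r2 a1 := by unfold r1 r2; omega
  have hr2b : r2 a1 ≤ 2 * a1 := by unfold r2; omega
  have hq0 : 1 ≤ r1 a0 := by unfold r1; omega
  have hq1 : r1 a0 + a0 / 10 ≤ r2 a0 := by unfold r1 r2; omega
  have hq2 : r1 a0 < r2 a0 := by unfold r1 r2; omega
  have hq3 : r2 a0 ≤ 2 * a0 := by unfold r2; omega
  -- the outer part
  obtain ⟨U3, hU3⟩ : ∃ U : Set Cfg, U = Xc false b (r1 a1) (Λ * ρ) ∩
    ((Xc true b (r1 a1) (r2 a1))ᶜ ∩ {ω | a1 < ρ → ω ∉ Xc true b ρ (Λ * ρ)}) := ⟨_, rfl⟩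
  obtain ⟨W3, hW3⟩ : ∃ W : Set Cfg, W = U3 ∩ (Xc false b (Λ * ρ) (K * ρ))ᶜ := ⟨_, rfl⟩
  obtain ⟨U2, hU2⟩ : ∃ U : Set Cfg, U = Xc true b (2 * a0) a1 ∩ (Xc false b (2 * a0) a1)ᶜ :=
    ⟨_, rfl⟩
  have p1 := Ho b a1 ρ N D η (by omega)
    (hρ.imp id fun h => le_trans (mul_le_mul_of_nonneg_right hK2 (by omega)) h)
    (le_trans (mul_le_mul_of_nonneg_right hK2 (by omega)) hN) hη
    (flF_le hD (mul_le_mul_of_nonneg_right hK2 (by omega)))
  rw [← hU3] at p1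
  have i1 : Ind (dF b (Λ * ρ) (K * ρ)) (U3.indicator 1) := by
    refine ind_of fun ω ω' h => ?_
    rw [hU3]
    have d1 : Disjoint (dF b (r1 a1) (Λ * ρ)) (dF b (Λ * ρ) (K * ρ)) := dF_disj le_rfl
    have d2 : Disjoint (dF b (r1 a1) (r2 a1)) (dF b (Λ * ρ) (K * ρ)) := dF_disj (by omega)
    have d3 : Disjoint (dF b ρ (Λ * ρ)) (dF b (Λ * ρ) (K * ρ)) := dF_disj le_rfl
    simp only [Set.mem_inter_iff, Set.mem_compl_iff, Set.mem_ofPred_eq,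
      xc_iff hr1 (show r1 a1 < Λ * ρ by omega) d1 h, xc_iff hr1 hr12 d2 h,
      xc_iff (show 1 ≤ ρ by omega) (show ρ < Λ * ρ by omega) d3 h]
  have p2 := Hd k false b (Λ * ρ) (K * ρ) D η (U3.indicator 1) (by omega) (by
    have : 2 ^ (k + 1) * Λ * ρ ≤ K * ρ := mul_le_mul_of_nonneg_right hK3 (by omega)
    rw [pow_succ] at this
    nlinarith) hη (flF_dF hD (by omega)) (fun ω => ind_nn _ _) i1
  have p3 := Ex_split (Q := Q) (D := D) (η := η) (U3.indicator 1) (Xc false b (Λ * ρ) (K * ρ))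
  have e2 : ∀ U V : Set Cfg, Pr Q D η (U ∩ V) =
      Ex Q D η (fun ω => U.indicator 1 ω * V.indicator 1 ω) := fun U V =>
    congrArg (Ex Q D η) (funext fun ω => NET.ind_inter U V ω)
  have n3 : 0 ≤ Pr Q D η U3 := Pr_nonneg hQ0 _
  have p4 : 1 / 2 * Pr Q D η U3 ≤ Pr Q D η W3 := by
    rw [hW3, e2]
    have : (1 - κ) ^ k * Pr Q D η U3 ≤ 1 / 2 * Pr Q D η U3 := mul_le_mul_of_nonneg_right hk.le n3
    have p2' : Ex Q D η (fun ω => U3.indicator 1 ω * (Xc false b (Λ * ρ) (K * ρ)).indicator 1 ω) ≤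
      (1 - κ) ^ k * Pr Q D η U3 := p2
    have p3' : _ = Pr Q D η U3 := p3
    linarith
  -- the gap
  have i2 : Ind (HB b a1) (W3.indicator 1) := by
    refine ind_of fun ω ω' h => ?_
    rw [hW3, hU3]
    have d1 : Disjoint (dF b (r1 a1) (Λ * ρ)) (HB b a1) := dF_HBd (by omega)
    have d2 : Disjoint (dF b (r1 a1) (r2 a1)) (HB b a1) := dF_HBd (by omega)
    have d3 : Disjoint (dF b ρ (Λ * ρ)) (HB b a1) := dF_HBd (by omega)
    have d4 : Disjoint (dF b (Λ * ρ) (K * ρ)) (HB b a1) := dF_HBd (by omega)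
    simp only [Set.mem_inter_iff, Set.mem_compl_iff, Set.mem_ofPred_eq,
      xc_iff hr1 (show r1 a1 < Λ * ρ by omega) d1 h, xc_iff hr1 hr12 d2 h,
      xc_iff (show 1 ≤ ρ by omega) (show ρ < Λ * ρ by omega) d3 h,
      xc_iff (show 1 ≤ Λ * ρ by omega) (show Λ * ρ < K * ρ by omega) d4 h]
  have hBq : ∀ v ∈ Bq b a1, v ∈ Bq b (K * ρ) := by
    intro v hv
    simp only [Bq, Finset.mem_product, Finset.mem_Ico] at hv ⊢
    omega
  have hHB : HB b a1 ⊆ D := by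
    intro v hv
    rw [HB, Finset.mem_filter] at hv
    exact (hD.dom v (hBq v hv.1)).2 hv.2
  have p5 : cg * hx Q true b (2 * a0) a1 N * Pr Q D η W3 ≤ Pr Q D η (W3 ∩ U2) := by
    rw [e2, markov f_markov hQ0 hHB hη i2]
    have : cg * hx Q true b (2 * a0) a1 N * Pr Q D η W3 =
        Ex Q D η (fun ω => cg * hx Q true b (2 * a0) a1 N * W3.indicator 1 ω) :=
      (Ex_mul_left _ _).symm
    rw [this]
    refine Ex_mono hQ0 fun S _ => ?_
    rw [mul_comm]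
    refine mul_le_mul_of_nonneg_left ?_ (ind_nn _ _)
    have := Hg true b a0 a1 N (HB b a1) (cf D η S) (by omega)
      (le_trans (mul_le_mul_of_nonneg_right hK1 (by omega)) ha1) (by omega) (f_good.1 D η S hη)
      ⟨fun v hv => by rw [HB, Finset.mem_filter]; exact ⟨fun h => h.2, fun h => ⟨hv, h⟩⟩,
        fun v hv hv' => by
          have h1 : v ∉ D := fun h => hv' (by
            rw [HB, Finset.mem_filter]
            exact ⟨hv, (hD.dom v (hBq v hv)).1 h⟩)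
          rw [cf_out h1]
          exact hD.out v (hBq v hv) h1⟩
    rw [Bool.not_true, ← hU2] at this
    exact this
  -- the ring 0
  have i3 : Ind (dF b (r1 a0) (r2 a0)) ((W3 ∩ U2).indicator 1) := by
    refine ind_of fun ω ω' h => ?_
    rw [hW3, hU3, hU2]
    have d : ∀ {s' R' : ℤ}, r2 a0 ≤ s' → Disjoint (dF b s' R') (dF b (r1 a0) (r2 a0)) :=
      fun h => (dF_disj h).symm
    simp only [Set.mem_inter_iff, Set.mem_compl_iff, Set.mem_ofPred_eq,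
      xc_iff hr1 (show r1 a1 < Λ * ρ by omega) (d (show r2 a0 ≤ r1 a1 by omega)) h,
      xc_iff hr1 hr12 (d (show r2 a0 ≤ r1 a1 by omega)) h,
      xc_iff (show 1 ≤ ρ by omega) (show ρ < Λ * ρ by omega) (d (show r2 a0 ≤ ρ by omega)) h,
      xc_iff (show 1 ≤ Λ * ρ by omega) (show Λ * ρ < K * ρ by omega)
        (d (show r2 a0 ≤ Λ * ρ by omega)) h,
      xc_iff (show 1 ≤ 2 * a0 by omega) (show 2 * a0 < a1 by omega) (d hq3) h]
  have p6 := H0 true b (r1 a0) (r2 a0) (a0 / 10) D η ((W3 ∩ U2).indicator 1) (by omega) hq0 hq1 (by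
    push_cast
    omega) hη (flF_dF (flF_le hD (by omega)) (by omega)) (fun ω => ind_nn _ _) i3
  have p7 : Ex Q D η (fun ω => (W3 ∩ U2).indicator 1 ω *
      ((Xc true b (r1 a0) (r2 a0))ᶜ).indicator 1 ω) ≤
      Pr Q D η (GLoc b a0 a1 ρ (Λ * ρ) (K * ρ)) := by
    rw [← e2]
    refine Pr_mono hQ0 ?_
    rw [hW3, hU3, hU2]
    rintro ω ⟨⟨⟨⟨h1, h2, h3⟩, h4⟩, h5, h6⟩, h7⟩
    exact ⟨⟨true, h7⟩, h5, h6, h2, h1, h4, h3⟩
  have n0 : 0 ≤ hx Q true b (2 * a0) a1 N := Pr_nonneg hQ0 _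
  calc c0 * (cg * (co / 2)) * (hx Q true b (2 * a0) a1 N * hx Q false b a1 ρ N)
      = c0 * (cg * hx Q true b (2 * a0) a1 N * (1 / 2 * (co * hx Q false b a1 ρ N))) := by ring
    _ ≤ c0 * (cg * hx Q true b (2 * a0) a1 N * Pr Q D η W3) :=
        mul_le_mul_of_nonneg_left (mul_le_mul_of_nonneg_left
          ((mul_le_mul_of_nonneg_left p1 (by norm_num)).trans p4) (mul_nonneg hcg.le n0)) h0.le
    _ ≤ c0 * Pr Q D η (W3 ∩ U2) := mul_le_mul_of_nonneg_left p5 h0.le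
    _ ≤ _ := p6.trans p7

end Vale.Agent.P167.N.BT
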