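import Vale.Agent.P167.N.BT.PLT
import Vale.Agent.P167.N.BT.LocB

/-!
# P167, `0 < q < 1`, block BT: `S_PLT` from the standing facts and `A7`
-/

set_option autoImplicit false

namespace Vale.Agent.P167.N.BT

/-- **(BT7)** from the standing facts. -/
theorem s_PLT_of {Q : ℝ} (hQ : Kit Q) (hV : NET.VRS Q) (h7 : H469.A7 Q) : S_PLT Q :=
  s_PLT hQ hV (s_LOC hQ hV h7)

end Vale.Agent.P167.N.BT
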