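import Vale.Agent.P167.N.BT.Defs
import Vale.Agent.P167.H469.PU

/-!
# P167, `0 < q < 1`, block BT, part BT6: upper bounds of the probabilities (`S_PUT`)

From the properties `A5`, `A7`, `A8` of the arms of a free flat side, both colours, and `A9`: both
colours cross a half annulus.
-/

set_option autoImplicit false

namespace Vale.Agent.P167.N.BT

open Finset Vale.Agent.P167 Vale.Agent.P167.BR Vale.Agent.P167.FK Vale.Agent.P167.FKA
open Vale.Agent.P167.QM (HB)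
open Vale.Agent.P167.H632 (cs pr)
open Vale.Agent.P167.H192.TA (Xc dq dF mem_dF)
open Vale.Agent.P167.H192.Q (Xc_restrict loc_Xc Xc_congr)
open Vale.Agent.P167.H469 (hx A5 A7 A8 FlF mem_Bq' pow_ge)
open Vale.Agent.P167.H436.ND (FltO)

variable {Q : ℝ} {D : Finset (ℤ × ℤ)} {η : Cfg} {W : Set (ℤ × ℤ)} {b : ℤ × ℤ} {r R N : ℤ}

/-- Both colours cross a half annulus: not more likely than `(r / R) ^ α` times one arm. -/
def A9 (Q : ℝ) : Prop := ∃ (α C : ℝ) (K s0 : ℤ), 0 < α ∧ 0 < C ∧ 1 ≤ K ∧ 1 ≤ s0 ∧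
  ∀ (e : Bool) (b : ℤ × ℤ) (r R N : ℤ) (D : Finset (ℤ × ℤ)) (η : Cfg), s0 ≤ r → r ≤ R →
    K * R ≤ N → Good η → FlF D η b (K * R) →
    Pr Q D η (Xc true b r R ∩ Xc false b r R) ≤ C * ((r : ℝ) / R) ^ α * hx Q e b r R N

/-- Everything below the line is closed in the box of radius `s`. -/
def Cb (ξ : Cfg) (b : ℤ × ℤ) (s : ℤ) : Prop := ∀ v : ℤ × ℤ, b.1 - s ≤ v.1 → v.1 < b.1 + s →
  b.2 - s ≤ v.2 → v.2 < b.2 → ξ v = false

theorem Fl.cb (h : Fl D η W b R) (S : Finset (ℤ × ℤ)) : Cb (cf D η S) b R := by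
  intro v h1 h2 h3 h4
  have h5 : v ∉ D := fun h6 => by
    have := (h.flt v h1 h2 h3 (by omega)).1 h6
    omega
  rw [cf_out h5, h.out.out v h1 h2 h3 h4]
  simp

theorem Cb.cf {ξ : Cfg} {s : ℤ} (h : Cb ξ b s) {s' : ℤ} (S : Finset (ℤ × ℤ)) :
    Cb (cf (hbox b s') ξ S) b s := by
  intro v h1 h2 h3 h4
  rw [cf_out fun h5 => by have := (mem_hbox.1 h5); omega]
  exact h v h1 h2 h3 h4

theorem Cb.flf {ξ : Cfg} {s s' : ℤ} (h : Cb ξ b s) (hs : s' < s) : FlF (hbox b s) ξ b s' where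
  dom := fun v hv => by
    rw [mem_Bq'] at hv
    rw [mem_hbox]
    omega
  out := fun v hv hv' => by
    rw [mem_Bq'] at hv
    refine h v (by omega) (by omega) (by omega) ?_
    by_contra h1
    exact hv' (mem_hbox.2 (by omega))

theorem Cb.mono {ξ : Cfg} {s s' : ℤ} (h : Cb ξ b s) (hs : s' ≤ s) : Cb ξ b s' :=
  fun v h1 h2 h3 h4 => h v (by omega) (by omega) (by omega) h4

theorem Fl.flf (h : Fl D η W b R) {s : ℤ} (hs : s < R) : FlF D η b s where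
  dom := fun v hv => by
    rw [mem_Bq'] at hv
    exact h.flt v (by omega) (by omega) (by omega) (by omega)
  out := fun v hv hv' => by
    rw [mem_Bq'] at hv
    have h1 : v.2 < b.2 := by
      by_contra h1
      exact hv' ((h.flt v (by omega) (by omega) (by omega) (by omega)).2 (by omega))
    rw [h.out.out v (by omega) (by omega) (by omega) h1]
    simp

theorem Fl.sub (h : Fl D η W b R) {s : ℤ} (hs : s ≤ R) : hbox b s ⊆ D := fun v hv => by
  rw [mem_hbox] at hv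
  exact (h.flt v (by omega) (by omega) (by omega) (by omega)).2 (by omega)

/-- Markov: an outer event and an inner event. -/
theorem split_le (hQ : 0 < Q) {A : Finset (ℤ × ℤ)} (hA : A ⊆ D) (hη : Good η) {E F : Set Cfg}
    (hE : Ind A (E.indicator (1 : Cfg → ℝ))) {c : ℝ} (h : ∀ S ⊆ D, Pr Q A (cf D η S) F ≤ c) :
    Pr Q D η (E ∩ F) ≤ c * Pr Q D η E := by
  unfold Pr
  have e : (E ∩ F).indicator (1 : Cfg → ℝ) = fun ω => E.indicator 1 ω * F.indicator 1 ω := by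
    funext ω
    exact ind_inter E F ω
  rw [e, markov H259.f_markov hQ hA hη hE, ← Ex_mul_left]
  refine Ex_mono hQ fun S hS => ?_
  rw [mul_comm c]
  exact mul_le_mul_of_nonneg_left (h S hS) (ind_nonneg _ _)

/-- An event is independent of `A` if it is determined outside of `A`. -/
theorem ind_det {A : Finset (ℤ × ℤ)} {E : Set Cfg}
    (h : ∀ ω ω' : Cfg, (∀ v, v ∉ A → ω v = ω' v) → ω ∈ E → ω' ∈ E) :
    Ind A (E.indicator (1 : Cfg → ℝ)) := by
  intro ω ω' hω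
  by_cases h2 : ω ∈ E
  · rw [Set.indicator_of_mem h2, Set.indicator_of_mem (h ω ω' hω h2)]
    rfl
  · rw [Set.indicator_of_notMem h2, Set.indicator_of_notMem fun h3 =>
      h2 (h ω' ω (fun v hv => (hω v hv).symm) h3)]

theorem ind_PAr {s : ℤ} : Ind (hbox b s) ((PAr D W b s).indicator (1 : Cfg → ℝ)) := by
  refine ind_det ?_
  rintro ω ω' hω ⟨u, hu, t, ht, h1, h2⟩
  refine ⟨u, hu, t, ht, h1, Relation.ReflTransGen.mono ?_ _ _ h2⟩
  rintro x y ⟨k1, k2, k3, k4⟩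
  refine ⟨k1, k2, ?_, k4⟩
  rw [mem_coe, mem_sdiff] at k4
  show ω' _ = true
  rw [← hω _ k4.2]
  exact k3

theorem ind_Xc {c : Bool} {s r' R' : ℤ} (h : s ≤ r') :
    Ind (hbox b s) ((Xc c b r' R').indicator (1 : Cfg → ℝ)) := by
  refine ind_det fun ω ω' hω h1 => Xc_congr (fun v hv => hω v fun hv' => ?_) h1
  rw [mem_hbox] at hv'
  rw [mem_dF] at hv
  simp only [dq, Set.mem_ofPred_eq] at hv
  omega

/-- `A7` with its constants. -/
def E7 (Q C7 : ℝ) (K7 : ℤ) : Prop := ∀ (e : Bool) (b : ℤ × ℤ) (r R N : ℤ) (D : Finset (ℤ × ℤ)) (η : Cfg),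
  1 ≤ r → r ≤ R → K7 * R ≤ N → Good η → FlF D η b (K7 * R) →
    Pr Q D η (Xc e b r R) ≤ C7 * hx Q e b r R N ∧ hx Q e b r R N ≤ C7 * Pr Q D η (Xc e b r R)

/-- **Change of radii.** -/
theorem arm_up (hQ0 : 0 < Q) (h5 : A5 Q) (h8 : A8 Q) {C7 : ℝ} {K7 : ℤ} (hC7 : 0 < C7)
    (hK7 : 1 ≤ K7) (h7 : E7 Q C7 K7) (M : ℤ) :
    ∃ (Cu : ℝ) (K s0 : ℤ), 1 ≤ Cu ∧ 1 ≤ K ∧ 1 ≤ s0 ∧
    ∀ (e : Bool) (b : ℤ × ℤ) (r r' R' R N : ℤ) (D : Finset (ℤ × ℤ)) (η : Cfg), s0 ≤ r → r ≤ r' →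
      r' ≤ M * r → r' ≤ R' → R' ≤ R → R ≤ M * R' → Good η → FlF D η b (K7 * R') → K * R ≤ N →
      Pr Q D η (Xc e b r' R') ≤ Cu * hx Q e b r R N := by
  obtain ⟨C5, K5, s5, hC5, hK5, hs5, h5⟩ := h5
  obtain ⟨c8, K8, s8, hc8, hK8, hs8, h8⟩ := h8 M
  obtain ⟨K, hK⟩ : ∃ K, K = max K5 (max K7 K8) := ⟨_, rfl⟩
  refine ⟨max 1 (C7 * (C5 / c8 * (C5 / c8))), K, max s5 s8, le_max_left _ _, by omega, by omega,
    fun e b r r' R' R N D η hr hrr hrM hrR hRR hRM hη hD hN => ?_⟩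
  have hR0 : 0 ≤ R := by omega
  have e5 : K5 * R ≤ K * R := mul_le_mul_of_nonneg_right (by omega) hR0
  have e7 : K7 * R ≤ K * R := mul_le_mul_of_nonneg_right (by omega) hR0
  have e8 : K8 * R ≤ K * R := mul_le_mul_of_nonneg_right (by omega) hR0
  have e7'' : K7 * R' ≤ K7 * R := mul_le_mul_of_nonneg_left hRR (by omega)
  have e5' : K5 * R' ≤ K5 * R := mul_le_mul_of_nonneg_left hRR (by omega)
  have e8' : K8 * r' ≤ K8 * R := mul_le_mul_of_nonneg_left (by omega) (by omega)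
  have k1 := (h7 e b r' R' N D η (by omega) hrR (by omega) hη hD).1
  have k2 := h5 e b r r' R' N (by omega) hrr hrR (by omega)
  have k3 := h5 e b r R' R N (by omega) (by omega) hRR (by omega)
  have k4 := h8 e b r r' N (by omega) hrr hrM (by omega)
  have k5 := h8 e b R' R N (by omega) hRR hRM (by omega)
  have p1 : 0 ≤ hx Q e b r' R' N := Pr_nonneg hQ0 _
  have p2 : 0 ≤ hx Q e b r R' N := Pr_nonneg hQ0 _
  have p3 : 0 ≤ hx Q e b r R N := Pr_nonneg hQ0 _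
  have k6 : hx Q e b r' R' N ≤ C5 / c8 * hx Q e b r R' N := by
    rw [div_mul_eq_mul_div, le_div_iff₀ hc8]
    have := mul_le_mul_of_nonneg_right k4 p1
    linarith
  have k7 : hx Q e b r R' N ≤ C5 / c8 * hx Q e b r R N := by
    rw [div_mul_eq_mul_div, le_div_iff₀ hc8]
    have := mul_le_mul_of_nonneg_left k5 p2
    linarith
  have hcc : 0 < C5 / c8 := by positivity
  calc Pr Q D η (Xc e b r' R') ≤ C7 * hx Q e b r' R' N := k1
    _ ≤ C7 * (C5 / c8 * (C5 / c8 * hx Q e b r R N)) :=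
        mul_le_mul_of_nonneg_left (k6.trans (mul_le_mul_of_nonneg_left k7 hcc.le)) hC7.le
    _ = C7 * (C5 / c8 * (C5 / c8)) * hx Q e b r R N := by ring
    _ ≤ _ := mul_le_mul_of_nonneg_right (le_max_right _ _) p3

/-- The state at the scale `t`: dual arm up to the scale `t - 1`, primal arm from the scale `t`. -/
def Et (D : Finset (ℤ × ℤ)) (W : Set (ℤ × ℤ)) (b : ℤ × ℤ) (a M : ℤ) (t : ℕ) : Set Cfg :=
  PAr D W b (M ^ t * a) ∩ {ω | 3 ≤ t → ω ∈ Xc false b (3 * a) (M ^ (t - 1) * a)}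

/-- **Covering by the scales.** -/
theorem amsT_cover {M a : ℤ} (hM : 2 ≤ M) (ha : 1 ≤ a) {n : ℕ} (hn : 2 ≤ n)
    (hnR : M ^ n * a ≤ R) {ω : Cfg} (h : ω ∈ AmsT D W b (3 * a) R) :
    ω ∈ Xc false b (3 * a) (M ^ n * a) ∨ ∃ t : ℕ, 2 ≤ t ∧ t ≤ n ∧ ω ∈ Et D W b a M t := by
  classical
  by_cases hX : ω ∈ Xc false b (3 * a) (M ^ n * a)
  · exact Or.inl hX
  right
  have hex : ∃ t : ℕ, 2 ≤ t ∧ ω ∉ Xc false b (3 * a) (M ^ t * a) := ⟨n, hn, hX⟩
  obtain ⟨h1, h2⟩ := Nat.find_spec hex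
  have h3 : Nat.find hex ≤ n := Nat.find_le ⟨hn, hX⟩
  have hmin : ∀ m : ℕ, m < Nat.find hex → 2 ≤ m → ω ∈ Xc false b (3 * a) (M ^ m * a) := by
    intro m hm hm2
    by_contra hc
    exact Nat.find_min hex hm ⟨hm2, hc⟩
  generalize Nat.find hex = t at *
  refine ⟨t, h1, h3, ?_, fun h4 => hmin (t - 1) (by omega) (by omega)⟩
  have h5 : (3 : ℤ) ≤ M ^ t := by
    have h6 := pow_ge hM t
    have : (2 : ℤ) ≤ t := by exact_mod_cast h1
    omega
  have h6 : 3 * a ≤ M ^ t * a := mul_le_mul_of_nonneg_right h5 (by omega)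
  have h7 : M ^ t * a ≤ M ^ n * a :=
    mul_le_mul_of_nonneg_right (pow_le_pow_right₀ (by omega) h3) (by omega)
  rcases h (M ^ t * a) h6 (h7.trans hnR) with h8 | h8
  · exact absurd h8 h2
  · exact h8

/-- **One scale.** -/
theorem scale_le (hQ0 : 0 < Q) (h5 : A5 Q) (h8 : A8 Q) {C7 : ℝ} {K7 : ℤ} (hC7 : 0 < C7)
    (hK7 : 1 ≤ K7) (h7 : E7 Q C7 K7) {M : ℤ} (hM : 2 ≤ M) :
    ∃ (Cv : ℝ) (K s0 : ℤ), 1 ≤ Cv ∧ 1 ≤ K ∧ 1 ≤ s0 ∧
    ∀ (D : Finset (ℤ × ℤ)) (η : Cfg) (W : Set (ℤ × ℤ)) (b : ℤ × ℤ) (R N a : ℤ) (t : ℕ)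
      (G : Set Cfg) (h : ℝ), Fl D η W b R → s0 ≤ a → 2 ≤ t → M ^ t * a ≤ R → K * (M ^ t * a) ≤ N →
      0 ≤ h → (∀ ξ : Cfg, Good ξ → Cb ξ b (3 * a) → Pr Q (hbox b (3 * a)) ξ G ≤ h) →
      Pr Q D η (Et D W b a M t ∩ G) ≤
        Cv * (h * (hx Q false b a (M ^ t * a) N * aD Q D η W b (M ^ t * a))) := by
  obtain ⟨Cu, Ku, su, hCu, hKu, hsu, hu⟩ := arm_up hQ0 h5 h8 hC7 hK7 h7 (2 * (K7 * M))
  obtain ⟨c8, K8, s8, hc8, hK8, hs8, h8⟩ := h8 (3 * (K7 * M) + M * M)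
  refine ⟨max Cu (1 / c8), max Ku K8, max su s8, hCu.trans (le_max_left _ _), by omega, by omega,
    fun D η W b R N a t G h hFl ha ht hR hN hh hG => ?_⟩
  have ha1 : 1 ≤ a := by omega
  obtain ⟨L, hL⟩ : ∃ L, L = M ^ t * a := ⟨_, rfl⟩
  have h4 : (4 : ℤ) ≤ M ^ t := by
    have h6 : M ^ 2 ≤ M ^ t := pow_le_pow_right₀ (by omega) ht
    nlinarith
  have hL4 : 4 * a ≤ L := by
    rw [hL]
    exact mul_le_mul_of_nonneg_right h4 (by omega)
  have hη : Good η := hFl.out.good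
  have hx0 : 0 ≤ hx Q false b a L N := Pr_nonneg hQ0 _
  have ha0 : 0 ≤ aD Q D η W b L := Pr_nonneg hQ0 _
  obtain ⟨I, hI⟩ : ∃ I : Set Cfg, I = {ω | 3 ≤ t → ω ∈ Xc false b (3 * a) (M ^ (t - 1) * a)} :=
    ⟨_, rfl⟩
  have hindI : Ind (hbox b (3 * a)) (I.indicator (1 : Cfg → ℝ)) := by
    rw [hI]
    refine ind_det fun ω ω' hω h1 h3 => Xc_congr (fun v hv => hω v fun hv' => ?_) (h1 h3)
    rw [mem_hbox] at hv'
    rw [mem_dF] at hv
    simp only [dq, Set.mem_ofPred_eq] at hv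
    omega
  have hN' : max Ku K8 * L ≤ N := by rw [hL]; exact hN
  have nu : Ku * L ≤ max Ku K8 * L := mul_le_mul_of_nonneg_right (le_max_left _ _) (by omega)
  have n8 : K8 * L ≤ max Ku K8 * L := mul_le_mul_of_nonneg_right (le_max_right _ _) (by omega)
  -- the dual arm inside of the half box of radius `L`
  have key : ∀ ξ : Cfg, Good ξ → Cb ξ b L →
      Pr Q (hbox b L) ξ I ≤ max Cu (1 / c8) * hx Q false b a L N := by
    intro ξ hξ hb
    have hKM : 2 ≤ K7 * M := by nlinarith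
    obtain ⟨L1, hL1⟩ : ∃ L1, L1 = (L - 1) / (K7 * M) := ⟨_, rfl⟩
    have q1 : K7 * M * L1 ≤ L - 1 := by
      rw [hL1]
      exact Int.mul_ediv_self_le (by omega)
    have q2 : L - 1 < K7 * M * (L1 + 1) := by
      rw [hL1]
      have := Int.lt_ediv_add_one_mul_self (L - 1) (by omega : 0 < K7 * M)
      rw [mul_comm]
      exact this
    by_cases hc : 3 ≤ t ∧ 3 * a ≤ L1
    · obtain ⟨ht3, hc⟩ := hc
      have q3 : L1 ≤ M ^ (t - 1) * a := by
        have e1 : M * (M ^ (t - 1) * a) = L := by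
          rw [hL]
          obtain ⟨s, rfl⟩ : ∃ s, t = s + 1 := ⟨t - 1, by omega⟩
          rw [Nat.add_sub_cancel, pow_succ]
          ring
        have e2 : M * L1 ≤ K7 * M * L1 := by
          nlinarith [mul_nonneg (by omega : 0 ≤ K7 - 1)
            (mul_nonneg (by omega : 0 ≤ M) (by omega : 0 ≤ L1))]
        by_contra h9
        push Not at h9
        nlinarith
      have q4 : L ≤ 2 * (K7 * M) * L1 := by nlinarith
      have q5 : K7 * L1 < L := by nlinarith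
      have q6 : L1 ≤ L := by nlinarith
      refine le_trans (Pr_mono hQ0 (B := Xc false b (3 * a) L1) ?_) ?_
      · rw [hI]
        intro ω hω
        exact Xc_restrict le_rfl hc q3 (hω ht3)
      · refine (hu false b a (3 * a) L1 L N (hbox b L) ξ (by omega) (by omega)
          (by nlinarith) hc q6 q4 hξ (hb.flf q5) (by omega)).trans ?_
        exact mul_le_mul_of_nonneg_right (le_max_left _ _) hx0
    · have q7 : L ≤ (3 * (K7 * M) + M * M) * a := by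
        by_cases ht3 : 3 ≤ t
        · have hc' : L1 < 3 * a := by
            by_contra h9
            exact hc ⟨ht3, by omega⟩
          have : K7 * M * (L1 + 1) ≤ K7 * M * (3 * a) :=
            mul_le_mul_of_nonneg_left (by omega) (by omega)
          nlinarith
        · have ht2 : t = 2 := by omega
          rw [hL, ht2]
          nlinarith
      have q8 := h8 false b a L N (by omega) (by omega) q7 (by omega)
      refine (Pr_le_one hQ0 _).trans ?_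
      have q9 : 1 ≤ 1 / c8 * hx Q false b a L N := by
        rw [one_div, ← div_eq_inv_mul, le_div_iff₀ hc8]
        linarith
      exact q9.trans (mul_le_mul_of_nonneg_right (le_max_right _ _) hx0)
  have e1 : Et D W b a M t ∩ G = PAr D W b L ∩ (I ∩ G) := by
    rw [Et, hI, hL, Set.inter_assoc]
  have hmx : 0 < max Cu (1 / c8) := lt_of_lt_of_le (by linarith) (le_max_left _ _)
  rw [← hL, e1]
  refine (split_le hQ0 (hFl.sub (by omega : L ≤ R)) hη ind_PAr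
    (c := h * (max Cu (1 / c8) * hx Q false b a L N)) fun S hS => ?_).trans (le_of_eq ?_)
  · have hg : Good (cf D η S) := good_cf D hη S
    have hcb : Cb (cf D η S) b L := (hFl.cb S).mono (by omega)
    have j1 := split_le (D := hbox b L) (A := hbox b (3 * a)) (η := cf D η S) (E := I) (F := G)
      (c := h) hQ0 (fun v hv => by rw [mem_hbox] at hv ⊢; omega) hg hindI fun S' _ =>
        hG _ (good_cf _ hg S') ((hcb.cf S').mono (by omega))
    refine j1.trans (mul_le_mul_of_nonneg_left (key _ hg hcb) hh)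
  · unfold aD
    ring

theorem sum_ind_le {ι : Type*} (hQ : 0 < Q) (T : Finset ι) (E : ι → Set Cfg) {F X : Set Cfg}
    (hF : ∀ ω ∈ F, ω ∈ X ∨ ∃ t ∈ T, ω ∈ E t) :
    Pr Q D η F ≤ Pr Q D η X + ∑ t ∈ T, Pr Q D η (E t) := by
  unfold Pr
  rw [← Ex_sum, ← Ex_add]
  refine Ex_mono hQ fun S _ => ?_
  have h0 : 0 ≤ ∑ t ∈ T, (E t).indicator (1 : Cfg → ℝ) (cf D η S) :=
    Finset.sum_nonneg fun t _ => ind_nonneg _ _
  by_cases h : cf D η S ∈ F
  · rw [Set.indicator_of_mem h]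
    rcases hF _ h with h1 | ⟨t, ht, h1⟩
    · rw [Set.indicator_of_mem h1]
      simp only [Pi.one_apply]
      linarith
    · have h2 : (E t).indicator (1 : Cfg → ℝ) (cf D η S) ≤
          ∑ t ∈ T, (E t).indicator (1 : Cfg → ℝ) (cf D η S) :=
        Finset.single_le_sum (f := fun t => (E t).indicator (1 : Cfg → ℝ) (cf D η S))
          (fun t _ => ind_nonneg _ _) ht
      rw [Set.indicator_of_mem h1] at h2
      have h3 : (0 : ℝ) ≤ X.indicator 1 (cf D η S) := ind_nonneg _ _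
      simp only [Pi.one_apply] at h2 ⊢
      linarith
  · rw [Set.indicator_of_notMem h]
    have h3 : (0 : ℝ) ≤ X.indicator 1 (cf D η S) := ind_nonneg _ _
    linarith

/-- **Upper bound with an inner event.** -/
theorem main_le (hQ0 : 0 < Q) (h5 : A5 Q) (h8 : A8 Q) {C7 : ℝ} {K7 : ℤ} (hC7 : 0 < C7)
    (hK7 : 1 ≤ K7) (h7 : E7 Q C7 K7) {M : ℤ} (hM : 2 ≤ M) :
    ∃ (Cv : ℝ) (K s0 : ℤ), 1 ≤ Cv ∧ 4 ≤ K ∧ 1 ≤ s0 ∧
    ∀ (D : Finset (ℤ × ℤ)) (η : Cfg) (W : Set (ℤ × ℤ)) (b : ℤ × ℤ) (R N a R₁ : ℤ)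
      (G : Set Cfg) (h : ℝ), Fl D η W b R → s0 ≤ a → K * a ≤ R₁ → K * R₁ ≤ R → K * R₁ ≤ N →
      0 ≤ h → (∀ ξ : Cfg, Good ξ → Cb ξ b (3 * a) → Pr Q (hbox b (3 * a)) ξ G ≤ h) →
      Pr Q D η (AmsT D W b (3 * a) (R₁ / 2) ∩ G) ≤
        Cv * (h * (hx Q false b a R₁ N + SD Q D η W b a R₁ N M)) := by
  classical
  obtain ⟨Cv, K, s0, hCv, hK, hs0, hv⟩ := scale_le hQ0 h5 h8 hC7 hK7 h7 hM
  obtain ⟨Cu, Ku, su, hCu, hKu, hsu, hu⟩ := arm_up hQ0 h5 h8 hC7 hK7 h7 (M * M + 3)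
  refine ⟨max Cv Cu, max (max K Ku) (max (K7 + 1) (M ^ 4)), max s0 su,
    hCv.trans (le_max_left _ _), ?_, by omega,
    fun D η W b R N a R₁ G h hFl ha haR hR hN hh hG => ?_⟩
  · have : (4 : ℤ) ≤ M ^ 4 := by
      have h1 := pow_ge hM 4
      push_cast at h1
      omega
    omega
  obtain ⟨K0, hK0⟩ : ∃ K0, K0 = max (max K Ku) (max (K7 + 1) (M ^ 4)) := ⟨_, rfl⟩
  rw [← hK0] at haR hR hN
  have ha1 : 1 ≤ a := by omega
  have hM4 : M ^ 4 * a ≤ R₁ :=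
    (mul_le_mul_of_nonneg_right (by omega : M ^ 4 ≤ K0) (by omega)).trans haR
  have hR1 : a ≤ R₁ := by nlinarith [pow_ge hM 4]
  have hη : Good η := hFl.out.good
  -- the last scale
  have hex : ∃ k : ℕ, R₁ < M ^ (k + 1) * a := by
    refine ⟨R₁.toNat, ?_⟩
    have h1 := pow_ge hM (R₁.toNat + 1)
    have h2 : (R₁ : ℤ) ≤ R₁.toNat := Int.self_le_toNat R₁
    push_cast at h1
    nlinarith
  obtain ⟨k, hk1, hkm⟩ : ∃ k : ℕ, R₁ < M ^ (k + 1) * a ∧ ∀ m < k, M ^ (m + 1) * a ≤ R₁ := by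
    refine ⟨Nat.find hex, Nat.find_spec hex, fun m hm => ?_⟩
    have := Nat.find_min hex hm
    omega
  have hk4 : 4 ≤ k := by
    by_contra h1
    have h2 : M ^ (k + 1) ≤ M ^ 4 := pow_le_pow_right₀ (by omega) (by omega)
    have h3 : M ^ (k + 1) * a ≤ M ^ 4 * a := mul_le_mul_of_nonneg_right h2 (by omega)
    omega
  obtain ⟨n, rfl⟩ : ∃ n, k = n + 1 := ⟨k - 1, by omega⟩
  have hn1 : M ^ (n + 1) * a ≤ R₁ := hkm n (by omega)
  have hpos : ∀ t : ℕ, 1 ≤ M ^ t := fun t => one_le_pow₀ (by omega)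
  have hpm : ∀ t : ℕ, M ^ (t + 1) * a = M * (M ^ t * a) := fun t => by rw [pow_succ]; ring
  have hnR : M ^ n * a ≤ R₁ / 2 := by
    have h1 := hpm n
    have h2 : 2 * (M ^ n * a) ≤ M * (M ^ n * a) :=
      mul_le_mul_of_nonneg_right hM (mul_nonneg (by have := hpos n; omega) (by omega))
    omega
  have hKR : K * R₁ ≤ K0 * R₁ := mul_le_mul_of_nonneg_right (by omega) (by omega)
  have hKuR : Ku * R₁ ≤ K0 * R₁ := mul_le_mul_of_nonneg_right (by omega) (by omega)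
  have hK7R : (K7 + 1) * R₁ ≤ K0 * R₁ := mul_le_mul_of_nonneg_right (by omega) (by omega)
  set T := (range (n + 1)).filter (fun t : ℕ => 2 ≤ t) with hT
  have hcov := sum_ind_le (D := D) (η := η) hQ0 T (fun t => Et D W b a M t ∩ G)
    (F := AmsT D W b (3 * a) (R₁ / 2) ∩ G) (X := Xc false b (3 * a) (M ^ n * a) ∩ G)
    (by
      rintro ω ⟨h1, h2⟩
      rcases amsT_cover hM ha1 (by omega : 2 ≤ n) hnR h1 with h3 | ⟨t, t1, t2, h3⟩
      · exact Or.inl ⟨h3, h2⟩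
      · exact Or.inr ⟨t, mem_filter.2 ⟨mem_range.2 (by omega), t1⟩, h3, h2⟩)
  -- the last term
  have hx0 : 0 ≤ hx Q false b a R₁ N := Pr_nonneg hQ0 _
  have hlast : Pr Q D η (Xc false b (3 * a) (M ^ n * a) ∩ G) ≤
      max Cv Cu * (h * hx Q false b a R₁ N) := by
    have h3a : 3 * a ≤ M ^ n * a := by
      refine mul_le_mul_of_nonneg_right ?_ (by omega)
      have h1 := pow_ge hM n
      have h2 : (3 : ℤ) ≤ n := by exact_mod_cast (by omega : 3 ≤ n)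
      omega
    have hMn : M ^ n * a ≤ R₁ := by omega
    have h2n : R₁ ≤ (M * M + 3) * (M ^ n * a) := by
      have h1 := hpm n
      have h2 := hpm (n + 1)
      have h3 : 0 ≤ M ^ n * a := mul_nonneg (by have := hpos n; omega) (by omega)
      nlinarith
    have h3R : 3 * a ≤ R := by nlinarith
    have hK7n : K7 * (M ^ n * a) ≤ K7 * R₁ := mul_le_mul_of_nonneg_left hMn (by omega)
    have j0 := hu false b a (3 * a) (M ^ n * a) R₁ N D η (by omega) (by omega) (by nlinarith) h3a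
      hMn h2n hη (hFl.flf (by nlinarith)) (by omega)
    have j1 := split_le (D := D) (A := hbox b (3 * a)) (η := η)
      (E := Xc false b (3 * a) (M ^ n * a)) (F := G) (c := h) hQ0 (hFl.sub h3R) hη
      (ind_Xc le_rfl) fun S _ => hG _ (good_cf _ hη S) ((hFl.cb S).mono h3R)
    refine j1.trans ((mul_le_mul_of_nonneg_left j0 hh).trans ?_)
    have j2 : Cu * (h * hx Q false b a R₁ N) ≤ max Cv Cu * (h * hx Q false b a R₁ N) :=
      mul_le_mul_of_nonneg_right (le_max_right _ _) (mul_nonneg hh hx0)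
    linarith
  -- the sum
  have hsum : ∑ t ∈ T, Pr Q D η (Et D W b a M t ∩ G) ≤
      max Cv Cu * (h * SD Q D η W b a R₁ N M) := by
    have h1 : ∑ t ∈ T, Pr Q D η (Et D W b a M t ∩ G) ≤ ∑ t ∈ T,
        max Cv Cu * (h * (hx Q false b a (M ^ t * a) N * aD Q D η W b (M ^ t * a))) := by
      refine Finset.sum_le_sum fun t ht => ?_
      rw [hT, mem_filter, mem_range] at ht
      have t1 : M ^ t * a ≤ M ^ n * a :=
        mul_le_mul_of_nonneg_right (pow_le_pow_right₀ (by omega) (by omega)) (by omega)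
      have t2 : K * (M ^ t * a) ≤ K * R₁ := mul_le_mul_of_nonneg_left (by omega) (by omega)
      have t3 : R₁ ≤ R := by nlinarith
      refine (hv D η W b R N a t G h hFl (by omega) ht.2 (by omega) (by omega) hh hG).trans ?_
      refine mul_le_mul_of_nonneg_right (le_max_left _ _) (mul_nonneg hh (mul_nonneg ?_ ?_))
      · exact Pr_nonneg hQ0 _
      · exact Pr_nonneg hQ0 _
    refine h1.trans ?_
    rw [← Finset.mul_sum, ← Finset.mul_sum]
    refine mul_le_mul_of_nonneg_left (mul_le_mul_of_nonneg_left ?_ hh) (by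
      have := le_max_left Cv Cu
      linarith)
    unfold SD
    refine Finset.sum_le_sum_of_subset_of_nonneg ?_ fun t _ _ => mul_nonneg (Pr_nonneg hQ0 _)
      (Pr_nonneg hQ0 _)
    intro t ht
    rw [hT, mem_filter, mem_range] at ht
    have t1 : M ^ (t + 1) * a ≤ M ^ (n + 1) * a :=
      mul_le_mul_of_nonneg_right (pow_le_pow_right₀ (by omega) (by omega)) (by omega)
    rw [mem_filter, mem_range]
    refine ⟨?_, by omega⟩
    have t2 := pow_ge hM (t + 1)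
    push_cast at t2
    have t3 : (t : ℤ) + 2 ≤ R₁ := by nlinarith
    omega
  rw [mul_add, mul_add]
  exact hcov.trans (add_le_add hlast hsum)

theorem flf_HB {s : ℤ} (h : s < N) : FlF (HB b N) eta0 b s where
  dom := fun v hv => by
    rw [mem_Bq'] at hv
    rw [H469.mem_HB]
    omega
  out := fun _ _ _ => rfl

theorem put_num {Kk K7 K9 Kv Ku Kw K0 a0 a1 R₁ : ℤ} (hKk : Kk = max 2 (max K7 K9)) (hK7 : 1 ≤ K7)
    (hK9 : 1 ≤ K9) (hKv : 4 ≤ Kv) (hKu : 1 ≤ Ku) (hKw : 1 ≤ Kw)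
    (hK0 : K0 = max (max Kv (4 * Kk)) (max (max Ku Kw) (max (K7 + 1) K9))) (ha0 : 1 ≤ a0)
    (b2 : K0 * a0 ≤ a1) (b3 : K0 * a1 ≤ R₁) :
    ∃ r1, 4 * a0 ≤ r1 ∧ a1 ≤ 2 * Kk * r1 ∧ 2 * r1 ≤ a1 ∧ K7 * r1 ≤ a1 ∧ K9 * r1 ≤ a1 ∧
      Kv * a1 ≤ R₁ ∧ 4 * a1 ≤ R₁ ∧ Kv * R₁ ≤ K0 * R₁ ∧ Ku * R₁ ≤ K0 * R₁ ∧ Kw * R₁ ≤ K0 * R₁ ∧
      (K7 + 1) * R₁ ≤ K0 * R₁ ∧ K9 * R₁ ≤ K0 * R₁ ∧ Ku * a1 ≤ Ku * R₁ ∧ 4 * R₁ ≤ K0 * R₁ ∧
      8 * a0 ≤ a1 ∧ 3 * a0 ≤ 2 * Kk * (2 * a0) := by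
  have ha01 : 8 * a0 ≤ a1 :=
    (mul_le_mul_of_nonneg_right (by omega : 8 ≤ K0) (by omega)).trans b2
  have m1 : 4 * Kk * a0 ≤ a1 :=
    (mul_le_mul_of_nonneg_right (by omega : 4 * Kk ≤ K0) (by omega)).trans b2
  have m2 : Kv * a1 ≤ R₁ :=
    (mul_le_mul_of_nonneg_right (by omega : Kv ≤ K0) (by omega)).trans b3
  have m2' : 4 * a1 ≤ R₁ :=
    (mul_le_mul_of_nonneg_right (by omega : 4 ≤ K0) (by omega)).trans b3
  have q1 : 4 * a0 ≤ a1 / Kk := by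
    rw [Int.le_ediv_iff_mul_le (by omega)]
    linarith
  have q2 : Kk * (a1 / Kk) ≤ a1 := Int.mul_ediv_self_le (by omega)
  have q3 : a1 < Kk * (a1 / Kk + 1) := by
    rw [mul_comm]
    exact Int.lt_ediv_add_one_mul_self _ (by omega)
  refine ⟨a1 / Kk, q1, ?_, ?_, ?_, ?_, m2, m2', mul_le_mul_of_nonneg_right (by omega) (by omega),
    mul_le_mul_of_nonneg_right (by omega) (by omega),
    mul_le_mul_of_nonneg_right (by omega) (by omega),
    mul_le_mul_of_nonneg_right (by omega) (by omega),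
    mul_le_mul_of_nonneg_right (by omega) (by omega),
    mul_le_mul_of_nonneg_left (by omega) (by omega),
    mul_le_mul_of_nonneg_right (by omega) (by omega), ha01, ?_⟩
  · have : Kk * (a1 / Kk + 1) ≤ Kk * (2 * (a1 / Kk)) :=
      mul_le_mul_of_nonneg_left (by omega) (by omega)
    linarith
  · exact (mul_le_mul_of_nonneg_right (by omega : 2 ≤ Kk) (by omega)).trans q2
  · exact (mul_le_mul_of_nonneg_right (by omega : K7 ≤ Kk) (by omega)).trans q2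
  · exact (mul_le_mul_of_nonneg_right (by omega : K9 ≤ Kk) (by omega)).trans q2
  · have : 2 * 2 * (2 * a0) ≤ 2 * Kk * (2 * a0) :=
      mul_le_mul_of_nonneg_right (by omega) (by omega)
    linarith

/-- **(BT6)** -/
theorem s_PUT (hQ : Kit Q) (h5 : A5 Q) (h7 : A7 Q) (h8 : A8 Q) (h9 : A9 Q) : S_PUT Q := by
  have hQ0 := hQ.pos
  obtain ⟨C7, K7, hC7, hK7, h7⟩ := h7
  have h7' : E7 Q C7 K7 := h7
  obtain ⟨α, C9, K9, s9, hα, hC9, hK9, hs9, h9⟩ := h9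
  intro M hM
  obtain ⟨Cv, Kv, sv, hCv, hKv, hsv, hv⟩ := main_le hQ0 h5 h8 hC7 hK7 h7' hM
  obtain ⟨Kk, hKk⟩ : ∃ Kk, Kk = max 2 (max K7 K9) := ⟨_, rfl⟩
  obtain ⟨Cu, Ku, su, hCu, hKu, hsu, hu⟩ := arm_up hQ0 h5 h8 hC7 hK7 h7' (2 * Kk)
  obtain ⟨Cw, Kw, sw, hCw, hKw, hsw, hw⟩ := arm_up hQ0 h5 h8 hC7 hK7 h7' 4
  have hKkr : (2 : ℝ) ≤ (Kk : ℝ) := by exact_mod_cast (by omega : 2 ≤ Kk)
  have hB0 : 0 < (6 * (Kk : ℝ)) ^ α := by positivity
  obtain ⟨K0, hK0⟩ : ∃ K0, K0 = max (max Kv (4 * Kk)) (max (max Ku Kw) (max (K7 + 1) K9)) :=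
    ⟨_, rfl⟩
  refine ⟨max Cw (max (Cv * Cu) (Cv * (C9 * (6 * (Kk : ℝ)) ^ α * Cu))), α, K0,
    max (max sv su) (max sw s9), ?_, hα, by omega, by omega,
    fun D η W b R N hFl a R₁ ha hR hN => ?_⟩
  · exact lt_of_lt_of_le (by linarith) (le_max_left _ _)
  obtain ⟨b1, b2, b3⟩ := ha
  have ha0 : 1 ≤ a 0 := by omega
  obtain ⟨r1, q1, q4, q5, q6, q7, m2, m2', m3, m4, m5, m6, m7, m4', m8, ha01, q8⟩ :=
    put_num hKk hK7 hK9 hKv hKu hKw hK0 ha0 b2 b3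
  have hRN : R₁ ≤ N := by omega
  have hη : Good η := hFl.out.good
  have hx0 : 0 ≤ hx Q true b (2 * a 0) (a 1) N := Pr_nonneg hQ0 _
  have hS0 : 0 ≤ hx Q false b (a 1) R₁ N + SD Q D η W b (a 1) R₁ N M := by
    unfold SD
    refine add_nonneg (Pr_nonneg hQ0 _) (Finset.sum_nonneg fun t _ => ?_)
    exact mul_nonneg (Pr_nonneg hQ0 _) (Pr_nonneg hQ0 _)
  have hfr : 0 ≤ ((a 0 : ℝ) / a 1) ^ α := by
    have : (0 : ℝ) ≤ a 0 := by exact_mod_cast (by omega : (0 : ℤ) ≤ a 0)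
    have : (0 : ℝ) ≤ a 1 := by exact_mod_cast (by omega : (0 : ℤ) ≤ a 1)
    positivity
  obtain ⟨Cm, hCm⟩ : ∃ Cm, Cm = max Cw (max (Cv * Cu) (Cv * (C9 * (6 * (Kk : ℝ)) ^ α * Cu))) :=
    ⟨_, rfl⟩
  rw [← hCm]
  have c1 : Cw ≤ Cm := by rw [hCm]; exact le_max_left _ _
  have c2 : Cv * Cu ≤ Cm := by rw [hCm]; exact (le_max_left _ _).trans (le_max_right _ _)
  have c3 : Cv * (C9 * (6 * (Kk : ℝ)) ^ α * Cu) ≤ Cm := by
    rw [hCm]; exact (le_max_right _ _).trans (le_max_right _ _)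
  refine ⟨?_, ?_, ?_⟩
  · -- one arm in the gap
    have j1 := hv D η W b R N (a 1) R₁ (Xc true b (3 * a 0) r1) (Cu * hx Q true b (2 * a 0) (a 1) N)
      hFl (by omega) m2 (by omega) (by omega) (mul_nonneg (by linarith) hx0)
      fun ξ hξ hb => hu true b (2 * a 0) (3 * a 0) r1 (a 1) N _ ξ (by omega) (by omega)
        q8 (by omega) (by omega) q4 hξ (hb.flf (by omega)) (by omega)
    have j2 : Pr Q D η (Xc true b (3 * a 0) (a 1 / 2) ∩ AmsT D W b (3 * a 1) (R₁ / 2)) ≤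
        Pr Q D η (AmsT D W b (3 * a 1) (R₁ / 2) ∩ Xc true b (3 * a 0) r1) := by
      refine Pr_mono hQ0 fun ω h => ⟨h.2, ?_⟩
      exact Xc_restrict le_rfl (by omega) (by omega) h.1
    refine j2.trans (j1.trans ?_)
    have j3 : Cv * (Cu * hx Q true b (2 * a 0) (a 1) N *
        (hx Q false b (a 1) R₁ N + SD Q D η W b (a 1) R₁ N M)) = Cv * Cu *
        (hx Q true b (2 * a 0) (a 1) N * (hx Q false b (a 1) R₁ N + SD Q D η W b (a 1) R₁ N M)) := by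
      ring
    rw [j3]
    exact mul_le_mul_of_nonneg_right c2 (mul_nonneg hx0 hS0)
  · -- both colours cross the gap
    have hG : ∀ ξ : Cfg, Good ξ → Cb ξ b (3 * a 1) → Pr Q (hbox b (3 * a 1)) ξ
        (Xc true b (3 * a 0) r1 ∩ Xc false b (3 * a 0) r1) ≤
        C9 * (6 * (Kk : ℝ)) ^ α * Cu * (((a 0 : ℝ) / a 1) ^ α * hx Q true b (2 * a 0) (a 1) N) := by
      intro ξ hξ hb
      have j1 := h9 true b (3 * a 0) r1 N (hbox b (3 * a 1)) ξ (by omega) (by omega) (by omega) hξ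
        (hb.flf (by omega))
      have j2 := hu true b (2 * a 0) (3 * a 0) r1 (a 1) N (HB b N) eta0 (by omega) (by omega)
        q8 (by omega) (by omega) q4 f_good.2.1 (flf_HB (by omega)) (by omega)
      have a0r : (1 : ℝ) ≤ a 0 := by exact_mod_cast ha0
      have a1r : (1 : ℝ) ≤ a 1 := by exact_mod_cast (by omega : (1 : ℤ) ≤ a 1)
      have r1r : (1 : ℝ) ≤ r1 := by exact_mod_cast (by omega : (1 : ℤ) ≤ r1)
      have q4r : (a 1 : ℝ) ≤ 2 * Kk * r1 := by exact_mod_cast q4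
      have j3 : (((3 * a 0 : ℤ) : ℝ) / r1) ^ α ≤ (6 * (Kk : ℝ)) ^ α * ((a 0 : ℝ) / a 1) ^ α := by
        rw [← Real.mul_rpow (by positivity) (by positivity)]
        refine Real.rpow_le_rpow ?_ ?_ hα.le
        · push_cast
          positivity
        · push_cast
          rw [mul_div_assoc', div_le_div_iff₀ (by linarith) (by linarith)]
          nlinarith
      have j4 : 0 ≤ (((3 * a 0 : ℤ) : ℝ) / r1) ^ α := by
        refine Real.rpow_nonneg ?_ _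
        push_cast
        positivity
      have p0 : 0 ≤ hx Q true b (3 * a 0) r1 N := Pr_nonneg hQ0 _
      calc Pr Q (hbox b (3 * a 1)) ξ (Xc true b (3 * a 0) r1 ∩ Xc false b (3 * a 0) r1) ≤
          C9 * (((3 * a 0 : ℤ) : ℝ) / r1) ^ α * hx Q true b (3 * a 0) r1 N := j1
        _ ≤ C9 * ((6 * (Kk : ℝ)) ^ α * ((a 0 : ℝ) / a 1) ^ α) *
            (Cu * hx Q true b (2 * a 0) (a 1) N) := by
          refine mul_le_mul (mul_le_mul_of_nonneg_left j3 hC9.le) j2 p0 ?_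
          positivity
        _ = _ := by ring
    have j1 := hv D η W b R N (a 1) R₁ (Xc true b (3 * a 0) r1 ∩ Xc false b (3 * a 0) r1)
      (C9 * (6 * (Kk : ℝ)) ^ α * Cu * (((a 0 : ℝ) / a 1) ^ α * hx Q true b (2 * a 0) (a 1) N))
      hFl (by omega) m2 (by omega) (by omega) (by positivity) hG
    have j2 : Pr Q D η ((Xc true b (3 * a 0) (a 1 / 2) ∩ Xc false b (3 * a 0) (a 1 / 2)) ∩
        AmsT D W b (3 * a 1) (R₁ / 2)) ≤ Pr Q D η (AmsT D W b (3 * a 1) (R₁ / 2) ∩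
          (Xc true b (3 * a 0) r1 ∩ Xc false b (3 * a 0) r1)) := by
      refine Pr_mono hQ0 fun ω h => ⟨h.2, ?_, ?_⟩
      · exact Xc_restrict le_rfl (by omega) (by omega) h.1.1
      · exact Xc_restrict le_rfl (by omega) (by omega) h.1.2
    refine j2.trans (j1.trans ?_)
    have j3 : Cv * (C9 * (6 * (Kk : ℝ)) ^ α * Cu *
        (((a 0 : ℝ) / a 1) ^ α * hx Q true b (2 * a 0) (a 1) N) *
        (hx Q false b (a 1) R₁ N + SD Q D η W b (a 1) R₁ N M)) =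
        Cv * (C9 * (6 * (Kk : ℝ)) ^ α * Cu) * (((a 0 : ℝ) / a 1) ^ α *
        (hx Q true b (2 * a 0) (a 1) N *
          (hx Q false b (a 1) R₁ N + SD Q D η W b (a 1) R₁ N M))) := by
      ring
    rw [j3, mul_assoc Cm]
    exact mul_le_mul_of_nonneg_right c3 (mul_nonneg hfr (mul_nonneg hx0 hS0))
  · have mk : K7 * R₁ < R := by linarith
    refine (hw false b (a 1) (4 * a 1) R₁ R₁ N D η (by omega) (by omega) le_rfl m2' le_rfl
      (by omega) hη (hFl.flf mk) (by omega)).trans ?_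
    exact mul_le_mul_of_nonneg_right c1 (Pr_nonneg hQ0 _)

end Vale.Agent.P167.N.BT
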