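import Vale.Agent.P167.N.BT.IdDefs
import Vale.Agent.P167.N.Base.Crs

/-!
# P167, `0 < q < 1`, block BT: the macroscopic primal arm in the shapes

`s_Par : Kit Q → S_Par Q`: a horizontal crossing of the strip above the line from the beginning of the side `0` to
`d`, and a vertical crossing above the wired half of the side `0`.
-/

set_option autoImplicit false

namespace Vale.Agent.P167.N.BT

open Finset Relation Set
open Vale.Agent.P167 Vale.Agent.P167.BR
open Vale.Agent.P145.FB (PStep PConn)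
open Vale.Agent.P167.E6 (IsPolygon Encloses dir face)
open Vale.Agent.P167.QT
open Vale.Agent.P167.BQ460 (eN ka md dob_eN mirq_line pdir_line last_exit tN_dat m_pos)
open Vale.Agent.P167.FK (Pr)
open Vale.Agent.P167.H632 (cs pr)
open Vale.Agent.P167.H192.TA (Pw)
open Vale.Agent.P153.Topo (Rect mem_rect)

/-- The strip of height one unit above the line from the beginning of the side `0` to `d`. -/
theorem mem_strip {P : Sh4} (h : P.Ok 2) {N : ℕ} (hN : 0 < N) {v : ℤ × ℤ}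
    (h1 : -(((P.m : ℤ) + 1 - P.l) * N) ≤ v.1) (h2 : v.1 < 0) (h3 : 0 ≤ v.2) (h4 : v.2 < N) :
    v ∈ (Sh4.dat h).D N := by
  have hN' : (0 : ℤ) < N := by exact_mod_cast hN
  have g1 := h.k_lt
  have g2 := h.j_lt
  have g3 := h.l_lt
  show v ∈ CA.enl (mirS P.S) N
  rw [CL.mem_enl_iff hN, Int.ediv_eq_zero_of_lt h3 h4]
  have e2 : -((P.m : ℤ) + 1 - P.l) ≤ v.1 / N := by
    rw [Int.le_ediv_iff_mul_le hN']; linarith
  have e3 : v.1 / N < 0 := by
    rw [Int.ediv_lt_iff_lt_mul hN']; linarith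
  obtain ⟨i, hi⟩ := Int.eq_ofNat_of_zero_le (show 0 ≤ v.1 / N + ((P.m : ℤ) + 1 - P.l) by linarith)
  have hi' : (i : ℤ) = v.1 / N + ((P.m : ℤ) + 1 - P.l) := hi.symm
  have l1 := mirq_line h (i := i) (by omega)
  have l2 := mirq_line h (i := i + 1) (by omega)
  have l3 := (encloses_mirq h.encl (mirq P.q (i : ZMod P.m)) 0).1 ⟨i, rfl, by
    push_cast at l2
    rw [l2, l1]
    ext
    · simp [dir]; ring
    · simp [dir]⟩
  have l4 := l3.1
  rw [l1] at l4
  have e5 : face ((i : ℤ) - (P.m + 1 - P.l), 0) 0 = (v.1 / N, 0) := by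
    ext
    · simp [face]; rw [hi']; ring
    · simp [face]
  rwa [e5] at l4

/-- The wired half of the side `0`. -/
theorem mem_Wr {P : Sh4} (h : P.Ok 2) {N : ℕ} (hN : 0 < N) {z : ℤ × ℤ} (h0 : z.2 = 0)
    (h1 : -(((P.m : ℤ) + 1 - P.l) * N) ≤ z.1) (h2 : z.1 ≤ -(((P.m : ℤ) + 1 - P.l) * N) + (N / 2 : ℕ)) :
    z ∈ Wr (H825.Q.qS (Sh4.dat h) N) (ka P N) := by
  have g0 := h.k_pos
  have g1 := h.k_lt
  have g2 := h.j_lt
  have g3 := h.l_lt
  obtain ⟨x, hx⟩ := Int.eq_ofNat_of_zero_le (show 0 ≤ z.1 + ((P.m : ℤ) + 1 - P.l) * N by linarith)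
  have hx' : (x : ℤ) = z.1 + ((P.m : ℤ) + 1 - P.l) * N := hx.symm
  have hxN : x ≤ N / 2 := by
    have : (x : ℤ) ≤ (N / 2 : ℕ) := by rw [hx']; linarith
    exact_mod_cast this
  have hmN : 1 * N ≤ P.m * N := Nat.mul_le_mul_right N (by omega)
  refine ⟨P.m * N - N / 2 + x, ?_, ?_, ?_⟩
  · have : (P.m - P.k) * N + 1 * N ≤ P.m * N := by
      rw [← add_mul]; exact Nat.mul_le_mul_right N (by omega)
    unfold ka
    omega
  · show _ ≤ P.m * N
    omega
  · have hm0 := m_pos h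
    have : NeZero (Sh4.dat h).l := ⟨by show P.m ≠ 0; omega⟩
    unfold H825.Q.qS
    rw [tN_dat, Enl.qN_nat hN]
    show Enl.PN (mirq P.q) N (P.m * N - N / 2 + x + N / 2) = z
    rw [show P.m * N - N / 2 + x + N / 2 = x + P.m * N by omega, Enl.PN_add_l hN,
      BQ460.PN_line h hN (t := x) (by
        have : 1 * N ≤ (P.m + 1 + 2 - P.j) * N := Nat.mul_le_mul_right N (by omega)
        omega), hx']
    ext
    · simp only; ring
    · simp only; rw [h0]

/-- A path in a rectangle uses the squares of the rectangle only. -/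
theorem pw_rectP {F : Set (ℤ × ℤ)} {a b p q : ℤ} {y y' : ℤ × ℤ} (h : PConn F (Rect a b p q) y y') :
    Pw (F ∩ {v | a ≤ v.1 ∧ v.1 < b ∧ p ≤ v.2 ∧ v.2 < q}) y y' := by
  obtain ⟨h0, h1⟩ := h
  induction h1 with
  | refl => exact ReflTransGen.refl
  | @tail x z hx hxz ih =>
    have hxm := (show PConn F (Rect a b p q) y x from ⟨h0, hx⟩).right_mem
    have hzm := hxz.2
    rw [mem_rect] at hxm hzm
    obtain ⟨⟨s1, s2, s3⟩, s4⟩ := hxz
    refine ih.tail ⟨s1, s2, s3, ?_⟩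
    simp only [Set.mem_ofPred_eq]
    omega

/-- **The macroscopic primal arm.** -/
theorem s_Par {Q : ℝ} (K : Kit Q) : S_Par Q := by
  intro κ
  obtain ⟨c, s0, hc, -, hs0, hcr⟩ := crs_ge K 2 (4 * κ + 4)
  refine ⟨c, 2 * s0 + 2, hc, by omega, fun P h N r hN4 hN hr hrN hL => ?_⟩
  have hN0 : 0 < N := by omega
  have hQ0 := K.pos
  have hη : FK.Good (eN h N) := (dob_eN h (by omega)).good
  obtain ⟨M, hM⟩ := hN4
  have g1 := h.k_lt
  have g2 := h.j_lt
  have g3 := h.l_lt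
  have hN2 : ((N / 2 : ℕ) : ℤ) = 2 * M := by
    have : N / 2 = 2 * M := by omega
    rw [this]; push_cast; rfl
  have hNz : (N : ℤ) = 4 * M := by rw [hM]; push_cast; ring
  set L : ℤ := ((P.m : ℤ) + 1 - P.l) * N with hLdef
  have hL3 : 3 * (N : ℤ) ≤ L := mul_le_mul_of_nonneg_right (by omega) (by positivity)
  set s : ℤ := r / 2 with hs
  have hκ : (0 : ℤ) ≤ κ := Int.natCast_nonneg κ
  have hLs : L ≤ (4 * κ + 4 : ℕ) * s := by
    push_cast
    have : r ≤ 4 * s := by omega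
    nlinarith
  refine (hcr true s [⟨true, -L, 0, 0, r⟩, ⟨false, -L, -L + (N / 2 : ℕ), 0, r⟩] ((Sh4.dat h).D N)
    (eN h N) hη (by omega) (by simp) ?_).trans (FKA.Pr_mono hQ0 ?_)
  · intro X hX
    simp only [List.mem_cons, List.not_mem_nil, or_false] at hX
    rcases hX with rfl | rfl
    · refine Crs.ok_H (by omega) (by omega) (by omega) (by linarith) fun v h1 h2 h3 h4 => ?_
      exact mem_strip h hN0 (by linarith) h2 h3 (by omega)
    · refine Crs.ok_V (by omega) (by omega) (by omega) ?_ fun v h1 h2 h3 h4 => ?_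
      · push_cast
        have : r ≤ 4 * s := by omega
        have h5 : (0 : ℤ) ≤ κ * s := mul_nonneg hκ (by omega)
        linarith
      · exact mem_strip h hN0 (by linarith) (by omega) h3 (by omega)
  · intro ω hω
    have hH := hω _ List.mem_cons_self
    have hV := hω _ (List.mem_cons_of_mem _ List.mem_cons_self)
    rw [Crs.Ev_H] at hH
    rw [Crs.Ev_V] at hV
    obtain ⟨w, w', w1, w2, w3, hw⟩ := hH
    obtain ⟨y, y', y1, y2, y3, hy⟩ := hV
    obtain ⟨z, hz1, hz2⟩ := H704.meet (F := cs true ω) (a := -L) (b := -L + (N / 2 : ℕ)) (c := 0)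
      (d := r) (a' := -L) (b' := 0) (c' := 0) (d' := r) hy y1.le y2.ge y3 hw w1.le (by omega) w3
      (by omega) (by omega)
    have hyR := hy.left_mem
    have hwR := hw.right_mem
    rw [mem_rect] at hyR hwR
    have hr1 : 1 ≤ r := by omega
    have hsub : ∀ a b : ℤ, -L ≤ a → b ≤ 0 → cs true ω ∩ {v : ℤ × ℤ | a ≤ v.1 ∧ v.1 < b ∧ 0 ≤ v.2 ∧ v.2 < r} ⊆
        cs true ω ∩ ((Sh4.dat h).D N : Set (ℤ × ℤ)) := fun a b ha hb v hv => ⟨hv.1, by
      have h5 := hv.2
      simp only [Set.mem_ofPred_eq] at h5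
      exact mem_strip h hN0 (by linarith) (by omega) h5.2.2.1 (by omega)⟩
    have p1 : Pw (cs true ω ∩ ((Sh4.dat h).D N : Set (ℤ × ℤ))) w' y :=
      ((Pw.mono (hsub _ _ le_rfl le_rfl) (Pw.symm (pw_rectP hw))).trans
        (Pw.mono (hsub _ _ le_rfl le_rfl) (pw_rectP hz2))).trans
        (Pw.mono (hsub _ _ le_rfl (by omega)) (Pw.symm (pw_rectP hz1)))
    obtain ⟨u, hu, hwu⟩ := last_exit (b := (0, 0)) hr1 (y := w') (by
      rw [mem_sites_hbox hr1]; simp only; omega) p1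
    refine ⟨u, hu, y, mem_Wr h hN0 y1 (by omega) (by omega), ?_, ?_⟩
    · rw [hwu.parity, y3]
    · refine Pw.mono (fun v hv => ?_) hwu
      refine ⟨hv.1.1, ?_⟩
      rw [Finset.mem_coe, Finset.mem_sdiff]
      exact ⟨hv.1.2, hv.2⟩

end Vale.Agent.P167.N.BT
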