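import Vale.Agent.P167.N.BT.BumpT

/-!
# P167, `0 < q < 1`, block BT: `RatT'`

`ratT'_of`: the finite-volume bridge `S_BT`, the factorisation `S_FCT`, the geometry of the shapes (`S_winT`, `S_mirT`,
`S_Par`), the asymptotics `S_IdP` and the comparison `S_BB` of the two charges at the base point give `RatT'`.
-/

set_option autoImplicit false

namespace Vale.Agent.P167.N.BT

open MeasureTheory Filter Topology Set
open Vale.Agent.P167 Vale.Agent.P167.BR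
open Vale.Agent.P167.QT (Sh4 F4 msq)
open Vale.Agent.P167.BQ460 (eN ka md lb a2 num_a num_R len_le q_md mem_D)
open Vale.Agent.P167.CA (cms)
open Vale.Agent.P167.H411.Q (fb)
open Vale.Agent.P167.H375 (Sh domT extT arcw FF4 hT)
open Vale.Agent.P167.QB (XG)
open Vale.Agent.P167.FK (Ex)
open Vale.Agent.P167.H192.TA (Xc)
open Vale.Agent.P167.H436.ND (Ft)

variable {μ : ℝ}

/-! ### Real numbers -/

theorem log_near {x y e : ℝ} (hy : 0 < y) (he : e ≤ 1 / 2) (h : |x - y| ≤ e * y) :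
    0 < x ∧ |Real.log x - Real.log y| ≤ 2 * e := by
  have h1 := abs_le.1 h
  have he0 : 0 ≤ e := by
    by_contra hc
    push Not at hc
    have := abs_nonneg (x - y)
    nlinarith
  have hx : 0 < x := by nlinarith [h1.1]
  refine ⟨hx, ?_⟩
  rw [← Real.log_div hx.ne' hy.ne']
  have hz : 0 < x / y := div_pos hx hy
  have z1 : x / y ≤ 1 + e := by
    rw [div_le_iff₀ hy]
    linarith [h1.2]
  have z2 : 1 - e ≤ x / y := by
    rw [le_div_iff₀ hy]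
    linarith [h1.1]
  rw [abs_le]
  constructor
  · have h3 := Real.one_sub_inv_le_log_of_pos hz
    have h4 : (x / y)⁻¹ ≤ 1 + 2 * e := by
      rw [inv_le_comm₀ hz (by linarith)]
      refine le_trans ?_ z2
      rw [inv_le_iff_one_le_mul₀ (by linarith)]
      nlinarith
    linarith
  · have h3 := Real.log_le_sub_one_of_pos hz
    linarith

theorem exp_near {x y e M : ℝ} (hM : Real.exp y ≤ M) (he : e ≤ 1) (h : |x - y| ≤ e) :
    |Real.exp x - Real.exp y| ≤ M * (2 * e) := by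
  have e1 : Real.exp x - Real.exp y = Real.exp y * (Real.exp (x - y) - 1) := by
    rw [mul_sub, ← Real.exp_add, mul_one]
    congr 2
    ring
  rw [e1, abs_mul, abs_of_pos (Real.exp_pos y)]
  have h2 := Real.abs_exp_sub_one_le (x := x - y) (h.trans he)
  refine mul_le_mul hM (h2.trans ?_) (abs_nonneg _) ((Real.exp_pos y).le.trans hM)
  linarith

theorem fin_min {α : Type*} {s : Set α} (hs : s.Finite) {p : α → ℝ → Prop}
    (h : ∀ a ∈ s, ∃ δ : ℝ, 0 < δ ∧ ∀ x, 0 < x → x ≤ δ → p a x) :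
    ∃ δ : ℝ, 0 < δ ∧ ∀ a ∈ s, ∀ x, 0 < x → x ≤ δ → p a x := by
  induction s, hs using Set.Finite.induction_on with
  | empty => exact ⟨1, one_pos, fun a ha => absurd ha (notMem_empty a)⟩
  | @insert a s _ _ ih =>
    obtain ⟨δ, hδ, h1⟩ := ih fun b hb => h b (mem_insert_of_mem _ hb)
    obtain ⟨δ', hδ', h2⟩ := h a (mem_insert _ _)
    refine ⟨min δ δ', lt_min hδ hδ', fun b hb x hx hx' => ?_⟩
    rcases mem_insert_iff.1 hb with rfl | hb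
    · exact h2 x hx (hx'.trans (min_le_right _ _))
    · exact h1 b hb x hx (hx'.trans (min_le_left _ _))

theorem pos_iff {P : Sh} {u v : ℝ} : P.Pos u v ↔ (toSh4 P).Pos u v := Iff.rfl

/-- The conformal quantity is well defined. -/
theorem pos_uniq {χp χ : ℂ → ℝ} (hI : S_IdP μ χp χ) {P : Sh4} (h : P.Ok 2) {u v u' v' : ℝ} (h1 : P.Pos u v)
    (h2 : P.Pos u' v') : hT μ * Real.log (v * (1 - u)) = hT μ * Real.log (v' * (1 - u')) := by
  obtain ⟨G, hG⟩ := hI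
  have key : ∀ ε : ℝ, 0 < ε →
      |hT μ * Real.log (v * (1 - u)) - hT μ * Real.log (v' * (1 - u'))| ≤ 0 + ε := by
    intro ε hε
    obtain ⟨δ, hδ, e1⟩ := hG P h u v h1 (ε / 2) (by positivity)
    obtain ⟨δ', hδ', e2⟩ := hG P h u' v' h2 (ε / 2) (by positivity)
    have hm : 0 < min δ δ' := lt_min hδ hδ'
    obtain ⟨N, a1, a2⟩ := ((e1 _ hm (min_le_left _ _) _ hm (min_le_left _ _)).and
      (e2 _ hm (min_le_right _ _) _ hm (min_le_right _ _))).exists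
    have b1 := abs_le.1 a1.2
    have b2 := abs_le.1 a2.2
    rw [abs_le]
    constructor <;> linarith [b1.1, b1.2, b2.1, b2.2]
  have := le_of_forall_pos_le_add key
  exact sub_eq_zero.1 (abs_nonpos_iff.1 this)

/-- Monotonicity of the admissible pairs. -/
theorem AdmT.mono {v₀ : ℤ × ℤ} {r R r' R' : ℤ} {Z : Finset (ℤ × ℤ)} {ζ : Cfg} (h : AdmT v₀ r R Z ζ)
    (hr : r' ≤ r) (hR : R ≤ R') : AdmT v₀ r' R' Z ζ := by
  refine ⟨fun v hv => h.low ?_, fun v hv => ?_, h.sld, h.conn⟩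
  · rw [mem_hbox] at hv ⊢
    omega
  · have := h.sub hv
    rw [mem_hbox] at this ⊢
    omega

/-- The two sums for one shape. -/
theorem sums_T (h0 : 0 < 2 * Real.cos μ) (hw : S_winT) (hm : S_mirT) {P : Sh} (h : (toSh4 P).Ok 2) {N : ℕ}
    (hN : 4 ∣ N) (hN4 : 4 ≤ N) {r R₁ : ℤ} (hR₁ : R₁ + 2 ≤ ((N / 2 : ℕ) : ℤ))
    {g : ℤ × ℤ → ℝ} {ι : Type} [Fintype ι] {c : ι → ℝ} {Z : ι → Finset (ℤ × ℤ)} {ζ : ι → Cfg}
    (hadm : ∀ i, AdmT (0, 0) r R₁ (Z i) (ζ i))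
    (H : ∀ (n : ℕ) (q : ZMod n → ℤ × ℤ) (D : Finset (ℤ × ℤ)) (η : Cfg) (k l : ℕ) (R : ℤ),
      WinD q D η k l R → q l = (0, 0) → R₁ + 2 ≤ R → ∀ ω : Cfg,
        XG μ q D k g ω * (Xc false (0, 0) r R₁)ᶜ.indicator 1 ω =
          ∑ i, c i * fzT D (Z i) (ζ i) (Wr q k) ω ∧
        max (-XG μ q D k g ω) 0 * (Xc false (0, 0) r R₁)ᶜ.indicator 1 ω =
          ∑ i, max (-c i) 0 * fzT D (Z i) (ζ i) (Wr q k) ω) :
    (∀ i, AdmT (0, 0) r R₁ ((Z i).image msq) (ζ i ∘ msq)) ∧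
    Ex (2 * Real.cos μ) ((Sh4.dat h).D N) (eN h N) (fun ω =>
        XG μ (H825.Q.qS (Sh4.dat h) N) ((Sh4.dat h).D N) (ka (toSh4 P) N) g ω *
          (Xc false (0, 0) r R₁)ᶜ.indicator 1 ω) =
      ∑ i, c i * PTz μ N (0, 0) P ((Z i).image msq) (ζ i ∘ msq) ∧
    Ex (2 * Real.cos μ) ((Sh4.dat h).D N) (eN h N) (fun ω =>
        max (-XG μ (H825.Q.qS (Sh4.dat h) N) ((Sh4.dat h).D N) (ka (toSh4 P) N) g ω) 0 *
          (Xc false (0, 0) r R₁)ᶜ.indicator 1 ω) =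
      ∑ i, max (-c i) 0 * PTz μ N (0, 0) P ((Z i).image msq) (ζ i ∘ msq) := by
  have hN0 : 0 < N := by omega
  have hev : Even N := by obtain ⟨M, hM⟩ := hN; exact ⟨2 * M, by omega⟩
  have hW := hw (toSh4 P) h N hN hN4
  have key := fun ω => H _ _ _ _ _ _ _ hW (q_md h hN0) hR₁ ω
  have hsub : ∀ i, Z i ⊆ (Sh4.dat h).D N := by
    intro i v hv
    have h1 := (hadm i).sub hv
    rw [mem_hbox] at h1
    rw [mem_D h hN0]
    · simp only at h1; omega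
    all_goals
      have g2 := h.j_lt
      have hlj : (2 : ℤ) ≤ ((toSh4 P).l : ℤ) - (toSh4 P).j := by omega
      have hLN : 2 * (N : ℤ) ≤ (((toSh4 P).l : ℤ) - (toSh4 P).j) * N :=
        mul_le_mul_of_nonneg_right hlj (by positivity)
      have hLN2 : (((toSh4 P).l : ℤ) - (toSh4 P).j + (2 : ℕ)) * N =
          (((toSh4 P).l : ℤ) - (toSh4 P).j) * N + 2 * N := by
        push_cast; ring
      simp only at h1
      first
        | (push_cast; omega)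
        | (rw [hLN2]; omega)
  have hM := fun i => hm μ h0 P h N (by omega) hev r R₁ (Z i) (ζ i) (hadm i) (hsub i)
  refine ⟨fun i => (hM i).1, ?_, ?_⟩
  · rw [show (fun ω => XG μ (H825.Q.qS (Sh4.dat h) N) ((Sh4.dat h).D N) (ka (toSh4 P) N) g ω *
        (Xc false (0, 0) r R₁)ᶜ.indicator 1 ω) = fun ω => ∑ i, c i *
          fzT ((Sh4.dat h).D N) (Z i) (ζ i) (Wr (H825.Q.qS (Sh4.dat h) N) (ka (toSh4 P) N)) ω from
      funext fun ω => (key ω).1, FKA.Ex_sum]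
    refine Finset.sum_congr rfl fun p _ => ?_
    rw [FKA.Ex_mul_left, (hM p).2]
  · rw [show (fun ω => max (-XG μ (H825.Q.qS (Sh4.dat h) N) ((Sh4.dat h).D N) (ka (toSh4 P) N) g ω) 0 *
        (Xc false (0, 0) r R₁)ᶜ.indicator 1 ω) = fun ω => ∑ i, max (-c i) 0 *
          fzT ((Sh4.dat h).D N) (Z i) (ζ i) (Wr (H825.Q.qS (Sh4.dat h) N) (ka (toSh4 P) N)) ω from
      funext fun ω => (key ω).2, FKA.Ex_sum]
    refine Finset.sum_congr rfl fun p _ => ?_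
    rw [FKA.Ex_mul_left, (hM p).2]

/-- The numbers for one functional. -/
theorem ex_T {Q : ℝ} (hQ : 0 < Q) {D : Finset (ℤ × ℤ)} {η : Cfg} {X : Cfg → ℝ} {A : Set Cfg} {ε : ℝ}
    (h1 : Ex Q D η (fun ω => A.indicator 1 ω * |X ω|) ≤ ε * Ex Q D η X)
    (h2 : Ex Q D η (fun ω => max (-X ω) 0) ≤ ε * Ex Q D η X) :
    |Ex Q D η (fun ω => X ω * Aᶜ.indicator 1 ω) - Ex Q D η X| ≤ ε * Ex Q D η X ∧
    Ex Q D η (fun ω => max (-X ω) 0 * Aᶜ.indicator 1 ω) ≤ ε * Ex Q D η X ∧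
    Ex Q D η (fun ω => |X ω|) ≤ (1 + 2 * ε) * Ex Q D η X := by
  have hi : ∀ ω, (Aᶜ.indicator 1 ω : ℝ) = 1 - A.indicator 1 ω := by
    intro ω
    by_cases h : ω ∈ A
    · rw [Set.indicator_of_mem h, Set.indicator_of_notMem (by simpa using h)]
      simp
    · rw [Set.indicator_of_notMem h, Set.indicator_of_mem (by simpa using h)]
      simp
  have hi0 : ∀ ω, (0 : ℝ) ≤ A.indicator 1 ω ∧ (A.indicator 1 ω : ℝ) ≤ 1 := by
    intro ω
    by_cases h : ω ∈ A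
    · rw [Set.indicator_of_mem h]
      simp
    · rw [Set.indicator_of_notMem h]
      simp
  refine ⟨?_, ?_, ?_⟩
  · have e1 : Ex Q D η (fun ω => X ω * Aᶜ.indicator 1 ω) - Ex Q D η X =
        -Ex Q D η (fun ω => A.indicator 1 ω * X ω) := by
      rw [← FKA.Ex_sub, ← FKA.Ex_neg]
      refine FKA.Ex_congr fun S _ => ?_
      rw [hi]
      ring
    rw [e1, abs_neg, abs_le]
    constructor
    · have h3 : Ex Q D η (fun ω => -(A.indicator 1 ω * X ω)) ≤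
          Ex Q D η (fun ω => A.indicator 1 ω * |X ω|) := by
        refine FKA.Ex_mono hQ fun S _ => ?_
        rw [← mul_neg]
        exact mul_le_mul_of_nonneg_left (neg_le_abs _) (hi0 _).1
      rw [FKA.Ex_neg] at h3
      linarith
    · have h3 : Ex Q D η (fun ω => A.indicator 1 ω * X ω) ≤
          Ex Q D η (fun ω => A.indicator 1 ω * |X ω|) := by
        refine FKA.Ex_mono hQ fun S _ => ?_
        exact mul_le_mul_of_nonneg_left (le_abs_self _) (hi0 _).1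
      linarith
  · refine (FKA.Ex_mono hQ fun S _ => ?_).trans h2
    rw [hi]
    have h3 := (hi0 (FK.cf D η S)).1
    have h4 : 0 ≤ max (-X (FK.cf D η S)) 0 := le_max_right _ _
    nlinarith
  · have e1 : Ex Q D η (fun ω => |X ω|) =
        Ex Q D η X + 2 * Ex Q D η (fun ω => max (-X ω) 0) := by
      rw [← FKA.Ex_mul_left, ← FKA.Ex_add]
      refine FKA.Ex_congr fun S _ => ?_
      rcases le_total 0 (X (FK.cf D η S)) with h | h
      · rw [abs_of_nonneg h, max_eq_right (by linarith)]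
        ring
      · rw [abs_of_nonpos h, max_eq_left (by linarith)]
        ring
    rw [e1]
    linarith

theorem neg_T {S V ε ε₁ : ℝ} (h1 : 0 < ε₁) (h2 : ε₁ ≤ 1 / 20) (h4 : 2 * ε₁ ≤ ε) (hV : 0 < V)
    (hS : 0 < S) (z : -(ε₁ * V) ≤ S - V) : ε₁ * V ≤ ε * S := by
  have a : 2 * ε₁ * S ≤ ε * S := mul_le_mul_of_nonneg_right h4 hS.le
  have b : V / 2 ≤ S := by nlinarith
  have c : 2 * ε₁ * (V / 2) ≤ 2 * ε₁ * S := mul_le_mul_of_nonneg_left b (by linarith)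
  linarith

/-- The logarithm for one shape. -/
theorem log_T {S V W τ G L E ε : ℝ} (hε0 : 0 < ε) (hε : ε ≤ 1 / 20) (hV : 0 < V) (hτ : 0 < τ)
    (h1 : |S - V| ≤ ε * V) (h2 : |Real.log W - (G + L)| ≤ ε) (hE : E ≤ (1 + 2 * ε) * V)
    (h3 : |W - τ * V| ≤ ε * (τ * E)) : |Real.log S - (G + L - Real.log τ)| ≤ 6 * ε := by
  have hτV : 0 < τ * V := mul_pos hτ hV
  have h4 : |W - τ * V| ≤ (3 / 2 * ε) * (τ * V) := by
    refine h3.trans ?_
    have : τ * E ≤ τ * ((1 + 2 * ε) * V) := mul_le_mul_of_nonneg_left hE hτ.le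
    calc ε * (τ * E) ≤ ε * (τ * ((1 + 2 * ε) * V)) := mul_le_mul_of_nonneg_left this hε0.le
      _ = ε * (1 + 2 * ε) * (τ * V) := by ring
      _ ≤ _ := by
        refine mul_le_mul_of_nonneg_right ?_ hτV.le
        nlinarith
  obtain ⟨-, k1⟩ := log_near hV (by linarith) h1
  obtain ⟨-, k2⟩ := log_near hτV (by linarith) h4
  rw [Real.log_mul hτ.ne' hV.ne'] at k2
  have b1 := abs_le.1 k1
  have b2 := abs_le.1 k2
  have b3 := abs_le.1 h2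
  rw [abs_le]
  constructor <;> linarith [b1.1, b1.2, b2.1, b2.2, b3.1, b3.2]

/-- **[RATT']** -/
theorem ratT'_of (h0 : 0 < 2 * Real.cos μ) (hB : S_BT μ) (hF : S_FCT μ) (hw : S_winT) (hm : S_mirT)
    (hP : S_Par (2 * Real.cos μ)) {χp : ℂ → ℝ} {K₀ : ℤ} (hI : ∀ K : ℤ, K₀ ≤ K → S_IdP μ χp (chq K))
    (hbb : ∀ K : ℤ, K₀ ≤ K → S_BB μ χp (chq K)) : RatT' μ OkT := by
  intro Shs hfin hok r₁ hr₁ ε hε
  rcases Shs.eq_empty_or_nonempty with hemp | hne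
  · subst hemp
    refine ⟨1, one_pos, Eventually.of_forall fun N => ⟨Empty, inferInstance, Empty.elim, Empty.elim,
      Empty.elim, fun i => i.elim, fun P hP => absurd hP (notMem_empty P),
      fun P hP => absurd hP (notMem_empty P)⟩⟩
  -- the conformal quantities
  obtain ⟨L, hL⟩ : ∃ L : Sh → ℝ, ∀ P ∈ Shs, ∀ u v, P.Pos u v → hT μ * Real.log (v * (1 - u)) = L P := by
    have h1 : ∀ P : Sh, ∃ l : ℝ, P ∈ Shs → ∀ u v, P.Pos u v → hT μ * Real.log (v * (1 - u)) = l := by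
      intro P
      by_cases hPS : P ∈ Shs
      · obtain ⟨h, u, v, huv⟩ := hok P hPS
        exact ⟨_, fun _ u' v' huv' => pos_uniq (hI K₀ le_rfl) h huv' huv⟩
      · exact ⟨0, fun h => absurd h hPS⟩
    choose L hL using h1
    exact ⟨L, fun P hP => hL P hP⟩
  obtain ⟨M, hM1, hM⟩ : ∃ M : ℝ, 1 ≤ M ∧ ∀ P ∈ Shs, ∀ P₀ ∈ Shs, Real.exp (L P - L P₀) ≤ M := by
    obtain ⟨M, hM⟩ := ((hfin.prod hfin).image fun x : Sh × Sh => Real.exp (L x.1 - L x.2)).bddAbove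
    exact ⟨max M 1, le_max_right _ _, fun P hP P₀ hP₀ =>
      (hM (Set.mem_image_of_mem _ (Set.mk_mem_prod hP hP₀))).trans (le_max_left _ _)⟩
  -- the precision
  obtain ⟨ε₁, hε1, hε2, hε3⟩ : ∃ ε₁ : ℝ, 0 < ε₁ ∧ ε₁ ≤ 1 / 20 ∧ M * (24 * ε₁) ≤ ε := by
    refine ⟨min (1 / 20) (ε / (24 * M)), by positivity, min_le_left _ _, ?_⟩
    have : min (1 / 20) (ε / (24 * M)) ≤ ε / (24 * M) := min_le_right _ _
    calc _ ≤ M * (24 * (ε / (24 * M))) := by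
          refine mul_le_mul_of_nonneg_left ?_ (by linarith)
          linarith
      _ = ε := by field_simp
  have hε4 : 2 * ε₁ ≤ ε := by nlinarith
  obtain ⟨Kg, hKg, hB1⟩ := hB ε₁ hε1
  obtain ⟨K, hK1, hK2⟩ : ∃ K : ℤ, Kg ≤ K ∧ K₀ ≤ K := ⟨max Kg K₀, le_max_left _ _, le_max_right _ _⟩
  have hK8 : 8 ≤ K := hKg.trans hK1
  have hK1' : 1 ≤ K := by omega
  have hKR : (8 : ℝ) ≤ K := by exact_mod_cast hK8
  -- the length of the shapes
  obtain ⟨B, hBd⟩ : ∃ B : ℕ, ∀ P ∈ Shs, P.m + 1 - P.l ≤ B := by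
    obtain ⟨B, hB'⟩ := (hfin.image fun P : Sh => P.m + 1 - P.l).bddAbove
    exact ⟨B, fun P hP => hB' (Set.mem_image_of_mem _ hP)⟩
  obtain ⟨ρ₁, hρ1, hρ2, hρ3⟩ : ∃ ρ₁ : ℝ, 0 < ρ₁ ∧ ρ₁ ≤ r₁ ∧ ρ₁ * (8 * K) ≤ 1 := by
    refine ⟨min r₁ (1 / (8 * K)), by positivity, min_le_left _ _, ?_⟩
    have : min r₁ (1 / (8 * (K : ℝ))) ≤ 1 / (8 * K) := min_le_right _ _
    calc _ ≤ 1 / (8 * (K : ℝ)) * (8 * K) := mul_le_mul_of_nonneg_right this (by positivity)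
      _ = 1 := by field_simp
  obtain ⟨c₁, s₁, hc₁, -, hd₁⟩ := hP ⌈2 * (B : ℝ) / ρ₁⌉₊
  obtain ⟨t₀', a₀, ht₀', hB2⟩ := hB1 K hK1 c₁ hc₁
  obtain ⟨t₀, ht₀, ht₀1, ht₀2⟩ : ∃ t₀ : ℝ, 0 < t₀ ∧ t₀ ≤ t₀' ∧ t₀ ≤ 1 / 16 :=
    ⟨min t₀' (1 / 16), by positivity, min_le_left _ _, min_le_right _ _⟩
  -- the scales of the charges
  obtain ⟨G, hG⟩ := hI K hK2
  obtain ⟨τ, hτ, hbK⟩ := hbb K hK2
  obtain ⟨δ₁, hδ₁, hId⟩ := fin_min (s := Shs) hfin (p := fun P δ => ∀ h : (toSh4 P).Ok 2,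
      ∀ ρ : ℝ, 0 < ρ → ∀ η : ℝ, 0 < η → max η ρ = δ → ∀ᶠ N : ℕ in F4,
      0 < VT μ h N (fun z => qd μ (chq K) η N z - qb μ χp h ρ N z) ∧
      |Real.log (VT μ h N (fun z => qd μ (chq K) η N z - qb μ χp h ρ N z)) -
        (G η ρ N + L P)| ≤ ε₁) (by
    intro P hPS
    obtain ⟨h, u, v, huv⟩ := hok P hPS
    obtain ⟨δ, hδ, h1⟩ := hG (toSh4 P) h u v huv ε₁ hε1
    refine ⟨δ, hδ, fun x hx hxδ h' ρ hρ η hη hx' => ?_⟩
    have h2 := h1 η hη ((le_max_left _ _).trans (hx'.le.trans hxδ)) ρ hρ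
      ((le_max_right _ _).trans (hx'.le.trans hxδ))
    rw [hL P hPS u v huv] at h2
    exact h2)
  obtain ⟨δ₀, hδ₀, hb0⟩ := fin_min (s := Shs) hfin (p := fun P η => ∀ h : (toSh4 P).Ok 2,
      ∀ ε : ℝ, 0 < ε → ∃ δ : ℝ, 0 < δ ∧ ∀ ρ : ℝ, 0 < ρ → ρ ≤ δ → ∀ᶠ N : ℕ in F4,
      |VT μ h N (fun z => qd μ (chq K) η N z - qb μ χp h ρ N z) - τ ρ N * VT μ h N (qd μ (chq K) η N)| ≤
        ε * (τ ρ N * Ex (2 * Real.cos μ) ((Sh4.dat h).D N) (eN h N) (fun ω =>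
          |XG μ (H825.Q.qS (Sh4.dat h) N) ((Sh4.dat h).D N) (ka (toSh4 P) N) (qd μ (chq K) η N) ω|))) (by
    intro P hPS
    obtain ⟨h, u, v, huv⟩ := hok P hPS
    obtain ⟨δ, hδ, h1⟩ := hbK (toSh4 P) h u v huv
    exact ⟨δ, hδ, fun x hx hxδ h' => h1 x hx hxδ⟩)
  obtain ⟨η, hη, hηt, hηδ, hη0⟩ : ∃ η : ℝ, 0 < η ∧ η ≤ t₀ * ρ₁ ∧ η ≤ δ₁ ∧ η ≤ δ₀ :=
    ⟨min (t₀ * ρ₁) (min δ₁ δ₀), by positivity, min_le_left _ _,
      (min_le_right _ _).trans (min_le_left _ _), (min_le_right _ _).trans (min_le_right _ _)⟩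
  obtain ⟨δ₂, hδ₂, hBb⟩ := fin_min (s := Shs) hfin (p := fun P ρ => ∀ h : (toSh4 P).Ok 2,
      ∀ᶠ N : ℕ in F4,
      |VT μ h N (fun z => qd μ (chq K) η N z - qb μ χp h ρ N z) - τ ρ N * VT μ h N (qd μ (chq K) η N)| ≤
        ε₁ * (τ ρ N * Ex (2 * Real.cos μ) ((Sh4.dat h).D N) (eN h N) (fun ω =>
          |XG μ (H825.Q.qS (Sh4.dat h) N) ((Sh4.dat h).D N) (ka (toSh4 P) N) (qd μ (chq K) η N) ω|))) (by
    intro P hPS
    obtain ⟨h, -⟩ := hok P hPS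
    obtain ⟨δ, hδ, h1⟩ := hb0 P hPS η hη hη0 h ε₁ hε1
    exact ⟨δ, hδ, fun x hx hxδ h' => h1 x hx hxδ⟩)
  obtain ⟨ρ, hρ, hρδ, hρδ2⟩ : ∃ ρ : ℝ, 0 < ρ ∧ ρ ≤ δ₁ ∧ ρ ≤ δ₂ :=
    ⟨min δ₁ δ₂, by positivity, min_le_left _ _, min_le_right _ _⟩
  have hηK : 0 < η / K := by positivity
  have E1 : ∀ᶠ N : ℕ in F4, ∀ P ∈ Shs, ∀ h : (toSh4 P).Ok 2,
      0 < VT μ h N (fun z => qd μ (chq K) η N z - qb μ χp h ρ N z) ∧
      |Real.log (VT μ h N (fun z => qd μ (chq K) η N z - qb μ χp h ρ N z)) -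
        (G η ρ N + L P)| ≤ ε₁ := by
    rw [eventually_all_finite hfin]
    intro P hPS
    have h := (hok P hPS).1
    have h1 := hId P hPS (max η ρ) (lt_max_of_lt_left hη) (max_le hηδ hρδ) h ρ hρ η hη rfl
    exact h1.mono fun N hN _ => hN
  have E2 : ∀ᶠ N : ℕ in F4, ∀ P ∈ Shs, ∀ h : (toSh4 P).Ok 2,
      |VT μ h N (fun z => qd μ (chq K) η N z - qb μ χp h ρ N z) - τ ρ N * VT μ h N (qd μ (chq K) η N)| ≤
        ε₁ * (τ ρ N * Ex (2 * Real.cos μ) ((Sh4.dat h).D N) (eN h N) (fun ω =>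
          |XG μ (H825.Q.qS (Sh4.dat h) N) ((Sh4.dat h).D N) (ka (toSh4 P) N) (qd μ (chq K) η N) ω|)) := by
    rw [eventually_all_finite hfin]
    intro P hPS
    have h := (hok P hPS).1
    exact (hBb P hPS ρ hρ hρδ2 h).mono fun N hN _ => hN
  have hlarge : ∀ X : ℝ, ∀ y : ℝ, 0 < y → ∀ᶠ N : ℕ in atTop, X ≤ y * N := fun X y hy => by
    filter_upwards [tendsto_natCast_atTop_atTop.eventually_ge_atTop (X / y)] with N hN
    rwa [div_le_iff₀ hy, mul_comm] at hN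
  refine ⟨η, hη, ?_⟩
  have E3 : ∀ᶠ N : ℕ in F4, 4 ∣ N := eventually_inf_principal.2 (Eventually.of_forall fun N h => h)
  have E4 : ∀ᶠ N : ℕ in F4, _ := QT.F4_le ((bp2_lb hη).and ((bp2_lb hηK).and
    ((hlarge (max (4 * s₁) 100) ρ₁ hρ1).and ((hlarge (max (4 * |(a₀ : ℝ)|) 100) (η / K) hηK).and
      (eventually_ge_atTop 100)))))
  show ∀ᶠ N : ℕ in F4, _
  filter_upwards [E1, E2, E3, E4] with N m1 m2 hN4' m4
  obtain ⟨n1, n2, n4, n5, n8⟩ := m4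
  have hNh : (((N / 2 : ℕ) : ℤ) : ℝ) = N / 2 := by
    obtain ⟨M, hM⟩ := hN4'
    have : N / 2 = 2 * M := by omega
    rw [this, hM]; push_cast; ring
  have hN0 : 0 < N := by omega
  obtain ⟨u1, u2, u3, u4, u5, u6, u7, u8⟩ := num_a (N := N) a₀ hK8 ((le_max_left _ _).trans n5)
    ((le_max_right _ _).trans n5)
  obtain ⟨v1, v2, v3, v4, v5, v6, v7⟩ := num_R (N := N) hK8 ht₀ ht₀1 ht₀2 hρ3
    ((le_max_right _ _).trans n4) hηt u8 ((le_max_left _ _).trans n4) rfl hNh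
  have hb := bp2_g2 (K := K) n2 n1
  obtain ⟨R₁, hR₁⟩ : ∃ R₁ : ℤ, R₁ = ⌊ρ₁ * N⌋ := ⟨_, rfl⟩
  have hRr : R₁ ≤ ⌊r₁ * N⌋ := by
    rw [hR₁]
    exact Int.floor_le_floor (mul_le_mul_of_nonneg_right hρ2 (Nat.cast_nonneg N))
  rw [← hR₁] at v1 v2 v3 v4 v5 v6 v7
  obtain ⟨ι, hι, c, Z, ζ, hadm, hfac⟩ := hF (0, 0) (4 * a2 K η N 1) R₁ (by omega) (by omega)
    (qd μ (chq K) η N) (fun z hz => qd_supp hK1' hη hb u4 (by omega) hz) (qd_sum hK1' hη hN0)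
  -- one shape
  have one : ∀ P ∈ Shs, (∀ i, AdmT (0, 0) (4 * a2 K η N 1) R₁ ((Z i).image msq) (ζ i ∘ msq)) ∧
      0 < ∑ i, c i * PTz μ N (0, 0) P ((Z i).image msq) (ζ i ∘ msq) ∧
      ∑ i, max (-c i) 0 * PTz μ N (0, 0) P ((Z i).image msq) (ζ i ∘ msq) ≤
        ε * ∑ i, c i * PTz μ N (0, 0) P ((Z i).image msq) (ζ i ∘ msq) ∧
      |Real.log (∑ i, c i * PTz μ N (0, 0) P ((Z i).image msq) (ζ i ∘ msq)) -
        (G η ρ N + L P - Real.log (τ ρ N))| ≤ 6 * ε₁ := by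
    intro P hPS
    obtain ⟨h, -⟩ := hok P hPS
    have h : (toSh4 P).Ok 2 := h
    obtain ⟨S0, S1, S2⟩ := sums_T h0 hw hm h hN4' (by omega) (by omega) hadm hfac
    have w2 := (m1 P hPS h).2
    have w3 := m2 P hPS h
    have q1 := q_md h hN0
    have hW := hw (toSh4 P) h N hN4' (by omega)
    have hLB : ((toSh4 P).m : ℤ) + 1 - (toSh4 P).l ≤ B := by
      have h1 := hBd P hPS
      have h2 : (toSh4 P).m = P.m := rfl
      have h3 : (toSh4 P).l = P.l := rfl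
      omega
    have hd := hd₁ (toSh4 P) h N R₁ hN4' (by omega) v6 (by omega) (len_le hρ1 hLB v5)
    have key := hB2 _ _ _ _ _ _ _ hW (a2 K η N) u1 u3 u5 (g2 K η N) (by
      intro i
      rw [q1]
      exact hb i) R₁ v1 ((mul_le_mul_of_nonneg_right hK1 (by omega)).trans v3) (by rw [q1]; exact hd)
    unfold XT at key
    rw [Ft_g2 hK1' hη, q1] at key
    obtain ⟨k1, k2, k3⟩ := key
    obtain ⟨x1, x2, x3⟩ := ex_T h0 k2 k3
    rw [S1] at x1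
    rw [S2] at x2
    obtain ⟨y1, -⟩ := log_near k1 (by linarith) x1
    refine ⟨S0, y1, x2.trans ?_, log_T hε1 hε2 k1 (hτ ρ N) x1 w2 x3 w3⟩
    exact neg_T hε1 hε2 hε4 k1 y1 (abs_le.1 x1).1
  obtain ⟨P₁, hP₁⟩ := hne
  refine ⟨ι, hι, c, fun i => (Z i).image msq, fun i => ζ i ∘ msq,
    fun i => ((one P₁ hP₁).1 i).mono u7 hRr, fun P hPS => ⟨(one P hPS).2.1, (one P hPS).2.2.1⟩,
    fun P hPS P₀ hPS₀ u v u₀ w₀ huv huv₀ => ?_⟩
  obtain ⟨-, p1, -, p3⟩ := one P hPS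
  obtain ⟨-, p1', -, p3'⟩ := one P₀ hPS₀
  have c1 := huv.cpos
  have c0 := huv₀.cpos
  have e1 : ((v * (1 - u)) / (w₀ * (1 - u₀))) ^ hT μ = Real.exp (L P - L P₀) := by
    rw [Real.rpow_def_of_pos (div_pos c1 c0), Real.log_div c1.ne' c0.ne', ← hL P hPS u v huv,
      ← hL P₀ hPS₀ u₀ w₀ huv₀]
    congr 1
    ring
  rw [e1]
  have e2 : ∀ x y : ℝ, 0 < x → 0 < y → x / y = Real.exp (Real.log x - Real.log y) := by
    intro x y hx hy
    rw [Real.exp_sub, Real.exp_log hx, Real.exp_log hy]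
  rw [e2 _ _ p1 p1']
  refine (exp_near (hM P hPS P₀ hPS₀) (e := 12 * ε₁) (by linarith) ?_).trans ?_
  · have b1 := abs_le.1 p3
    have b2 := abs_le.1 p3'
    rw [abs_le]
    constructor <;> linarith [b1.1, b1.2, b2.1, b2.2]
  · calc M * (2 * (12 * ε₁)) = M * (24 * ε₁) := by ring
      _ ≤ ε := hε3

end Vale.Agent.P167.N.BT
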