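import Vale.Agent.P167.N.BT.SumT
import Vale.Agent.P167.H192.TA.Main

/-!
# P167, t-bridge, BT3 (6): the dual arm as a crossing, the statement `S_FCT`

`harmD_iff_xc`: the dual arm of the exploration is the crossing `Xc false` of the half annulus.
`s_FCT`: the factorisation (BT3).
-/

set_option autoImplicit false

namespace Vale.Agent.P167.N.BT

open Finset Relation Vale.Agent.P167 Vale.Agent.P167.BR
open Vale.Agent.P145.FB (PStep)
open Vale.Agent.P167.QB (LeftIn FL XG GI)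
open Vale.Agent.P167.E6 (IsPolygon Encloses)
open Vale.Agent.P167.H640.CZ (chi)
open Vale.Agent.P167.H192.TA (Xc dq sr Pw step_sr)
open Vale.Agent.P167.H632 (cs pr)
open Vale.Agent.P167.FK (Ex)

variable {b : ℤ × ℤ} {r r1 R1 R : ℤ} {ω : Cfg} {D : Finset (ℤ × ℤ)}
  {n m k : ℕ} {q : ZMod n → ℤ × ℤ} {θ : ℝ} {f : ℤ × ℤ → ℝ}

theorem hd_eq : hd b r R ω = cs false ω ∩ dq b r R := by
  ext w
  simp only [hd, cs, dq, Set.mem_ofPred_eq, Set.mem_inter_iff, mem_hbox]
  constructor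
  · rintro ⟨h1, h2, h3⟩
    exact ⟨h3, by omega⟩
  · rintro ⟨h1, h2⟩
    exact ⟨by omega, by omega, h1⟩

/-- **The dual arm is the crossing of the half annulus by closed squares.** -/
theorem harmD_iff_xc (hrR : r < R) : HArmD b r R ω ↔ ω ∈ Xc false b r R := by
  constructor
  · rintro ⟨u, v, h1, h2, h3, h4⟩
    rw [hd_eq] at h4
    refine ⟨u, v, ?_, ?_, h2, h4, h3⟩
    · rcases ReflTransGen.cases_head h4 with h6 | ⟨w, h7, -⟩
      · rw [h6] at h2
        omega
      · exact (step_sr h7).1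
    · rw [Int.even_iff] at h1
      show _ = (1 : ℤ)
      omega
  · rintro ⟨y, y', h1, h2, h3, h4, h5⟩
    refine ⟨y, y', ?_, h3, h5, ?_⟩
    · rw [Int.even_iff]
      have h2' : (y.1 + y.2) % 2 = 1 := h2
      omega
    · rw [hd_eq]
      exact h4

/-- **(BT3)** The factorisation. -/
theorem s_FCT (h0 : 0 < θ) (h1 : θ < Real.pi / 2) : S_FCT θ := by
  have hx : 0 < Real.sin θ := Real.sin_pos_of_pos_of_lt_pi h0 (by linarith [Real.pi_pos])
  have hc : 0 < Real.cos θ := Real.cos_pos_of_mem_Ioo ⟨by linarith, h1⟩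
  intro b r R₁ hr hR g hg hgs
  classical
  refine ⟨{p // p ∈ IdxT b r R₁}, inferInstance, fun p => cofT θ b r r R₁ g p.1, fun p => p.1.1,
    fun p => chi p.1.2, fun p => idxT_adm hr hR p.2, ?_⟩
  intro n q D η k l R hW hb hRR ω
  subst hb
  have key : ∀ φ : ℝ → ℝ, φ 0 = 0 →
      φ (XG θ q D k g ω) * (Xc false (q l) r R₁)ᶜ.indicator 1 ω =
        ∑ i : {p // p ∈ IdxT (q l) r R₁}, φ (cofT θ (q l) r r R₁ g i.1) *
          fzT D i.1.1 (chi i.1.2) (Wr q k) ω := by
    intro φ hφ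
    have h5 := circT_fun ω hx hc hW.win.poly hW.win.enc hW.win.flat hW.win.l1 hW.win.off hr le_rfl
      hR hRR hW.lR hW.kn hg hgs φ hφ
    rw [← Finset.sum_coe_sort] at h5
    refine Eq.trans ?_ h5
    by_cases hH : HArmD (q l) r R₁ ω
    · have hm : ω ∉ (Xc false (q l) r R₁)ᶜ := fun h => h ((harmD_iff_xc hR).1 hH)
      rw [if_pos hH, Set.indicator_of_notMem hm, mul_zero]
    · have hm : ω ∈ (Xc false (q l) r R₁)ᶜ := fun h => hH ((harmD_iff_xc hR).2 h)
      rw [if_neg hH, Set.indicator_of_mem hm, Pi.one_apply, mul_one]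
  exact ⟨key (fun x => x) rfl, key (fun x => max (-x) 0) (by simp)⟩

end Vale.Agent.P167.N.BT
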