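import Vale.Agent.P167.N.BT.IdDefs
import Vale.Agent.P167.H640.CZ.Zx

/-!
# P167, `0 < q < 1`, block BT: the window at the mark `d`, the mirror image of the frozen pairs

`s_winT : S_winT`, `s_mirT : S_mirT` (as `H460.BQ.Dar.geo2`, `H460.BQ.Mir.PZ_mir`, with the primal colour).
-/

set_option autoImplicit false

namespace Vale.Agent.P167.N.BT

open Finset Relation
open Vale.Agent.P145.FB (PStep)
open Vale.Agent.P167 Vale.Agent.P167.BR
open Vale.Agent.P167.H718 (etaW Dob OutC)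
open Vale.Agent.P167.E6 (IsPolygon Encloses dir face)
open Vale.Agent.P167.QT (Sh4 F4 msq mir mir_mir msq_msq dom rot)
open Vale.Agent.P167.BQ460 (eN ka md lc geo2 q_md md_lt_lc lc_lt_ka ka_le dob_eN mem_im_msq
  mem_sites_msq refl_mir mir_par mir_even im_msq_im qS_mir dob_ext dob_msq dom_zero D_mir
  isPolygon_rot encloses_rot)
open Vale.Agent.P167.FK (Good Ex)
open Vale.Agent.P167.FKA (Loc)
open Vale.Agent.P167.H375 (Sh domT extT arcw)
open Vale.Agent.P167.H640.CZ (mem_sites_one)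
open Vale.Agent.P167.H192.TA (Pw)
open Vale.Agent.P167.H632 (cs)

/-- **The window at the mark `d`.** -/
theorem s_winT : S_winT := by
  intro P h N hN hN4
  have G := geo2 h hN hN4
  have hN0 : 0 < N := by omega
  have h3 := md_lt_lc (N := N) h (by norm_num) hN0
  have h4 := lc_lt_ka (N := N) h hN0
  have h5 : ka P N ≤ (Sh4.dat h).l * N := ka_le h
  have hNr : ((N / 2 : ℕ) : ℤ) ≤ N := by exact_mod_cast Nat.div_le_self N 2
  refine ⟨⟨G.poly, G.enc, QB.flt_of G.fd, by omega, G.od⟩, ?_, G.kn, dob_eN h (by omega),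
    G.good, ?_⟩
  · have e1 := G.mR
    have e2 := G.lR
    have e3 := G.pc
    omega
  · intro v a1 a2 a3 a4
    refine G.fd.out v ?_ a4
    rw [H632.nm_le]
    simp only [Prod.fst_sub, Prod.snd_sub]
    omega

theorem hbox_msq {R : ℤ} {v : ℤ × ℤ} : msq v ∈ hbox (0, 0) R ↔ v ∈ hbox (0, 0) R := by
  rw [mem_hbox, mem_hbox]
  simp only [msq]
  omega

theorem sites_one_msq {s v : ℤ × ℤ} : s ∈ sites {v} ↔ mir s ∈ sites {msq v} := by
  rw [mem_sites_one, mem_sites_one]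
  unfold H640.CZ.Cor
  simp only [mir, msq]
  omega

theorem admT_msq {r R : ℤ} {Z : Finset (ℤ × ℤ)} {ζ : Cfg} (h : AdmT (0, 0) r R Z ζ) :
    AdmT (0, 0) r R (Z.image msq) (ζ ∘ msq) where
  low := fun v hv => mem_im_msq.2 (h.low (hbox_msq.2 hv))
  sub := fun v hv => hbox_msq.1 (h.sub (mem_im_msq.1 hv))
  sld := by
    rintro v hv w hw hw2 ⟨s, h1, h2, h3⟩
    refine h.sld (msq v) (mem_im_msq.1 hv) (msq w) (fun h' => hw (mem_im_msq.2 h')) hw2
      ⟨mir s, sites_one_msq.1 h1, sites_one_msq.1 h2, fun h' => h3 ((mir_even s).1 h')⟩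
  conn := by
    rintro s hs t ht hse hte ⟨w, hw, hw2, hsw⟩ ⟨w', hw', hw2', htw⟩
    have h5 := h.conn (mir s) (mem_sites_msq.1 hs) (mir t) (mem_sites_msq.1 ht)
      ((mir_even s).2 hse) ((mir_even t).2 hte)
      ⟨msq w, fun h' => hw (mem_im_msq.2 h'), hw2, sites_one_msq.1 hsw⟩
      ⟨msq w', fun h' => hw' (mem_im_msq.2 h'), hw2', sites_one_msq.1 htw⟩
    have h6 : Pw (cs true (ζ ∘ msq) ∩ ↑(Z.image msq)) (mir (mir s)) (mir (mir t)) := by
      refine refl_mir (fun x hx => ?_) h5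
      obtain ⟨h1, h2⟩ := hx
      refine ⟨?_, ?_⟩
      · show ζ (msq (msq x)) = true
        rw [msq_msq]
        exact h1
      · rw [mem_coe, mem_im_msq, msq_msq]
        exact h2
    rwa [mir_mir, mir_mir] at h6

theorem jnT_mir_aux {D : Finset (ℤ × ℤ)} {ω : Cfg} {U T : Set (ℤ × ℤ)} (h : Jn true D ω U T) :
    Jn true (D.image msq) (ω ∘ msq) (mir ⁻¹' U) (mir ⁻¹' T) := by
  obtain ⟨u, hu, t, ht, hp, hr⟩ := h
  refine ⟨mir u, by simpa [mir_mir] using hu, mir t, by simpa [mir_mir] using ht, ?_, ?_⟩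
  · rw [mir_par]; exact hp
  · refine refl_mir (fun w hw => ?_) hr
    obtain ⟨h1, h2⟩ := hw
    refine ⟨?_, ?_⟩
    · show ω (msq (msq w)) = true
      rw [msq_msq]
      exact h1
    · show msq w ∈ D.image msq
      rw [mem_im_msq, msq_msq]
      exact h2

theorem jnT_mir {D : Finset (ℤ × ℤ)} {ω : Cfg} {U T : Set (ℤ × ℤ)} :
    Jn true (D.image msq) (ω ∘ msq) (mir ⁻¹' U) (mir ⁻¹' T) ↔ Jn true D ω U T := by
  refine ⟨fun h => ?_, jnT_mir_aux⟩
  have h1 := jnT_mir_aux h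
  rw [im_msq_im] at h1
  have e1 : (ω ∘ msq) ∘ msq = ω := by funext v; simp [msq_msq]
  have e2 : ∀ U : Set (ℤ × ℤ), mir ⁻¹' (mir ⁻¹' U) = U := fun U => by
    ext v; simp [mir_mir]
  rw [e1, e2, e2] at h1
  exact h1

theorem fzT_mir (D Z : Finset (ℤ × ℤ)) (ζ : Cfg) (W : Set (ℤ × ℤ)) (ω : Cfg) :
    fzT (D.image msq) (Z.image msq) (ζ ∘ msq) (mir ⁻¹' W) (ω ∘ msq) = fzT D Z ζ W ω := by
  unfold fzT
  have e1 : (∀ v ∈ Z.image msq, (ω ∘ msq) v = (ζ ∘ msq) v) ↔ ∀ v ∈ Z, ω v = ζ v := by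
    constructor
    · intro h v hv
      have := h (msq v) (mem_im_msq.2 (by rwa [msq_msq]))
      simpa [msq_msq] using this
    · intro h v hv
      exact h _ (mem_im_msq.1 hv)
  have e2 : D.image msq \ Z.image msq = (D \ Z).image msq := by
    ext v
    rw [mem_sdiff, mem_im_msq, mem_im_msq, mem_im_msq, mem_sdiff]
  have e3 : ((sites (Z.image msq) : Finset (ℤ × ℤ)) : Set (ℤ × ℤ)) =
      mir ⁻¹' (sites Z : Set (ℤ × ℤ)) := by
    ext v
    rw [mem_coe, mem_sites_msq]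
    rfl
  rw [e2, e3, jnT_mir]
  have key := and_congr_left (c := Jn true (D \ Z) ω (sites Z) W) (fun _ => e1)
  split_ifs with h1 h2 h2
  · rfl
  · exact absurd (key.1 h1) h2
  · exact absurd (key.2 h2) h1
  · rfl

/-- The wired arc in the mirror image. -/
theorem arcw_mir {P : Sh} (h : (toSh4 P).Ok 2) {N : ℕ} (hN : 0 < N) (hev : Even N) :
    mir ⁻¹' (arcw N (0, 0) P) = Wr (H825.Q.qS (Sh4.dat h) N) (ka (toSh4 P) N) := by
  have g1 : P.k + 2 + 1 ≤ P.j := h.k_lt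
  have g2 : P.j + 2 ≤ P.l := h.j_lt
  have g3 : P.l + 2 ≤ P.m := h.l_lt
  have hk : ka (toSh4 P) N ≤ P.m * N := ka_le h
  have hka : ka (toSh4 P) N + P.k * N = P.m * N := by
    unfold ka
    show (P.m - P.k) * N + P.k * N = P.m * N
    rw [← add_mul]; congr 1; omega
  have hq : ∀ x : ℕ, x ≤ P.m * N + N / 2 → H825.Q.qS (Sh4.dat h) N (x : ZMod _) =
      mir (Enl.PN P.q N (P.m * N + N / 2 - x)) := fun x hx => qS_mir h hN hev (x := x) hx
  ext z
  constructor
  · rintro ⟨i, h1, h2, h3⟩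
    have h3' : Enl.PN P.q N i = mir z := by rw [← h3]; simp
    refine ⟨P.m * N + N / 2 - i, by omega, ?_, ?_⟩
    · show _ ≤ P.m * N
      omega
    · rw [hq _ (by omega), show P.m * N + N / 2 - (P.m * N + N / 2 - i) = i by omega, h3', mir_mir]
  · rintro ⟨j, h1, h2, h3⟩
    have h2' : j ≤ P.m * N := h2
    refine ⟨P.m * N + N / 2 - j, by omega, by omega, ?_⟩
    rw [hq _ (by omega)] at h3
    rw [← h3, mir_mir]
    simp

/-- **The mirror image of `PTz`.** -/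
theorem PTz_mir {μ : ℝ} (hμ : 0 < 2 * Real.cos μ) {P : Sh} (h : (toSh4 P).Ok 2) {N : ℕ}
    (hN : 2 ≤ N) (hev : Even N) {Z : Finset (ℤ × ℤ)} (hZ : Z ⊆ (Sh4.dat h).D N) (ζ : Cfg) :
    PTz μ N (0, 0) P (Z.image msq) (ζ ∘ msq) =
      Ex (2 * Real.cos μ) ((Sh4.dat h).D N) (eN h N)
        (fzT ((Sh4.dat h).D N) Z ζ (Wr (H825.Q.qS (Sh4.dat h) N) (ka (toSh4 P) N))) := by
  have hN0 : 0 < N := by omega
  set η := eN h N with hη
  have hdob : Dob η ((Sh4.dat h).D N) (H825.Q.qS (Sh4.dat h) N) (ka (toSh4 P) N) :=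
    dob_eN h hN
  have hD : (H825.enl P.S N) = ((Sh4.dat h).D N).image msq := by
    have := D_mir h hN0
    rw [this, im_msq_im]
    rfl
  have hloc : Loc (H825.enl P.S N)
      (fzT (H825.enl P.S N) (Z.image msq) (ζ ∘ msq) (arcw N (0, 0) P)) := by
    intro ω ω' hw
    unfold fzT
    have e1 : (∀ v ∈ Z.image msq, ω v = (ζ ∘ msq) v) ↔ ∀ v ∈ Z.image msq, ω' v = (ζ ∘ msq) v := by
      refine forall₂_congr fun v hv => ?_
      rw [hw v]
      rw [hD]
      exact image_subset_image hZ hv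
    have e2 : H632.cs true ω ∩ (↑(H825.enl P.S N \ Z.image msq) : Set (ℤ × ℤ)) =
        H632.cs true ω' ∩ (↑(H825.enl P.S N \ Z.image msq) : Set (ℤ × ℤ)) := by
      ext v
      refine and_congr_left fun hv => ?_
      have hv' : v ∈ H825.enl P.S N := (mem_sdiff.1 (mem_coe.1 hv)).1
      show ω v = true ↔ ω' v = true
      rw [show (ω v) = ω' v from hw v hv']
    have e3 : Jn true (H825.enl P.S N \ Z.image msq) ω (sites (Z.image msq)) (arcw N (0, 0) P) ↔
        Jn true (H825.enl P.S N \ Z.image msq) ω' (sites (Z.image msq)) (arcw N (0, 0) P) := by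
      unfold Jn
      rw [e2]
    have key := and_congr e1 e3
    split_ifs with h1 h2 h2
    · rfl
    · exact absurd (key.1 h1) h2
    · exact absurd (key.2 h2) h1
    · rfl
  have hdz : domT N (0, 0) P = H825.enl P.S N := dom_zero N (toSh4 P)
  unfold PTz
  rw [hdz]
  have hex := CAQ.J.ex_dob (k := ka (toSh4 P) N) (q := Enl.qN (rot (toSh4 P)) N (N / 2))
    (Enl.isPolygon_qN hN0 (isPolygon_rot h.poly) _) (Enl.encloses_qN hN0 (isPolygon_rot h.poly)
      (encloses_rot h.encl) _) (ka_le h) (dob_ext h hN) (dob_msq h hN0 hev hdob) hμ hloc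
  refine Eq.trans hex ?_
  rw [(FK.f_sym msq (by simp [FK.syms]; right; right; left; rfl)).2 _ _ _ _ hμ hdob.good]
  have hD' : (H825.enl (toSh4 P).S N).image msq = (Sh4.dat h).D N := (D_mir h hN0).symm
  rw [hD']
  congr 1
  funext ω
  have e4 := fzT_mir ((Sh4.dat h).D N) Z ζ
    (Wr (H825.Q.qS (Sh4.dat h) N) (ka (toSh4 P) N)) ω
  rw [← hD, ← arcw_mir h hN0 hev] at e4
  have e5 : mir ⁻¹' (mir ⁻¹' (arcw N (0, 0) P)) = arcw N (0, 0) P := by
    ext v; simp [mir_mir]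
  rw [e5, arcw_mir h hN0 hev] at e4
  exact e4

/-- **The mirror image of the frozen pairs.** -/
theorem s_mirT : S_mirT := fun _ hμ _ h _ hN hev _ _ _ ζ hA hZ =>
  ⟨admT_msq hA, PTz_mir hμ h hN hev hZ ζ⟩

end Vale.Agent.P167.N.BT
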