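import Vale.Agent.P167.N.BT.BBfin
import Vale.Agent.P167.N.BT.OneF
import Vale.Agent.P167.N.BT.RatT
import Vale.Agent.P167.N.BT.Main
import Vale.Agent.P167.N.BT.Du3
import Vale.Agent.P167.N.BT.T1
import Vale.Agent.P167.N.BT.SumX
import Vale.Agent.P167.N.BT.WinMir
import Vale.Agent.P167.N.BT.Par
import Vale.Agent.P167.N.BT.PUT
import Vale.Agent.P167.N.BT.PLF
import Vale.Agent.P167.N.BT.ChainK
import Vale.Agent.P167.N.BT.A8T
import Vale.Agent.P167.N.BT.Arms
import Vale.Agent.P167.N.NET.KitV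
import Vale.Agent.P167.N.H452.BE.SY2
import Vale.Agent.P167.N.H872.Asm.In2
import Vale.Agent.P167.N.KitQ
import Vale.Agent.P167.H364.LitT

/-!
# P167, `0 < q < 1`, the block BT: the ratios of the partition functions
-/

set_option autoImplicit false

namespace Vale.Agent.P167.N.BT

open MeasureTheory
open Vale.Agent.P167 Vale.Agent.P167.BR

variable {θ μ q : ℝ}

theorem lim_ex (A : Ang θ) : ∃ P : Measure Cfg, Vale.Agent.P167.H519.IsLim (2 * Real.cos θ) P := by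
  obtain ⟨α, C, hα, -, hA, -⟩ := A.kit.arm
  exact Vale.Agent.P167.N.H519.exists_lim A.kit hα hA

/-- **[BT]** -/
theorem s_BT (A : Ang θ) : S_BT θ := by
  obtain ⟨P, hP⟩ := lim_ex A
  have hQ := A.kit
  have h1 := A.gt
  have h2 := A.lt
  have hpi := Real.pi_pos
  refine s_BT_of hQ.pos (fun i => ?_) (s_A8T hQ) (s_CHT hQ) (s_DUT A) s_T1T
    (s_PUT hQ (a5 hQ) (a7 hQ) (a8 hQ) (a9 hQ)) (s_PLT_of hQ (NET.vrs hQ.pos hQ.lt) (a7 hQ))
    (P := P) (N.H452.BE.s_Y2 A.pos A hQ.rsw hP)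
  unfold tb
  rw [abs_le]
  constructor <;> linarith [Real.pi_lt_four]

/-- **[RATT']** -/
theorem ratT' (A : Ang μ) : RatT' μ OkT := by
  obtain ⟨P, hP⟩ := lim_ex A
  obtain ⟨χp, hI, hB⟩ := s_BB_of A (N.H872.Asm.in2 A) hP (N.H452.BE.s_Y2 A.pos A A.kit.rsw hP)
    (s_One A hP) s_winT
  exact ratT'_of A.kit.pos (s_BT A) (s_FCT A.pos A.lt) s_winT s_mirT (s_Par A.kit)
    (χp := χp) (K₀ := 8) (fun K hK => hI _ (shp_chq (by omega))) fun K hK => hB K hK

/-- **[RATT']** for the parameter of the weight `√q`, in 364's format. -/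
theorem ratT_lt (h : Kit (√q)) : RatT' (QE.muq q) Vale.Agent.P167.H364.OkT := ratT' h.ang

end Vale.Agent.P167.N.BT
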