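import Vale.Agent.P167.N.BT.IdPc
import Vale.Agent.P167.N.H386.LocUF
import Vale.Agent.P167.N.H872.Asm.Dob

/-!
# P167, `0 < q < 1`, block BT: **[IDP]**

`s_idP`: for the shapes `chp J K` of the bump at the base point (the ones of `N.H386.locUQ`) and every shape `χ` of
the bump at the mark.
-/

set_option autoImplicit false

open Complex Set Filter Topology Metric MeasureTheory

namespace Vale.Agent.P167.N.BT

open Vale.Agent.P167 Vale.Agent.P167.BR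
open Vale.Agent.P167.QT (Sh4 F4 F4_le)
open Vale.Agent.P167.CA (Dat)
open Vale.Agent.P167.H411.Q (bpt nrm zN NDz arcW_arc arcF_arc arc_inter rB)
open Vale.Agent.P167.N.H411.Q (tri_dat idLim_of)
open Vale.Agent.P167.H872.Asm (hbe tip_step Gd gd_dat)
open Vale.Agent.P167.H208.SH (chp)

variable {μ : ℝ}

theorem even_F4 : ∀ᶠ n : ℕ in F4, Even n := by
  have h4 : F4 ≤ 𝓟 {n | 4 ∣ n} := inf_le_right
  refine h4 ?_
  rw [mem_principal]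
  intro n hn
  have hn' : 4 ∣ n := hn
  exact (even_iff_two_dvd).2 ((by norm_num : (2 : ℕ) ∣ 4).trans hn')

/-- **[IDP]**, explicit. -/
theorem idP_exp (h1 : Ang μ) (I : Vale.Agent.P167.N.H872.Asm.In2 μ h1.pos h1) :
    ∃ J₀ : ℕ, 0 < J₀ ∧ ∀ J : ℕ, J₀ ≤ J → ∃ K₀ : ℤ, 4 ≤ K₀ ∧ ∀ K : ℤ, K₀ ≤ K →
      Vale.Agent.P167.H411.B7.Shp Complex.I (chp J K) ∧ ∀ χ : ℂ → ℝ, Vale.Agent.P167.H411.B7.Shp Complex.I χ →
      ∀ (P : Sh4) (h : P.Ok 2) (u v : ℝ), P.Pos u v → ∀ ε : ℝ, 0 < ε → ∃ δ : ℝ, 0 < δ ∧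
        ∀ η : ℝ, 0 < η → η ≤ δ → ∀ ρ : ℝ, 0 < ρ → ρ ≤ δ → ∀ᶠ N : ℕ in F4,
          0 < VT μ h N (fun z => qd μ χ η N z - qb μ (chp J K) h ρ N z) ∧
          |Real.log (VT μ h N (fun z => qd μ χ η N z - qb μ (chp J K) h ρ N z)) -
            (Gid μ (chp J K) χ η ρ N + H375.hT μ * Real.log (v * (1 - u)))| ≤ ε := by
  obtain ⟨J₀, hJ₀, H⟩ := Vale.Agent.P167.N.H386.locUQ (β := QB.gB μ) h1 (hbe μ)
  refine ⟨J₀, hJ₀, fun J hJ => ?_⟩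
  obtain ⟨K₀, hK₀, H⟩ := H J hJ
  refine ⟨K₀, hK₀, fun K hK => ?_⟩
  obtain ⟨hs, H⟩ := H K hK
  refine ⟨hs, fun χ hχ P h u v hp ε hε => ?_⟩
  have hc : F4.IsCountablyGenerated := inferInstance
  have hi : H825.Q.Bc.In (Sh4.dat h).l (.dob (P.m - P.k) (Sh4.dat h).tp) := Sh4.bc_in h
  have hD := Vale.Agent.P167.N.H872.Asm.dob3_of h1.pos h1 I (Sh4.dat h) (P.m - P.k) hi F4 F4_le hc
    (gd_dat h) (tip_step h)
  have hi' := hi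
  obtain ⟨i0, i1, t0, t1⟩ := hi'
  have a0 : (Sh4.dat h).tp < (((P.m - P.k : ℕ) : ℤ) : ℝ) + (Sh4.dat h).tp := by
    have : (0 : ℝ) < (((P.m - P.k : ℕ) : ℤ) : ℝ) := by exact_mod_cast i0
    linarith
  have a1 : (((P.m - P.k : ℕ) : ℤ) : ℝ) + (Sh4.dat h).tp < (Sh4.dat h).l + (Sh4.dat h).tp := by
    have : (((P.m - P.k : ℕ) : ℤ) : ℝ) < (Sh4.dat h).l := by exact_mod_cast i1
    linarith
  have hTr := tri_dat hD.three (i := ((P.m - P.k : ℕ) : ℤ)) (t := (Sh4.dat h).tp) (Sh4.dat h).tp0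
    (Sh4.dat h).tp1 a0 a1
  rw [Int.cast_natCast] at hTr a0 a1
  rw [nrm_dat h] at hTr
  have hz : ∀ {χ' : ℂ → ℝ}, Vale.Agent.P167.H411.B7.Shp Complex.I χ' → _ := fun {χ'} hχ' =>
    H (Sh4.dat h) F4_le hc even_F4 hTr.flatP hχ'
  have hNz : NDz μ (Vale.Agent.P167.N.H872.Asm.fam h1.pos h1 (Sh4.dat h) .free trivial F4 F4_le hc)
      (Vale.Agent.P167.N.H872.Asm.fam h1.pos h1 (Sh4.dat h) .wired trivial F4 F4_le hc) Complex.I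
      (rB (Sh4.dat h) ((P.m - P.k : ℕ) : ℤ) (Sh4.dat h).tp) (chp J K) (zN μ) := by
    intro χ' hχ'
    exact ⟨((hz hχ').1 trivial).locZ, ((hz hχ').2 trivial).locZ⟩
  have hid := idLim_of hTr hD.coreD hD.coreF hD.coreW hs hNz hD.nda
    (arcW_arc (Sh4.dat h) a1) (arcF_arc (Sh4.dat h) a0) (arc_inter (Sh4.dat h) a0 a1) hD.limY hD.limZ
  exact idP_one h1.pos h1 hs hχ h hp F4_le hc hi hTr hD.coreD hD.coreF hid
    ((hz hχ).1 trivial) hε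

/-- **[IDP]**. -/
theorem s_idP (h1 : Ang μ) (I : Vale.Agent.P167.N.H872.Asm.In2 μ h1.pos h1) :
    ∃ J₀ : ℕ, 0 < J₀ ∧ ∀ J : ℕ, J₀ ≤ J → ∃ K₀ : ℤ, 4 ≤ K₀ ∧ ∀ K : ℤ, K₀ ≤ K →
      Vale.Agent.P167.H411.B7.Shp Complex.I (chp J K) ∧ ∀ χ : ℂ → ℝ, Vale.Agent.P167.H411.B7.Shp Complex.I χ → S_IdP μ (chp J K) χ := by
  obtain ⟨J₀, hJ₀, H⟩ := idP_exp h1 I
  refine ⟨J₀, hJ₀, fun J hJ => ?_⟩
  obtain ⟨K₀, hK₀, H⟩ := H J hJ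
  refine ⟨K₀, hK₀, fun K hK => ?_⟩
  obtain ⟨hs, H⟩ := H K hK
  exact ⟨hs, fun χ hχ => ⟨Gid μ (chp J K) χ, H χ hχ⟩⟩

end Vale.Agent.P167.N.BT
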