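import Vale.Agent.P167.N.BT.IdDefs
import Vale.Agent.P167.N.H386.LocU
import Vale.Agent.P167.N.H411.Q.OutP
import Vale.Agent.P167.N.H872.Asm.Fam
import Vale.Agent.P167.H872.Asm.IdQ
import Vale.Agent.P167.H460.BQ.Asm

/-!
# P167, `0 < q < 1`, block BT: the output of the block Q-ID for the charge `π - 2 μ` in one shape
-/

set_option autoImplicit false

open Complex Set Filter Topology Metric MeasureTheory
open scoped ComplexConjugate

namespace Vale.Agent.P167.N.BT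

open Vale.Agent.P167 Vale.Agent.P167.BR
open Vale.Agent.P167.QT (Sh4 F4 F4_le mirS)
open Vale.Agent.P167.BQ460 (eN ka md lb kS_dat fb_int)
open Vale.Agent.P167.CA (cms Dat)
open Vale.Agent.P167.CAQ (Fam)
open Vale.Agent.P167.H411.Q (fb bpt nrm zN)
open Vale.Agent.P167.H411.B7 (JJ)
open Vale.Agent.P167.N.H411.Q (Tri LocT Mark1 outP_log kbp)
open Vale.Agent.P167.H375 (hT)
open Vale.Agent.P167.QB (XG gB)
open Vale.Agent.P167.FK (Ex)
open Vale.Agent.P153.R2.R1 (IsU)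
open Vale.Agent.P167.BVP (Flat)
open Vale.Agent.P167.E6 (region pt dir)
open Vale.Agent.P167.H872.Asm (q_m bp_dat tip_dat gmarks_dat interior_mirS Mf Rf Rf_ofReal isU_mf
  hasDerivWithinAt_Mf Rf_re Rf_im)

variable {P : Sh4}

/-- The inner normal of the base side of the mirror image. -/
theorem nrm_dat (h : P.Ok 2) : nrm (Sh4.dat h) 0 = Complex.I := by
  have h0 := (Sh4.dat h).step
  have e : (Sh4.dat h).p (0 + 1) = (Sh4.dat h).p 0 + (1, 0) := by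
    rw [zero_add, h0]
    rfl
  unfold nrm
  rw [Int.cast_zero, e]
  apply Complex.ext
  · simp [pt]
  · simp [pt]

/-- The uniformizer of the mirror image, with the mark `d = 0`. -/
theorem mark_dat (h : P.Ok 2) {u v : ℝ} (hp : P.Pos u v) : ∃ (ψ : ℂ → ℂ) (xd : ℝ) (d' : ℂ),
    IsU ψ (Sh4.dat h).P (bpt (Sh4.dat h) (((P.m - P.k : ℕ) : ℝ) + (Sh4.dat h).tp))
      (Sh4.dat h).bp ∧
    Mark1 (Sh4.dat h) (bpt (Sh4.dat h) (((P.m - P.k : ℕ) : ℝ) + (Sh4.dat h).tp)) ψ 0 Complex.I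
      (1 / 2) xd d' ∧ Real.log (v * (1 - u)) = -Real.log ‖d'‖ - Real.log |xd| := by
  obtain ⟨φ, xc, xd, D, hφ, h1, h2, h3, h4, h5, h6, h7, h8⟩ := hp
  have hM := gmarks_dat h le_rfl
  have hP : (Sh4.dat h).P = Rf '' interior (region 1 P.S) := interior_mirS P.S
  have hb : (Sh4.dat h).bp = Rf (pt (P.q 0) + 1 / 2) := by
    rw [bp_dat h, q_m h]
    apply Complex.ext
    · simp [Rf, pt]
      ring
    · simp [Rf, pt]
  have hd0 : 0 < xd := h1.trans h2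
  have hsub : 0 < xd - xc := by linarith
  refine ⟨Mf φ, -xd, conj ((1 / D : ℝ) : ℂ), ?_, ⟨hM.flatD, hM.pD, hM.aD, ?_, ?_⟩, ?_⟩
  · rw [hP, tip_dat h, hb]
    exact isU_mf hφ
  · have e : Rf ((-xd : ℝ) : ℂ) = (xd : ℂ) := by rw [Rf_ofReal, neg_neg]
    show Rf (φ (Rf ((-xd : ℝ) : ℂ))) = _
    rw [e, h5]
    simp [Rf]
  · have h9 := hasDerivWithinAt_Mf (t := {z : ℂ | 0 ≤ z.im}) (fun w hw => by
      show 0 ≤ (Rf w).im
      rw [Rf_im]; exact hw) h6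
    rwa [Rf_ofReal] at h9
  · have e1 : v * (1 - u) = D / xd := by
      rw [h7, h8]
      field_simp
    rw [e1, Real.log_div h3.ne' hd0.ne', Complex.norm_conj, Complex.norm_real,
      Real.norm_of_nonneg (by positivity), abs_neg, abs_of_pos hd0, Real.log_div one_ne_zero h3.ne',
      Real.log_one]
    ring

/-- The functional of the Dobrushin family. -/
theorem V_qd {μ : ℝ} (h0 : 0 < μ) (h1 : Ang μ) {χp χ : ℂ → ℝ} (hχp : Vale.Agent.P167.H411.B7.Shp Complex.I χp)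
    (hχ : Vale.Agent.P167.H411.B7.Shp Complex.I χ) (h : P.Ok 2) {L : Filter ℕ} (hL : L ≤ atTop) (hc : L.IsCountablyGenerated)
    (hi : H825.Q.Bc.In (Sh4.dat h).l (.dob (P.m - P.k) (Sh4.dat h).tp)) {η ρ : ℝ} (hη : 0 < η)
    (hρ : 0 < ρ) {N : ℕ} (hN : 0 < N) :
    (Vale.Agent.P167.N.H872.Asm.fam h0 h1 (Sh4.dat h) (.dob (P.m - P.k) (Sh4.dat h).tp) hi L hL hc).V N
      (fun w => (Real.pi - 2 * μ) * fb χ Complex.I 0 η w +
        -(Real.pi - 2 * μ) * fb χp Complex.I (Sh4.dat h).bp ρ w) =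
    VT μ h N (fun z => qd μ χ η N z - qb μ χp h ρ N z) := by
  unfold Vale.Agent.P167.N.H872.Asm.fam
  rw [Vale.Agent.P167.N.H542.Q.BD.famB_V]
  have e1 : (H825.Q.bdQ (Sh4.dat h) μ (gB μ) (.dob (P.m - P.k) (Sh4.dat h).tp) hi L hL hc).k N =
      ka P N := kS_dat h hN
  have e2 : (H825.Q.bdQ (Sh4.dat h) μ (gB μ) (.dob (P.m - P.k) (Sh4.dat h).tp) hi L hL hc).η N =
      eN h N := by
    show H718.etaW ((Sh4.dat h).D N) (H825.Q.qS (Sh4.dat h) N)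
      (H825.Q.kS (Sh4.dat h) P.bc N) = _
    rw [kS_dat h hN]
    rfl
  rw [e1, e2]
  have e3 : cms (fun w => (Real.pi - 2 * μ) * fb χ Complex.I 0 η w +
      -(Real.pi - 2 * μ) * fb χp Complex.I (Sh4.dat h).bp ρ w) (1 / N) =
      fun z => qd μ χ η N z - qb μ χp h ρ N z := by
    funext z
    have i1 := fb_int hχ.smooth.continuous hχ.compact (0 : ℂ) hη
    have i2 := fb_int hχp.smooth.continuous hχp.compact (Sh4.dat h).bp hρ
    rw [CA.cms_add (i1.const_mul _) (i2.const_mul _), CA.cms_smul, CA.cms_smul]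
    unfold qd qb lb
    have e5 : ((0 : ℤ) : ℂ) = 0 := Int.cast_zero
    rw [e5]
    ring
  rw [e3]
  rfl

/-- The universal constant. -/
noncomputable def Gid (μ : ℝ) (χp χ : ℂ → ℝ) (η ρ : ℝ) (N : ℕ) : ℝ :=
  -((Real.pi - 2 * μ) / μ) * (Real.log (Vale.Agent.P167.N.H386.tU μ χp (1 / 2) 0 Complex.I false ρ N) +
    Real.log (zN μ χ N η)) +
  (Real.pi - 2 * μ) / Real.pi * ((2 * Real.log η + JJ 0 Complex.I χ χ) / 2) -
    (Real.pi - 2 * μ) * kbp χp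

/-- **One shape.** -/
theorem idP_one {μ : ℝ} (h0 : 0 < μ) (h1 : Ang μ) {χp χ : ℂ → ℝ} (hχp : Vale.Agent.P167.H411.B7.Shp Complex.I χp)
    (hχ : Vale.Agent.P167.H411.B7.Shp Complex.I χ) (h : P.Ok 2) {u v : ℝ} (hp : P.Pos u v) (hL : F4 ≤ atTop)
    (hc : F4.IsCountablyGenerated)
    (hi : H825.Q.Bc.In (Sh4.dat h).l (.dob (P.m - P.k) (Sh4.dat h).tp))
    {FF FW : Fam (Sh4.dat h)} {νa : ℂ} {ra rp : ℝ}
    (hTr : Tri μ (Sh4.dat h) (Vale.Agent.P167.N.H872.Asm.fam h0 h1 (Sh4.dat h) (.dob (P.m - P.k) (Sh4.dat h).tp) hi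
      F4 hL hc) FF FW (bpt (Sh4.dat h) (((P.m - P.k : ℕ) : ℝ) + (Sh4.dat h).tp)) νa ra Complex.I rp)
    (cD : (Vale.Agent.P167.N.H872.Asm.fam h0 h1 (Sh4.dat h) (.dob (P.m - P.k) (Sh4.dat h).tp) hi F4 hL hc).CORE)
    (cF : FF.CORE)
    (hid : H411.Q.IdLim (Vale.Agent.P167.N.H872.Asm.fam h0 h1 (Sh4.dat h) (.dob (P.m - P.k) (Sh4.dat h).tp) hi
      F4 hL hc) FF (bpt (Sh4.dat h) (((P.m - P.k : ℕ) : ℝ) + (Sh4.dat h).tp)))
    (hz : LocT μ FF χp Complex.I rp χ (zN μ χ) (Vale.Agent.P167.N.H386.tU μ χp (1 / 2) 0 Complex.I false))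
    {ε : ℝ} (hε : 0 < ε) : ∃ δ : ℝ, 0 < δ ∧
    ∀ η : ℝ, 0 < η → η ≤ δ → ∀ ρ : ℝ, 0 < ρ → ρ ≤ δ → ∀ᶠ N : ℕ in F4,
      0 < VT μ h N (fun z => qd μ χ η N z - qb μ χp h ρ N z) ∧
      |Real.log (VT μ h N (fun z => qd μ χ η N z - qb μ χp h ρ N z)) -
        (Gid μ χp χ η ρ N + hT μ * Real.log (v * (1 - u)))| ≤ ε := by
  obtain ⟨ψ, xd, d', hψ, hM, huv⟩ := mark_dat h hp
  obtain ⟨hinj, hne⟩ := hψ.injOn (H411.Q.noCut_P (Sh4.dat h))
  obtain ⟨δ, hδ, hout⟩ := outP_log hTr cD cF hχp hχ hz hψ hinj hne (hid ψ hψ) hM hε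
  refine ⟨δ, hδ, fun η hη hηδ ρ hρ hρδ => ?_⟩
  have hev : ∀ᶠ N : ℕ in F4, 0 < N := F4_le (eventually_gt_atTop 0)
  have hout' : ∀ᶠ N : ℕ in F4, _ := hout η ρ hη hηδ hρ hρδ
  filter_upwards [hout', hev] with N hN hN0
  rw [V_qd h0 h1 hχp hχ h hL hc hi hη hρ hN0] at hN
  obtain ⟨-, k1, k2⟩ := hN
  refine ⟨k1, ?_⟩
  have e : -((Real.pi - 2 * μ) / μ) *
        (Real.log (Vale.Agent.P167.N.H386.tU μ χp (1 / 2) 0 Complex.I false ρ N) + Real.log (zN μ χ N η)) +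
      (Real.pi - 2 * μ) / Real.pi *
        ((-2 * Real.log ‖d'‖ + (2 * Real.log η + JJ 0 Complex.I χ χ)) / 2 - Real.log |xd|) -
      (Real.pi - 2 * μ) * kbp χp = Gid μ χp χ η ρ N + hT μ * Real.log (v * (1 - u)) := by
    rw [huv]
    unfold Gid hT
    have := Real.pi_pos
    field_simp
    ring
  rw [e] at k2
  exact k2

end Vale.Agent.P167.N.BT
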