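import Vale.Agent.P167.N.Base.ArmM
import Vale.Agent.P167.QB.Pr1

/-!
# P167, `0 < q < 1`, bridge: the junction. The masked arm

`arm_J`: the arm `HArm b r R` of the half annulus (open squares of the half annulus only) has probability at most
`C (r / R) ^ α` in every domain which contains the half box, whatever the configuration outside, with a factor which
does not depend on the squares of the half annulus. `iso_J`: the same for the failure of `Iso`.
-/

set_option autoImplicit false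

namespace Vale.Agent.P167.N.BT

open Finset Relation Vale.Agent.P167 Vale.Agent.P167.BR Vale.Agent.P167.FK Vale.Agent.P167.FKA
open Vale.Agent.P145.FB (PStep PConn)
open Vale.Agent.P167.QB (HArm ha harm_of_not_iso mem_hbox_iff)
open Vale.Agent.P167.H635 (Ann)
open Vale.Agent.P167.H632 (cs)
open Vale.Agent.P167.H259 (f_markov)

variable {Q : ℝ} {b : ℤ × ℤ} {r R : ℤ} {ω ω' : Cfg}

/-- **The masked arm, any configuration outside.** -/
theorem armh_J (hQ : Kit Q) : ∃ α C : ℝ, 0 < α ∧ 0 < C ∧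
    ∀ (b : ℤ × ℤ) (r R : ℤ) (ζ : Cfg), 1 ≤ r → r ≤ R → Good ζ →
      Ex Q (hbox b R \ hbox b r) ζ ({ω | HArm b r R ω}.indicator 1) ≤ C * ((r : ℝ) / R) ^ α := by
  obtain ⟨α, C, hα, hC, h⟩ := Kit.armM hQ
  refine ⟨α, C, hα, hC, fun b r R ζ hr hrR hζ => ?_⟩
  have e : hbox b R ∩ Ann b r R = hbox b R \ hbox b r := by
    ext v
    simp only [Ann, mem_inter, mem_sdiff, mem_hbox_iff]
    tauto
  have hs : H635.Shp (hbox b R) b r R := H635.shp_ge2 (c := b.2) fun v hv => by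
    have h1 := (mem_sdiff.1 hv).1
    rw [mem_hbox_iff]
    exact ⟨fun h' => h'.2, fun h' => ⟨h1, h'⟩⟩
  have h1 := h true b r R (hbox b R) ζ hr hrR hζ hs
  rw [e] at h1
  refine le_trans ?_ h1
  unfold Pr
  refine Ex_mono hQ.pos fun S _ => ?_
  refine Set.indicator_le_indicator_of_subset (fun ω hω => ?_) (fun _ => zero_le_one) _
  obtain ⟨u, v, h1, h2, h3, h4⟩ := hω
  refine ⟨u, v, ?_, h2, h3, QM.rtg_mono' (fun w hw => ?_) h4⟩
  · rw [Int.even_iff] at h1
    exact h1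
  · exact ⟨hw.2.2, Finset.mem_coe.2 (mem_sdiff.2 ⟨hw.1, hw.2.1⟩)⟩

/-- **The masked arm with a factor.** -/
theorem arm_J (hQ : Kit Q) : ∃ α C : ℝ, 0 < α ∧ 0 < C ∧
    ∀ (D : Finset (ℤ × ℤ)) (η : Cfg) (b : ℤ × ℤ) (r R : ℤ) (G : Cfg → ℝ), 1 ≤ r → r ≤ R →
      hbox b R ⊆ D → Good η → (∀ ω, 0 ≤ G ω) → Ind (hbox b R \ hbox b r) G →
      Ex Q D η (fun ω => G ω * {ω | HArm b r R ω}.indicator 1 ω) ≤
        C * ((r : ℝ) / R) ^ α * Ex Q D η G := by
  have hQ0 : 0 < Q := hQ.pos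
  obtain ⟨α, C, hα, hC, hdec⟩ := armh_J hQ
  refine ⟨α, C, hα, hC, fun D η b r R G hr hrR hF hη hG0 hG => ?_⟩
  set U := hbox b R \ hbox b r with hU
  have hUD : U ⊆ D := sdiff_subset.trans hF
  rw [FKA.markov f_markov hQ0 hUD hη hG, ← Ex_mul_left]
  refine Ex_mono hQ0 fun S hS => ?_
  rw [mul_comm]
  exact mul_le_mul_of_nonneg_right (hdec b r R _ hr hrR (f_good.1 D η S hη)) (hG0 _)

/-- **The failure of `Iso` with a factor.** -/
theorem iso_J (hQ : Kit Q) : ∃ α C : ℝ, 0 < α ∧ 0 < C ∧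
    ∀ (D : Finset (ℤ × ℤ)) (η : Cfg) (b : ℤ × ℤ) (r s R : ℤ) (G : Cfg → ℝ), 2 ≤ r → 2 * r ≤ s →
      4 * s ≤ R → hbox b R ⊆ D → Good η → (∀ ω, 0 ≤ G ω) → Ind (hbox b R \ hbox b s) G →
      Ex Q D η (fun ω => G ω * {ω | ¬ Iso b r R ω}.indicator 1 ω) ≤
        C * ((s : ℝ) / R) ^ α * Ex Q D η G := by
  have hQ0 : 0 < Q := hQ.pos
  obtain ⟨α, C, hα, hC, h⟩ := arm_J hQ
  refine ⟨α, C * 2 ^ α, hα, by positivity, fun D η b r s R G hr hs hsR hD hη hG0 hG => ?_⟩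
  have h1 := h D η b s (R - 2) G (by omega) (by omega)
    ((hbox_mono (by omega)).trans hD) hη hG0 (fun ω ω' hw => hG ω ω' fun v hv => hw v fun hv' =>
      hv (mem_sdiff.2 ⟨hbox_mono (by omega) (mem_sdiff.1 hv').1, (mem_sdiff.1 hv').2⟩))
  have h0 : 0 ≤ Ex Q D η G := Ex_nonneg hQ0 fun S _ => hG0 _
  refine (Ex_mono hQ0 fun S _ => ?_).trans (h1.trans ?_)
  · refine mul_le_mul_of_nonneg_left ?_ (hG0 _)
    exact Set.indicator_le_indicator_of_subset (fun ω hω =>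
      harm_of_not_iso (by omega) (by omega) (by omega) (by omega) hω) (fun _ => zero_le_one) _
  · refine mul_le_mul_of_nonneg_right ?_ h0
    have k1 : (0 : ℝ) < s := by exact_mod_cast (by omega : 0 < s)
    have k2 : (0 : ℝ) < R := by exact_mod_cast (by omega : 0 < R)
    have k3 : (0 : ℝ) < ((R - 2 : ℤ) : ℝ) := by exact_mod_cast (by omega : 0 < R - 2)
    rw [mul_assoc, ← Real.mul_rpow (by norm_num) (by positivity)]
    refine mul_le_mul_of_nonneg_left (Real.rpow_le_rpow (by positivity) ?_ hα.le) hC.le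
    rw [mul_div_assoc', div_le_div_iff₀ k3 k2]
    have k4 : (R : ℝ) ≤ 2 * ((R - 2 : ℤ) : ℝ) := by exact_mod_cast (by omega : R ≤ 2 * (R - 2))
    nlinarith

end Vale.Agent.P167.N.BT
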