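import Vale.Agent.P167.N.BT.Jmaj
import Vale.Agent.P167.N.BT.JArm
import Vale.Agent.P167.N.QB.Mom

/-!
# P167, `0 < q < 1`, bridge: the junction. The size of the local functional

`jv`: the expectation of the local functional at a junction is of the order of
`exp (tan θ (π - 2 θ) NbP (dq K r))`, for all configurations outside.
-/

set_option autoImplicit false

namespace Vale.Agent.P167.N.BT

open Finset Relation MeasureTheory Vale.Agent.P167 Vale.Agent.P167.BR Vale.Agent.P167.FK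
open Vale.Agent.P167.FKA (Loc Ind)
open Vale.Agent.P167.H519 (IsLim)
open Vale.Agent.P167.H562.SML
open Vale.Agent.P167.H562.MAJ (bigs Sm core Sc)
open Vale.Agent.P167.H562.QM (FltQ NbP YQ YQ_pos ex_cs)
open Vale.Agent.P167.QB (dq MW Sq two_le_of_mul)
open Vale.Agent.P167.N.QB (yb_mom sq_mom)

variable {P : Measure Cfg} {D : Finset (ℤ × ℤ)} {η ω : Cfg} {b : ℤ × ℤ} {r R : ℤ} {K θ : ℝ}
  {φ : ℤ × ℤ → ℝ}

theorem sc_supp (h : Sc K r) (hφc : ∀ z, φ z ≠ 0 → z ∈ sites (core K b r)) (hrR : r ≤ R) :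
    ∀ z, φ z ≠ 0 → z ∈ sites (hbox b R) := fun z hz =>
  sites_mono (h.core_sub.trans (hbox_mono hrR)) (hφc z hz)

theorem FJ_nonneg (h1 : Real.pi / 3 < θ) (h2 : θ < Real.pi / 2) (hR : 1 ≤ R) (h0 : ∀ z, 0 ≤ φ z)
    (hf : ∀ z, φ z ≠ 0 → z ∈ sites (hbox b R)) (hs : ∑ᶠ z, φ z = 1) : 0 ≤ FJ θ b r R φ ω := by
  by_cases hI : Iso b r R ω
  · linarith [one_le_FJ h1 h2 hR h0 hf hs hI]
  · rw [FJ_not hI]

theorem Sq_neg (A : Finset (ℤ × ℤ)) (f : ℤ × ℤ → ℝ) (d : ℝ) (ω : Cfg) :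
    Sq A (fun z => -f z) d ω = Sq A f d ω := by
  unfold Sq
  refine sum_congr rfl fun ℓ hℓ => ?_
  have h1 : G (fun z => -f z) ℓ = - G f ℓ := H562.MAJ.G_neg (mem_smf.1 hℓ).1 f
  rw [h1, neg_sq]

theorem Sm_neg' (f : ℤ × ℤ → ℝ) (d : ℝ) (ω : Cfg) : Sm (fun z => -f z) d ω = - Sm f d ω :=
  H562.MAJ.Sm_neg f d ω

/-- **The size of the local functional at a junction.** -/
theorem jv (h1 : Ang θ) (hR0 : RSW (2 * Real.cos θ)) (hP : IsLim (2 * Real.cos θ) P)
    (hK : 1 ≤ K) : ∃ (c C r0 : ℝ) (Λ : ℤ), 0 < c ∧ 0 < C ∧ 1 ≤ r0 ∧ 2 ≤ Λ ∧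
    ∀ r : ℤ, r0 ≤ r → Sc K r ∧ ∀ (b : ℤ × ℤ) (φ : ℤ × ℤ → ℝ), (∀ z, 0 ≤ φ z) →
      (∀ z, |(Real.pi - 2 * θ) * φ z| ≤ K / (r : ℝ) ^ 2) →
      (∀ z, φ z ≠ 0 → z ∈ sites (core K b r)) → ∑ᶠ z, φ z = 1 →
      ∀ (D : Finset (ℤ × ℤ)) (η : Cfg) (pl pr : Bool), Good η → FltQ D η b (2 * r) pl pr →
      ∀ G : Cfg → ℝ, (∀ ω, 0 ≤ G ω) → ∀ R : ℤ,
      (2 * r ≤ R → Ind (hbox b (2 * r)) G →
        Ex (2 * Real.cos θ) D η (fun ω => G ω * FJ θ b r R φ ω) ≤
          C * Real.exp (Real.tan θ * (Real.pi - 2 * θ) * NbP P (dq K r)) *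
            Ex (2 * Real.cos θ) D η G) ∧
      (Λ * r ≤ R → hbox b R ⊆ D → Ind (hbox b R) G →
        c * Real.exp (Real.tan θ * (Real.pi - 2 * θ) * NbP P (dq K r)) *
            Ex (2 * Real.cos θ) D η G ≤
          Ex (2 * Real.cos θ) D η (fun ω => G ω * FJ θ b r R φ ω)) := by
  classical
  have hpi := Real.pi_pos
  have hQ := h1.kit
  have hQ0 : 0 < 2 * Real.cos θ := hQ.pos
  have t0 : 0 ≤ Real.tan θ := Real.tan_nonneg_of_nonneg_of_le_pi_div_two h1.pos.le h1.lt.le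
  have hM1 : 1 ≤ MW θ := one_le_MWJ h1.pos h1.lt
  have hk0 := kw_pos (θ := θ) h1.pos.le h1.lt
  obtain ⟨C0, r0', hC0, hr0', h0⟩ := yb_mom hQ hR0 hP hK (MW θ) 1 (Real.tan θ) hM1 zero_le_one
  obtain ⟨C1, r1, hC1, hr1, h1'⟩ := yb_mom hQ hR0 hP hK 1 2 (Real.tan θ) le_rfl (by norm_num)
  obtain ⟨C2, hC2, h2⟩ := sq_mom hQ hR0 hP hK (2 * kw θ) (by positivity)
  obtain ⟨α, C3, hα, hC3, h3⟩ := arm_J hQ
  -- the ratio of the scales
  obtain ⟨Λ, hΛ2, hΛ⟩ : ∃ Λ : ℤ, 2 ≤ Λ ∧ ∀ r R : ℤ, 1 ≤ r → Λ * r ≤ R →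
      2 * r ≤ R - 2 ∧ C3 * (((2 * r : ℤ) : ℝ) / ((R - 2 : ℤ) : ℝ)) ^ α ≤ 1 / 2 := by
    obtain ⟨x, hx0, hx⟩ : ∃ x : ℝ, 0 < x ∧ C3 * x ^ α ≤ 1 / 2 := by
      refine ⟨(1 / (2 * C3)) ^ (1 / α), by positivity, ?_⟩
      rw [← Real.rpow_mul (by positivity), one_div_mul_cancel hα.ne', Real.rpow_one]
      field_simp
      norm_num
    refine ⟨max 4 (⌈2 / x⌉ + 2), by omega, fun r R hr hR => ?_⟩
    have k1 : (4 : ℤ) * r ≤ R := le_trans (mul_le_mul_of_nonneg_right (le_max_left _ _) (by omega)) hR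
    have k2 : (⌈2 / x⌉ + 2) * r ≤ R :=
      le_trans (mul_le_mul_of_nonneg_right (le_max_right _ _) (by omega)) hR
    refine ⟨by omega, le_trans (mul_le_mul_of_nonneg_left (Real.rpow_le_rpow ?_ ?_ hα.le) hC3.le) hx⟩
    · have : (0 : ℝ) ≤ ((2 * r : ℤ) : ℝ) := by exact_mod_cast (by omega : (0 : ℤ) ≤ 2 * r)
      have : (0 : ℝ) ≤ ((R - 2 : ℤ) : ℝ) := by exact_mod_cast (by omega : (0 : ℤ) ≤ R - 2)
      positivity
    · have k3 : (⌈2 / x⌉ : ℤ) * r ≤ R - 2 := by nlinarith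
      have k4 : (0 : ℝ) < r := by exact_mod_cast (by omega : (0 : ℤ) < r)
      have k5 : (0 : ℝ) < ((R - 2 : ℤ) : ℝ) := by exact_mod_cast (by omega : (0 : ℤ) < R - 2)
      rw [div_le_iff₀ k5]
      have k6 : (2 / x) * r ≤ ((R - 2 : ℤ) : ℝ) := by
        refine le_trans (mul_le_mul_of_nonneg_right (Int.le_ceil _) k4.le) ?_
        exact_mod_cast k3
      have k7 : x * ((2 / x) * r) = 2 * r := by field_simp
      push_cast at k6 ⊢
      nlinarith
  refine ⟨1 / (4 * (Real.sqrt C1 * Real.sqrt C2)), C0, max r0' r1, Λ, by positivity, hC0,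
    hr0'.trans (le_max_left _ _), hΛ2, fun r hr => ?_⟩
  obtain ⟨hSc, h0⟩ := h0 r ((le_max_left _ _).trans hr)
  obtain ⟨-, h1'⟩ := h1' r ((le_max_right _ _).trans hr)
  refine ⟨hSc, fun b φ hφ0 hφ hφc hφs D η pl pr hη hF G hG0 R => ?_⟩
  have h8 := hSc.r8
  have hs0 : ∑ᶠ z, (Real.pi - 2 * θ) * φ z = Real.pi - 2 * θ := by
    have e1 := smul_finsum (Real.pi - 2 * θ) φ
    simp only [smul_eq_mul] at e1
    rw [← e1, hφs, mul_one]
  have hs1 : ∑ᶠ z, -((Real.pi - 2 * θ) * φ z) = -(Real.pi - 2 * θ) := by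
    rw [finsum_neg_distrib, hs0]
  have hfs : ∀ z, (Real.pi - 2 * θ) * φ z ≠ 0 → z ∈ sites (core K b r) := fun z hz =>
    hφc z (right_ne_zero_of_mul hz)
  have hfs' : ∀ z, -((Real.pi - 2 * θ) * φ z) ≠ 0 → z ∈ sites (core K b r) := fun z hz =>
    hfs z (neg_ne_zero.1 hz)
  have hfa' : ∀ z, |-((Real.pi - 2 * θ) * φ z)| ≤ K / (r : ℝ) ^ 2 := fun z => by
    rw [abs_neg]; exact hφ z
  constructor
  · intro hR hG
    obtain ⟨N, -, hN2, hN3⟩ := h0 b
    have := hN3 D η pl pr hη hF _ hfa' hfs' G hG0 hG (Real.tan θ) 1 t0 le_rfl zero_le_one le_rfl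
    simp only [Real.rpow_one, one_mul] at this
    rw [hs1] at this
    have e1 : -(Real.tan θ * -(Real.pi - 2 * θ) * NbP P (dq K r)) =
        Real.tan θ * (Real.pi - 2 * θ) * NbP P (dq K r) := by ring
    rw [e1] at this
    refine le_trans (FKA.Ex_mono hQ0 fun S _ => ?_) this
    refine mul_le_mul_of_nonneg_left ?_ (hG0 _)
    exact (le_abs_self _).trans (FJ_le h1.gt h1.lt hSc hR hφ0 hφ hφc hφs (hN2 _))
  · intro hR hRD hG
    obtain ⟨hR2, harm⟩ := hΛ r R (by omega) hR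
    obtain ⟨N, -, -, hN3⟩ := h1' b
    obtain ⟨A, hA, hsq⟩ := h2 r hSc b _ hφ hfs
    have hG2 : Ind (hbox b (2 * r)) G := fun ω ω' hw => hG ω ω' fun v hv =>
      hw v fun hv' => hv (hbox_mono (by omega) hv')
    set f : ℤ × ℤ → ℝ := fun z => (Real.pi - 2 * θ) * φ z with hf
    set g : ℝ := Ex (2 * Real.cos θ) D η G with hg
    have hg0 : 0 ≤ g := FKA.Ex_nonneg hQ0 fun S _ => hG0 _
    set E : ℝ := Real.exp (-(Real.tan θ * (Real.pi - 2 * θ) * NbP P (dq K r))) with hE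
    have hE0 : 0 < E := Real.exp_pos _
    have hEN : E * Real.exp (Real.tan θ * (Real.pi - 2 * θ) * NbP P (dq K r)) = 1 := by
      rw [hE, ← Real.exp_add, neg_add_cancel, Real.exp_zero]
    set B : ℝ := Real.sqrt C1 * E * Real.sqrt C2 with hB
    have hB0 : 0 < B := by positivity
    -- the moment of the inverse
    have hinv : Ex (2 * Real.cos θ) D η (fun ω => G ω * (YQ 1 (Real.tan θ) N f (dq K r) ω *
        Real.exp (kw θ * Sq A f (dq K r) ω))) ≤ B * g := by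
      have e1 : Ex (2 * Real.cos θ) D η (fun ω => G ω * YQ 1 (Real.tan θ) N f (dq K r) ω ^ 2) ≤
          (Real.sqrt C1 * E) ^ 2 * g := by
        have := hN3 D η pl pr hη hF f hφ hfs G hG0 hG2 (Real.tan θ) 2 t0 le_rfl
          (by norm_num) le_rfl
        simp only [Real.rpow_two] at this
        have e5 : Real.exp (-(2 * Real.tan θ * (Real.pi - 2 * θ) * NbP P (dq K r))) = E ^ 2 := by
          rw [hE, ← Real.exp_nat_mul]
          congr 1
          push_cast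
          ring
        rw [hs0, e5] at this
        rw [mul_pow, Real.sq_sqrt hC1.le]
        exact this
      have e2 : Ex (2 * Real.cos θ) D η (fun ω => G ω * Real.exp (kw θ * Sq A f (dq K r) ω) ^ 2) ≤
          (Real.sqrt C2) ^ 2 * g := by
        rw [Real.sq_sqrt hC2.le]
        have := hsq D η pl pr hη hF G hG0 hG2
        refine le_trans (le_of_eq ?_) this
        refine FKA.Ex_congr fun S _ => ?_
        rw [← Real.exp_nat_mul]
        push_cast
        ring_nf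
      exact ex_cs hQ0 hG0 (by positivity) (Real.sqrt_nonneg _) hg0 e1 e2
    -- the arm event
    have harm2 : Ex (2 * Real.cos θ) D η
        (fun ω => G ω * {ω | QB.HArm b (2 * r) (R - 2) ω}.indicator 1 ω) ≤ 1 / 2 * g := by
      refine (h3 D η b (2 * r) (R - 2) G (by omega) hR2
        ((hbox_mono (by omega)).trans hRD) hη hG0
        (fun ω ω' hw => hG ω ω' fun v hv => hw v fun hv' => hv
          (hbox_mono (by omega) (mem_sdiff.1 hv').1))).trans ?_
      exact mul_le_mul_of_nonneg_right harm hg0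
    -- pointwise
    have hpt : ∀ ω, 2 * (G ω - G ω * {ω | QB.HArm b (2 * r) (R - 2) ω}.indicator 1 ω) ≤
        (2 * B) * (G ω * FJ θ b r R φ ω) + (2 * B)⁻¹ *
          (G ω * (YQ 1 (Real.tan θ) N f (dq K r) ω * Real.exp (kw θ * Sq A f (dq K r) ω))) := by
      intro ω
      have hFL : 0 ≤ FJ θ b r R φ ω := FJ_nonneg h1.gt h1.lt (by omega) hφ0
        (sc_supp hSc hφc (by omega)) hφs
      have hY : 0 < YQ 1 (Real.tan θ) N f (dq K r) ω := YQ_pos one_pos _ _ _ _ _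
      have hgω := hG0 ω
      by_cases hh : QB.HArm b (2 * r) (R - 2) ω
      · rw [Set.indicator_of_mem (show ω ∈ {ω | QB.HArm b (2 * r) (R - 2) ω} from hh),
          Pi.one_apply, mul_one, sub_self, mul_zero]
        positivity
      · rw [Set.indicator_of_notMem (show ω ∉ {ω | QB.HArm b (2 * r) (R - 2) ω} from hh), mul_zero,
          sub_zero]
        have hI : Iso b r R ω := by
          by_contra h'
          exact hh (QB.harm_of_not_iso (by omega) (by omega) (by omega) (by omega) h')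
        have h4 := FJ_lower h1.gt h1.lt hSc (by omega) hφ0 hφ hφc hφs
          (fun s hs v hv => hA s (mul_ne_zero (by linarith [h1.lt]) hs) v hv) hI
        rw [Sm_neg', Sq_neg, mul_neg, neg_neg] at h4
        set x := FJ θ b r R φ ω with hx
        set y := YQ 1 (Real.tan θ) N f (dq K r) ω * Real.exp (kw θ * Sq A f (dq K r) ω) with hy
        have hy0 : 0 ≤ y := by positivity
        have hxy : 1 ≤ x * y := by
          have e : Real.exp (Real.tan θ * Sm f (dq K r) ω - kw θ * Sq A f (dq K r) ω) *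
              (Real.exp (-(Real.tan θ * Sm f (dq K r) ω)) * Real.exp (kw θ * Sq A f (dq K r) ω)) =
              1 := by
            rw [← Real.exp_add, ← Real.exp_add]
            ring_nf
            exact Real.exp_zero
          have h5 := mul_le_mul_of_nonneg_right h4 (show 0 ≤
            (Real.exp (-(Real.tan θ * Sm f (dq K r) ω)) * Real.exp (kw θ * Sq A f (dq K r) ω)) by
              positivity)
          rw [e] at h5
          refine h5.trans (le_of_eq ?_)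
          rw [hy, YQ, one_pow, one_mul]
        have h6 := two_le_of_mul (a := 2 * B * x) (b := (2 * B)⁻¹ * y) (by positivity)
          (by positivity) (by
            have : 2 * B * x * ((2 * B)⁻¹ * y) = x * y := by field_simp
            rw [this]
            exact hxy)
        nlinarith
    have hex : Ex (2 * Real.cos θ) D η
        (fun ω => 2 * (G ω - G ω * {ω | QB.HArm b (2 * r) (R - 2) ω}.indicator 1 ω)) ≤
        Ex (2 * Real.cos θ) D η (fun ω => (2 * B) * (G ω * FJ θ b r R φ ω) + (2 * B)⁻¹ *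
          (G ω * (YQ 1 (Real.tan θ) N f (dq K r) ω * Real.exp (kw θ * Sq A f (dq K r) ω)))) :=
      FKA.Ex_mono (D := D) (η := η) hQ0 fun S _ => hpt (cf D η S)
    rw [FKA.Ex_add, FKA.Ex_mul_left, FKA.Ex_mul_left, FKA.Ex_mul_left] at hex
    have hsub : Ex (2 * Real.cos θ) D η
        (fun ω => G ω - G ω * {ω | QB.HArm b (2 * r) (R - 2) ω}.indicator 1 ω) =
        g - Ex (2 * Real.cos θ) D η
          (fun ω => G ω * {ω | QB.HArm b (2 * r) (R - 2) ω}.indicator 1 ω) := by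
      rw [hg, eq_sub_iff_add_eq, ← FKA.Ex_add]
      exact FKA.Ex_congr fun S _ => by ring
    rw [hsub] at hex
    set X := Ex (2 * Real.cos θ) D η (fun ω => G ω * FJ θ b r R φ ω) with hX
    have h7 : (2 * B)⁻¹ * Ex (2 * Real.cos θ) D η (fun ω => G ω *
        (YQ 1 (Real.tan θ) N f (dq K r) ω * Real.exp (kw θ * Sq A f (dq K r) ω))) ≤ 1 / 2 * g := by
      refine (mul_le_mul_of_nonneg_left hinv (by positivity)).trans (le_of_eq ?_)
      field_simp
    have h8 : 1 / 2 * g ≤ 2 * B * X := by linarith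
    have h9 : 1 / (4 * (Real.sqrt C1 * Real.sqrt C2)) *
        Real.exp (Real.tan θ * (Real.pi - 2 * θ) * NbP P (dq K r)) * g = (1 / 2 * g) / (2 * B) := by
      have h10 : Real.exp (Real.tan θ * (Real.pi - 2 * θ) * NbP P (dq K r)) = 1 / E := by
        rw [eq_div_iff hE0.ne', mul_comm]; exact hEN
      rw [h10, hB]
      field_simp
      ring
    rw [h9, div_le_iff₀ (by positivity)]
    linarith

end Vale.Agent.P167.N.BT
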