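import Vale.Agent.P167.N.MIX.Jun
import Vale.Agent.P167.N.Base.ArmM
import Vale.Agent.P167.QB.Pr1
import Vale.Agent.P167.QB.Pr4

/-!
# P167, `0 < q < 1`, block BT: arms and mixing at a flat side with a junction

Versions of `QB.arm_flat` and `QB.mix_flat` for the window `FltQ D η b R pl pr` with arbitrary colours
`pl`, `pr` of the frozen squares on the left and on the right of the point `b`. The reference state is
`wak b R (kJ b pl pr)`: the colours `pl`, `pr` below the box, open outside of the box.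
-/

set_option autoImplicit false

namespace Vale.Agent.P167.N.BT

open Finset Relation Vale.Agent.P167.FK Vale.Agent.P167.FKA Vale.Agent.P167.QB
open Vale.Agent.P145.FB (PStep PConn)
open Vale.Agent.P167.BR (hbox mem_hbox hbox_mono Iso Crs Flt)
open Vale.Agent.P167.H562.QM (FltQ)
open Vale.Agent.P167.H259 (f_markov)
open Vale.Agent.P167.H440 (OneArc Ag AmAt AmE wak good_wak wak_in wak_out jun_two_mul jun_all)
open Vale.Agent.P167.H635 (Ann Shp)
open Vale.Agent.P167.N.MIX (AmShp oneArc_flat)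

variable {Q α C : ℝ} {b : ℤ × ℤ} {r R R' : ℤ} {pl pr : Bool} {D : Finset (ℤ × ℤ)} {η ω : Cfg} {p : ℝ}

/-- The masked arms of colour `true`. -/
theorem amShp_of (h : ArmM Q α C) : AmShp Q α C := by
  intro x r R D hr hrR hs η hη
  exact h true x r R D η hr hrR hη hs

/-- The colours of the frozen squares. -/
def kJ (b : ℤ × ℤ) (pl pr : Bool) : Cfg := fun v => if v.1 < b.1 then pl else pr

/-- The trace of a flat domain on a box. -/
theorem flt_tr (h : FltQ D η b R pl pr) : D ∩ Bq b R = hbox b R := by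
  ext v
  rw [mem_inter, mem_hbox_iff]
  constructor
  · rintro ⟨h1, h2⟩
    exact ⟨h2, (h.dom v (nm_of_Bq h2)).1 h1⟩
  · rintro ⟨h1, h2⟩
    exact ⟨(h.dom v (nm_of_Bq h1)).2 h2, h1⟩

theorem flt_ann (h : FltQ D η b R pl pr) : D ∩ Ann b r R = hbox b R \ hbox b r := by
  ext v
  have h1 := Finset.ext_iff.1 (flt_tr h) v
  simp only [Ann, mem_inter, mem_sdiff, mem_hbox_iff] at h1 ⊢
  tauto

theorem hbox_tr (hR : R ≤ R') : hbox b R' ∩ Bq b R = hbox b R := by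
  ext v
  rw [mem_inter, mem_hbox_iff, mem_hbox_iff]
  constructor
  · rintro ⟨⟨_, h1⟩, h2⟩
    exact ⟨h2, h1⟩
  · rintro ⟨h1, h2⟩
    exact ⟨⟨H635.bq_mono hR h1, h2⟩, h1⟩

theorem flt_ag (h : FltQ D η b R pl pr) : Ag b R D (kJ b pl pr) η := by
  intro v hv hvD
  have h2 := nm_of_Bq hv
  have h3 : ¬ b.2 ≤ v.2 := fun h' => hvD ((h.dom v h2).2 h')
  exact h.out v h2 (by omega)

theorem wak_ag (hR : R ≤ R') : Ag b R (hbox b R') (kJ b pl pr) (wak b R' (kJ b pl pr)) :=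
  fun _ hv _ => wak_in (H635.bq_mono hR hv)

theorem flt_one (h : FltQ D η b R pl pr) : OneArc b R D (kJ b pl pr) :=
  oneArc_flat (h := b.2) (b := b.1) (pl := pl) (pr := pr) (fun v hv => h.dom v (nm_of_Bq hv))
    fun _ _ _ => rfl

theorem hbox_one (hR : R ≤ R') : OneArc b R (hbox b R') (kJ b pl pr) :=
  oneArc_flat (h := b.2) (b := b.1) (pl := pl) (pr := pr) (fun v hv => by
    rw [mem_hbox_iff]
    exact and_iff_right (H635.bq_mono hR hv)) fun _ _ _ => rfl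

/-- The half box in the reference state is flat. -/
theorem fltQ_wak (b : ℤ × ℤ) (pl pr : Bool) (h : R < R') :
    FltQ (hbox b R') (wak b R' (kJ b pl pr)) b R pl pr := by
  refine ⟨fun v hv => ?_, fun v hv _ => ?_⟩
  · rw [nm_le_iff] at hv
    simp only [Prod.fst_sub, Prod.snd_sub] at hv
    rw [mem_hbox]
    omega
  · rw [wak_in]
    · rfl
    · rw [nm_le_iff] at hv
      simp only [Prod.fst_sub, Prod.snd_sub] at hv
      rw [H635.mem_Bq]
      omega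

/-- The masked arm bound in a flat window. -/
theorem amAt_flt (h : AmShp Q α C) (hr : 1 ≤ r) (hrR : r ≤ R) (hD : D ∩ Bq b R = hbox b R) :
    AmAt Q b r R D (C * ((r : ℝ) / R) ^ α) := by
  refine h b r R D hr hrR (H635.shp_ge2 (c := b.2) fun v hv => ?_)
  have h1 := Finset.ext_iff.1 hD v
  have h2 := (mem_sdiff.1 hv).1
  simp only [mem_inter, mem_hbox_iff, h2, and_true, true_and] at h1
  exact h1

theorem amE_of_harm (h : HArm b r R ω) : ω ∈ AmE (hbox b R \ hbox b r) b r R := by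
  obtain ⟨u, v, h1, h2, h3, h4⟩ := h
  refine ⟨u, v, Int.even_iff.1 h1, h2, h3, ReflTransGen.mono (fun a b k => ?_) _ _ h4⟩
  refine ⟨k.1, k.2.1, k.2.2.2.2, ?_⟩
  exact Finset.mem_coe.2 (mem_sdiff.2 ⟨k.2.2.1, k.2.2.2.1⟩)

/-- **Arms at a flat side with a junction.** -/
theorem arm_j (hQ0 : 0 < Q) (h : AmShp Q α C) {G : Cfg → ℝ} (hr : 1 ≤ r) (hrR : r ≤ R)
    (hF : FltQ D η b R pl pr) (hη : Good η) (hG0 : ∀ ω, 0 ≤ G ω)
    (hG : Ind (hbox b R \ hbox b r) G) :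
    Ex Q D η (fun ω => G ω * {ω | HArm b r R ω}.indicator 1 ω) ≤
      C * ((r : ℝ) / R) ^ α * Ex Q D η G := by
  have h1 := (amAt_flt h hr hrR (flt_tr hF)).ex hQ0 hη hG0 (by rw [flt_ann hF]; exact hG)
  refine le_trans (Ex_mono hQ0 fun S _ => ?_) h1
  refine mul_le_mul_of_nonneg_left ?_ (hG0 _)
  refine Set.indicator_le_indicator_of_subset (fun ω hω => ?_) (fun _ => zero_le_one) _
  rw [flt_ann hF]
  exact amE_of_harm hω

section core

variable {F G : Cfg → ℝ}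

/-- Nonnegative functions. -/
theorem mixj_pos (hQ0 : 0 < Q) (hQ1 : Q ≤ 1) (hrR : r ≤ R) (hp : AmAt Q b r R D p) (hp1 : p ≤ 1 / 2)
    (hD : FltQ D η b R pl pr) (hη : Good η) (hF0 : ∀ ω, 0 ≤ F ω) (hF : Loc (hbox b r) F)
    (hG0 : ∀ ω, 0 ≤ G ω) (hG : Ind (hbox b R) G) :
    |Ex Q D η (fun ω => F ω * G ω) - Ex Q (hbox b R) (wak b R (kJ b pl pr)) F * Ex Q D η G| ≤
      8 * p * (Ex Q (hbox b R) (wak b R (kJ b pl pr)) F * Ex Q D η G) := by
  have hp0 : 0 ≤ p := hp.nonneg hQ0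
  have e : D ∩ Bq b R = hbox b R ∩ Bq b R := by rw [flt_tr hD, hbox_tr le_rfl]
  have hV : hbox b r ⊆ Bq b r := hbox_sub_Bq
  have hVD : hbox b r ⊆ D := (hbox_mono hrR).trans (fltQ_sub hD)
  have h := jun_two_mul hQ0 hQ1 hrR hp (by linarith) e hVD hV hF0 hF (flt_one hD) hη
    (good_wak b R (kJ b pl pr)) (flt_ag hD) (wak_ag le_rfl) hG0 (by rw [flt_tr hD]; exact hG)
  obtain ⟨h1, h2⟩ := h
  set x := Ex Q D η G * Ex Q (hbox b R) (wak b R (kJ b pl pr)) F with hx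
  have e1 : Ex Q D η (fun ω => F ω * G ω) = Ex Q D η (fun ω => G ω * F ω) :=
    Ex_congr fun S _ => mul_comm _ _
  rw [e1, mul_comm (Ex Q (hbox b R) (wak b R (kJ b pl pr)) F), ← hx]
  set y := Ex Q D η (fun ω => G ω * F ω) with hy
  have hx0 : 0 ≤ x := mul_nonneg (Ex_nonneg hQ0 fun _ _ => hG0 _)
    (Ex_nonneg hQ0 fun _ _ => hF0 _)
  have hq : 1 / 4 ≤ (1 - p) ^ 2 := by nlinarith
  have hq2 : 1 - 2 * p ≤ (1 - p) ^ 2 := by nlinarith
  rw [abs_le]
  constructor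
  · nlinarith [mul_nonneg hp0 hx0]
  · -- y ≤ (1 + 8 p) x
    have h3 : 1 ≤ (1 + 8 * p) * (1 - p) ^ 2 := by
      nlinarith [mul_nonneg hp0 (by linarith : (0 : ℝ) ≤ 1 / 2 - p), mul_nonneg hp0 hp0,
        mul_nonneg (mul_nonneg hp0 hp0) (by linarith : (0 : ℝ) ≤ 1 / 2 - p)]
    have hy0 : 0 ≤ y := Ex_nonneg hQ0 fun _ _ => mul_nonneg (hG0 _) (hF0 _)
    have h4 : y ≤ (1 + 8 * p) * ((1 - p) ^ 2 * y) := by nlinarith
    have h5 := mul_le_mul_of_nonneg_left h1 (by linarith : (0 : ℝ) ≤ 1 + 8 * p)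
    linarith

/-- A signed function off the box. -/
theorem mixj_sgn (hQ0 : 0 < Q) (hQ1 : Q ≤ 1) (hrR : r ≤ R) (hp : AmAt Q b r R D p) (hp1 : p ≤ 1 / 2)
    (hD : FltQ D η b R pl pr) (hη : Good η) (hF0 : ∀ ω, 0 ≤ F ω) (hF : Loc (hbox b r) F)
    (hG : Ind (hbox b R) G) :
    |Ex Q D η (fun ω => F ω * G ω) - Ex Q (hbox b R) (wak b R (kJ b pl pr)) F * Ex Q D η G| ≤
      8 * p * Ex Q (hbox b R) (wak b R (kJ b pl pr)) F * Ex Q D η (fun ω => |G ω|) := by
  set Gp : Cfg → ℝ := fun ω => max (G ω) 0 with hGp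
  set Gm : Cfg → ℝ := fun ω => max (-G ω) 0 with hGm
  have pm : ∀ x : ℝ, x = max x 0 - max (-x) 0 ∧ |x| = max x 0 + max (-x) 0 := by
    intro x
    rcases le_total 0 x with h | h
    · rw [max_eq_left h, max_eq_right (by linarith), abs_of_nonneg h]
      constructor <;> ring
    · rw [max_eq_right h, max_eq_left (by linarith), abs_of_nonpos h]
      constructor <;> ring
  have eG : G = fun ω => Gp ω - Gm ω := funext fun ω => (pm (G ω)).1
  have eG' : (fun ω => |G ω|) = fun ω => Gp ω + Gm ω := funext fun ω => (pm (G ω)).2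
  have hGp0 : ∀ ω, 0 ≤ Gp ω := fun ω => le_max_right _ _
  have hGm0 : ∀ ω, 0 ≤ Gm ω := fun ω => le_max_right _ _
  have iGp : Ind (hbox b R) Gp := fun ω ω' h => by simp only [hGp, hG ω ω' h]
  have iGm : Ind (hbox b R) Gm := fun ω ω' h => by simp only [hGm, hG ω ω' h]
  have h1 := abs_le.1 (mixj_pos hQ0 hQ1 hrR hp hp1 hD hη hF0 hF hGp0 iGp)
  have h2 := abs_le.1 (mixj_pos hQ0 hQ1 hrR hp hp1 hD hη hF0 hF hGm0 iGm)
  have e1 : Ex Q D η (fun ω => F ω * G ω) = Ex Q D η (fun ω => F ω * Gp ω) -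
      Ex Q D η (fun ω => F ω * Gm ω) := by
    rw [← Ex_sub]
    refine Ex_congr fun S _ => ?_
    have a2 : G (cf D η S) = Gp (cf D η S) - Gm (cf D η S) := congrFun eG (cf D η S)
    rw [a2]
    ring
  have e3 : Ex Q D η G = Ex Q D η Gp - Ex Q D η Gm := by
    rw [← Ex_sub]
    exact Ex_congr fun S _ => congrFun eG _
  have e5 : Ex Q D η (fun ω => |G ω|) = Ex Q D η Gp + Ex Q D η Gm := by
    rw [← Ex_add]
    exact Ex_congr fun S _ => congrFun eG' _
  rw [e1, e3, e5, abs_le]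
  constructor <;> nlinarith [h1.1, h1.2, h2.1, h2.2]

end core

/-- **Mixing with a rate at a flat side with a junction.** -/
theorem mix_j (hQ0 : 0 < Q) (hQ1 : Q ≤ 1) (hα : 0 < α) (hC : 0 < C) (h : AmShp Q α C) :
    ∃ K : ℤ, 1 ≤ K ∧ ∀ (b : ℤ × ℤ) (r R : ℤ) (pl pr : Bool), 1 ≤ r → K * r ≤ R →
      ∀ F : Cfg → ℝ, (∀ ω, 0 ≤ F ω) → Loc (hbox b r) F →
      (∀ (D : Finset (ℤ × ℤ)) (η : Cfg), FltQ D η b R pl pr → Good η →
        ∀ G : Cfg → ℝ, Ind (hbox b R) G →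
          |Ex Q D η (fun ω => F ω * G ω) -
            Ex Q (hbox b R) (wak b R (kJ b pl pr)) F * Ex Q D η G| ≤
            8 * (C * ((r : ℝ) / R) ^ α) * Ex Q (hbox b R) (wak b R (kJ b pl pr)) F *
              Ex Q D η (fun ω => |G ω|)) := by
  -- the ratio
  obtain ⟨n, hn, hn4⟩ : ∃ n : ℕ, C * ((1 : ℝ) / n) ^ α ≤ 1 / 2 ∧ 1 ≤ n := by
    have h1 : Filter.Tendsto (fun n : ℕ => C * ((1 : ℝ) / n) ^ α) Filter.atTop (nhds 0) := by
      have h2 : Filter.Tendsto (fun n : ℕ => (1 : ℝ) / n) Filter.atTop (nhds 0) :=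
        tendsto_const_div_atTop_nhds_zero_nat 1
      have h3 := (h2.rpow_const (p := α) (Or.inr hα.le)).const_mul C
      rw [Real.zero_rpow hα.ne', mul_zero] at h3
      exact h3
    obtain ⟨n, h2, h3⟩ := ((h1.eventually (ge_mem_nhds (show (0 : ℝ) < 1 / 2 by norm_num))).and
      (Filter.eventually_ge_atTop 1)).exists
    exact ⟨n, h2, h3⟩
  have hn1 : (1 : ℝ) ≤ n := by exact_mod_cast hn4
  refine ⟨n, by exact_mod_cast hn4, fun b r R pl pr hr hKr F hF0 hF D η hFl hη G hG => ?_⟩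
  have hr' : (1 : ℝ) ≤ r := by exact_mod_cast hr
  have hKr' : (n : ℝ) * r ≤ R := by exact_mod_cast hKr
  have hrR' : (r : ℝ) ≤ R := by nlinarith
  have hrR : r ≤ R := by exact_mod_cast hrR'
  have hR0 : (0 : ℝ) < R := by linarith
  have hp1 : C * ((r : ℝ) / R) ^ α ≤ 1 / 2 := by
    refine le_trans (mul_le_mul_of_nonneg_left ?_ hC.le) hn
    refine Real.rpow_le_rpow (by positivity) ?_ hα.le
    rw [div_le_div_iff₀ hR0 (by linarith)]
    linarith
  exact mixj_sgn hQ0 hQ1 hrR (amAt_flt h hr hrR (flt_tr hFl)) hp1 hFl hη hF0 hF hG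

end Vale.Agent.P167.N.BT
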