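import Vale.Agent.P167.QB.Pr6
import Vale.Agent.P167.QB.Hpoly
import Vale.Agent.P167.QB.Maj
import Vale.Agent.P167.H174.ND.Base

/-!
# P167, `0 < q < 1`, bridge: the junction. The local functional

Dobrushin polygon: free from `q 0` to `q k`, wired from `q k` to `q n = q 0`; the boundary is flat near the base
`b = q 0` (`WJ q D k R`): the side on the right of `b` is free, the side on the left is wired. Charges: `F` of total
mass `s₀ = π - 2 θ` far from `b` (and `- s₀` at the base), `φ` a bump of mass one near `b`.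

The strands which surround `b` are the strands from the left to the right. `wJ`: the weight of a piece of the half
box, `tJ`: its mass for the charge `F - s₀ φ`, `FJ`: the product over the pieces of the half box of radius `R` which
visit the half box of radius `r`, on `Iso b r R`. `xg_loc`: on `Iso` the functional of `F - s₀ φ` is the functional
of `F` times `FJ`. `one_le_FJ`: all the weights are at least one.
-/

set_option autoImplicit false

namespace Vale.Agent.P167.N.BT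

open Finset Relation Vale.Agent.P167 Vale.Agent.P167.BR Vale.Agent.P167.FK
open Vale.Agent.P167.E6 (IsPolygon Encloses dir face)
open Vale.Agent.P167.H718 (IsXY IsCl Cl isCl_strand)
open Vale.Agent.P167.QX (lo hi exists_xy lo_xy hi_xy wB)
open Vale.Agent.P167.QB (gB XG Ard LeftIn sep_ard ard_lp ard_xy inn_xy mass_sub' mass_bd' wB_hx flat_side hpoly)
open Vale.Agent.P167.FKA (Loc)
open Vale.Agent.P167.E2 (face0 face3 f4_0m)
open Vale.Agent.P167.H562.MAJ (one_le_prodR)
open Vale.Agent.P167.H174.ND (poly_rot encl_rot be_rot shi shi_lt shi_cast xy_rot mass_base)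

variable {n : ℕ} {q : ZMod n → ℤ × ℤ} {D Z : Finset (ℤ × ℤ)} {ω : Cfg} {A : Finset Ed}
  {k l : ℕ} {θ : ℝ} {r R : ℤ} {b : ℤ × ℤ} {φ F : ℤ × ℤ → ℝ}

/-! ### Definitions -/

/-- A flat window at the base, free on the right, wired on the left. -/
structure WJ {n : ℕ} (q : ZMod n → ℤ × ℤ) (D : Finset (ℤ × ℤ)) (k : ℕ) (R : ℤ) : Prop where
  poly : IsPolygon q
  enc : Encloses q D
  flat : Flt D (q 0) R
  r1 : 1 ≤ R
  kR : R ≤ k
  nR : (k : ℤ) + R ≤ n
  off : q k ∉ sites (hbox (q 0) R)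

/-- The piece enters on the right of `b`. -/
def InR (b : ℤ × ℤ) (A : Finset Ed) : Prop := ∃ e ∈ A, (tlv e).2 < b.2 ∧ b.1 ≤ (hdv e).1

open Classical in
/-- The weight of a piece of the half box. -/
noncomputable def wJ (θ : ℝ) (b : ℤ × ℤ) (R : ℤ) (A : Finset Ed) (t : ℝ) : ℝ :=
  if IsLp (hbox b R) A then Real.cos (θ + t) / Real.cos θ
  else if Sep (hbox b R) A b (top b R) then Real.sin (θ + t) / Real.sin θ
  else if LeftIn b A ↔ InR b A then Real.sin (θ - t) / Real.sin θ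
  else Real.sin (2 * θ + t) / Real.sin (2 * θ)

open Classical in
/-- The mass of a piece of the half box for the charge `F - s₀ φ`. -/
noncomputable def tJ (θ : ℝ) (b : ℤ × ℤ) (R : ℤ) (φ : ℤ × ℤ → ℝ) (A : Finset Ed) : ℝ :=
  (Real.pi - 2 * θ) * ((if Sep (hbox b R) A b (top b R) then 1 else 0) - mass (hbox b R) b φ A)

open Classical in
/-- The local functional at the junction. -/
noncomputable def FJ (θ : ℝ) (b : ℤ × ℤ) (r R : ℤ) (φ : ℤ × ℤ → ℝ) (ω : Cfg) : ℝ :=
  if Iso b r R ω then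
    ∏ A ∈ (pcs ω (hbox b R)).filter (Vz (hbox b r)), wJ θ b R A (tJ θ b R φ A)
  else 0

/-- The charge `F` is far from the base: the pieces near the base which do not surround it have the mass zero. -/
def FarJ {n : ℕ} (q : ZMod n → ℤ × ℤ) (D : Finset (ℤ × ℤ)) (k : ℕ) (R : ℤ) (F : ℤ × ℤ → ℝ) : Prop :=
  ∀ ζ : Cfg, ∀ A ∈ pcs ζ D, InnP (q 0) R A → mass D (q k) F A = 0

/-! ### Locality -/

theorem FJ_congr {ω' : Cfg} (h : ∀ v ∈ hbox b R, ω v = ω' v) : FJ θ b r R φ ω = FJ θ b r R φ ω' := by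
  classical
  unfold FJ
  rw [pcs_congr h]
  by_cases hI : Iso b r R ω
  · rw [if_pos hI, if_pos ((iso_congr h).1 hI)]
  · rw [if_neg hI, if_neg (fun h' => hI ((iso_congr h).2 h'))]

theorem loc_FJ : Loc (hbox b R) (FJ θ b r R φ) := fun _ _ h => FJ_congr h

theorem FJ_not (h : ¬ Iso b r R ω) : FJ θ b r R φ ω = 0 := by
  unfold FJ
  rw [if_neg h]

/-! ### The weights are at least one -/

section

variable (h1 : Real.pi / 3 < θ) (h2 : θ < Real.pi / 2)
include h1 h2

theorem one_le_cosw {p : ℝ} (hp0 : 0 ≤ p) (hp1 : p ≤ 1) :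
    1 ≤ Real.cos (θ - (Real.pi - 2 * θ) * p) / Real.cos θ := by
  have hpi := Real.pi_pos
  have hc : 0 < Real.cos θ := Real.cos_pos_of_mem_Ioo ⟨by linarith, by linarith⟩
  have h3 : 0 ≤ (Real.pi - 2 * θ) * p := mul_nonneg (by linarith) hp0
  have h4 : (Real.pi - 2 * θ) * p ≤ Real.pi - 2 * θ := mul_le_of_le_one_right (by linarith) hp1
  rw [one_le_div hc]
  exact Real.cos_le_cos_of_nonneg_of_le_pi (by linarith) (by linarith) (by linarith)

theorem one_le_sinw {p : ℝ} (hp0 : 0 ≤ p) (hp1 : p ≤ 1) :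
    1 ≤ Real.sin (θ + (Real.pi - 2 * θ) * p) / Real.sin θ := by
  have hpi := Real.pi_pos
  have hs : 0 < Real.sin θ := Real.sin_pos_of_pos_of_lt_pi (by linarith) (by linarith)
  have h3 : 0 ≤ (Real.pi - 2 * θ) * p := mul_nonneg (by linarith) hp0
  have h4 : (Real.pi - 2 * θ) * p ≤ Real.pi - 2 * θ := mul_le_of_le_one_right (by linarith) hp1
  rw [one_le_div hs]
  rcases le_total (θ + (Real.pi - 2 * θ) * p) (Real.pi / 2) with h | h
  · exact Real.sin_le_sin_of_le_of_le_pi_div_two (by linarith) h (by linarith)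
  · rw [← Real.sin_pi_sub (θ + _)]
    exact Real.sin_le_sin_of_le_of_le_pi_div_two (by linarith) (by linarith) (by linarith)

theorem one_le_sin2w {p : ℝ} (hp0 : 0 ≤ p) (hp1 : p ≤ 1) :
    1 ≤ Real.sin (2 * θ - (Real.pi - 2 * θ) * p) / Real.sin (2 * θ) := by
  have hpi := Real.pi_pos
  have hs : 0 < Real.sin (2 * θ) := Real.sin_pos_of_pos_of_lt_pi (by linarith) (by linarith)
  have h3 : 0 ≤ (Real.pi - 2 * θ) * p := mul_nonneg (by linarith) hp0
  have h4 : (Real.pi - 2 * θ) * p ≤ Real.pi - 2 * θ := mul_le_of_le_one_right (by linarith) hp1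
  rw [one_le_div hs, ← Real.sin_pi_sub (2 * θ)]
  rcases le_total (2 * θ - (Real.pi - 2 * θ) * p) (Real.pi / 2) with h | h
  · exact Real.sin_le_sin_of_le_of_le_pi_div_two (by linarith) h (by linarith)
  · rw [← Real.sin_pi_sub (2 * θ - _)]
    exact Real.sin_le_sin_of_le_of_le_pi_div_two (by linarith) (by linarith) (by linarith)

/-- The weight of a piece with a mass of `φ` between `0` and `1` is at least one. -/
theorem one_le_wJ (hm0 : 0 ≤ mass (hbox b R) b φ A) (hm1 : mass (hbox b R) b φ A ≤ 1)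
    (hlp : IsLp (hbox b R) A → ¬ Sep (hbox b R) A b (top b R)) :
    1 ≤ wJ θ b R A (tJ θ b R φ A) := by
  classical
  have e0 : Real.pi - 2 * θ = Real.pi - 2 * θ := rfl
  unfold wJ tJ
  by_cases hl : IsLp (hbox b R) A
  · rw [if_pos hl, if_neg (hlp hl)]
    have e : θ + (Real.pi - 2 * θ) * (0 - mass (hbox b R) b φ A) =
      θ - (Real.pi - 2 * θ) * mass (hbox b R) b φ A := by ring
    rw [e]
    exact one_le_cosw h1 h2 hm0 hm1
  · rw [if_neg hl]
    by_cases hs : Sep (hbox b R) A b (top b R)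
    · rw [if_pos hs, if_pos hs]
      exact one_le_sinw h1 h2 (by linarith) (by linarith)
    · rw [if_neg hs, if_neg hs]
      split_ifs
      · have e : θ - (Real.pi - 2 * θ) * (0 - mass (hbox b R) b φ A) =
          θ + (Real.pi - 2 * θ) * mass (hbox b R) b φ A := by ring
        rw [e]
        exact one_le_sinw h1 h2 hm0 hm1
      · have e : 2 * θ + (Real.pi - 2 * θ) * (0 - mass (hbox b R) b φ A) =
          2 * θ - (Real.pi - 2 * θ) * mass (hbox b R) b φ A := by ring
        rw [e]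
        exact one_le_sin2w h1 h2 hm0 hm1

end

/-- **The local functional is at least one on `Iso`.** -/
theorem one_le_FJ (h1 : Real.pi / 3 < θ) (h2 : θ < Real.pi / 2) (hR : 1 ≤ R) (h0 : ∀ z, 0 ≤ φ z)
    (hf : ∀ z, φ z ≠ 0 → z ∈ sites (hbox b R)) (hs : ∑ᶠ z, φ z = 1) (hI : Iso b r R ω) :
    1 ≤ FJ θ b r R φ ω := by
  classical
  obtain ⟨n, q, l, hq, hD, hl, hb, ht⟩ := hpoly b hR
  unfold FJ
  rw [if_pos hI]
  refine one_le_prodR fun A hA => ?_
  rw [mem_filter] at hA
  obtain ⟨m0, m1⟩ := mass_bd' (A := A) (p := b) (Subset.refl (hbox b R)) h0 hf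
  rw [hs] at m1
  refine one_le_wJ h1 h2 m0 m1 fun hlp hsep => ?_
  obtain ⟨u, hu, h3⟩ := hsep
  apply h3
  have := lp_bd hq hD hA.1 hu hlp l
  rwa [hb, ht] at this

/-! ### The rotated polygon -/

/-- The polygon with the base `q k`. -/
def rq (q : ZMod n → ℤ × ℤ) (k : ℕ) (i : ZMod n) : ℤ × ℤ := q (i + k)

theorem rq_zero (q : ZMod n → ℤ × ℤ) (k : ℕ) : rq q k 0 = q k := by
  unfold rq
  rw [zero_add]

theorem rq_base (q : ZMod n → ℤ × ℤ) (h : k ≤ n) : rq q k ((n - k : ℕ) : ZMod n) = q 0 := by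
  unfold rq
  rw [← Nat.cast_add, Nat.sub_add_cancel h, ZMod.natCast_self]

section

variable (hw : WJ q D k R)
include hw

theorem WJ.rot : IsPolygon (rq q k) ∧ Encloses (rq q k) D ∧
    rq q k ((n - k : ℕ) : ZMod n) = q 0 ∧ Flt D (rq q k ((n - k : ℕ) : ZMod n)) R ∧ n - k < n ∧
    rq q k 0 ∉ sites (hbox (rq q k ((n - k : ℕ) : ZMod n)) R) ∧ k ≤ n ∧ 1 ≤ k := by
  have h1 := hw.r1
  have h2 := hw.kR
  have h3 := hw.nR
  have e : rq q k ((n - k : ℕ) : ZMod n) = q 0 := rq_base q (by omega)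
  refine ⟨poly_rot hw.poly fun i => rfl, encl_rot hw.enc fun i => rfl, e, ?_, by omega, ?_, by omega,
    by omega⟩
  · rw [e]
    exact hw.flat
  · rw [e, rq_zero]
    exact hw.off

/-- The inner strands: positions in the polygon. -/
theorem inn_pos (hA : A ∈ pcs ω D) (hI : InnP (q 0) R A) (hl : ¬ IsLp D A) :
    ∃ x y X Y : ℕ, IsXY (rq q k) A x y ∧ IsXY q A X Y ∧
      (LeftIn (q 0) A ↔ x < y) ∧ (InR (q 0) A ↔ n - k ≤ x) ∧
      x = (if k ≤ X then X - k else X + n - k) ∧ y = (if k ≤ Y then Y - k else Y + n - k) := by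
  classical
  obtain ⟨hq', hD', e0, hF', hl', h0', hkn, hk1⟩ := hw.rot
  have hR1 := hw.r1
  have hnR := hw.nR
  obtain ⟨x, y, h, gx1, gx2, gy1, gy2, hL⟩ := inn_xy hq' hD' hF' hw.r1 hl' h0' hA
    (fun e he => by rw [e0]; exact (hI e he).1) (fun e he => by rw [e0]; exact (hI e he).2) hl
  obtain ⟨X, Y, H⟩ := exists_xy hw.poly hw.enc hA hl
  have H' := xy_rot hw.poly (q' := rq q k) (l := k) (fun i => rfl) (by omega) H
  have ex : shi n k X = x := by
    rcases (h.iff hq' hD' hA (z := shi n k X) H'.1).1 H'.2.2.1 with h3 | h3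
    · exact h3
    · exfalso
      have h4 := H'.2.2.2.2.1
      rw [h3] at h4
      exact h.2.2.2.2.2 h4
  have ey : shi n k Y = y := by
    rcases (h.iff hq' hD' hA (z := shi n k Y) H'.2.1).1 H'.2.2.2.1 with h3 | h3
    · exfalso
      have h4 := H'.2.2.2.2.2
      rw [h3] at h4
      exact h4 h.2.2.2.2.1
    · exact h3
  refine ⟨x, y, X, Y, h, H, by rw [← e0]; exact hL, ?_, ex.symm, ey.symm⟩
  -- the position of the entry
  obtain ⟨fx1, fx2⟩ := flat_side hq' hD' hF' hw.r1 hl' h0' gx1 gx2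
  have cx := ce_even h.2.2.2.2.1 0
  rw [← fx2, f4_0m, face0, face3] at cx
  rw [e0] at fx1
  have ex1 : (hdv (be (rq q k) (x : ZMod n))).1 = (q 0).1 + ((x : ℤ) - ((n - k : ℕ) : ℤ)) := by
    rw [cx.2.2.1, fx1]
  constructor
  · rintro ⟨e, he, h3, h4⟩
    have t1 : tlv e ∉ D := by
      intro h5
      have := (hI e he).2.mem_tl hw.flat (hI e he).1 h5
      rw [mem_hbox] at this
      omega
    have e1 := entry_unique hA he h.2.2.1 t1 (be_even hq' hD' h.2.2.2.2.1).2.2.2
    rw [e1, ex1] at h4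
    omega
  · intro h3
    refine ⟨_, h.2.2.1, ?_, ?_⟩
    · rw [cx.2.2.2, fx1]
      simp
    · rw [ex1]
      omega

/-- Separation of the base from the top of the half box. -/
theorem sep_top (hA : A ∈ pcs ω D) (hI : InnP (q 0) R A) :
    (Sep (hbox (q 0) R) A (q 0) (top (q 0) R) ↔ Sep D A (q 0) (q k)) ∧
      (Sep D A (q 0) (q k) ↔ Ard (rq q k) (n - k) A) := by
  obtain ⟨hq', hD', e0, hF', hl', h0', hkn, hk1⟩ := hw.rot
  have hR := hw.r1
  have h1 := sep_inn hq' hD' hF' hw.r1 hl' h0' hA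
    (fun e he => by rw [e0]; exact (hI e he).1) (fun e he => by rw [e0]; exact (hI e he).2)
    (z := q 0) (by rw [e0, mem_sites_hbox hR]; omega)
  have h2 := sep_ard hq' hD' hA (w := n - k) (by omega)
  rw [e0, rq_zero] at h1
  rw [e0, rq_zero] at h2
  exact ⟨h1.symm, h2⟩

/-- **The weight of an inner piece.** -/
theorem wB_J (hA : A ∈ pcs ω D) (hI : InnP (q 0) R A) (t : ℝ) :
    wB θ (gB θ) q D k A t = wJ θ (q 0) R A t := by
  classical
  obtain ⟨hq', hD', e0, hF', hl', h0', hkn, hk1⟩ := hw.rot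
  have hlp := isLp_inn hq' hD' hF' hw.r1 hl' h0' (A := A) (fun e he => by rw [e0]; exact (hI e he).1)
    (fun e he => by rw [e0]; exact (hI e he).2)
  rw [e0] at hlp
  unfold wB wJ
  by_cases hl : IsLp D A
  · rw [if_pos hl, if_pos (hlp.1 hl)]
  · obtain ⟨x, y, X, Y, h, H, hL, hR', ex, ey⟩ := inn_pos hw hA hI hl
    have hcl := isCl_strand (k := k) hw.poly hw.enc hA hl H
    have hne := H.ne
    have hXn := H.1
    have hYn := H.2.1
    obtain ⟨s1, s2⟩ := sep_top hw hA hI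
    rw [ard_xy hq' hD' hA h] at s2
    rw [if_neg hl, if_neg (fun h' => hl (hlp.2 h'))]
    have hlo := lo_xy hw.poly hw.enc hA H
    have hhi := hi_xy hw.poly hw.enc hA H
    by_cases hs : Sep D A (q 0) (q k)
    · rw [if_pos (s1.2 hs), if_pos]
      · have e : θ / 2 + gB θ + t = (θ + t) - Real.pi / 2 := by unfold gB; ring
        rw [e, Real.cos_sub_pi_div_two]
      · have h3 := s2.1 hs
        rw [hlo, hhi]
        split_ifs at ex ey <;> omega
    · rw [if_neg (fun h' => hs (s1.1 h')), if_neg]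
      · have h3 : ¬ (min x y < n - k ∧ n - k ≤ max x y) := fun h' => hs (s2.2 h')
        by_cases hLR : LeftIn (q 0) A ↔ InR (q 0) A
        · rw [if_pos hLR, if_neg]
          intro h4
          have h5 := hcl.1 h4
          unfold Cl at h5
          rw [hL, hR'] at hLR
          split_ifs at ex ey <;> omega
        · rw [if_neg hLR, if_pos]
          rw [hL, hR'] at hLR
          refine hcl.2 ?_
          unfold Cl
          split_ifs at ex ey <;> omega
      · intro h4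
        rw [hlo, hhi] at h4
        apply hs
        rw [s2]
        split_ifs at ex ey <;> omega

/-! ### Masses -/

omit hw in
/-- Separation in a connected zone. -/
theorem sep_sub {u₀ : ℤ × ℤ → ℤ} (hu₀ : PotD D A u₀) (hZD : Z ⊆ D) (hZ : ECon Z) {z p : ℤ × ℤ}
    (hz : z ∈ sites Z) (hp : p ∈ sites Z) :
    Sep D A z p ↔ Sep Z A z p := by
  have key : ∀ u u' : ℤ × ℤ → ℤ, PotD D A u → PotD Z A u' → u z - u' z = u p - u' p := by
    intro u u' hu hu'
    have key' : ∀ s t, ReflTransGen (Ec Z) s t → u s - u' s = u t - u' t := by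
      intro s t hst
      induction hst with
      | refl => rfl
      | tail _ h ih =>
        rw [ih]
        obtain ⟨e, he, h1⟩ := h
        have h2 := hu e (eds_mono hZD he)
        have h3 := hu' e he
        rcases h1 with ⟨h1, h4⟩ | ⟨h1, h4⟩ <;> rw [h1, h4] at h2 h3 <;> omega
    exact key' _ _ (hZ z hz p hp)
  constructor
  · rintro ⟨u, hu, h⟩
    exact ⟨u, fun e he => hu e (eds_mono hZD he), h⟩
  · rintro ⟨u', hu', h⟩
    refine ⟨u₀, hu₀, ?_⟩
    have := key u₀ u' hu₀ hu'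
    omega

omit hw in
/-- The mass of a charge near the base. -/
theorem mass_hb (hq : IsPolygon q) (hD : Encloses q D) (hA : A ∈ pcs ω D) (hZD : Z ⊆ D)
    (hZ : ECon Z) {p : ℤ × ℤ} (hp : p ∈ sites Z) (hf : ∀ z, φ z ≠ 0 → z ∈ sites Z) :
    mass D p φ A = mass Z p φ A := by
  classical
  obtain ⟨u₀, hu₀⟩ := exists_pot hq hD hA
  have h1 : ∀ (D' : Finset (ℤ × ℤ)), Z ⊆ D' → mass D' p φ A =
      ∑ z ∈ sites Z, if Sep D' A z p then φ z else 0 := by
    intro D' hsub
    rw [mass]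
    symm
    refine sum_subset (sites_mono hsub) fun z _ hz => ?_
    have : φ z = 0 := by
      by_contra h'
      exact hz (hf z h')
    rw [this, ite_self]
  rw [h1 D hZD, h1 Z (Subset.refl _)]
  refine sum_congr rfl fun z hz => ?_
  have := sep_sub hu₀ hZD hZ hz hp
  by_cases h : Sep D A z p
  · rw [if_pos h, if_pos (this.1 h)]
  · rw [if_neg h, if_neg (fun h' => h (this.2 h'))]

theorem WJ.b_mem : q 0 ∈ sites (hbox (q 0) R) := by
  have := hw.r1
  rw [mem_sites_hbox this]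
  omega

theorem WJ.k_mem : q k ∈ sites D := by
  obtain ⟨hq', hD', -⟩ := hw.rot
  have := XDL.base_mem hq' hD'
  rwa [rq_zero] at this

open Classical in
/-- The mass of the far charge of an inner piece. -/
theorem mass_far_J (hA : A ∈ pcs ω D) (hI : InnP (q 0) R A) (hFD : ∀ z, F z ≠ 0 → z ∈ sites D)
    {s : ℝ} (hFs : ∑ᶠ z, F z = s) (hF0 : FarJ q D k R F) :
    mass D (q 0) F A = if Sep (hbox (q 0) R) A (q 0) (top (q 0) R) then s else 0 := by
  obtain ⟨m1, m2⟩ := mass_base hw.poly hw.enc hA hw.k_mem (XDL.base_mem hw.poly hw.enc) hFD hFs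
  have h0 := hF0 ω A hA hI
  have h1 := (sep_top hw hA hI).1
  by_cases hs : Sep D A (q 0) (q k)
  · rw [if_pos (h1.2 hs), m2 hs, h0, sub_zero]
  · rw [if_neg (fun h' => hs (h1.1 h')), m1 hs, h0]

omit hw in
theorem mass_smul (c : ℝ) {p : ℤ × ℤ} {f : ℤ × ℤ → ℝ} :
    mass D p (fun z => c * f z) A = c * mass D p f A := by
  classical
  unfold mass
  rw [mul_sum]
  refine sum_congr rfl fun z _ => ?_
  split_ifs <;> ring

/-- The mass of an inner piece. -/
theorem mass_J (hA : A ∈ pcs ω D) (hI : InnP (q 0) R A) (hFD : ∀ z, F z ≠ 0 → z ∈ sites D)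
    (hFs : ∑ᶠ z, F z = Real.pi - 2 * θ) (hF0 : FarJ q D k R F)
    (hf : ∀ z, φ z ≠ 0 → z ∈ sites (hbox (q 0) R)) :
    mass D (q 0) (fun z => F z - (Real.pi - 2 * θ) * φ z) A = tJ θ (q 0) R φ A := by
  classical
  rw [mass_sub', mass_far_J hw hA hI hFD hFs hF0, mass_smul,
    mass_hb hw.poly hw.enc hA (hbox_sub hw.flat) (econ_hbox hw.r1) hw.b_mem hf]
  unfold tJ
  split_ifs <;> ring

/-- A piece which does not visit the small half box does not see the bump. -/
theorem mass_off_J (hr : 1 ≤ r) (hrR : r ≤ R) (hf : ∀ z, φ z ≠ 0 → z ∈ sites (hbox (q 0) r))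
    (hV : ¬ Vz (hbox (q 0) r) A) : mass D (q 0) φ A = 0 := by
  classical
  have hZD : hbox (q 0) r ⊆ D := (hbox_mono hrR).trans (hbox_sub hw.flat)
  have hqs : q 0 ∈ sites (hbox (q 0) r) := by
    rw [mem_sites_hbox hr]
    omega
  rw [mass_zone hZD hf (P := False) fun z hz => ?_]
  · simp
  · rw [iff_false]
    rintro ⟨u, hu, h⟩
    exact h (pot_zone hu hZD hV (econ_hbox hr z hz _ hqs))

/-- The weight of an inner piece with the far charge alone. -/
theorem wB_far_one (h1 : 0 < θ) (h2 : θ < Real.pi / 2) (hA : A ∈ pcs ω D) (hI : InnP (q 0) R A)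
    (hFD : ∀ z, F z ≠ 0 → z ∈ sites D) (hFs : ∑ᶠ z, F z = Real.pi - 2 * θ)
    (hF0 : FarJ q D k R F) : wB θ (gB θ) q D k A (mass D (q 0) F A) = 1 := by
  classical
  have hpi := Real.pi_pos
  have hs : 0 < Real.sin θ := Real.sin_pos_of_pos_of_lt_pi h1 (by linarith)
  have hc : 0 < Real.cos θ := Real.cos_pos_of_mem_Ioo ⟨by linarith, by linarith⟩
  rw [mass_far_J hw hA hI hFD hFs hF0]
  by_cases hsep : Sep (hbox (q 0) R) A (q 0) (top (q 0) R)
  · have hl : ¬ IsLp (hbox (q 0) R) A := by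
      intro hl
      have h3 := (sep_top hw hA hI).2.1 ((sep_top hw hA hI).1.1 hsep)
      obtain ⟨hq', hD', -⟩ := hw.rot
      exact ard_lp hq' hD' hA (fun e he => hbox_sub hw.flat (hl e he)) h3
    rw [if_pos hsep, wB_J hw hA hI]
    unfold wJ
    rw [if_neg hl, if_pos hsep]
    have e : θ + (Real.pi - 2 * θ) = Real.pi - θ := by ring
    rw [e, Real.sin_pi_sub, div_self hs.ne']
  · rw [if_neg hsep, wB_hx hs hc]

/-- On `Iso` the pieces which visit the small half box are inner. -/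
theorem innP_iso (hrR : r ≤ R) (hI : Iso (q 0) r R ω) (hA : A ∈ pcs ω D)
    (hV : Vz (hbox (q 0) r) A) : InnP (q 0) R A := by
  obtain ⟨h1, h2⟩ := (iso_iff hw.flat hrR hI).1 ⟨hA, hV⟩
  exact fun e he => ⟨subset_eds h1 he, hI A h1 h2 e he⟩

open Classical in
/-- The local functional in terms of the pieces of the domain. -/
theorem FJ_eq (hrR : r ≤ R) (hI : Iso (q 0) r R ω) (hFD : ∀ z, F z ≠ 0 → z ∈ sites D)
    (hFs : ∑ᶠ z, F z = Real.pi - 2 * θ) (hF0 : FarJ q D k R F)
    (hf : ∀ z, φ z ≠ 0 → z ∈ sites (hbox (q 0) R)) :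
    FJ θ (q 0) r R φ ω = ∏ A ∈ (pcs ω D).filter (Vz (hbox (q 0) r)),
      wB θ (gB θ) q D k A (mass D (q 0) (fun z => F z - (Real.pi - 2 * θ) * φ z) A) := by
  unfold FJ
  rw [if_pos hI]
  refine prod_congr ?_ ?_
  · ext A
    rw [mem_filter, mem_filter]
    exact (iso_iff hw.flat hrR hI).symm
  · intro A hA
    rw [mem_filter] at hA
    have hi := innP_iso hw hrR hI hA.1 hA.2
    rw [wB_J hw hA.1 hi, mass_J hw hA.1 hi hFD hFs hF0 hf]

open Classical in
/-- The product over the pieces which do not visit the half box of radius `r`. -/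
noncomputable def Xof {n : ℕ} (θ : ℝ) (q : ZMod n → ℤ × ℤ) (D : Finset (ℤ × ℤ)) (k : ℕ)
    (Z : Finset (ℤ × ℤ)) (F : ℤ × ℤ → ℝ) (ω : Cfg) : ℝ :=
  ∏ A ∈ (pcs ω D).filter (fun A => ¬ Vz Z A), wB θ (gB θ) q D k A (mass D (q 0) F A)

open Classical in
/-- The functional with the bump: the factor of the pieces off the half box does not see the bump. -/
theorem xg_split (hr : 1 ≤ r) (hrR : r ≤ R) (hf : ∀ z, φ z ≠ 0 → z ∈ sites (hbox (q 0) r)) (c : ℝ) :
    XG θ q D k (fun z => F z - c * φ z) ω =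
      (∏ A ∈ (pcs ω D).filter (Vz (hbox (q 0) r)),
        wB θ (gB θ) q D k A (mass D (q 0) (fun z => F z - c * φ z) A)) *
      Xof θ q D k (hbox (q 0) r) F ω := by
  unfold XG QX.XB
  rw [← prod_filter_mul_prod_filter_not (pcs ω D) (Vz (hbox (q 0) r))]
  congr 1
  refine prod_congr rfl fun A hA => ?_
  rw [mem_filter] at hA
  rw [mass_sub', mass_smul, mass_off_J hw hr hrR hf hA.2, mul_zero, sub_zero]

/-- On `Iso` the functional of the far charge is the product over the pieces off the half box. -/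
theorem xg_far (h1 : 0 < θ) (h2 : θ < Real.pi / 2) (hrR : r ≤ R) (hI : Iso (q 0) r R ω)
    (hFD : ∀ z, F z ≠ 0 → z ∈ sites D) (hFs : ∑ᶠ z, F z = Real.pi - 2 * θ)
    (hF0 : FarJ q D k R F) : XG θ q D k F ω = Xof θ q D k (hbox (q 0) r) F ω := by
  classical
  unfold XG QX.XB Xof
  rw [← prod_filter_mul_prod_filter_not (pcs ω D) (Vz (hbox (q 0) r)), prod_eq_one, one_mul]
  intro A hA
  rw [mem_filter] at hA
  exact wB_far_one hw h1 h2 hA.1 (innP_iso hw hrR hI hA.1 hA.2) hFD hFs hF0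

/-- **(LOC)** On `Iso` the functional of `F - s₀ φ` is the functional of `F` times the local functional. -/
theorem xg_loc (h1 : 0 < θ) (h2 : θ < Real.pi / 2) (hr : 1 ≤ r) (hrR : r ≤ R)
    (hI : Iso (q 0) r R ω) (hFD : ∀ z, F z ≠ 0 → z ∈ sites D)
    (hFs : ∑ᶠ z, F z = Real.pi - 2 * θ) (hF0 : FarJ q D k R F)
    (hf : ∀ z, φ z ≠ 0 → z ∈ sites (hbox (q 0) r)) :
    XG θ q D k (fun z => F z - (Real.pi - 2 * θ) * φ z) ω =
      XG θ q D k F ω * FJ θ (q 0) r R φ ω := by
  rw [xg_split hw hr hrR hf, xg_far hw h1 h2 hrR hI hFD hFs hF0,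
    FJ_eq hw hrR hI hFD hFs hF0 (fun z hz => sites_mono (hbox_mono hrR) (hf z hz)), mul_comm]

end

end Vale.Agent.P167.N.BT
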