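import Vale.Agent.P167.N.BT.Jarm
import Vale.Agent.P167.QB.Pr5

/-!
# P167, `0 < q < 1`, block BT: the assembly at a junction, abstract form

The version of `QB.asm_c` for the window `FltQ D η b R pl pr` with arbitrary colours.
-/

set_option autoImplicit false

namespace Vale.Agent.P167.N.BT

open Finset Relation Vale.Agent.P167.FK Vale.Agent.P167.FKA Vale.Agent.P167.QB
open Vale.Agent.P167.BR (hbox mem_hbox hbox_mono Iso Flt)
open Vale.Agent.P167.H562.QM (FltQ)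
open Vale.Agent.P167.H259 (f_markov)
open Vale.Agent.P167.H440 (wak good_wak)
open Vale.Agent.P167.N.MIX (AmShp)

variable {Q : ℝ} {b : ℤ × ℤ} {r R : ℤ} {ω ω' : Cfg}

open Classical in
/-- **The assembly at a junction**, abstract form. -/
theorem asm_j (hQ : Kit Q) :
    ∃ (K : ℤ) (α C : ℝ), 1 ≤ K ∧ 0 < α ∧ 0 < C ∧
    ∀ (D : Finset (ℤ × ℤ)) (η : Cfg) (b : ℤ × ℤ) (L r s₁ s₂ R : ℤ) (pl pr : Bool), Good η →
      FltQ D η b R pl pr → 1 ≤ r → 3 ≤ L → L * r + 2 ≤ s₁ → K * s₁ ≤ s₂ → s₂ + 4 ≤ R →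
    ∀ (X X' Xh Fl Y Y' : Cfg → ℝ) (M : ℝ), 0 ≤ M →
      Loc (hbox b s₁) Fl → (∀ ω, 0 ≤ Fl ω) → (∀ ω, Fl ω ≤ Y ω) →
      (∀ ω, |X ω| ≤ Y ω * Y' ω) → (∀ ω, |X' ω| ≤ Y' ω) → Ind (hbox b R) Y' →
      (∀ ω, Iso b r s₁ ω → X ω = Fl ω * X' ω) →
      Ind (hbox b s₂) Xh → (∀ ω, |Xh ω| ≤ Y' ω) → (∀ ω, ¬ BR.Crs D b s₂ R ω → X' ω = Xh ω) →
      (∀ G : Cfg → ℝ, (∀ ω, 0 ≤ G ω) → Ind (hbox b (L * r)) G →
        Ex Q D η (fun ω => G ω * Y ω) ≤ M * Ex Q D η G) →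
      Ex Q (hbox b s₂) (wak b s₂ (kJ b pl pr)) Fl ≤ M →
      |Ex Q D η X - Ex Q (hbox b s₂) (wak b s₂ (kJ b pl pr)) Fl * Ex Q D η X'| ≤
        C * (((L * r : ℤ) : ℝ) / ((s₁ - 2 : ℤ) : ℝ)) ^ α * M * Ex Q D η Y' +
        C * ((s₁ : ℝ) / s₂) ^ α * M * Ex Q D η Y' +
        C * (((s₂ + 2 : ℤ) : ℝ) / ((R - 2 : ℤ) : ℝ)) ^ α * M * Ex Q D η Y' := by
  have hQ_pos := hQ.pos
  have hQ0 : 0 < Q := by linarith
  obtain ⟨α, C, hα, hC, hM⟩ := hQ.armM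
  have hS : AmShp Q α C := amShp_of hM
  obtain ⟨K, hK, hmix⟩ := mix_j hQ0 hQ.le hα hC hS
  refine ⟨K, α, 24 * C, hK, hα, by positivity, ?_⟩
  intro D η b L r s₁ s₂ R pl pr hη hF hr hL h1 h2 h3 X X' Xh Fl Y Y' M hM0 hFl hFl0 hFlY hX hX'
    hY' hIso hXhI hXhY hCrs hmom hz
  have hs1 : 1 ≤ s₁ := by nlinarith
  have hs2 : s₁ ≤ s₂ := by nlinarith
  have hLr : r + 2 ≤ L * r := by nlinarith
  set z : ℝ := Ex Q (hbox b s₂) (wak b s₂ (kJ b pl pr)) Fl with hzdef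
  have hz0 : 0 ≤ z := Ex_nonneg hQ0 fun S _ => hFl0 _
  set E : ℝ := Ex Q D η Y' with hE
  have hY0 : ∀ ω, 0 ≤ Y ω := fun ω => (hFl0 ω).trans (hFlY ω)
  have hY'0 : ∀ ω, 0 ≤ Y' ω := fun ω => (abs_nonneg _).trans (hX' ω)
  have hE0 : 0 ≤ E := Ex_nonneg hQ0 fun S _ => hY'0 _
  -- the arm events
  set A : Cfg → ℝ := {ω | HArm b (L * r) (s₁ - 2) ω}.indicator 1 with hA
  set B : Cfg → ℝ := {ω | HArm b (s₂ + 2) (R - 2) ω}.indicator 1 with hB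
  have hA0 : ∀ ω, 0 ≤ A ω := fun ω => Set.indicator_nonneg (fun _ _ => zero_le_one) _
  have hB0 : ∀ ω, 0 ≤ B ω := fun ω => Set.indicator_nonneg (fun _ _ => zero_le_one) _
  have hAI : Ind (hbox b (L * r)) A := ind_harm b (L * r) (s₁ - 2)
  have hBI : Ind (hbox b (s₂ + 2)) B := ind_harm b (s₂ + 2) (R - 2)
  have hY'I : Ind (hbox b (L * r)) Y' := Ind.mono (hbox_mono (by omega)) hY'
  set a : ℝ := C * (((L * r : ℤ) : ℝ) / ((s₁ - 2 : ℤ) : ℝ)) ^ α with ha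
  set c : ℝ := C * (((s₂ + 2 : ℤ) : ℝ) / ((R - 2 : ℤ) : ℝ)) ^ α with hc
  set m : ℝ := 8 * (C * ((s₁ : ℝ) / s₂) ^ α) with hm
  have hYA : Ex Q D η (fun ω => Y' ω * A ω) ≤ a * E := by
    refine arm_j (b := b) (r := L * r) (R := s₁ - 2) (G := Y') hQ0 hS (by omega) (by omega)
      (fltQ_mono hF (by omega)) hη hY'0 ?_
    exact Ind.mono (sdiff_subset.trans (hbox_mono (by omega))) hY'
  have hYB : Ex Q D η (fun ω => Y' ω * B ω) ≤ c * E := by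
    refine arm_j (b := b) (r := s₂ + 2) (R := R - 2) (G := Y') hQ0 hS (by omega) (by omega)
      (fltQ_mono hF (by omega)) hη hY'0 ?_
    exact Ind.mono (sdiff_subset.trans (hbox_mono (by omega))) hY'
  -- pointwise decomposition
  have hpt : ∀ ω, |X ω - Fl ω * Xh ω| ≤ (Y' ω * A ω) * Y ω * 2 + (Y' ω * B ω) * Y ω * 2 := by
    intro ω
    have hFl' : |Fl ω| ≤ Y ω := by rw [abs_of_nonneg (hFl0 ω)]; exact hFlY ω
    by_cases hI : Iso b r s₁ ω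
    · rw [hIso ω hI, ← mul_sub]
      by_cases hCr : BR.Crs D b s₂ R ω
      · have hb1 : B ω = 1 := by
          have : ω ∈ {ω | HArm b (s₂ + 2) (R - 2) ω} :=
            harm_of_crs (fltQ_flt hF) (by omega) le_rfl (by omega) (by omega) hCr
          rw [hB, Set.indicator_of_mem this]
          rfl
        rw [hb1, abs_mul]
        have h5 : |X' ω - Xh ω| ≤ 2 * Y' ω := by
          have := abs_sub (X' ω) (Xh ω)
          have := hX' ω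
          have := hXhY ω
          linarith
        have h6 := mul_le_mul hFl' h5 (abs_nonneg _) (hY0 ω)
        have h7 : 0 ≤ (Y' ω * A ω) * Y ω * 2 := by
          have := mul_nonneg (mul_nonneg (hY'0 ω) (hA0 ω)) (hY0 ω)
          linarith
        linarith
      · rw [hCrs ω hCr, sub_self, mul_zero, abs_zero]
        have := mul_nonneg (mul_nonneg (hY'0 ω) (hA0 ω)) (hY0 ω)
        have := mul_nonneg (mul_nonneg (hY'0 ω) (hB0 ω)) (hY0 ω)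
        linarith
    · have ha1 : A ω = 1 := by
        have : ω ∈ {ω | HArm b (L * r) (s₁ - 2) ω} :=
          harm_of_not_iso (by omega) hLr (by omega) (by omega) hI
        rw [hA, Set.indicator_of_mem this]
        rfl
      rw [ha1]
      have h5 : |X ω - Fl ω * Xh ω| ≤ |X ω| + |Fl ω| * |Xh ω| := by
        rw [← abs_mul]
        exact abs_sub _ _
      have h6 := mul_le_mul hFl' (hXhY ω) (abs_nonneg _) (hY0 ω)
      have h7 := hX ω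
      have h8 := mul_nonneg (mul_nonneg (hY'0 ω) (hB0 ω)) (hY0 ω)
      linarith
  have hpt2 : ∀ ω, |X' ω - Xh ω| ≤ 2 * (Y' ω * B ω) := by
    intro ω
    by_cases hCr : BR.Crs D b s₂ R ω
    · have hb1 : B ω = 1 := by
        have : ω ∈ {ω | HArm b (s₂ + 2) (R - 2) ω} :=
          harm_of_crs (fltQ_flt hF) (by omega) le_rfl (by omega) (by omega) hCr
        rw [hB, Set.indicator_of_mem this]
        rfl
      rw [hb1]
      have := abs_sub (X' ω) (Xh ω)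
      have := hX' ω
      have := hXhY ω
      linarith
    · rw [hCrs ω hCr, sub_self, abs_zero]
      have := mul_nonneg (hY'0 ω) (hB0 ω)
      linarith
  -- expectations
  have e1 : |Ex Q D η X - Ex Q D η (fun ω => Fl ω * Xh ω)| ≤ 2 * (a * M * E) + 2 * (c * M * E) := by
    rw [← Ex_sub]
    refine (abs_Ex_le hQ0 _).trans ((Ex_mono (G := fun ω => (Y' ω * A ω) * Y ω * 2 +
      (Y' ω * B ω) * Y ω * 2) hQ0 fun S _ => hpt _).trans ?_)
    rw [Ex_add]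
    have k1 := hmom (fun ω => Y' ω * A ω) (fun ω => mul_nonneg (hY'0 ω) (hA0 ω))
      (Ind.mul hY'I hAI)
    have k2 := hmom (fun ω => Y' ω * B ω) (fun ω => mul_nonneg (hY'0 ω) (hB0 ω))
      (Ind.mul hY'I (Ind.mono (hbox_mono (by omega)) hBI))
    have k3 : Ex Q D η (fun ω => (Y' ω * A ω) * Y ω * 2) =
        2 * Ex Q D η (fun ω => (Y' ω * A ω) * Y ω) := by
      rw [← Ex_mul_left]
      exact Ex_congr fun S _ => by ring
    have k4 : Ex Q D η (fun ω => (Y' ω * B ω) * Y ω * 2) =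
        2 * Ex Q D η (fun ω => (Y' ω * B ω) * Y ω) := by
      rw [← Ex_mul_left]
      exact Ex_congr fun S _ => by ring
    rw [k3, k4]
    have k5 := mul_le_mul_of_nonneg_left hYA hM0
    have k6 := mul_le_mul_of_nonneg_left hYB hM0
    have e5 : M * (a * E) = a * M * E := by ring
    have e6 : M * (c * E) = c * M * E := by ring
    linarith
  have e2 := hmix b s₁ s₂ pl pr hs1 h2 Fl hFl0 hFl D η (fltQ_mono hF (by omega)) hη Xh hXhI
  have e3 : |Ex Q D η X' - Ex Q D η Xh| ≤ 2 * (c * E) := by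
    rw [← Ex_sub]
    refine (abs_Ex_le hQ0 _).trans ((Ex_mono (G := fun ω => 2 * (Y' ω * B ω)) hQ0
      fun S _ => hpt2 _).trans ?_)
    rw [Ex_mul_left]
    linarith
  have e5 : Ex Q D η (fun ω => |Xh ω|) ≤ E := Ex_mono hQ0 fun S _ => hXhY _
  rw [← hzdef] at e2
  have hm1 : 0 ≤ ((s₁ : ℝ) / s₂) ^ α := Real.rpow_nonneg (div_nonneg (by
    exact_mod_cast (by omega : (0 : ℤ) ≤ s₁)) (by exact_mod_cast (by omega : (0 : ℤ) ≤ s₂))) _
  have hm0 : 0 ≤ m := by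
    rw [hm]
    exact mul_nonneg (by norm_num) (mul_nonneg hC.le hm1)
  have e6 : m * z * Ex Q D η (fun ω => |Xh ω|) ≤ m * M * E :=
    mul_le_mul (mul_le_mul_of_nonneg_left hz hm0) e5 (Ex_nonneg hQ0 fun S _ => abs_nonneg _)
      (mul_nonneg hm0 hM0)
  have e7 : |z * Ex Q D η X' - z * Ex Q D η Xh| ≤ 2 * (c * M * E) := by
    rw [← mul_sub, abs_mul, abs_of_nonneg hz0]
    have hcE : 0 ≤ 2 * (c * E) := (abs_nonneg _).trans e3
    calc z * |Ex Q D η X' - Ex Q D η Xh| ≤ M * (2 * (c * E)) :=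
          mul_le_mul hz e3 (abs_nonneg _) hM0
      _ = _ := by ring
  have e8 : |Ex Q D η X - z * Ex Q D η X'| ≤ 2 * (a * M * E) + m * M * E + 4 * (c * M * E) := by
    have e9 : Ex Q D η X - z * Ex Q D η X' = (Ex Q D η X - Ex Q D η (fun ω => Fl ω * Xh ω)) +
        (Ex Q D η (fun ω => Fl ω * Xh ω) - z * Ex Q D η Xh) -
        (z * Ex Q D η X' - z * Ex Q D η Xh) := by ring
    rw [e9]
    refine (abs_sub _ _).trans ?_
    have := abs_add_le (Ex Q D η X - Ex Q D η (fun ω => Fl ω * Xh ω))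
      (Ex Q D η (fun ω => Fl ω * Xh ω) - z * Ex Q D η Xh)
    linarith
  refine e8.trans ?_
  set x1 : ℝ := (((L * r : ℤ) : ℝ) / ((s₁ - 2 : ℤ) : ℝ)) ^ α with hx1d
  set x2 : ℝ := ((s₁ : ℝ) / s₂) ^ α with hx2d
  set x3 : ℝ := (((s₂ + 2 : ℤ) : ℝ) / ((R - 2 : ℤ) : ℝ)) ^ α with hx3d
  have hME : 0 ≤ M * E := mul_nonneg hM0 hE0
  have hx1 : 0 ≤ x1 := Real.rpow_nonneg (div_nonneg (by
    exact_mod_cast (by omega : (0 : ℤ) ≤ L * r))
    (by exact_mod_cast (by omega : (0 : ℤ) ≤ s₁ - 2))) _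
  have hx2 : 0 ≤ x2 := Real.rpow_nonneg (div_nonneg (by
    exact_mod_cast (by omega : (0 : ℤ) ≤ s₁)) (by exact_mod_cast (by omega : (0 : ℤ) ≤ s₂))) _
  have hx3 : 0 ≤ x3 := Real.rpow_nonneg (div_nonneg (by
    exact_mod_cast (by omega : (0 : ℤ) ≤ s₂ + 2))
    (by exact_mod_cast (by omega : (0 : ℤ) ≤ R - 2))) _
  have u1 : 0 ≤ C * x1 * (M * E) := mul_nonneg (mul_nonneg hC.le hx1) hME
  have u2 : 0 ≤ C * x2 * (M * E) := mul_nonneg (mul_nonneg hC.le hx2) hME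
  have u3 : 0 ≤ C * x3 * (M * E) := mul_nonneg (mul_nonneg hC.le hx3) hME
  linarith

/-- **The assembly at a junction** with explicit intermediate scales. -/
theorem asm_j' (hQ : Kit Q) (L : ℤ) (hL : 3 ≤ L) :
    ∃ (K : ℤ) (α C : ℝ), 1 ≤ K ∧ 0 < α ∧ 0 < C ∧
    ∀ (D : Finset (ℤ × ℤ)) (η : Cfg) (b : ℤ × ℤ) (r R : ℤ) (pl pr : Bool), Good η →
      FltQ D η b R pl pr → 1 ≤ r → K * r ≤ R →
      L * r ≤ S1 r R ∧ S1 r R ≤ S2 r R ∧ L * S2 r R ≤ R ∧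
    ∀ (X X' Xh Fl Y Y' : Cfg → ℝ) (M : ℝ), 0 ≤ M →
      Loc (hbox b (S1 r R)) Fl → (∀ ω, 0 ≤ Fl ω) → (∀ ω, Fl ω ≤ Y ω) →
      (∀ ω, |X ω| ≤ Y ω * Y' ω) → (∀ ω, |X' ω| ≤ Y' ω) → Ind (hbox b R) Y' →
      (∀ ω, Iso b r (S1 r R) ω → X ω = Fl ω * X' ω) →
      Ind (hbox b (S2 r R)) Xh → (∀ ω, |Xh ω| ≤ Y' ω) →
      (∀ ω, ¬ BR.Crs D b (S2 r R) R ω → X' ω = Xh ω) →
      (∀ G : Cfg → ℝ, (∀ ω, 0 ≤ G ω) → Ind (hbox b (L * r)) G →
        Ex Q D η (fun ω => G ω * Y ω) ≤ M * Ex Q D η G) →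
      Ex Q (hbox b (S2 r R)) (wak b (S2 r R) (kJ b pl pr)) Fl ≤ M →
      |Ex Q D η X - Ex Q (hbox b (S2 r R)) (wak b (S2 r R) (kJ b pl pr)) Fl * Ex Q D η X'| ≤
        C * ((r : ℝ) / R) ^ α * M * Ex Q D η Y' := by
  have hQ0 : 0 < Q := hQ.pos
  obtain ⟨K, α, C, hK, hα, hC, h⟩ := asm_j hQ
  obtain ⟨K0, hK0, hsc⟩ := scales (max K (4 * L)) (le_trans hK (le_max_left _ _))
  have hL' : (3 : ℝ) ≤ L := by exact_mod_cast hL
  refine ⟨K0, α / 3, C * (4 * L) ^ α + C * 2 ^ α + C * 16 ^ α, hK0, by positivity, by positivity,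
    ?_⟩
  intro D η b r R pl pr hη hF hr hKr
  obtain ⟨h1, h2, h3, g1, g2, g3⟩ := hsc r R hr hKr
  have hm1 : K ≤ max K (4 * L) := le_max_left _ _
  have hm2 : 4 * L ≤ max K (4 * L) := le_max_right _ _
  have hs1 : 4 * L * r ≤ S1 r R := le_trans (mul_le_mul_of_nonneg_right hm2 (by omega)) h1
  have hs1' : 12 ≤ S1 r R := by nlinarith
  have hs2 : K * S1 r R ≤ S2 r R := le_trans (mul_le_mul_of_nonneg_right hm1 (by omega)) h2
  have hs2' : 4 * L * S1 r R ≤ S2 r R := le_trans (mul_le_mul_of_nonneg_right hm2 (by omega)) h2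
  have hs2p : 12 ≤ S2 r R := by nlinarith
  have hs3 : 4 * L * S2 r R ≤ R := le_trans (mul_le_mul_of_nonneg_right hm2 (by omega)) h3
  have hs3' : 12 * S2 r R ≤ R := by nlinarith
  refine ⟨by nlinarith, by nlinarith, by nlinarith, ?_⟩
  intro X X' Xh Fl Y Y' M hM0 hFl hFl0 hFlY hX hX' hY' hIso hXhI hXhY hCrs hmom hz
  have hY'0 : ∀ ω, 0 ≤ Y' ω := fun ω => (abs_nonneg _).trans (hX' ω)
  have hME : 0 ≤ M * Ex Q D η Y' := mul_nonneg hM0 (Ex_nonneg hQ0 fun S _ => hY'0 _)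
  refine (h D η b L r (S1 r R) (S2 r R) R pl pr hη hF hr hL (by nlinarith) hs2 (by nlinarith)
    X X' Xh Fl Y Y' M hM0 hFl hFl0 hFlY hX hX' hY' hIso hXhI hXhY hCrs hmom hz).trans ?_
  set t : ℝ := ((r : ℝ) / R) ^ (1 / 3 : ℝ) with ht
  have hr0 : (0 : ℝ) < r := by exact_mod_cast (by omega : 0 < r)
  have hR0 : (0 : ℝ) < R := by exact_mod_cast (by omega : 0 < R)
  have ht0 : 0 ≤ t := Real.rpow_nonneg (by positivity) _
  have htα : t ^ α = ((r : ℝ) / R) ^ (α / 3) := by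
    rw [ht, ← Real.rpow_mul (by positivity)]
    congr 1
    ring
  have e1 : (((L * r : ℤ) : ℝ) / ((S1 r R - 2 : ℤ) : ℝ)) ^ α ≤ (4 * L) ^ α * t ^ α := by
    rw [← Real.mul_rpow (by positivity) ht0]
    have hb : (0 : ℝ) < ((S1 r R - 2 : ℤ) : ℝ) := by exact_mod_cast (by omega : 0 < S1 r R - 2)
    have ha : (0 : ℝ) ≤ ((L * r : ℤ) : ℝ) := by
      push_cast
      positivity
    refine Real.rpow_le_rpow (div_nonneg ha hb.le) ?_ hα.le
    have hs : (0 : ℝ) < (S1 r R : ℝ) := by exact_mod_cast (by omega : 0 < S1 r R)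
    have h5 : (S1 r R : ℝ) ≤ 2 * ((S1 r R - 2 : ℤ) : ℝ) := by
      exact_mod_cast (by omega : S1 r R ≤ 2 * (S1 r R - 2))
    rw [div_le_iff₀ hs] at g1
    rw [div_le_iff₀ hb]
    push_cast
    have h6 : (r : ℝ) ≤ 4 * t * ((S1 r R - 2 : ℤ) : ℝ) := by
      calc (r : ℝ) ≤ 2 * t * (S1 r R : ℝ) := g1
        _ ≤ 2 * t * (2 * ((S1 r R - 2 : ℤ) : ℝ)) := mul_le_mul_of_nonneg_left h5 (by positivity)
        _ = _ := by ring
    have h7 := mul_le_mul_of_nonneg_left h6 (by linarith : (0 : ℝ) ≤ L)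
    push_cast at h7
    linarith
  have e2 : ((S1 r R : ℝ) / S2 r R) ^ α ≤ 2 ^ α * t ^ α := by
    rw [← Real.mul_rpow (by positivity) ht0]
    refine Real.rpow_le_rpow (div_nonneg ?_ ?_) g2 hα.le
    · exact_mod_cast (by omega : 0 ≤ S1 r R)
    · exact_mod_cast (by omega : 0 ≤ S2 r R)
  have e3 : (((S2 r R + 2 : ℤ) : ℝ) / ((R - 2 : ℤ) : ℝ)) ^ α ≤ 16 ^ α * t ^ α := by
    rw [← Real.mul_rpow (by positivity) ht0]
    have hb : (0 : ℝ) < ((R - 2 : ℤ) : ℝ) := by exact_mod_cast (by omega : 0 < R - 2)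
    have ha : (0 : ℝ) ≤ ((S2 r R + 2 : ℤ) : ℝ) := by exact_mod_cast (by omega : 0 ≤ S2 r R + 2)
    refine Real.rpow_le_rpow (div_nonneg ha hb.le) ?_ hα.le
    rw [div_le_iff₀ hR0] at g3
    rw [div_le_iff₀ hb]
    have h5 : ((S2 r R + 2 : ℤ) : ℝ) ≤ 2 * (S2 r R : ℝ) := by
      exact_mod_cast (by omega : S2 r R + 2 ≤ 2 * S2 r R)
    have h6 : (R : ℝ) ≤ 2 * ((R - 2 : ℤ) : ℝ) := by
      exact_mod_cast (by omega : R ≤ 2 * (R - 2))
    have h7 := mul_le_mul_of_nonneg_left h6 (by positivity : 0 ≤ 4 * t)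
    have h8 : 0 ≤ 8 * t * ((R - 2 : ℤ) : ℝ) := by positivity
    linarith
  have hCx : ∀ {y c' : ℝ}, y ≤ c' * t ^ α → C * y * M * Ex Q D η Y' ≤
      C * c' * t ^ α * (M * Ex Q D η Y') := by
    intro y c' hy
    have h5 := mul_le_mul_of_nonneg_right (mul_le_mul_of_nonneg_left hy hC.le) hME
    linarith
  have t1 := hCx e1
  have t2 := hCx e2
  have t3 := hCx e3
  rw [← htα]
  calc _ ≤ C * (4 * L) ^ α * t ^ α * (M * Ex Q D η Y') + C * 2 ^ α * t ^ α *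
        (M * Ex Q D η Y') + C * 16 ^ α * t ^ α * (M * Ex Q D η Y') :=
        add_le_add (add_le_add t1 t2) t3
    _ = _ := by ring

end Vale.Agent.P167.N.BT
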