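import Vale.Agent.P167.N.BT.Jloc
import Vale.Agent.P167.N.BT.Jarm
import Vale.Agent.P167.QB.ZTr

/-!
# P167, `0 < q < 1`, block BT: even translations of the local functional at a junction
-/

set_option autoImplicit false

namespace Vale.Agent.P167.N.BT

open Finset Vale.Agent.P167 Vale.Agent.P167.BR Vale.Agent.P167.FK
open Vale.Agent.P167.H760 (Tr)
open Vale.Agent.P167.QB (tra tra_o tra_S tra_Q tra_hd tra_tl tra_im tra_vz tra_left tra_iso top_add
  LeftIn)
open Vale.Agent.P167.H440 (wak wak_in wak_out)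

variable {D : Finset (ℤ × ℤ)} {η ω : Cfg} {b a : ℤ × ℤ} {r R R₁ R₂ : ℤ} {K θ Q : ℝ}
  {φ : ℤ × ℤ → ℝ} {A : Finset Ed} {pl pr : Bool}

theorem tra_inR (ha : Even (a.1 + a.2)) : InR (b + a) ((tra a).imE A) ↔ InR b A := by
  constructor
  · rintro ⟨e, he, h1, h2⟩
    obtain ⟨e, rfl⟩ := (tra a).E.surjective e
    rw [tra_tl ha, Prod.snd_add, Prod.snd_add] at h1
    rw [tra_hd ha, Prod.fst_add, Prod.fst_add] at h2
    exact ⟨e, (tra a).mem_imE.1 he, by omega, by omega⟩
  · rintro ⟨e, he, h1, h2⟩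
    refine ⟨_, (tra a).mem_imE.2 he, ?_, ?_⟩
    · rw [tra_tl ha, Prod.snd_add, Prod.snd_add]; omega
    · rw [tra_hd ha, Prod.fst_add, Prod.fst_add]; omega

/-- **Even translations of the local functional.** -/
theorem FJ_tr (ha : Even (a.1 + a.2)) : FJ θ (b + a) r R φ ((tra a).C ω) =
    FJ θ b r R (fun z => φ (z + a)) ω := by
  classical
  unfold FJ
  by_cases hI : Iso b r R ω
  · rw [if_pos hI, if_pos ((tra_iso ha).2 hI)]
    have e : (pcs ((tra a).C ω) (hbox (b + a) R)).filter (Vz (hbox (b + a) r)) =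
        ((pcs ω (hbox b R)).filter (Vz (hbox b r))).image (tra a).imE := by
      rw [← tra_im b R, Tr.pcsT]
      ext B
      simp only [mem_filter, mem_image]
      constructor
      · rintro ⟨⟨A, hA, rfl⟩, hV⟩
        exact ⟨A, ⟨hA, tra_vz.1 hV⟩, rfl⟩
      · rintro ⟨A, ⟨hA, hV⟩, rfl⟩
        exact ⟨⟨A, hA, rfl⟩, tra_vz.2 hV⟩
    rw [e, prod_image fun x _ y _ h => (tra a).imE_inj h]
    refine prod_congr rfl fun A hA => ?_
    rw [mem_filter] at hA
    have h1 : mass (hbox (b + a) R) (b + a) φ ((tra a).imE A) =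
        mass (hbox b R) b (fun z => φ (z + a)) A := by
      have := (tra a).massT (D := hbox b R) (A := A) b φ
      rw [tra_im, tra_S] at this
      exact this
    have h2 : Sep (hbox (b + a) R) ((tra a).imE A) (b + a) (top (b + a) R) ↔
        Sep (hbox b R) A b (top b R) := by
      have := (tra a).sepT (D := hbox b R) (A := A) (z := b) (z' := top b R)
      rw [tra_im, tra_S, tra_S, ← top_add] at this
      exact this
    have h3 : IsLp (hbox (b + a) R) ((tra a).imE A) ↔ IsLp (hbox b R) A := by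
      have := (tra a).isLpT hA.1
      rw [tra_im] at this
      exact this
    unfold wJ tJ
    simp only [h1, h2, h3, tra_left ha, tra_inR ha]
  · rw [if_neg hI, if_neg (fun h => hI ((tra_iso ha).1 h))]

theorem tra_wak (ha : Even (a.1 + a.2)) :
    (tra a).C (wak b R (kJ b pl pr)) = wak (b + a) R (kJ (b + a) pl pr) := by
  funext v
  rw [Tr.C_apply', tra_o ha]
  have h : (tra a).Q ((tra a).Q.symm v) = v := Equiv.apply_symm_apply _ _
  rw [tra_Q] at h
  have h1 : ((tra a).Q.symm v).1 + a.1 = v.1 := congrArg Prod.fst h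
  have h2 : ((tra a).Q.symm v).2 + a.2 = v.2 := congrArg Prod.snd h
  generalize (tra a).Q.symm v = w at h1 h2
  have e : w ∈ Bq b R ↔ v ∈ Bq (b + a) R := by
    rw [H635.mem_Bq, H635.mem_Bq]
    simp only [Prod.fst_add, Prod.snd_add]
    omega
  by_cases hw : w ∈ Bq b R
  · rw [wak_in hw, wak_in (e.1 hw)]
    simp only [kJ, Prod.fst_add]
    by_cases h5 : w.1 < b.1
    · rw [if_pos h5, if_pos (by omega)]
      rfl
    · rw [if_neg h5, if_neg (by omega)]
      rfl
  · rw [wak_out hw, wak_out (fun h' => hw (e.2 h'))]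
    rfl

/-- **Even translations of the reference value.** -/
theorem ref_tr (ha : Even (a.1 + a.2)) :
    Ex Q (hbox (b + a) R₂) (wak (b + a) R₂ (kJ (b + a) pl pr)) (FJ θ (b + a) r R₁ φ) =
      Ex Q (hbox b R₂) (wak b R₂ (kJ b pl pr)) (FJ θ b r R₁ fun z => φ (z + a)) := by
  rw [← tra_im b R₂, ← tra_wak ha, Tr.Ex_T]
  congr 1
  funext ω
  exact FJ_tr ha

end Vale.Agent.P167.N.BT
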