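import Vale.Agent.P167.N.BT.Jloc
import Vale.Agent.P167.H436.ND.Nda1

/-!
# P167, `0 < q < 1`, bridge: the configuration outside at the base junction
-/

set_option autoImplicit false

namespace Vale.Agent.P167.N.BT

open Finset Relation Vale.Agent.P167 Vale.Agent.P167.BR Vale.Agent.P167.FK
open Vale.Agent.P145.FB (PStep)
open Vale.Agent.P167.E6 (IsPolygon Encloses dir face)
open Vale.Agent.P167.H718 (Dob Chordless etaW opW mem_opW exists_bd good_etaW dob_etaW)
open Vale.Agent.P167.H436.ND (Win FltO exists_fc)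

variable {n k : ℕ} {q : ZMod n → ℤ × ℤ} {D : Finset (ℤ × ℤ)} {R : ℤ} {η : Cfg}

/-- The quadrant below the side, on the left. -/
def QdL (b : ℤ × ℤ) (R : ℤ) (v : ℤ × ℤ) : Prop :=
  b.1 - R ≤ v.1 ∧ v.1 < b.1 ∧ b.2 - R ≤ v.2 ∧ v.2 < b.2

open Classical in
/-- The outside configuration near the base junction. -/
noncomputable def etaB (D : Finset (ℤ × ℤ)) (q : ZMod n → ℤ × ℤ) (k : ℕ) (R : ℤ) : Cfg :=
  fun v => decide (v ∈ opW D q k ∨ QdL (q 0) R v)

theorem good_etaB : Good (etaB D q k R) := by
  classical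
  set T : Finset (ℤ × ℤ) := opW D q k ∪
    ((Finset.Icc ((q 0).1 - |R|, (q 0).2 - |R|) ((q 0).1 + |R|, (q 0).2 + |R|)).filter fun v =>
      QdL (q 0) R v) with hT
  have h : etaB D q k R = cf T eta0 T := by
    funext v
    unfold etaB cf
    have hR := le_abs_self R
    have hR' := neg_abs_le R
    by_cases hv : v ∈ T
    · rw [if_pos hv]
      have : v ∈ opW D q k ∨ QdL (q 0) R v := by
        rw [hT, mem_union, mem_filter] at hv
        rcases hv with hv | hv
        · exact Or.inl hv
        · exact Or.inr hv.2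
      simp [hv, this]
    · rw [if_neg hv]
      have : ¬ (v ∈ opW D q k ∨ QdL (q 0) R v) := by
        intro h
        apply hv
        rw [hT, mem_union, mem_filter]
        rcases h with h | h
        · exact Or.inl h
        · refine Or.inr ⟨?_, h⟩
          obtain ⟨h1, h2, h3, h4⟩ := h
          rw [mem_Icc, Prod.le_def, Prod.le_def]
          simp only
          omega
      simp [this, eta0]
  rw [h]
  exact good_cf _ good_eta0 _

/-- The rotated polygon has a window at the base. -/
theorem WJ.win (hw : WJ q D k R) : Win (rq q k) D (n - k) R := by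
  obtain ⟨h1, h2, h3, h4, h5, h6, h7, h8⟩ := hw.rot
  exact ⟨h1, h2, h4, h5, h6⟩

/-- A site of the domain at the line of the window is a boundary site. -/
theorem WJ.on_line (hw : WJ q D k R) (hR : 2 ≤ R) {s : ℤ × ℤ} (hs : s ∈ sites D)
    (h1 : (q 0).1 - R < s.1) (h2 : s.1 < (q 0).1 + R) (h3 : (q 0).2 - R < s.2)
    (h4 : s.2 ≤ (q 0).2) :
    ∃ i : ℕ, (i : ℤ) = n + (s.1 - (q 0).1) ∧ q (i : ZMod n) = s := by
  obtain ⟨-, -, e0, -, -, -, h7, h8⟩ := hw.rot
  obtain ⟨i, hi, -, hi2⟩ := H436.ND.on_line hw.win hR hs (by rw [e0]; exact h1)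
    (by rw [e0]; exact h2) (by rw [e0]; exact h3) (by rw [e0]; exact h4)
  rw [e0] at hi
  refine ⟨i + k, by push_cast; omega, ?_⟩
  rw [← hi2]
  unfold rq
  push_cast
  rfl

/-- **The configuration at the base junction.** -/
theorem base_conf (hc : Chordless q) (hw : WJ q D k R) (hR : 3 ≤ R) :
    Dob (etaB D q k (R - 1)) D q k ∧ FltO D (etaB D q k (R - 1)) (q 0) (R - 1) true false := by
  classical
  have hq := hw.poly
  have hD := hw.enc
  have hkR := hw.kR
  have hnR := hw.nR
  have hnz : NeZero n := ⟨by have := hq.1; omega⟩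
  have hWb := dob_etaW (k := k) hq hD hc
  have hle : ∀ v, etaW D q k v = true → etaB D q k (R - 1) v = true := by
    intro v hv
    unfold etaW at hv
    rw [decide_eq_true_iff] at hv
    unfold etaB
    rw [decide_eq_true_iff]
    exact Or.inl hv
  constructor
  · refine ⟨good_etaB, fun i j h1 h2 h3 h4 h5 h6 => ?_, ?_⟩
    · have h7 := hWb.join i j h1 h2 h3 h4 h5 h6
      unfold H718.OutC at h7 ⊢
      exact ReflTransGen.mono (fun s t hst => ⟨hst.1, hst.2.1, hle _ hst.2.2.1, hst.2.2.2⟩) _ _ h7
    · have hend : ∀ s t : ℤ × ℤ, s ∈ sites D → Even (s.1 + s.2) →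
          PStep (op (etaB D q k (R - 1)) ∩ (↑D : Set (ℤ × ℤ))ᶜ) s t →
          ∃ i : ℕ, k ≤ i ∧ i ≤ n ∧ q i = s := by
        intro s t hs hev hst
        obtain ⟨h1, h2, h3, h4⟩ := hst
        have h5 : etaB D q k (R - 1) (min s.1 t.1, min s.2 t.2) = true := h3
        have h6 : (min s.1 t.1, min s.2 t.2) ∉ D := h4
        unfold etaB at h5
        rw [decide_eq_true_iff, mem_opW] at h5
        rcases h5 with h5 | h5
        · obtain ⟨⟨j, hj1, hj2, hj3, r, hr'⟩, -⟩ := h5
          obtain ⟨r', hr''⟩ := H718.step_cases (v := q j) (r := r) (s := s) (t := t) ⟨h1, h2, hr'⟩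
            hev hj3
          obtain ⟨r2, hr2⟩ := exists_fc h1 h2
          obtain ⟨i, hi⟩ := exists_bd hq hD hs (r := r2) (by rw [hr2]; exact h6)
          rcases hc j i ⟨r', by rw [hi]; exact hr''⟩ with h7 | h7
          · refine ⟨j + 1, by omega, by omega, ?_⟩
            push_cast
            rw [← h7]
            exact hi
          · refine ⟨j - 1, by omega, by omega, ?_⟩
            rw [Nat.cast_sub (by omega), Nat.cast_one, h7, add_sub_cancel_right]
            exact hi
        · obtain ⟨g1, g2, g3, g4⟩ := h5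
          simp only at g1 g2 g3 g4
          obtain ⟨i, hi1, hi3⟩ := hw.on_line (by omega) hs (by omega) (by omega) (by omega)
            (by omega)
          exact ⟨i, by omega, by omega, hi3⟩
      intro s hs t ht hev hst hne
      have hevt : Even (t.1 + t.2) := by
        clear hne ht hs
        induction hst with
        | refl => exact hev
        | tail _ h1 ih => exact FK.even_step h1 ih
      have h1 : ∃ x, PStep (op (etaB D q k (R - 1)) ∩ (↑D : Set (ℤ × ℤ))ᶜ) s x := by
        rcases ReflTransGen.cases_head hst with h | ⟨x, hx, -⟩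
        · exact absurd h hne
        · exact ⟨x, hx⟩
      have h2 : ∃ x, PStep (op (etaB D q k (R - 1)) ∩ (↑D : Set (ℤ × ℤ))ᶜ) t x := by
        rcases ReflTransGen.cases_tail hst with h | ⟨x, -, hx⟩
        · exact absurd h.symm hne
        · exact ⟨x, hx.symm⟩
      obtain ⟨x, hx⟩ := h1
      obtain ⟨y, hy⟩ := h2
      obtain ⟨i, hi1, hi2, hi3⟩ := hend s x hs hev hx
      obtain ⟨j, hj1, hj2, hj3⟩ := hend t y ht hevt hy
      exact ⟨i, j, hi1, hi2, hj1, hj2, hi3, hj3⟩
  · refine ⟨good_etaB, fun v h1 h2 h3 h4 => ?_⟩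
    unfold etaB
    by_cases h5 : v.1 < (q 0).1
    · rw [if_pos h5, decide_eq_true_iff]
      exact Or.inr ⟨by omega, h5, by omega, h4⟩
    · rw [if_neg h5, decide_eq_false_iff_not]
      rintro (h6 | h6)
      · rw [mem_opW] at h6
        obtain ⟨⟨j, hj1, hj2, hj3, r, hr'⟩, h7⟩ := h6
        have hqj : q j ∈ sites D := by
          have := be_mem hq hD (j : ZMod n)
          rcases be_sides hq (j : ZMod n) with ⟨h8, -⟩ | ⟨h8, -⟩
          · rw [← h8]; exact ls_mem_sites this
          · rw [← h8]; exact rs_mem_sites this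
        have hcor : ((q j).1 = v.1 ∨ (q j).1 = v.1 + 1) ∧ ((q j).2 = v.2 ∨ (q j).2 = v.2 + 1) := by
          rw [hr']
          generalize q (j : ZMod n) = w
          obtain ⟨c, d⟩ := w
          have f0 : face (c, d) 0 = (c + 0, d + 0) := rfl
          have f1 : face (c, d) 1 = (c + -1, d + 0) := rfl
          have f2 : face (c, d) 2 = (c + -1, d + -1) := rfl
          have f3 : face (c, d) 3 = (c + 0, d + -1) := rfl
          have hr4 : r = 0 ∨ r = 1 ∨ r = 2 ∨ r = 3 := by fin_cases r <;> simp
          rcases hr4 with rfl | rfl | rfl | rfl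
          · rw [f0]; simp only; omega
          · rw [f1]; simp only; omega
          · rw [f2]; simp only; omega
          · rw [f3]; simp only; omega
        obtain ⟨i, hi1, hi3⟩ := hw.on_line (by omega) hqj (by omega) (by omega) (by omega)
          (by omega)
        have h9 := hq.2.1 hi3
        rw [ZMod.natCast_eq_natCast_iff', Nat.mod_eq_of_lt hj2] at h9
        have h10 : i = n + (i - n) := by omega
        rw [h10, Nat.add_mod_left, Nat.mod_eq_of_lt (by omega)] at h9
        omega
      · obtain ⟨g1, g2, -⟩ := h6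
        omega

end Vale.Agent.P167.N.BT
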