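import Vale.Agent.P167.N.BT.JunS
import Vale.Agent.P167.N.BT.WinMir

/-!
# P167, `0 < q < 1`, bridge: the two windows of a shape, one configuration
-/

set_option autoImplicit false

namespace Vale.Agent.P167.N.BT

open Finset Vale.Agent.P167 Vale.Agent.P167.BR Vale.Agent.P167.FK
open Vale.Agent.P167.E6 (IsPolygon Encloses dir face)
open Vale.Agent.P167.H718 (Dob opW etaW)
open Vale.Agent.P167.H436.ND (Win FltO)
open Vale.Agent.P167.QT (Sh4 F4 mirq mirS)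
open Vale.Agent.P167.BQ460 (eN ka md q_zero q_md md_add ka_le mirq_line)

variable {P : Sh4} {N : ℕ} {R : ℤ}

/-- The base site of the shape. -/
theorem q_b (h : P.Ok 2) (hN : 0 < N) : H825.Q.qS (Sh4.dat h) N 0 = (Sh4.dat h).b N := by
  have g1 := h.k_lt
  have g2 := h.j_lt
  have g3 := h.l_lt
  have q0 := mirq_line h (i := 0) (by omega)
  rw [q_zero h hN]
  have e1 : (Sh4.dat h).b N = (N : ℤ) • mirq P.q 0 +
      (⌊(1 / 2 : ℝ) * (N : ℝ)⌋₊ : ℤ) • dir 0 := rfl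
  rw [Nat.cast_zero] at q0
  rw [e1, show (1 / 2 : ℝ) * (N : ℝ) = (N : ℝ) / (2 : ℕ) by push_cast; ring,
    Nat.floor_div_eq_div, q0]
  ext
  · simp [dir]
    ring
  · simp [dir]

/-- **The two windows of a shape**: the base junction and the flat free window at the mark `d`. -/
theorem jun_shape (P : Sh4) (h : P.Ok 2) (N : ℕ) (hN : 4 ∣ N) (hN4 : 16 ≤ N) :
    WJ (H825.Q.qS (Sh4.dat h) N) ((Sh4.dat h).D N) (ka P N) ((N / 4 : ℕ) : ℤ) ∧
    Even ((H825.Q.qS (Sh4.dat h) N 0).1 + (H825.Q.qS (Sh4.dat h) N 0).2) ∧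
    H825.Q.qS (Sh4.dat h) N 0 = (Sh4.dat h).b N ∧
    Disjoint (hbox (H825.Q.qS (Sh4.dat h) N 0) ((N / 4 : ℕ) : ℤ))
      (hbox (H825.Q.qS (Sh4.dat h) N (md P N : ZMod _)) ((N / 4 : ℕ) : ℤ)) ∧
    ∃ η' : Cfg, WinD (H825.Q.qS (Sh4.dat h) N) ((Sh4.dat h).D N) η' (ka P N) (md P N)
        ((N / 4 : ℕ) : ℤ) ∧
      FltO ((Sh4.dat h).D N) η' (H825.Q.qS (Sh4.dat h) N 0) ((N / 4 : ℕ) : ℤ) true false := by
  have hN0 : 0 < N := by omega
  have hle : ((N / 4 : ℕ) : ℤ) ≤ ((N / 2 : ℕ) : ℤ) := by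
    have : N / 4 ≤ N / 2 := by omega
    exact_mod_cast this
  have hlt : ((N / 4 : ℕ) : ℤ) + 1 < ((N / 2 : ℕ) : ℤ) := by
    have : N / 4 + 1 < N / 2 := by omega
    exact_mod_cast this
  have h4' : (4 : ℤ) ≤ ((N / 4 : ℕ) : ℤ) := by
    have : 4 ≤ N / 4 := by omega
    exact_mod_cast this
  refine ⟨wj_shape h hN (by omega) (by omega) (by omega), even_base h hN (by omega), q_b h hN0,
    disj_base h hN0 hle hle, ?_⟩
  obtain ⟨h1, h2⟩ := base_shape h hN (by omega) (R := ((N / 4 : ℕ) : ℤ) + 1) (by omega) hlt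
  rw [add_sub_cancel_right] at h1 h2
  refine ⟨_, ?_, h2⟩
  have hw := s_winT P h N hN (by omega)
  refine ⟨hw.win.mono hle (by omega), by have := hw.lR; omega, hw.kn, h1, h1.good,
    fun v a1 a2 a3 a4 => ?_⟩
  have h5 := hw.flt.out v (by omega) (by omega) (by omega) a4
  rw [ite_self] at h5 ⊢
  have h6 : v ∉ opW ((Sh4.dat h).D N) (H825.Q.qS (Sh4.dat h) N) (ka P N) := by
    intro h6
    have h7 : eN h N v = true := by
      unfold eN etaW
      rw [decide_eq_true_iff]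
      exact h6
    rw [h5] at h7
    exact absurd h7 (by simp)
  unfold etaB
  rw [decide_eq_false_iff_not]
  rintro (h7 | ⟨h7, h8, -⟩)
  · exact h6 h7
  · rw [q_md h hN0] at a1
    rw [q_zero h hN0] at h8
    simp only at a1 h8
    have g3 := h.l_lt
    have hml : (3 : ℤ) ≤ (P.m : ℤ) + 1 - P.l := by omega
    have hMN : 3 * (N : ℤ) ≤ ((P.m : ℤ) + 1 - P.l) * N :=
      mul_le_mul_of_nonneg_right hml (by positivity)
    have h9 : 2 * ((N / 2 : ℕ) : ℤ) ≤ N := by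
      have : 2 * (N / 2) ≤ N := Nat.mul_div_le N 2
      exact_mod_cast this
    omega

end Vale.Agent.P167.N.BT
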