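import Vale.Agent.P167.N.NET.HalfC
import Vale.Agent.P167.N.Base.Crs
import Vale.Agent.P167.H192.TA.Str

/-!
# P167, `0 < q < 1`, block BT: thin half circuits

`ring3`: a half circuit of the colour `e` in a thin half annulus, weight outside. `dec_F`: decay of one
arm in half annuli, any domain, any good configuration outside, any weight which does not read the
half annulus. `thin_F`: an arm from a larger radius is continued through a thin half annulus which is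
not crossed by the other colour.
-/

set_option autoImplicit false

namespace Vale.Agent.P167.N.BT

open Finset Vale.Agent.P167 Vale.Agent.P167.FK Vale.Agent.P167.FKA Vale.Agent.P167.H632
  Vale.Agent.P167.H871 Vale.Agent.P167.H192.TA Vale.Agent.P167.N.NET
open Vale.Agent.P145.FB (PStep PConn)
open Vale.Agent.P153.Topo (Rect mem_rect)
open Vale.Agent.P167.H704 (Hc meet)
open Relation (ReflTransGen)

variable {Q : ℝ} {D : Finset Pt} {η : Cfg} {e : Bool} {b : Pt} {r t m R : ℤ} {F : Cfg → ℝ}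

/-- A path in a rectangle uses squares of the rectangle. -/
theorem pw_rect {F G : Set Pt} {a a' p q : ℤ}
    (h : ∀ v : Pt, a ≤ v.1 → v.1 < a' → p ≤ v.2 → v.2 < q → v ∈ G) {u v : Pt}
    (huv : PConn F (Rect a a' p q) u v) : Pw (F ∩ G) u v := by
  obtain ⟨h0, h1⟩ := huv
  induction h1 with
  | refl => exact ReflTransGen.refl
  | @tail x y hx hxy ih =>
    have hxm := (show PConn F (Rect a a' p q) u x from ⟨h0, hx⟩).right_mem
    have hym := hxy.2
    rw [mem_rect] at hxm hym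
    obtain ⟨⟨s1, s2, s3⟩, s4⟩ := hxy
    refine ih.tail ⟨s1, s2, s3, h _ ?_ ?_ ?_ ?_⟩ <;> dsimp only <;> omega

/-- Three rectangles in a half annulus. -/
def L3 (b : Pt) (r t : ℤ) : List Crs :=
  [⟨false, b.1 - t, b.1 - r, b.2, b.2 + t⟩, ⟨true, b.1 - t, b.1 + t, b.2 + r, b.2 + t⟩,
    ⟨false, b.1 + r, b.1 + t, b.2, b.2 + t⟩]

/-- Their crossings form a half circuit. -/
theorem jn_L3 (hr : 1 ≤ r) (ht : r < t) {ω : Cfg} (h : ∀ X ∈ L3 b r t, ω ∈ X.Ev e) :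
    ω ∈ Jn e (dF b r t : Set Pt) (fl e b r t) (fl e b (-t) (-r)) := by
  have h1 := h _ (List.mem_cons_self ..)
  have h2 := h _ (List.mem_cons_of_mem _ (List.mem_cons_self ..))
  have h3 := h _ (List.mem_cons_of_mem _ (List.mem_cons_of_mem _ (List.mem_cons_self ..)))
  rw [Crs.Ev_V] at h1 h3
  rw [Crs.Ev_H] at h2
  obtain ⟨y, y', k1, k2, k3, k4⟩ := h1
  obtain ⟨w, w', l1, l2, l3, l4⟩ := h2
  obtain ⟨z, z', m1, m2, m3, m4⟩ := h3
  obtain ⟨p, p1, p2⟩ := meet k4 (by omega : y.2 ≤ b.2 + r) (by omega : b.2 + t ≤ y'.2) k3 l4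
    (by omega : w.1 ≤ b.1 - t) (by omega : b.1 - r ≤ w'.1) l3 (by omega) (by omega)
  have l5 : PConn (cs e ω) (Rect (b.1 - t) (b.1 + t) (b.2 + r) (b.2 + t)) w w' := l4
  obtain ⟨p', p3, p4⟩ := meet m4 (by omega : z.2 ≤ b.2 + r) (by omega : b.2 + t ≤ z'.2) m3 l5
    (by omega : w.1 ≤ b.1 + r) (by omega : b.1 + t ≤ w'.1) l3 (by omega) (by omega)
  have hy := k4.left_mem
  have hz := m4.left_mem
  rw [mem_rect] at hy hz
  refine ⟨z, ⟨m1, by omega, by omega, m3⟩, y, ⟨k1, by omega, by omega, k3⟩, ?_⟩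
  have q1 := pw_rect (G := (dF b r t : Set Pt)) (fun v v1 v2 v3 v4 => by
    rw [mem_dFc]
    omega) p1
  have q2 := pw_rect (G := (dF b r t : Set Pt)) (fun v v1 v2 v3 v4 => by
    rw [mem_dFc]
    omega) p2
  have q3 := pw_rect (G := (dF b r t : Set Pt)) (fun v v1 v2 v3 v4 => by
    rw [mem_dFc]
    omega) p3
  have q4 := pw_rect (G := (dF b r t : Set Pt)) (fun v v1 v2 v3 v4 => by
    rw [mem_dFc]
    omega) p4
  exact (q3.trans q4.symm).trans (q2.trans q1.symm)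

/-- A half circuit excludes the crossings of the other colour. -/
theorem no_Xc (hr : 1 ≤ r) (ht : r < t) {ω : Cfg}
    (h : ω ∈ Jn e (dF b r t : Set Pt) (fl e b r t) (fl e b (-t) (-r))) : ω ∉ Xc (!e) b r t := by
  rw [Xc_eq hr ht, (quad0 hr ht (!e) b).iff ω, Bool.not_not]
  exact fun h' => h' h

/-- The arm of the inner half square to the right flat side, near the flat side. -/
def L2 (b : Pt) (r : ℤ) : List Crs :=
  [⟨true, b.1 + r, b.1 + 4 * r, b.2, b.2 + r⟩, ⟨false, b.1 + 3 * r, b.1 + 4 * r, b.2, b.2 + r⟩]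

theorem jn_L2 (hr : 1 ≤ r) {ω : Cfg} (h : ∀ X ∈ L2 b r, ω ∈ X.Ev e) :
    ω ∈ Jn e (dF b r (4 * r) : Set Pt) (So e b r) (fl e b (3 * r) (4 * r)) := by
  have h1 := h _ (List.mem_cons_self ..)
  have h2 := h _ (List.mem_cons_of_mem _ (List.mem_cons_self ..))
  rw [Crs.Ev_H] at h1
  rw [Crs.Ev_V] at h2
  obtain ⟨w, w', l1, l2, l3, l4⟩ := h1
  obtain ⟨y, y', k1, k2, k3, k4⟩ := h2
  obtain ⟨p, p1, p2⟩ := meet k4 (by omega : y.2 ≤ b.2) (by omega : b.2 + r ≤ y'.2) k3 l4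
    (by omega : w.1 ≤ b.1 + 3 * r) (by omega : b.1 + 4 * r ≤ w'.1) l3 (by omega) (by omega)
  have hy := k4.left_mem
  have hw := l4.left_mem
  rw [mem_rect] at hy hw
  refine ⟨w, ⟨by omega, by omega, by omega, by omega, by omega, l3⟩, y,
    ⟨k1, by omega, by omega, k3⟩, ?_⟩
  have q1 := pw_rect (G := (dF b r (4 * r) : Set Pt)) (fun v v1 v2 v3 v4 => by
    rw [mem_dFc]
    omega) p1
  have q2 := pw_rect (G := (dF b r (4 * r) : Set Pt)) (fun v v1 v2 v3 v4 => by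
    rw [mem_dFc]
    omega) p2
  exact q2.trans q1.symm

theorem ok_L3 {M : ℕ} {s : ℤ} (hs : 1 ≤ s) (hr : 1 ≤ r) (ht : r + s ≤ t) (hM : 2 * t ≤ M * s)
    {A : Finset Pt} (hA : dF b r t ⊆ A) : ∀ X ∈ L3 b r t, X.Ok s M A := by
  intro X hX
  simp only [L3, List.mem_cons, List.not_mem_nil, or_false] at hX
  rcases hX with rfl | rfl | rfl
  · refine Crs.ok_V (by omega) (by omega) (by omega) (by omega) fun v v1 v2 v3 v4 => hA ?_
    rw [← mem_coe, mem_dFc]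
    omega
  · refine Crs.ok_H (by omega) (by omega) (by omega) (by omega) fun v v1 v2 v3 v4 => hA ?_
    rw [← mem_coe, mem_dFc]
    omega
  · refine Crs.ok_V (by omega) (by omega) (by omega) (by omega) fun v v1 v2 v3 v4 => hA ?_
    rw [← mem_coe, mem_dFc]
    omega

theorem ok_L2 {M : ℕ} {s : ℤ} (hr : 1 ≤ r) (hs : s ≤ r) (hM : 3 * r ≤ M * s)
    {A : Finset Pt} (hA : dF b r (4 * r) ⊆ A) : ∀ X ∈ L2 b r, X.Ok s M A := by
  intro X hX
  simp only [L2, List.mem_cons, List.not_mem_nil, or_false] at hX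
  rcases hX with rfl | rfl
  · refine Crs.ok_H (by omega) (by omega) (by omega) (by omega) fun v v1 v2 v3 v4 => hA ?_
    rw [← mem_coe, mem_dFc]
    omega
  · refine Crs.ok_V (by omega) (by omega) (by omega) (by omega) fun v v1 v2 v3 v4 => hA ?_
    rw [← mem_coe, mem_dFc]
    omega

/-- **A thin half circuit**, weight outside. -/
theorem ring3 (hQ : Kit Q) (M : ℕ) : ∃ (c : ℝ) (s0 : ℤ), 0 < c ∧ c ≤ 1 ∧ 1 ≤ s0 ∧
    ∀ (e : Bool) (b : Pt) (r t s : ℤ) (D : Finset Pt) (η : Cfg) (F : Cfg → ℝ), s0 ≤ s → 1 ≤ r →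
      r + s ≤ t → 2 * t ≤ M * s → Good η → dF b r t ⊆ D → (∀ ω, 0 ≤ F ω) → Ind (dF b r t) F →
      c * Ex Q D η F ≤ Ex Q D η (fun ω => F ω * ((Xc e b r t)ᶜ).indicator 1 ω) := by
  obtain ⟨c, s0, h1, h2, h3, h4⟩ := crs_ex hQ 3 M
  refine ⟨c, s0, h1, h2, h3, fun e b r t s D η F hs hr ht hM hη hD hF0 hF => ?_⟩
  refine (h4 (!e) s (L3 b r t) (dF b r t) D η F hη hs le_rfl hD
    (ok_L3 (by omega) hr ht hM (Subset.refl _)) hF hF0).trans (Ex_sub hQ.pos hF0 ?_)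
  intro ω hω
  have := no_Xc hr (by omega) (jn_L3 (e := !e) hr (by omega) hω)
  rwa [Bool.not_not] at this

/-! ### Decay of one arm -/

theorem sub_le_half {κ x y z : ℝ} (h1 : κ * x ≤ y) (h2 : y + z = x) : z ≤ (1 - κ) * x := by
  linarith

theorem Ex_split (F : Cfg → ℝ) (U : Set Cfg) :
    Ex Q D η (fun ω => F ω * U.indicator 1 ω) + Ex Q D η (fun ω => F ω * (Uᶜ).indicator 1 ω) =
      Ex Q D η F := by
  rw [← Ex_add]
  refine congrArg (Ex Q D η) (funext fun ω => ?_)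
  rw [ind_compl]
  ring

/-- The crossing of a half annulus contains the crossings of the parts. -/
theorem Xc_sub {r r' R' R : ℤ} (h1 : r ≤ r') (h2 : r' ≤ R') (h3 : R' ≤ R) :
    Xc e b r R ⊆ Xc e b r' R' := by
  rintro ω ⟨y, y', g1, g2, g3, g4, g5⟩
  have hy : b.2 ≤ y.2 := by
    simp only [sr, Set.mem_ofPred_eq] at g1
    omega
  obtain ⟨y0, y1, k1, k2, k3, k4, k5⟩ := cut_dq (G := cs e ω ∩ dq b r R) h2 hy
    (fun v hv => by have := hv.2; simp only [dq, Set.mem_ofPred_eq] at this; omega) g4 (g3.trans h1)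
    (h3.trans g5)
  exact ⟨y0, y1, k2, by rw [← k1.parity, g2], k3,
    k4.mono (Set.inter_subset_inter_left _ Set.inter_subset_left), k5⟩

/-- One scale. -/
theorem dec1 (hQ : 0 < Q) (hQ1 : Q ≤ 1) (hV : VRS Q) : ∃ κ : ℝ, 0 < κ ∧ κ ≤ 1 ∧
    ∀ (e : Bool) (b : Pt) (m : ℤ) (D : Finset Pt) (η : Cfg) (F : Cfg → ℝ), 1 ≤ m → Good η →
      dF b m (2 * m) ⊆ D → (∀ ω, 0 ≤ F ω) → Ind (dF b m (2 * m)) F →
      Ex Q D η (fun ω => F ω * (Xc e b m (2 * m)).indicator 1 ω) ≤ (1 - κ) * Ex Q D η F := by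
  obtain ⟨κ, hκ, hκ1, h⟩ := VT_dF hQ hQ1 hV 4
  refine ⟨κ, hκ, hκ1, fun e b m D η F hm hη hD hF0 hF => ?_⟩
  have k1 := h (!e) b m (2 * m) (by omega) (by omega) (by push_cast; omega)
  have k2 := ex_VT (e := !e) (D := D) (T := dF b m (2 * m)) (A := fl (!e) b (-(2 * m)) (-m))
    (B := fl (!e) b m (2 * m)) hQ hQ1 hη hD (fl_bd dF_bd) (fl_bd dF_bd) hF0 hF
  have k3 : Ex Q D η (fun ω => F ω * (Jn (!e) (dF b m (2 * m) : Set Pt) (fl (!e) b (-(2 * m)) (-m))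
      (fl (!e) b m (2 * m))).indicator 1 ω) ≤
      Ex Q D η (fun ω => F ω * ((Xc e b m (2 * m))ᶜ).indicator 1 ω) := by
    refine NET.Ex_sub hQ hF0 fun ω hω => ?_
    rw [Jn.symm] at hω
    have := no_Xc hm (by omega) hω
    rwa [Bool.not_not] at this
  have k4 := Ex_split (Q := Q) (D := D) (η := η) F (Xc e b m (2 * m))
  have k5 := (mul_le_mul_of_nonneg_right k1 (Ex_nn (D := D) (η := η) hQ hF0)).trans (k2.trans k3)
  linarith

/-- **Decay of one arm**, all scales. -/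
theorem dec_k (hQ : 0 < Q) (hQ1 : Q ≤ 1) (hV : VRS Q) : ∃ κ : ℝ, 0 < κ ∧ κ ≤ 1 ∧
    ∀ (k : ℕ) (e : Bool) (b : Pt) (m M : ℤ) (D : Finset Pt) (η : Cfg) (F : Cfg → ℝ), 1 ≤ m →
      2 ^ k * m ≤ M → Good η → dF b m M ⊆ D → (∀ ω, 0 ≤ F ω) → Ind (dF b m M) F →
      Ex Q D η (fun ω => F ω * (Xc e b m M).indicator 1 ω) ≤ (1 - κ) ^ k * Ex Q D η F := by
  obtain ⟨κ, hκ, hκ1, h⟩ := dec1 hQ hQ1 hV
  refine ⟨κ, hκ, hκ1, fun k => ?_⟩
  induction k with
  | zero =>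
    intro e b m M D η F hm hM hη hD hF0 hF
    rw [pow_zero, one_mul]
    exact Ex_drop hQ hF0 _
  | succ k ih =>
    intro e b m M D η F hm hM hη hD hF0 hF
    have hk : (1 : ℤ) ≤ 2 ^ k := one_le_pow₀ (by norm_num)
    have hM2 : 2 ^ k * (2 * m) ≤ M := by
      rw [pow_succ] at hM
      linarith
    have hmM : 2 * m ≤ M := by nlinarith
    have hX : Xc e b m M ⊆ Xc e b m (2 * m) := Xc_sub le_rfl (by omega) hmM
    by_cases hlt : 2 * m < M
    · have hX' : Xc e b m M ⊆ Xc e b (2 * m) M := Xc_sub (by omega) hlt.le le_rfl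
      have hdj : Disjoint (dF b m (2 * m)) (dF b (2 * m) M) := dF_disj le_rfl
      have k1 := ih e b (2 * m) M D η (fun ω => F ω * (Xc e b m (2 * m)).indicator 1 ω) (by omega)
        hM2 hη ((dF_sub (by omega) le_rfl (by omega)).trans hD)
        (fun ω => mul_nonneg (hF0 ω) (ind_nn _ _))
        (Ind.mul' (Ind.sub' hF (dF_sub (by omega) le_rfl (by omega))) (by
          rw [Xc_eq hm (by omega)]
          exact ind_Jn hdj))
      have k2 := h e b m D η F hm hη ((dF_sub le_rfl hmM (by omega)).trans hD) hF0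
        (Ind.sub' hF (dF_sub le_rfl hmM (by omega)))
      have k3 : Ex Q D η (fun ω => F ω * (Xc e b m M).indicator 1 ω) ≤ Ex Q D η (fun ω =>
          F ω * (Xc e b m (2 * m)).indicator 1 ω * (Xc e b (2 * m) M).indicator 1 ω) := by
        refine Ex_mono hQ fun S _ => ?_
        rw [mul_assoc, ← NET.ind_inter]
        exact mul_le_mul_of_nonneg_left (Set.indicator_le_indicator_of_subset
          (Set.subset_inter hX hX') (fun _ => zero_le_one) _) (hF0 _)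
      have hp : (0 : ℝ) ≤ (1 - κ) ^ k := pow_nonneg (by linarith) k
      calc _ ≤ _ := k3
        _ ≤ _ := k1
        _ ≤ (1 - κ) ^ k * ((1 - κ) * Ex Q D η F) := mul_le_mul_of_nonneg_left k2 hp
        _ = _ := by ring
    · have hM' : M = 2 * m := by omega
      subst hM'
      have hk0 : k = 0 := by
        by_contra hk0
        have : (2 : ℤ) ≤ 2 ^ k := by
          calc (2 : ℤ) = 2 ^ 1 := by norm_num
            _ ≤ 2 ^ k := pow_le_pow_right₀ (by norm_num) (by omega)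
        nlinarith
      subst hk0
      rw [zero_add, pow_one]
      exact h e b m D η F hm hη hD hF0 hF

/-! ### Gluing through a thin half annulus -/

theorem ind_compl_Xc {T : Finset Pt} (hr : 1 ≤ r) (hR : r < R) (h : Disjoint (dF b r R) T) :
    Ind T (((Xc e b r R)ᶜ).indicator 1) := by
  have h1 : Ind T ((Xc e b r R).indicator 1) := by
    rw [Xc_eq hr hR]
    exact ind_Jn h
  intro ω ω' hω
  rw [ind_compl, ind_compl, h1 ω ω' hω]

/-- **The thin gluing**: an arm from the radius `5 r` is continued to the radius `r`, the thin half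
annulus `(r, t)` is not crossed by the other colour. -/
theorem thin_F (hQ : Kit Q) (hV : VRS Q) (M : ℕ) : ∃ (c : ℝ) (s0 : ℤ), 0 < c ∧ c ≤ 1 ∧ 1 ≤ s0 ∧
    ∀ (e : Bool) (b : Pt) (r t s R : ℤ) (D : Finset Pt) (η : Cfg), s0 ≤ s → 1 ≤ r → r + s ≤ t →
      t ≤ 2 * r → 4 * r ≤ M * s → 8 * r ≤ R → Good η → dF b r R ⊆ D →
      c * Pr Q D η (Xc e b (5 * r) R) ≤
        Pr Q D η (Xc e b r R ∩ (Xc (!e) b r t)ᶜ) := by
  have hQ0 := hQ.pos
  have hQ1 := hQ.le
  obtain ⟨κ₁, s0, h1, h1', hs0, H1⟩ := crs_ex hQ 5 M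
  obtain ⟨κ₂, h2, h2', H2⟩ := VT_dF hQ0 hQ1 hV 12
  obtain ⟨κ₃, h3, h3', H3⟩ := VT_arch hQ0 hQ1 hV 5
  refine ⟨κ₁ * κ₂ * κ₃, s0, by positivity, mul_le_one₀ (mul_le_one₀ h1' h2.le h2') h3.le h3', hs0,
    fun e b r t s R D η hs hr ht ht' hM hR hη hD => ?_⟩
  have hM0 : (0 : ℤ) ≤ M := by positivity
  obtain ⟨F, hF⟩ : ∃ F : Cfg → ℝ, F = ((Xc (!e) b r t)ᶜ).indicator 1 := ⟨_, rfl⟩
  have hF0 : ∀ ω, 0 ≤ F ω := fun ω => by rw [hF]; exact ind_nn _ _
  obtain ⟨J₁, hJ₁⟩ : ∃ J : Set Cfg, J = Jn e (dF b r (4 * r) : Set Pt) (So e b r)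
    (fl e b (3 * r) (4 * r)) := ⟨_, rfl⟩
  obtain ⟨J₂, hJ₂⟩ : ∃ J : Set Cfg, J = Jn e (dF b (5 * r) R : Set Pt) (So e b R)
    (fl e b (5 * r) (6 * r)) := ⟨_, rfl⟩
  -- landing of the outer arm
  have q1 := land_in (e := e) (b := b) (D := D) (m := 6 * r) (F := fun _ => (1 : ℝ)) hQ0 hQ1 hη
    (show 1 ≤ 5 * r by omega) (show 5 * r < 6 * r by omega) (show 6 * r ≤ R by omega)
    ((dF_sub (by omega) le_rfl (by omega)).trans hD) (fun _ => zero_le_one) (fun _ _ _ => rfl)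
  have q2 := H2 e b (5 * r) (6 * r) (by omega) (by omega) (by push_cast; omega)
  -- the inner part
  have q3 := H1 e s (L3 b r t ++ L2 b r) (dF b r (4 * r)) D η (J₂.indicator 1) hη hs (by simp [L3, L2])
    ((dF_sub le_rfl (by omega) (by omega)).trans hD) (fun X hX => by
      rcases List.mem_append.1 hX with h | h
      · exact ok_L3 (by omega) hr ht (by omega) (dF_sub le_rfl (by omega) (by omega)) X h
      · exact ok_L2 hr (by omega) (by omega) (Subset.refl _) X h)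
    (by rw [hJ₂]; exact ind_Jn (dF_disj (by omega)).symm) (fun ω => ind_nn _ _)
  -- the tube
  obtain ⟨T, hT⟩ : ∃ T : Finset Pt, T = arch (b.1 + 2 * r) (b.1 + 3 * r) (b.1 + 6 * r)
    (b.1 + 7 * r) b.2 b.2 (b.2 + r) (b.2 + 2 * r) := ⟨_, rfl⟩
  have hmT : ∀ v ∈ T, b.1 + 2 * r ≤ v.1 ∧ v.1 < b.1 + 7 * r ∧ b.2 ≤ v.2 ∧ v.2 < b.2 + 2 * r := by
    intro v hv
    rw [hT, mem_arch] at hv
    omega
  have hTs : T ⊆ dF b r R := by
    intro v hv
    have := hmT v hv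
    rw [← mem_coe, mem_dFc]
    omega
  have hTd : Disjoint (dF b r t) T := by
    rw [Finset.disjoint_left]
    intro v hv hv'
    have k1 := mem_dFc.1 (mem_coe.2 hv)
    have k2 := hmT v hv'
    omega
  have q4 := (H3 e (b.1 + 2 * r) (b.1 + 3 * r) (b.1 + 6 * r) (b.1 + 7 * r) b.2 b.2 (b.2 + r)
    (b.2 + 2 * r) (by omega) (by omega) (by omega) (by omega) (by omega) (by omega)
    (by push_cast; omega) (by push_cast; omega) (by push_cast; omega)).1
  rw [← hT] at q4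
  have q5 := glue_h (e := e) (b := b) (D := D) (T := T) (F := F) (r := r) (m := 3 * r) (s := 4 * r)
    (s' := 5 * r) (m' := 6 * r) (R := R) (x := 2 * r) (y := 3 * r) (x' := 6 * r) (y' := 7 * r) hQ0
    hQ1 hη hr (by omega) (by omega) (by omega) (by omega) (by omega) (by omega) le_rfl le_rfl
    (by omega) hD hTs hF0 (by rw [hF]; exact ind_compl_Xc hr (by omega) hTd)
  rw [← hJ₁, ← hJ₂] at q5
  rw [← hJ₂] at q1
  have e1 : ∀ U : Set Cfg, Ex Q D η (fun ω => (1 : ℝ) * U.indicator 1 ω) = Pr Q D η U := fun U =>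
    congrArg (Ex Q D η) (funext fun ω => one_mul _)
  rw [e1, e1] at q1
  have q6 : Ex Q D η (fun ω => J₂.indicator 1 ω *
      {ω : Cfg | ∀ X ∈ L3 b r t ++ L2 b r, ω ∈ X.Ev e}.indicator 1 ω) ≤
      Ex Q D η (fun ω => F ω * (J₁ ∩ J₂).indicator 1 ω) := by
    refine Ex_mono hQ0 fun S _ => ?_
    rw [NET.ind_inter, hF, mul_comm (J₂.indicator 1 _), ← mul_assoc]
    refine mul_le_mul_of_nonneg_right ?_ (ind_nn _ _)
    rw [← NET.ind_inter]
    refine Set.indicator_le_indicator_of_subset ?_ (fun _ => zero_le_one) _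
    intro ω hω
    refine ⟨no_Xc hr (by omega) (jn_L3 hr (by omega) fun X hX => hω X
      (List.mem_append.2 (Or.inl hX))), ?_⟩
    rw [hJ₁]
    exact jn_L2 hr fun X hX => hω X (List.mem_append.2 (Or.inr hX))
  have q7 : Ex Q D η (fun ω => F ω * (Xc e b r R).indicator 1 ω) =
      Pr Q D η (Xc e b r R ∩ (Xc (!e) b r t)ᶜ) := by
    refine congrArg (Ex Q D η) (funext fun ω => ?_)
    rw [NET.ind_inter, hF, mul_comm]
  have n1 : 0 ≤ Pr Q D η (Xc e b (5 * r) R) := Pr_nonneg hQ0 _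
  have n2 : 0 ≤ Pr Q D η J₂ := Pr_nonneg hQ0 _
  have n3 : 0 ≤ Ex Q D η (fun ω => F ω * (J₁ ∩ J₂).indicator 1 ω) :=
    Ex_nn hQ0 fun ω => mul_nonneg (hF0 _) (ind_nn _ _)
  have q3' : κ₁ * Pr Q D η J₂ ≤ Ex Q D η (fun ω => F ω * (J₁ ∩ J₂).indicator 1 ω) := q3.trans q6
  calc κ₁ * κ₂ * κ₃ * Pr Q D η (Xc e b (5 * r) R)
      = κ₃ * (κ₁ * (κ₂ * Pr Q D η (Xc e b (5 * r) R))) := by ring
    _ ≤ κ₃ * (κ₁ * Pr Q D η J₂) := mul_le_mul_of_nonneg_left (mul_le_mul_of_nonneg_left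
        ((mul_le_mul_of_nonneg_right q2 n1).trans q1) h1.le) h3.le
    _ ≤ κ₃ * Ex Q D η (fun ω => F ω * (J₁ ∩ J₂).indicator 1 ω) :=
        mul_le_mul_of_nonneg_left q3' h3.le
    _ ≤ _ := (mul_le_mul_of_nonneg_right q4 n3).trans q5
    _ = _ := q7

end Vale.Agent.P167.N.BT
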