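import Vale.Agent.P167.N.BT.Defs
import Vale.Agent.P167.H452.BE.Core

/-!
# P167, `0 < q < 1`, block BT: the majorants of the two rings, the events
-/

set_option autoImplicit false

namespace Vale.Agent.P167.N.BT

open Finset Relation MeasureTheory Vale.Agent.P167 Vale.Agent.P167.BR Vale.Agent.P167.FK Vale.Agent.P167.FKA
open Vale.Agent.P167.H562.QM (MajA NbP)
open Vale.Agent.P167.H436.ND
open Vale.Agent.P167.H192.TA (Xc dq dF mem_dF)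
open Vale.Agent.P167.H192.Q (Xc_restrict Xc_congr SRSW)
open Vale.Agent.P167.H469 (hx)
open Vale.Agent.P167.H452.BE (mom4 mom2 Yu_nonneg)

variable {Q : ℝ} {D : Finset (ℤ × ℤ)} {η : Cfg} {b : ℤ × ℤ} {R : ℤ} {θ : ℝ} {P : Measure Cfg}

/-- The statement of `N.H452.BE.s_Y2`. -/
def S_Y2 (θ : ℝ) (P : MeasureTheory.Measure Cfg) : Prop := ∀ Cm M : ℝ, 0 < Cm → 1 ≤ M →
  ∃ (C : ℝ) (a₀ : ℤ), 0 < C ∧
  ∀ (b : ℤ × ℤ) (a : ℤ), a₀ ≤ a → ∃ N : Cfg → ℕ, (∀ ω, MajA (Zr b a) (kp * a) ω (N ω)) ∧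
  ∀ (D : Finset (ℤ × ℤ)) (η : Cfg) (R : ℤ) (pl pr : Bool), Flt D b R → FltO D η b R pl pr →
    8 * a ≤ R → ∀ f : ℤ × ℤ → ℝ, Bp Cm b a f → ∀ τ : ℝ, |τ| ≤ 2 →
    Rd D (Zg b (a / 2) (3 * a)) (fun ω => Yu θ M τ f a (N ω) ω) ∧
    Rd D (Zg b (a / 2) (3 * a)) (fun ω => Vale.Agent.P167.N.H436.ND.Yl θ M τ f b a (N ω) ω) ∧
    ∀ g : Cfg → ℝ, (∀ ω, 0 ≤ g ω) → FKA.Ind (Zg b (a / 2) (3 * a)) g →
      Ex (2 * Real.cos θ) D η (fun ω => g ω * Yu θ M τ f a (N ω) ω ^ 4) ≤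
        C * Real.exp (-(4 * (Real.tan θ * (τ * H562.QM.NbP P (kp * a))))) *
          Ex (2 * Real.cos θ) D η g ∧
      Ex (2 * Real.cos θ) D η
          (fun ω => g ω * Vale.Agent.P167.N.H436.ND.Yl θ M τ f b a (N ω) ω ^ 2) ≤
        C * Real.exp (2 * (Real.tan θ * (τ * H562.QM.NbP P (kp * a)))) * Ex (2 * Real.cos θ) D η g

theorem Yl_nonneg {M τ : ℝ} (hM : 0 ≤ M) (f : ℤ × ℤ → ℝ) (b : ℤ × ℤ) (a : ℤ) (N : ℕ) (ω : Cfg) :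
    0 ≤ Vale.Agent.P167.N.H436.ND.Yl θ M τ f b a N ω := by
  unfold Vale.Agent.P167.N.H436.ND.Yl
  exact mul_nonneg (pow_nonneg hM _) (Real.exp_pos _).le

/-- Two factors. -/
theorem two_mom {Z : Fin 2 → Finset (ℤ × ℤ)} {Y : Fin 2 → Cfg → ℝ} {g : Cfg → ℝ}
    {u : Fin 2 → ℝ} (hu : ∀ i, 0 ≤ u i)
    (hg : ∀ ω, 0 ≤ g ω) (hgi : ∀ i, Ind (Z i) g) (hY : ∀ i ω, 0 ≤ Y i ω)
    (hYi : ∀ i j, i ≠ j → Ind (Z j) (Y i))
    (h : ∀ i, ∀ g : Cfg → ℝ, (∀ ω, 0 ≤ g ω) → Ind (Z i) g →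
      Ex Q D η (fun ω => g ω * Y i ω) ≤ u i * Ex Q D η g) :
    Ex Q D η (fun ω => g ω * ∏ i, Y i ω) ≤ (∏ i, u i) * Ex Q D η g := by
  have k0 := h 0 (fun ω => g ω * Y 1 ω) (fun ω => mul_nonneg (hg ω) (hY 1 ω))
    ((hgi 0).mul (hYi 1 0 (by decide)))
  have k1 := h 1 g hg (hgi 1)
  have e1 : Ex Q D η (fun ω => g ω * ∏ i, Y i ω) =
      Ex Q D η (fun ω => g ω * Y 1 ω * Y 0 ω) := by
    refine Ex_congr fun S _ => ?_
    simp only [Fin.prod_univ_two]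
    ring
  rw [e1, Fin.prod_univ_two]
  calc _ ≤ u 0 * Ex Q D η (fun ω => g ω * Y 1 ω) := k0
    _ ≤ u 0 * (u 1 * Ex Q D η g) := mul_le_mul_of_nonneg_left k1 (hu 0)
    _ = _ := by ring

/-- **The majorants of the two rings.** -/
theorem ring_mom (hQ0 : 0 < 2 * Real.cos θ) (hY : S_Y2 θ P) {M : ℝ} (hM : 1 ≤ M) :
    ∃ (C : ℝ) (a₀ : ℤ), 0 < C ∧ ∀ (b : ℤ × ℤ) (a : Fin 2 → ℤ), (∀ i, a₀ ≤ a i) →
    ∃ N : Fin 2 → Cfg → ℕ, (∀ i ω, MajA (Zr b (a i)) (kp * a i) ω (N i ω)) ∧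
    ∀ (D : Finset (ℤ × ℤ)) (η : Cfg) (R : ℤ), Flt D b R → FltO D η b R false false →
    (∀ i, 8 * a i ≤ R) →
    (∀ i j, i ≠ j → Disjoint (Zg b (a i / 2) (3 * a i)) (Zg b (a j / 2) (3 * a j))) →
    (∀ i, 3 * a i ≤ R) → ∀ f : Fin 2 → ℤ × ℤ → ℝ, (∀ i, Bp 1000 b (a i) (f i)) →
    ∀ τ : Fin 2 → ℝ, (∀ i, |τ i| ≤ 2) → ∀ g : Cfg → ℝ, (∀ ω, 0 ≤ g ω) →
    (∀ i, Ind (Zg b (a i / 2) (3 * a i)) g) →
    Ex (2 * Real.cos θ) D η (fun ω => g ω * ∏ i, Yu θ M (τ i) (f i) (a i) (N i ω) ω) ≤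
      C * Real.exp (-(Ex0 θ P τ a)) * Ex (2 * Real.cos θ) D η g ∧
    Ex (2 * Real.cos θ) D η
      (fun ω => g ω * ∏ i, Vale.Agent.P167.N.H436.ND.Yl θ M (τ i) (f i) b (a i) (N i ω) ω) ≤
      C * Real.exp (Ex0 θ P τ a) * Ex (2 * Real.cos θ) D η g := by
  obtain ⟨C, a₀, hC, h⟩ := hY 1000 M (by norm_num) hM
  refine ⟨(1 + C) ^ 2, a₀, by positivity, fun b a ha => ?_⟩
  choose N hN1 hN2 using fun i => h b (a i) (ha i)
  refine ⟨N, hN1, fun D η R hF hO h8 hd h3 f hf τ hτ g hg hgi => ?_⟩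
  have hZD : ∀ i, Zg b (a i / 2) (3 * a i) ⊆ D := fun i => Zg_sub hF (h3 i)
  have hM0 : 0 ≤ M := by linarith
  have e1 : ∏ i, (1 + C) * Real.exp (-(Real.tan θ * (τ i * NbP P (kp * a i)))) =
      (1 + C) ^ 2 * Real.exp (-(Ex0 θ P τ a)) := by
    rw [Finset.prod_mul_distrib, Finset.prod_const, ← Real.exp_sum]
    unfold Ex0
    rw [Finset.sum_neg_distrib, Finset.mul_sum]
    simp
  have e2 : ∏ i, (1 + C) * Real.exp (Real.tan θ * (τ i * NbP P (kp * a i))) =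
      (1 + C) ^ 2 * Real.exp (Ex0 θ P τ a) := by
    rw [Finset.prod_mul_distrib, Finset.prod_const, ← Real.exp_sum]
    unfold Ex0
    rw [Finset.mul_sum]
    simp
  constructor
  · rw [← e1]
    refine two_mom (Z := fun i => Zg b (a i / 2) (3 * a i)) (fun i => by positivity) hg hgi
      (fun i ω => Yu_nonneg hM0 _ _ _ _) (fun i j hij =>
        (hN2 i D η R false false hF hO (h8 i) (f i) (hf i) (τ i) (hτ i)).1.ind (hZD j)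
          (hd i j hij)) fun i g' hg' hgi' => ?_
    exact mom4 hQ0 hC hg' (fun ω => Yu_nonneg hM0 _ _ _ _)
      ((hN2 i D η R false false hF hO (h8 i) (f i) (hf i) (τ i) (hτ i)).2.2 g' hg' hgi').1
  · rw [← e2]
    refine two_mom (Z := fun i => Zg b (a i / 2) (3 * a i)) (fun i => by positivity) hg hgi
      (fun i ω => Yl_nonneg hM0 _ _ _ _ _) (fun i j hij =>
        (hN2 i D η R false false hF hO (h8 i) (f i) (hf i) (τ i) (hτ i)).2.1.ind (hZD j)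
          (hd i j hij)) fun i g' hg' hgi' => ?_
    exact mom2 hQ0 hC hg'
      ((hN2 i D η R false false hF hO (h8 i) (f i) (hf i) (τ i) (hτ i)).2.2 g' hg' hgi').2

/-! ### the events do not read the zones -/

/-- Scales of the rings. -/
structure Rs2 (a : Fin 2 → ℤ) (R₁ R : ℤ) : Prop where
  p : 4 ≤ a 0
  g : 8 * a 0 ≤ a 1
  t : 8 * a 1 ≤ R₁
  u : R₁ ≤ R

theorem zones_disj {R₁ : ℤ} {a : Fin 2 → ℤ} (h : Rs2 a R₁ R) : ∀ i j, i ≠ j →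
    Disjoint (Zg b (a i / 2) (3 * a i)) (Zg b (a j / 2) (3 * a j)) := by
  obtain ⟨h1, h2, h3, h4⟩ := h
  have key : ∀ i j : Fin 2, i < j → Disjoint (Zg b (a i / 2) (3 * a i))
      (Zg b (a j / 2) (3 * a j)) := by
    intro i j hij
    refine Zg_disj ?_
    fin_cases i <;> fin_cases j <;> first
      | (exfalso; revert hij; decide)
      | (simp only [Fin.zero_eta, Fin.mk_one] at *; omega)
  intro i j hij
  rcases lt_or_gt_of_ne hij with h | h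
  · exact key i j h
  · exact (key j i h).symm

theorem gap_ind {R₁ : ℤ} {a : Fin 2 → ℤ} (h : Rs2 a R₁ R) (c : Bool) : ∀ i : Fin 2, ∀ ω ω' : Cfg,
    (∀ v, v ∉ Zg b (a i / 2) (3 * a i) → ω v = ω' v) → ω ∈ Xc c b (3 * a 0) (a 1 / 2) →
      ω' ∈ Xc c b (3 * a 0) (a 1 / 2) := by
  obtain ⟨h1, h2, h3, h4⟩ := h
  intro i ω ω' hw hω
  refine Xc_congr (fun v hv => hw v fun hv' => ?_) hω
  rw [mem_dF] at hv
  simp only [dq, Set.mem_ofPred_eq] at hv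
  rw [mem_Zg] at hv'
  fin_cases i <;> simp only [Fin.zero_eta, Fin.mk_one] at hv' <;> omega

theorem far_ind {R₁ : ℤ} {a : Fin 2 → ℤ} (h : Rs2 a R₁ R) {r s : ℤ} (hr : 3 * a 1 ≤ r) (c : Bool) :
    ∀ i : Fin 2, ∀ ω ω' : Cfg,
    (∀ v, v ∉ Zg b (a i / 2) (3 * a i) → ω v = ω' v) → ω ∈ Xc c b r s → ω' ∈ Xc c b r s := by
  obtain ⟨h1, h2, h3, h4⟩ := h
  intro i ω ω' hw hω
  refine Xc_congr (fun v hv => hw v fun hv' => ?_) hω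
  rw [mem_dF] at hv
  simp only [dq, Set.mem_ofPred_eq] at hv
  rw [mem_Zg] at hv'
  fin_cases i <;> simp only [Fin.zero_eta, Fin.mk_one] at hv' <;> omega

theorem jn_congr {c : Bool} {U T : Set (ℤ × ℤ)} {ω ω' : Cfg} (h : ∀ v ∈ D, ω v = ω' v)
    (hJ : Jn c D ω U T) : Jn c D ω' U T := by
  obtain ⟨u, hu, t, ht, h1, h2⟩ := hJ
  refine ⟨u, hu, t, ht, h1, Relation.ReflTransGen.mono (fun x y hxy => ?_) _ _ h2⟩
  obtain ⟨a1, a2, a3⟩ := hxy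
  refine ⟨a1, a2, ?_⟩
  obtain ⟨a4, a5⟩ := a3
  refine ⟨?_, a5⟩
  have := h _ a5
  simp only [H632.cs, Set.mem_ofPred_eq] at a4 ⊢
  rw [← this]
  exact a4

theorem ams_ind {W : Set (ℤ × ℤ)} {R₁ : ℤ} {a : Fin 2 → ℤ} (h : Rs2 a R₁ R) : ∀ i : Fin 2,
    ∀ ω ω' : Cfg,
    (∀ v, v ∉ Zg b (a i / 2) (3 * a i) → ω v = ω' v) → ω ∈ AmsT D W b (3 * a 1) (R₁ / 2) →
      ω' ∈ AmsT D W b (3 * a 1) (R₁ / 2) := by
  have h' := h
  obtain ⟨h1, h2, h3, h4⟩ := h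
  intro i ω ω' hw hω s hs hs'
  rcases hω s hs hs' with h5 | h5
  · exact Or.inl (far_ind h' le_rfl _ i ω ω' hw h5)
  · refine Or.inr (jn_congr (fun v hv => hw v fun hv' => ?_) h5)
    rw [mem_sdiff] at hv
    rw [mem_Zg] at hv'
    refine hv.2 (mem_hbox.2 ?_)
    fin_cases i <;> simp only [Fin.zero_eta, Fin.mk_one] at hv' <;> omega

end Vale.Agent.P167.N.BT
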