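import Vale.Agent.P167.N.BT.Jone
import Vale.Agent.P167.N.BT.Jtr
import Vale.Agent.P167.N.BT.JV
import Vale.Agent.P167.N.KitQ
import Vale.Agent.P167.H436.ND.Defs

/-!
# P167, `0 < q < 1`, block BT: the comparison at one junction

`one_junction`: the functional of a charge `F` of total mass `s₀ = π - 2 θ` far from the base junction minus
a bump of mass `s₀` near the base junction, compared with the functional of `F`.
-/

set_option autoImplicit false

namespace Vale.Agent.P167.N.BT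

open Finset Relation MeasureTheory Vale.Agent.P167 Vale.Agent.P167.BR Vale.Agent.P167.FK
open Vale.Agent.P167.FKA (Loc Ind)
open Vale.Agent.P167.H519 (IsLim)
open Vale.Agent.P167.H562.SML
open Vale.Agent.P167.H562.MAJ (bigs Sm core Sc)
open Vale.Agent.P167.H562.QM (FltQ NbP YQ)
open Vale.Agent.P167.QB (dq MW Bq' XG gB S1 S2 scales)
open Vale.Agent.P167.QX (wB)
open Vale.Agent.P167.N.QB (yb_mom)
open Vale.Agent.P167.H440 (wak good_wak)
open Vale.Agent.P167.H718 (Dob)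
open Vale.Agent.P167.H436.ND (FltO)

variable {n : ℕ} {q : ZMod n → ℤ × ℤ} {D Z : Finset (ℤ × ℤ)} {ω η : Cfg} {A : Finset Ed}
  {k : ℕ} {θ K : ℝ} {r R R' : ℤ} {b : ℤ × ℤ} {φ F : ℤ × ℤ → ℝ} {P : Measure Cfg}

/-! ### The outside product -/

/-- The product over the pieces which do not visit `Z` does not depend on the squares of `Z`. -/
theorem xof_ind : Ind Z (Xof θ q D k Z F) := by
  classical
  have key : ∀ ω ω' : Cfg, (∀ v, v ∉ Z → ω v = ω' v) → ∀ A ∈ pcs ω D, ¬ Vz Z A → A ∈ pcs ω' D := by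
    intro ω ω' h A hA hV
    refine mem_pcs_congr hA fun e he _ => h _ fun hZ => hV ⟨e, he, mem_eds.2 (Or.inl hZ)⟩
  intro ω ω' h
  unfold Xof
  refine prod_congr ?_ fun _ _ => rfl
  ext A
  rw [mem_filter, mem_filter]
  exact ⟨fun h1 => ⟨key ω ω' h A h1.1 h1.2, h1.2⟩,
    fun h1 => ⟨key ω' ω (fun v hv => (h v hv).symm) A h1.1 h1.2, h1.2⟩⟩

theorem xof_zero : Xof θ q D k (hbox b 0) F ω = XG θ q D k F ω := by
  classical
  unfold Xof XG QX.XB
  rw [filter_true_of_mem]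
  rintro A _ ⟨e, _, he⟩
  rw [mem_eds, mem_hbox, mem_hbox] at he
  omega

/-- Without a crossing the pieces which visit the half box are inner. -/
theorem innP_crs (hF : Flt D b R) {s : ℤ} (h : ¬ BR.Crs D b s R ω) (hA : A ∈ pcs ω D)
    (hV : Vz (hbox b s) A) : InnP b R A := by
  have h1 : ∀ e ∈ A, hdv e ∈ fbx b R ∧ tlv e ∈ fbx b R := by
    intro e he
    by_contra hcon
    refine h ⟨A, hA, hV, e, he, ?_⟩
    by_contra h'
    push Not at h'
    exact hcon h'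
  intro e he
  obtain ⟨⟨a1, a2, a3, a4⟩, ⟨b1, b2, b3, b4⟩⟩ := h1 e he
  have h2 := hF _ a1 a2 a3 a4
  have h3 := hF _ b1 b2 b3 b4
  refine ⟨?_, ?_, ?_⟩
  · rcases mem_eds.1 (subset_eds hA he) with h4 | h4
    · refine mem_eds.2 (Or.inl ?_)
      have := h2.1 h4
      rw [mem_hbox]
      omega
    · refine mem_eds.2 (Or.inr ?_)
      have := h3.1 h4
      rw [mem_hbox]
      omega
  · rw [mem_hbox]
    omega
  · rw [mem_hbox]
    omega

/-- Off the crossings the functional of the far charge is the outside product. -/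
theorem xg_out (hw : WJ q D k R) (h1 : 0 < θ) (h2 : θ < Real.pi / 2) {s : ℤ}
    (h : ¬ BR.Crs D (q 0) s R ω) (hFD : ∀ z, F z ≠ 0 → z ∈ sites D)
    (hFs : ∑ᶠ z, F z = Real.pi - 2 * θ) (hF0 : FarJ q D k R F) :
    XG θ q D k F ω = Xof θ q D k (hbox (q 0) s) F ω := by
  classical
  unfold XG QX.XB Xof
  rw [← prod_filter_mul_prod_filter_not (pcs ω D) (Vz (hbox (q 0) s)), prod_eq_one, one_mul]
  intro A hA
  rw [mem_filter] at hA
  exact wB_far_one hw h1 h2 hA.1 (innP_crs hw.flat h hA.1 hA.2) hFD hFs hF0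

/-! ### Smaller windows -/

theorem WJ.mono (hw : WJ q D k R) (h1 : 1 ≤ R') (h2 : R' ≤ R) : WJ q D k R' where
  poly := hw.poly
  enc := hw.enc
  flat := fun v a1 a2 a3 a4 => hw.flat v (by omega) (by omega) (by omega) (by omega)
  r1 := h1
  kR := h2.trans hw.kR
  nR := by have := hw.nR; omega
  off := fun h => hw.off (sites_mono (hbox_mono h2) h)

theorem FarJ.mono (hF : FarJ q D k R F) (h2 : R' ≤ R) : FarJ q D k R' F := by
  intro ζ A hA hI
  refine hF ζ A hA fun e he => ?_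
  obtain ⟨h3, h4, h5⟩ := hI e he
  refine ⟨?_, ?_, ?_⟩
  · rcases mem_eds.1 h3 with h | h
    · exact mem_eds.2 (Or.inl (hbox_mono h2 h))
    · exact mem_eds.2 (Or.inr (hbox_mono h2 h))
  · exact h4.imp (fun h => hbox_mono h2 h) id
  · exact h5.imp (fun h => hbox_mono h2 h) id

/-- The strict window. -/
theorem fltQ_of (hF : Flt D b R) {pl pr : Bool} (hO : FltO D η b R pl pr) :
    FltQ D η b (R - 1) pl pr := by
  refine ⟨fun v hv => ?_, fun v hv hv2 => ?_⟩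
  · rw [FKA.nm_le_iff] at hv
    simp only [Prod.fst_sub, Prod.snd_sub] at hv
    exact hF v (by omega) (by omega) (by omega) (by omega)
  · rw [FKA.nm_le_iff] at hv
    simp only [Prod.fst_sub, Prod.snd_sub] at hv
    exact hO.out v (by omega) (by omega) (by omega) hv2

/-! ### The comparison -/

theorem fin_alg {C1 C4 x N0 E : ℝ} (hx : 0 ≤ x) (hN : 0 ≤ N0) (hE : 0 ≤ E) :
    C1 * x * (C4 * N0) * E ≤ max C4 (C1 * C4) * x * N0 * E := by
  have h1 : 0 ≤ x * N0 * E := by positivity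
  have h2 := mul_le_mul_of_nonneg_right (le_max_right C4 (C1 * C4)) h1
  nlinarith


/-- **One junction**, the bump at the junction. -/
theorem one_core (h1 : Ang θ) (hP : IsLim (2 * Real.cos θ) P) : ∃ γ : ℝ, 0 < γ ∧
    ∀ K : ℝ, 1 ≤ K → ∃ (c C : ℝ) (r0 : ℝ) (K0 : ℤ), 0 < c ∧ 0 < C ∧ 1 ≤ r0 ∧ 4 ≤ K0 ∧
    ∀ (r R : ℤ), r0 ≤ r → K0 * r ≤ R → 4 * r ≤ S1 r R ∧ S1 r R ≤ S2 r R ∧ S2 r R ≤ R ∧
    ∀ (b : ℤ × ℤ) (φ : ℤ × ℤ → ℝ), (∀ z, 0 ≤ φ z) →
      (∀ z, |(Real.pi - 2 * θ) * φ z| ≤ K / (r : ℝ) ^ 2) →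
      (∀ z, φ z ≠ 0 → z ∈ sites (core K b r)) → ∑ᶠ z, φ z = 1 → ∀ pl pr : Bool,
      c * Real.exp (Real.tan θ * (Real.pi - 2 * θ) * NbP P (dq K r)) ≤
        Ex (2 * Real.cos θ) (hbox b (S2 r R)) (wak b (S2 r R) (kJ b pl pr))
          (FJ θ b r (S1 r R) φ) ∧
      Ex (2 * Real.cos θ) (hbox b (S2 r R)) (wak b (S2 r R) (kJ b pl pr))
          (FJ θ b r (S1 r R) φ) ≤
        C * Real.exp (Real.tan θ * (Real.pi - 2 * θ) * NbP P (dq K r)) ∧
    ∀ (n : ℕ) (q : ZMod n → ℤ × ℤ) (D : Finset (ℤ × ℤ)) (k : ℕ) (η : Cfg) (F : ℤ × ℤ → ℝ)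
      (U : Cfg → ℝ), WJ q D k R → q 0 = b → Good η → FltQ D η b R pl pr →
      (∀ z, F z ≠ 0 → z ∈ sites D) → ∑ᶠ z, F z = Real.pi - 2 * θ → FarJ q D k R F →
      (∀ ω, 0 ≤ U ω) → Ind (hbox b R) U →
      (∀ r' : ℤ, r' ≤ R → ∀ ω, |Xof θ q D k (hbox b r') F ω| ≤ U ω) →
      |Ex (2 * Real.cos θ) D η (XG θ q D k fun z => F z - (Real.pi - 2 * θ) * φ z) -
        Ex (2 * Real.cos θ) (hbox b (S2 r R)) (wak b (S2 r R) (kJ b pl pr))
          (FJ θ b r (S1 r R) φ) * Ex (2 * Real.cos θ) D η (XG θ q D k F)| ≤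
        C * ((r : ℝ) / R) ^ γ * Real.exp (Real.tan θ * (Real.pi - 2 * θ) * NbP P (dq K r)) *
          Ex (2 * Real.cos θ) D η U := by
  have hQ := h1.kit
  have hQ0 : 0 < 2 * Real.cos θ := hQ.pos
  have hR0 : RSW (2 * Real.cos θ) := hQ.rsw
  have t0 : 0 ≤ Real.tan θ := Real.tan_nonneg_of_nonneg_of_le_pi_div_two h1.pos.le h1.lt.le
  have hM1 : 1 ≤ MW θ := one_le_MWJ h1.pos h1.lt
  obtain ⟨K1, α, C1, hK1, hα, hC1, hasm⟩ := asm_j' hQ 4 (by norm_num)
  refine ⟨α, hα, fun K hK => ?_⟩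
  obtain ⟨c, C2, r1, Λ, hc, hC2, hr1, hΛ, hjv⟩ := jv h1 hR0 hP hK
  obtain ⟨C3, r3, hC3, hr3, hmom⟩ := yb_mom hQ hR0 hP hK (MW θ) 1 (Real.tan θ) hM1 zero_le_one
  obtain ⟨K2, hK2, hsc⟩ := scales (max Λ 4) (by omega)
  set C4 : ℝ := max C2 C3 with hC4
  have hC40 : 0 < C4 := lt_of_lt_of_le hC2 (le_max_left _ _)
  refine ⟨c, max C4 (C1 * C4), max r1 r3, max (max K1 K2) 4, hc,
    lt_of_lt_of_le hC40 (le_max_left _ _), hr1.trans (le_max_left _ _), by omega, ?_⟩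
  intro r R hr hKr
  obtain ⟨hSc, hjv⟩ := hjv r ((le_max_left _ _).trans hr)
  obtain ⟨-, hmom⟩ := hmom r ((le_max_right _ _).trans hr)
  have h8 := hSc.r8
  have hKr1 : K1 * r ≤ R := le_trans (mul_le_mul_of_nonneg_right (by omega) (by omega)) hKr
  have hKr2 : K2 * r ≤ R := le_trans (mul_le_mul_of_nonneg_right (by omega) (by omega)) hKr
  obtain ⟨g1, g2, g3, -⟩ := hsc r R (by omega) hKr2
  set s₁ := S1 r R with hs1
  set s₂ := S2 r R with hs2
  have e1 : 4 * r ≤ s₁ := le_trans (mul_le_mul_of_nonneg_right (le_max_right _ _) (by omega)) g1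
  have e1' : Λ * r ≤ s₁ := le_trans (mul_le_mul_of_nonneg_right (le_max_left _ _) (by omega)) g1
  have e2 : 4 * s₁ ≤ s₂ := le_trans (mul_le_mul_of_nonneg_right (le_max_right _ _) (by omega)) g2
  have e3 : 4 * s₂ ≤ R := le_trans (mul_le_mul_of_nonneg_right (le_max_right _ _) (by omega)) g3
  refine ⟨e1, by omega, by omega, ?_⟩
  intro b φ hφ0 hφ hφc hφs pl pr
  set N0 : ℝ := Real.exp (Real.tan θ * (Real.pi - 2 * θ) * NbP P (dq K r)) with hN0
  have hN00 : 0 < N0 := Real.exp_pos _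
  have hfw : FltQ (hbox b s₂) (wak b s₂ (kJ b pl pr)) b (2 * r) pl pr :=
    QB.fltQ_mono (fltQ_wak b pl pr (R := s₂ - 1) (by omega)) (by omega)
  have hj := hjv b φ hφ0 hφ hφc hφs (hbox b s₂) (wak b s₂ (kJ b pl pr)) pl pr
    (good_wak _ _ _) hfw (fun _ => 1) (fun _ => zero_le_one) s₁
  simp only [one_mul, FKA.Ex_const hQ0, mul_one] at hj
  have hlow := hj.2 e1' (hbox_mono (by omega)) (fun _ _ _ => rfl)
  have hup := hj.1 (by omega) (fun _ _ _ => rfl)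
  set V : ℝ := Ex (2 * Real.cos θ) (hbox b s₂) (wak b s₂ (kJ b pl pr)) (FJ θ b r s₁ φ) with hV
  refine ⟨hlow, hup.trans (mul_le_mul_of_nonneg_right
    ((le_max_left _ _).trans (le_max_left _ _)) hN00.le), ?_⟩
  intro n q D k η F U hw hb hη hF hFD hFs hF0 hU0 hUI hU
  subst hb
  have hw1 : WJ q D k s₁ := hw.mono (by omega) (by omega)
  obtain ⟨N, -, hN2, hN3⟩ := hmom (q 0)
  have hs0 : ∑ᶠ z, -((Real.pi - 2 * θ) * φ z) = -(Real.pi - 2 * θ) := by
    have e5 := smul_finsum (Real.pi - 2 * θ) φ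
    simp only [smul_eq_mul] at e5
    rw [finsum_neg_distrib, ← e5, hφs, mul_one]
  have hfs' : ∀ z, -((Real.pi - 2 * θ) * φ z) ≠ 0 → z ∈ sites (core K (q 0) r) := fun z hz =>
    hφc z (right_ne_zero_of_mul (neg_ne_zero.1 hz))
  have hfa' : ∀ z, |-((Real.pi - 2 * θ) * φ z)| ≤ K / (r : ℝ) ^ 2 := fun z => by
    rw [abs_neg]; exact hφ z
  have hmom2 : ∀ G : Cfg → ℝ, (∀ ω, 0 ≤ G ω) → Ind (hbox (q 0) (4 * r)) G →
      Ex (2 * Real.cos θ) D η (fun ω => G ω * YQ (MW θ) (Real.tan θ) N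
        (fun z => -((Real.pi - 2 * θ) * φ z)) (dq K r) ω) ≤
        C4 * N0 * Ex (2 * Real.cos θ) D η G := by
    intro G hG0 hG
    have := hN3 D η pl pr hη (QB.fltQ_mono hF (by omega)) _ hfa' hfs' G hG0
      (Ind.mono (hbox_mono (by omega)) hG) (Real.tan θ) 1 t0 le_rfl zero_le_one le_rfl
    simp only [Real.rpow_one, one_mul] at this
    rw [hs0] at this
    have e5 : -(Real.tan θ * -(Real.pi - 2 * θ) * NbP P (dq K r)) =
        Real.tan θ * (Real.pi - 2 * θ) * NbP P (dq K r) := by ring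
    rw [e5] at this
    refine this.trans (mul_le_mul_of_nonneg_right (mul_le_mul_of_nonneg_right
      (le_max_right _ _) hN00.le) (FKA.Ex_nonneg hQ0 fun S _ => hG0 _))
  have key := (hasm D η (q 0) r R pl pr hη hF (by omega) hKr1).2.2.2
    (XG θ q D k fun z => F z - (Real.pi - 2 * θ) * φ z) (XG θ q D k F)
    (Xof θ q D k (hbox (q 0) s₂) F) (FJ θ (q 0) r s₁ φ)
    (YQ (MW θ) (Real.tan θ) N (fun z => -((Real.pi - 2 * θ) * φ z)) (dq K r)) U (C4 * N0)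
    (by positivity) loc_FJ
    (fun ω => FJ_nonneg h1.gt h1.lt (by omega) hφ0 (sc_supp hSc hφc (by omega)) hφs)
    (fun ω => (le_abs_self _).trans (FJ_le h1.gt h1.lt hSc (by omega) hφ0 hφ hφc hφs
      (fun D => hN2 ω D)))
    (fun ω => by
      refine (xj_maj hw h1.gt h1.lt hSc (by omega) hφ0 hφ hφc hφs hFD hFs hF0 (hN2 ω D)).trans ?_
      rw [mul_comm]
      exact mul_le_mul_of_nonneg_left (hU r (by omega) ω) (H562.QM.YQ_pos (by linarith) _ _ _ _ _).le)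
    (fun ω => by rw [← xof_zero (b := q 0)]; exact hU 0 (by omega) ω) hUI
    (fun ω hI => by
      rw [xg_loc hw1 h1.pos h1.lt (by omega) (by omega) hI hFD hFs (hF0.mono (by omega))
        (sc_supp hSc hφc le_rfl), mul_comm])
    xof_ind (fun ω => hU s₂ (by omega) ω)
    (fun ω hC => xg_out hw h1.pos h1.lt hC hFD hFs hF0)
    hmom2 (hup.trans (mul_le_mul_of_nonneg_right (le_max_left _ _) hN00.le))
  refine key.trans ?_
  have hE0 : 0 ≤ Ex (2 * Real.cos θ) D η U := FKA.Ex_nonneg hQ0 fun S _ => hU0 _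
  have hrR : 0 ≤ ((r : ℝ) / R) ^ α := Real.rpow_nonneg (div_nonneg
    (by exact_mod_cast (by omega : (0 : ℤ) ≤ r)) (by exact_mod_cast (by omega : (0 : ℤ) ≤ R))) _
  exact fin_alg hrR hN00.le hE0

end Vale.Agent.P167.N.BT
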