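import Vale.Agent.P167.N.BT.Att
import Vale.Agent.P167.N.BT.Expl
import Vale.Agent.P167.N.BT.PUT

/-!
# P167, `0 < q < 1`, block BT, part BT7: lower bounds of the probabilities (`S_PLT`)

From the local part `S_LOC` and the attachment of the arm from `W` to the explored squares.
-/

set_option autoImplicit false

namespace Vale.Agent.P167.N.BT

open Finset Vale.Agent.P167 Vale.Agent.P167.BR Vale.Agent.P167.FK Vale.Agent.P167.FKA
open Vale.Agent.P167.H192.TA (Xc Pw)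
open Vale.Agent.P167.H632 (cs pr)
open Vale.Agent.P167.H469 (hx FlF)
open Vale.Agent.P167.N.NET (VRS)
open Vale.Agent.P167.N.MIX (RatS)

variable {Q : ℝ} {D : Finset (ℤ × ℤ)} {η ω ω' : Cfg} {W : Set (ℤ × ℤ)} {b : ℤ × ℤ} {s m : ℤ}

/-- The arms from `W` are monotone. -/
theorem par_mono (h : s ≤ m) : PAr D W b s ⊆ PAr D W b m := by
  rintro ω ⟨u, hu, t, ht, h1, h2⟩
  have hsub : (cs true ω ∩ (↑(D \ hbox b s) : Set (ℤ × ℤ))) ∩ (↑(hbox b m) : Set (ℤ × ℤ))ᶜ ⊆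
      cs true ω ∩ (↑(D \ hbox b m) : Set (ℤ × ℤ)) := by
    rintro v ⟨⟨hv1, hv2⟩, hv3⟩
    refine ⟨hv1, ?_⟩
    rw [mem_coe, mem_sdiff] at hv2 ⊢
    exact ⟨hv2.1, hv3⟩
  rcases H452.BE.hit (X := (↑(hbox b m) : Set (ℤ × ℤ))) (Pw.symm h2) with h3 | ⟨z, h3, v, hv, -, hz⟩
  · exact ⟨u, sites_mono (hbox_mono h) hu, t, ht, h1, (Pw.mono hsub h3).symm⟩
  · have h4 := Pw.mono hsub h3
    refine ⟨z, mem_sites.2 ⟨v, hv, hz⟩, t, ht, ?_, h4.symm⟩
    rw [← Pw.parity h4, ← Pw.parity h2]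
    exact h1

theorem aD_mono (hQ : 0 < Q) (h : s ≤ m) : aD Q D η W b s ≤ aD Q D η W b m :=
  Pr_mono hQ (par_mono h)

/-- **The arm from `W` is joined to the frozen squares.** -/
theorem att (hQ : Kit Q) (hV : VRS Q) (M : ℕ) : ∃ (c : ℝ) (K : ℤ), 0 < c ∧ 1 ≤ K ∧
    ∀ (n : ℕ) (q : ZMod n → ℤ × ℤ) (D X0 : Finset (ℤ × ℤ)) (η ω0 ω1 : Cfg) (k l : ℕ)
      (R s s' ρ : ℤ), WinD q D η k l R → 1 ≤ s → s ≤ s' → s' ≤ ρ → ρ ≤ M * s → K * s ≤ R →
      X0 ⊆ D → X0 ⊆ hbox (q l) ρ → Good ω0 → (∀ v, v ∉ D → ω0 v = η v) →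
      (∀ v, v ∉ X0 → ω1 v = true) → ω1 ∉ Xc true (q l) s s' →
      c * aD Q D η (Wr q k) (q l) s ≤ Pr Q (D \ X0) ω0
        (NET.Jn true ↑(D \ X0) (NET.Vc true ↑X0) (Wr q k)) := by
  obtain ⟨L, hL⟩ := hQ.ratS
  have hL2 := hL.two
  obtain ⟨κ₁, h1, H1⟩ := land_W hQ.pos hQ.le hV
  obtain ⟨κ₂, h2, H2⟩ := att_in hQ.pos hQ.le hV (3 * (L * (L * M))).toNat
  have hLM : 0 ≤ L * (L * M) := by positivity
  refine ⟨κ₂ * (κ₁ / 8), 3 * (L * (L * M)) + 1, by positivity, by omega,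
    fun n q D X0 η ω0 ω1 k l R s s' ρ hw hs hss hsρ hρ hR hX hX0 hω0 hωη hω1 hblk => ?_⟩
  obtain ⟨m, hm⟩ : ∃ m, m = L * (L * ρ) := ⟨_, rfl⟩
  have hρm : ρ ≤ m := by
    have h3 : 1 * ρ ≤ L * ρ := mul_le_mul_of_nonneg_right (by omega) (by omega)
    have h4 : 1 * (L * ρ) ≤ L * (L * ρ) := mul_le_mul_of_nonneg_right (by omega) (by omega)
    rw [hm]
    linarith
  have hmM : m ≤ L * (L * M) * s := by
    rw [hm]
    have h3 : L * ρ ≤ L * (M * s) := mul_le_mul_of_nonneg_left hρ (by omega)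
    have h4 : L * (L * ρ) ≤ L * (L * (M * s)) := mul_le_mul_of_nonneg_left h3 (by omega)
    linarith [mul_assoc L L (M * s), mul_assoc L (L * M) s, mul_assoc L M s]
  have hmR : 3 * m < R := by
    have e1 : (3 * (L * (L * M)) + 1) * s = 3 * (L * (L * M) * s) + s := by ring
    omega
  have hF := hw.win.flat
  have k1 : aD Q D η (Wr q k) (q l) s ≤ Pr Q D η (PAr D (Wr q k) (q l) m) :=
    aD_mono hQ.pos (by omega)
  have k2 := frz_mix (ω0 := ω0) (E := PAr D (Wr q k) (q l) m) hQ hL hF hw.flt (r := ρ) (m := m)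
    (by omega) hm.ge (by omega) hX hX0 hωη ind_PAr
  have k3 := H1 n k l q D X0 ω0 R m hw.win hw.lR hw.kn hω0 (by omega) (by omega)
    (hX0.trans (hbox_mono hρm))
  have k4 := H2 n k l q D X0 ω0 ω1 R m s s' hw.win hw.lR hw.kn (hw.far (by omega)) hω0 hs hss
    (by omega) (by
      rw [Int.toNat_of_nonneg (by omega)]
      linarith) hmR (hX0.trans (hbox_mono hρm)) hω1 hblk
  refine le_trans ?_ k4
  rw [mul_assoc]
  refine mul_le_mul_of_nonneg_left ?_ h2.le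
  refine le_trans ?_ k3
  rw [div_mul_eq_mul_div, div_le_iff₀ (by norm_num), mul_assoc]
  refine mul_le_mul_of_nonneg_left ?_ h1.le
  linarith

/-- The expectation over the explored squares. -/
theorem ev_ge (hQ : 0 < Q) (hη : Good η) {a0 a1 ρ ρ1 ρ2 : ℤ} (h0 : 2 * a0 ≤ a1) (h1 : 0 ≤ a0)
    (hs : hbox b (r1 a1) ⊆ D) {c : ℝ} (h : ∀ S ⊆ D, cf D η S ∈ Gd D b a0 a1 ρ ρ1 ρ2 →
      c ≤ Pr Q (D \ Xs D b (r1 a1) (cf D η S)) (cf D η S)
        (NET.Jn true ↑(D \ Xs D b (r1 a1) (cf D η S)) (NET.Vc true ↑(Xs D b (r1 a1) (cf D η S))) W)) :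
    c * Pr Q D η (Gd D b a0 a1 ρ ρ1 ρ2) ≤ Pr Q D η (Ev D W b a0 a1 ρ ρ1 ρ2) := by
  have hoff : ∀ ω ω' : Cfg, (∀ v, v ∉ D \ Xs D b (r1 a1) ω → ω v = ω' v) →
      ∀ v ∈ Xs D b (r1 a1) ω, ω' v = ω v := fun ω ω' h v hv =>
    (h v fun h' => (mem_sdiff.1 h').2 hv).symm
  have key := H15.stop_ge (Q := Q) (D := D) (η := η) (E := fun ω => D \ Xs D b (r1 a1) ω)
    (A := Gd D b a0 a1 ρ ρ1 ρ2) (B := {ω | ω ∈ NET.Jn true ↑(D \ Xs D b (r1 a1) ω)
      (NET.Vc true ↑(Xs D b (r1 a1) ω)) W}) (W := fun _ => 1) (c := c) hQ hη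
    (fun ω => sdiff_subset) (fun ω ω' h => by rw [xs_congr (hoff ω ω' h)])
    (fun ω ω' h => ⟨gd_det h0 h1 hs (hoff ω ω' h), fun h' => gd_det h0 h1 hs (fun v hv => by
      have h2 := hoff ω ω' h
      rw [xs_congr h2] at hv
      exact (h2 v hv).symm) h'⟩) (fun _ _ _ => rfl) (fun _ => zero_le_one) (fun S hS hSA => ?_)
  · simp only [one_mul] at key
    exact key
  · refine (h S hS hSA).trans (Ex_mono hQ fun S' hS' => ?_)
    obtain ⟨ω', hω'⟩ : ∃ ω', ω' = cf (D \ Xs D b (r1 a1) (cf D η S)) (cf D η S) S' := ⟨_, rfl⟩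
    rw [← hω']
    have h2 : Xs D b (r1 a1) ω' = Xs D b (r1 a1) (cf D η S) := xs_congr fun v hv => by
      rw [hω', cf_out fun h' => (mem_sdiff.1 h').2 hv]
    by_cases h3 : ω' ∈ NET.Jn true ↑(D \ Xs D b (r1 a1) (cf D η S))
        (NET.Vc true ↑(Xs D b (r1 a1) (cf D η S))) W
    · rw [Set.indicator_of_mem h3, Set.indicator_of_mem]
      show ω' ∈ NET.Jn true ↑(D \ Xs D b (r1 a1) ω') (NET.Vc true ↑(Xs D b (r1 a1) ω')) W
      rw [h2]
      exact h3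
    · rw [Set.indicator_of_notMem h3]
      exact ind_nonneg _ _

/-- **(BT7)** -/
theorem s_PLT (hQ : Kit Q) (hV : VRS Q) (hLOC : S_LOC Q) : S_PLT Q := by
  obtain ⟨c, Λ, K, s0, hc, hΛ, hK, hs0, hloc⟩ := hLOC
  obtain ⟨ca, Ka, hca, hKa, hatt⟩ := att hQ hV K.toNat
  obtain ⟨K0, hK0⟩ : ∃ K0, K0 = max K (2 * Ka) := ⟨_, rfl⟩
  refine ⟨ca * c, K0, max s0 10, by positivity, by omega, by omega,
    fun n q D η k l R N hw a R₁ ha hR hN => ?_⟩
  obtain ⟨b1, b2, b3⟩ := ha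
  have hQ0 := hQ.pos
  have ha0 : 10 ≤ a 0 := by omega
  have m0 : 4 * a 0 ≤ K0 * a 0 := mul_le_mul_of_nonneg_right (by omega) (by omega)
  have m1 : 4 * a 1 ≤ K0 * a 1 := mul_le_mul_of_nonneg_right (by omega) (by omega)
  have m2 : K * a 0 ≤ K0 * a 0 := mul_le_mul_of_nonneg_right (by omega) (by omega)
  have m3 : 4 * R₁ ≤ K0 * R₁ := mul_le_mul_of_nonneg_right (by omega) (by omega)
  have hF := hw.win.flat
  have hfl : Fl D η (Wr q k) (q l) R := ⟨hF, hw.flt, hw.far (by omega)⟩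
  refine ⟨fun ρ => Ev D (Wr q k) (q l) (a 0) (a 1) ρ (Λ * ρ) (K * ρ), fun ρ hρ hρR => ⟨fun ω hω =>
    ev_fav hω, ?_⟩, fun ρ ρ' hρ hρρ => ?_⟩
  · have hρ1 : a 1 ≤ ρ := by omega
    have n1 : K * ρ ≤ K0 * ρ := mul_le_mul_of_nonneg_right (by omega) (by omega)
    have n2 : 2 * Ka * ρ ≤ K0 * ρ := mul_le_mul_of_nonneg_right (by omega) (by omega)
    have n3 : 2 * ρ ≤ Λ * ρ := mul_le_mul_of_nonneg_right hΛ (by omega)
    have n4 : 2 * Λ * ρ ≤ K * ρ := mul_le_mul_of_nonneg_right hK (by omega)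
    have n5 : K * a 1 ≤ K0 * a 1 := mul_le_mul_of_nonneg_right (by omega) (by omega)
    have hr1 := r1_ge (a := a 1) (by omega)
    have hr12 := r12 (a := a 1) (by omega)
    have hr2 := r2_le (a := a 1) (by omega)
    have hr1' : r1 (a 1) ≤ 2 * a 1 := hr12.trans hr2
    have hFρ : Flt D (q l) (K * ρ) := flt_mono hF (by linarith)
    have j1 := hloc (q l) (a 0) (a 1) ρ N D η (by omega) (by omega) (by omega) (by omega)
      hw.flt.good (hfl.flf (by linarith))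
    have j2 : Pr Q D η (GLoc (q l) (a 0) (a 1) ρ (Λ * ρ) (K * ρ)) ≤
        Pr Q D η (Gd D (q l) (a 0) (a 1) ρ (Λ * ρ) (K * ρ)) :=
      Pr_mono hQ0 (gloc_sub (by omega) (by linarith) (by linarith) (fun h => by omega)
        (by linarith) hFρ)
    have j3 := ev_ge (W := Wr q k) (ρ := ρ) (ρ1 := Λ * ρ) (ρ2 := K * ρ) (η := η) hQ0 hw.flt.good
      (show 2 * a 0 ≤ a 1 by omega) (by omega) (hfl.sub (by omega))
      (c := ca * aD Q D η (Wr q k) (q l) ρ) (fun S _ hS => ?_)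
    · refine le_trans ?_ j3
      have p1 : 0 ≤ aD Q D η (Wr q k) (q l) ρ := Pr_nonneg hQ0 _
      have j4 : ca * aD Q D η (Wr q k) (q l) ρ * (c * (hx Q true (q l) (2 * a 0) (a 1) N *
          hx Q false (q l) (a 1) ρ N)) ≤ ca * aD Q D η (Wr q k) (q l) ρ *
          Pr Q D η (Gd D (q l) (a 0) (a 1) ρ (Λ * ρ) (K * ρ)) :=
        mul_le_mul_of_nonneg_left (j1.trans j2) (mul_nonneg hca.le p1)
      refine le_trans (le_of_eq ?_) j4
      ring
    · obtain ⟨-, -, -, g4, g5, g6⟩ := hS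
      have hgood : Good (cf D η S) := good_cf D hw.flt.good S
      by_cases hcase : ρ = a 1
      · have h := hatt n q D _ η (cf D η S) (kO D (q l) (r1 (a 1)) (cf D η S)) k l R (r1 (a 1))
          (r2 (a 1)) (K * ρ) hw (by omega) hr12 (by linarith) (by
            rw [Int.toNat_of_nonneg (by omega), hcase]
            exact mul_le_mul_of_nonneg_left hr1 (by omega)) (by
            have : Ka * r1 (a 1) ≤ Ka * (2 * a 1) := mul_le_mul_of_nonneg_left hr1' (by omega)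
            rw [hcase] at n2 hρR
            linarith) xs_sub g6 hgood (fun v hv => cf_out hv) (fun v hv => kO_off hv) g4
        refine le_trans (mul_le_mul_of_nonneg_left ?_ hca.le) h
        exact aD_mono hQ0 (by omega)
      · have h := hatt n q D _ η (cf D η S) (kO D (q l) (r1 (a 1)) (cf D η S)) k l R ρ
          (Λ * ρ) (K * ρ) hw (by omega) (by linarith) (by linarith) (by
            rw [Int.toNat_of_nonneg (by omega)]) (by
            have : Ka * ρ ≤ 2 * Ka * ρ := mul_le_mul_of_nonneg_right (by omega) (by omega)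
            linarith) xs_sub g6 hgood (fun v hv => cf_out hv) (fun v hv => kO_off hv)
            (g5 (by omega))
        exact h
  · have hρ1 : a 1 ≤ ρ := by omega
    have n1 : K * ρ ≤ K0 * ρ := mul_le_mul_of_nonneg_right (by omega) (by omega)
    have n2 : 4 * ρ ≤ K0 * ρ := mul_le_mul_of_nonneg_right (by omega) (by omega)
    have n3 : 2 * ρ' ≤ Λ * ρ' := mul_le_mul_of_nonneg_right hΛ (by omega)
    exact ev_disj (by omega) (by omega) (by omega) (by omega)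

end Vale.Agent.P167.N.BT
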