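import Vale.Agent.P167.N.NET.HalfC
import Vale.Agent.P167.N.BT.Defs

/-!
# P167, `0 < q < 1`, block BT: polygons with a hole at a flat free point

`quad_hole`: contraction of a set of squares of a `Quad`. `quadW0`: arm from the half box to an arc of the
polygon. `quadW1`: arm from the right flat side to an arc, the half box belongs to the fourth arc. `fan_hole`.
-/

set_option autoImplicit false
set_option linter.unusedSectionVars false

namespace Vale.Agent.P167.N.BT

open Finset Vale.Agent.P167 Vale.Agent.P167.BR Vale.Agent.P167.FK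
open Vale.Agent.P145.FB (PStep)
open Vale.Agent.P167.E6 (IsPolygon Encloses dir face)
open Vale.Agent.P167.H436.ND (Win FltO)
open Vale.Agent.P167.H192.TA (Xc Pw dF mem_dF)
open Vale.Agent.P167.H632 (cs pr)
open Vale.Agent.P167.N.NET (Cor Vc Quad Fan fan_of arcQ fl So quad_poly arcQ_union arcQ_per
  cor_of_step step_of_cor Nx)
open Relation (ReflTransGen)

/-- **Contraction of a hole.** The squares of `K` are given the colour `e`. -/
theorem quad_hole {e : Bool} {G K L A₁ A₃ S₂ S₄ : Set (ℤ × ℤ)} (H : Quad e G (L ∪ A₁) A₃ S₂ S₄)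
    (hA : A₁ ⊆ Vc e K) (hK : ∀ x ∈ Vc e K, ∃ u ∈ A₁, Pw K u x) (hKG : K ⊆ G) :
    Quad e (G \ K) (L ∪ Vc e K) A₃ S₂ S₄ where
  p1 := by
    rintro u (hu | ⟨v, -, hv⟩)
    · exact H.p1 u (Or.inl hu)
    · exact hv.2.2
  p3 := H.p3
  p2 := H.p2
  p4 := H.p4
  iff ω := by
    classical
    obtain ⟨ω', hω'⟩ : ∃ ω' : Cfg, ω' = fun v => if v ∈ K then e else ω v := ⟨_, rfl⟩
    have hin : ∀ v ∈ K, ω' v = e := by
      intro v hv
      rw [hω']
      simp only [if_pos hv]
    have hout : ∀ v, v ∉ K → ω' v = ω v := by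
      intro v hv
      rw [hω']
      simp only [if_neg hv]
    have h1 : ω ∈ NET.Jn e (G \ K) (L ∪ Vc e K) A₃ ↔ ω' ∈ NET.Jn e G (L ∪ A₁) A₃ := by
      constructor
      · rintro ⟨u, hu, v, hv, h⟩
        have hs : cs e ω ∩ (G \ K) ⊆ cs e ω' ∩ G := by
          intro t ht
          refine ⟨?_, ht.2.1⟩
          show ω' t = e
          rw [hout t ht.2.2]
          exact ht.1
        have h' : Pw (cs e ω' ∩ G) u v := h.mono hs
        rcases hu with hu | hu
        · exact ⟨u, Or.inl hu, v, hv, h'⟩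
        · obtain ⟨w, hw, h2⟩ := hK u hu
          have hs' : K ⊆ cs e ω' ∩ G := fun t ht => ⟨hin t ht, hKG ht⟩
          exact ⟨w, Or.inr hw, v, hv, (h2.mono hs').trans h'⟩
      · rintro ⟨u, hu, v, hv, h⟩
        have hp := H.p1 u hu
        have key : (∃ w ∈ Vc e K, Pw (cs e ω ∩ (G \ K)) w v) ∨
            (u ∉ Vc e K ∧ Pw (cs e ω ∩ (G \ K)) u v) := by
          clear hu
          revert hp
          induction h using ReflTransGen.head_induction_on with
          | refl =>
            intro _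
            by_cases h : v ∈ Vc e K
            · exact Or.inl ⟨v, h, ReflTransGen.refl⟩
            · exact Or.inr ⟨h, ReflTransGen.refl⟩
          | @head x y hxy _ ih =>
            intro hp
            obtain ⟨k1, k2, -⟩ := cor_of_step hxy hp
            rcases ih k2.2.2 with h | ⟨h1, h2⟩
            · exact Or.inl h
            · have hne : (min x.1 y.1, min x.2 y.2) ∉ K := fun h => h1 ⟨_, h, k2⟩
              have hst : PStep (cs e ω ∩ (G \ K)) x y := by
                refine ⟨hxy.1, hxy.2.1, ?_, hxy.2.2.2, hne⟩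
                show ω _ = e
                rw [← hout _ hne]
                exact hxy.2.2.1
              by_cases h : x ∈ Vc e K
              · exact Or.inl ⟨x, h, ReflTransGen.head hst h2⟩
              · exact Or.inr ⟨h, ReflTransGen.head hst h2⟩
        rcases key with ⟨w, hw, h2⟩ | ⟨h1, h2⟩
        · exact ⟨w, Or.inr hw, v, hv, h2⟩
        · rcases hu with hu | hu
          · exact ⟨u, Or.inl hu, v, hv, h2⟩
          · exact absurd (hA hu) h1
    have h2 : ω ∈ NET.Jn (!e) (G \ K) S₂ S₄ ↔ ω' ∈ NET.Jn (!e) G S₂ S₄ := by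
      constructor
      · rintro ⟨u, hu, v, hv, h⟩
        have hs : cs (!e) ω ∩ (G \ K) ⊆ cs (!e) ω' ∩ G := by
          intro t ht
          refine ⟨?_, ht.2.1⟩
          show ω' t = !e
          rw [hout t ht.2.2]
          exact ht.1
        exact ⟨u, hu, v, hv, h.mono hs⟩
      · rintro ⟨u, hu, v, hv, h⟩
        have hs : cs (!e) ω' ∩ G ⊆ cs (!e) ω ∩ (G \ K) := by
          intro t ht
          have h4 : ω' t = !e := ht.1
          have h3 : t ∉ K := fun h5 => by
            rw [hin t h5] at h4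
            cases e <;> simp at h4
          refine ⟨?_, ht.2, h3⟩
          show ω t = !e
          rw [← hout t h3]
          exact h4
        exact ⟨u, hu, v, hv, h.mono hs⟩
    rw [h1, h2]
    exact H.iff ω'

/-! ### The half box -/

variable {b : ℤ × ℤ} {r m R : ℤ} {e : Bool}

theorem vc_hbox (hr : 1 ≤ r) {x : ℤ × ℤ} : x ∈ Vc e (hbox b r : Set (ℤ × ℤ)) ↔
    b.1 - r ≤ x.1 ∧ x.1 ≤ b.1 + r ∧ b.2 ≤ x.2 ∧ x.2 ≤ b.2 + r ∧ (x.1 + x.2) % 2 = pr e := by
  constructor
  · rintro ⟨v, hv, h1, h2, h3⟩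
    rw [mem_coe, mem_hbox] at hv
    omega
  · rintro ⟨h1, h2, h3, h4, h5⟩
    by_cases c1 : x.1 = b.1 + r
    · by_cases c2 : x.2 = b.2 + r
      · exact ⟨(x.1 - 1, x.2 - 1), by rw [mem_coe, mem_hbox]; dsimp only; omega, by
          unfold Cor; dsimp only; omega⟩
      · exact ⟨(x.1 - 1, x.2), by rw [mem_coe, mem_hbox]; dsimp only; omega, by
          unfold Cor; dsimp only; omega⟩
    · by_cases c2 : x.2 = b.2 + r
      · exact ⟨(x.1, x.2 - 1), by rw [mem_coe, mem_hbox]; dsimp only; omega, by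
          unfold Cor; dsimp only; omega⟩
      · exact ⟨(x.1, x.2), by rw [mem_coe, mem_hbox]; dsimp only; omega, by
          unfold Cor; dsimp only; omega⟩

theorem fl_vc (hr : 1 ≤ r) : fl e b (-r) r ⊆ Vc e (hbox b r : Set (ℤ × ℤ)) := by
  rintro x ⟨h1, h2, h3, h4⟩
  rw [vc_hbox hr]
  omega

/-- Every corner of the half box is joined to the line in the half box. -/
theorem hbox_conn (hr : 1 ≤ r) {x : ℤ × ℤ} (hx : x ∈ Vc e (hbox b r : Set (ℤ × ℤ))) :
    ∃ u ∈ fl e b (-r) r, Pw (hbox b r : Set (ℤ × ℤ)) u x := by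
  rw [vc_hbox hr] at hx
  obtain ⟨h1, h2, h3, h4, h5⟩ := hx
  obtain ⟨m, hm⟩ : ∃ m : ℕ, x.2 = b.2 + m := ⟨(x.2 - b.2).toNat, by omega⟩
  induction m generalizing x with
  | zero => exact ⟨x, ⟨by omega, by omega, by omega, h5⟩, ReflTransGen.refl⟩
  | succ m ih =>
    push_cast at hm
    by_cases c : b.1 < x.1
    · obtain ⟨u, hu, h⟩ := ih (x := (x.1 - 1, x.2 - 1)) (by dsimp only; omega) (by dsimp only; omega)
        (by dsimp only; omega) (by dsimp only; omega) (by dsimp only; omega) (by dsimp only; omega)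
      refine ⟨u, hu, h.tail ⟨by dsimp only; omega, by dsimp only; omega, ?_⟩⟩
      rw [mem_coe, mem_hbox]
      dsimp only
      omega
    · obtain ⟨u, hu, h⟩ := ih (x := (x.1 + 1, x.2 - 1)) (by dsimp only; omega) (by dsimp only; omega)
        (by dsimp only; omega) (by dsimp only; omega) (by dsimp only; omega) (by dsimp only; omega)
      refine ⟨u, hu, h.tail ⟨by dsimp only; omega, by dsimp only; omega, ?_⟩⟩
      rw [mem_coe, mem_hbox]
      dsimp only
      omega

/-! ### The polygon -/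

variable {n k l : ℕ} {q : ZMod n → ℤ × ℤ} {D : Finset (ℤ × ℤ)}

theorem mem_arcQ {i j : ℕ} {x : ℤ × ℤ} : x ∈ arcQ e q i j ↔
    ∃ t : ℕ, i ≤ t ∧ t ≤ j ∧ x = q (t : ZMod n) ∧ (x.1 + x.2) % 2 = pr e := Iff.rfl

/-- The flat part of the polygon. -/
theorem flat_q (hw : Win q D l R) (hR : 1 ≤ R) {i : ℕ} (h1 : (l : ℤ) - R ≤ i) (h2 : (i : ℤ) < l + R) :
    q (i : ZMod n) = ((q l).1 + ((i : ℤ) - l), (q l).2) := by
  have hn : NeZero n := ⟨by have := hw.l1; omega⟩
  exact (QB.flat_side hw.poly hw.enc hw.flat hR hw.l1 hw.off h1 h2).1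

theorem flat_rg (hw : Win q D l R) (hR : 1 ≤ R) : R < l ∧ (l : ℤ) + R < n := by
  have hn : NeZero n := ⟨by have := hw.l1; omega⟩
  exact flat_range hw.poly hw.enc hw.flat hR hw.l1 hw.off

/-- The flat arcs. -/
theorem arc_fl (hw : Win q D l R) (hR : 1 ≤ R) {x y : ℤ} (h1 : -R ≤ x) (h3 : y < R) :
    arcQ e q (l + x).toNat (l + y).toNat = fl e (q l) x y := by
  have hrg := flat_rg hw hR
  ext v
  rw [mem_arcQ]
  constructor
  · rintro ⟨t, g1, g2, g3, g4⟩
    by_cases hxy : x ≤ y
    · rw [flat_q hw hR (by omega) (by omega), Prod.ext_iff] at g3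
      dsimp only at g3
      refine ⟨?_, ?_, ?_, g4⟩ <;> omega
    · exfalso
      omega
  · rintro ⟨g1, g2, g3, g4⟩
    refine ⟨(l + (v.1 - (q l).1)).toNat, by omega, by omega, ?_, g4⟩
    rw [flat_q hw hR (by omega) (by omega)]
    exact Prod.ext (by dsimp only; omega) g1

/-- **Arm from the half box to the arc `k .. n`.** -/
theorem quadW0 (hw : Win q D l R) (hk : (l : ℤ) + R ≤ k) (hkn : k ≤ n) (hr : 1 ≤ r) (hrR : r < R)
    (e : Bool) :
    Quad e (↑(D \ hbox (q l) r) : Set (ℤ × ℤ)) (Vc e (hbox (q l) r : Set (ℤ × ℤ)))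
      (arcQ e q k n) (arcQ (!e) q (l + r).toNat k) (arcQ (!e) q n ((l - r).toNat + n)) := by
  have hR : 1 ≤ R := by omega
  have hrg := flat_rg hw hR
  have h := quad_poly hw.poly hw.enc e (i := (l - r).toNat) (j := (l + r).toNat) (k := k) (l := n)
    (by omega) (by omega) hkn (by omega)
  have e1 : arcQ e q (l - r).toNat (l + r).toNat = fl e (q l) (-r) r := by
    rw [← arc_fl hw hR (by omega) hrR]
    rfl
  rw [e1, ← Set.empty_union (fl e (q l) (-r) r)] at h
  have h2 := quad_hole h (fl_vc hr) (fun x hx => hbox_conn hr hx)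
    (coe_subset.2 ((hbox_mono hrR.le).trans (hbox_sub hw.flat)))
  rw [Set.empty_union] at h2
  rw [coe_sdiff]
  exact h2

/-- **Arm from the right flat side to the arc `k .. n`.** The half box belongs to the fourth arc. -/
theorem quadW1 (hw : Win q D l R) (hk : (l : ℤ) + R ≤ k) (hkn : k ≤ n) (hr : 1 ≤ r) (hrm : r ≤ m)
    (hmR : m < R) (e : Bool) :
    Quad e (↑(D \ hbox (q l) r) : Set (ℤ × ℤ)) (fl e (q l) r m) (arcQ e q k n)
      (arcQ (!e) q (l + m).toNat k)
      (arcQ (!e) q n ((l - r).toNat + n) ∪ Vc (!e) (hbox (q l) r : Set (ℤ × ℤ))) := by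
  have hR : 1 ≤ R := by omega
  have hrg := flat_rg hw hR
  have h := quad_poly hw.poly hw.enc e (i := (l + r).toNat) (j := (l + m).toNat) (k := k) (l := n)
    (by omega) (by omega) hkn (by omega)
  have e1 : arcQ (!e) q (l - r).toNat (l + r).toNat = fl (!e) (q l) (-r) r := by
    rw [← arc_fl hw hR (by omega) (by omega)]
    rfl
  rw [arc_fl hw hR (by omega) hmR, ← arcQ_union (!e) q (i := n) (j := (l - r).toNat + n)
    (k := (l + r).toNat + n) (by omega) (by omega), arcQ_per (!e) q (l - r).toNat, e1] at h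
  have h2 := (quad_hole h.other.swap13 (fl_vc hr) (fun x hx => hbox_conn hr hx)
    (coe_subset.2 ((hbox_mono (by omega)).trans (hbox_sub hw.flat)))).swap13.other
  rw [Bool.not_not] at h2
  rw [coe_sdiff]
  exact h2

/-- **Arm from the left flat side to the arc `k .. n`.** The half box belongs to the fourth arc. -/
theorem quadW2 (hw : Win q D l R) (hk : (l : ℤ) + R ≤ k) (hkn : k ≤ n) (hr : 1 ≤ r) (hrm : r ≤ m)
    (hmR : m < R) (e : Bool) :
    Quad e (↑(D \ hbox (q l) r) : Set (ℤ × ℤ)) (fl e (q l) (-m) (-r)) (arcQ e q k n)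
      (arcQ (!e) q n ((l - m).toNat + n))
      (arcQ (!e) q (l + r).toNat k ∪ Vc (!e) (hbox (q l) r : Set (ℤ × ℤ))) := by
  have hR : 1 ≤ R := by omega
  have hrg := flat_rg hw hR
  have h := quad_poly hw.poly hw.enc e (i := (l - m).toNat) (j := (l - r).toNat) (k := k) (l := n)
    (by omega) (by omega) hkn (by omega)
  have e1 : arcQ (!e) q (l - r).toNat (l + r).toNat = fl (!e) (q l) (-r) r := by
    rw [← arc_fl hw hR (by omega) (by omega)]
    rfl
  have e2 : arcQ e q (l - m).toNat (l - r).toNat = fl e (q l) (-m) (-r) := by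
    rw [← arc_fl hw hR (by omega) (by omega)]
    rfl
  rw [e2, ← arcQ_union (!e) q (i := (l - r).toNat) (j := (l + r).toNat) (k := k) (by omega)
    (by omega), e1, Set.union_comm] at h
  have h2 := (quad_hole h.other (fl_vc hr) (fun x hx => hbox_conn hr hx)
    (coe_subset.2 ((hbox_mono (by omega)).trans (hbox_sub hw.flat)))).other.swap24
  rw [Bool.not_not] at h2
  rw [coe_sdiff]
  exact h2

theorem poly_diag (hw : Win q D l R) {x y : ℤ} :
    ((x, y) ∈ D → (x + 1, y + 1) ∈ D → (x + 1, y) ∈ D ∨ (x, y + 1) ∈ D) ∧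
      ((x, y + 1) ∈ D → (x + 1, y) ∈ D → (x, y) ∈ D ∨ (x + 1, y + 1) ∈ D) := by
  have hq := hw.poly
  have hD := hw.enc
  have key : ∀ (x : ℤ × ℤ) (r s : Fin 4), dir r ≠ dir s → face x r ∈ D → face x (r - 1) ∉ D →
      face x s ∈ D → face x (s - 1) ∈ D := by
    intro x r s hrs h1 h2 h3
    by_contra h4
    obtain ⟨i, g1, g2⟩ := (hD x r).2 ⟨h1, h2⟩
    obtain ⟨j, g3, g4⟩ := (hD x s).2 ⟨h3, h4⟩
    have : i = j := hq.2.1 (g1.trans g3.symm)
    rw [this, g4] at g2
    exact hrs (add_left_cancel g2).symm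
  have f0 : ∀ m k : ℤ, face (m + 1, k + 1) 0 = (m + 1, k + 1) := by intro m k; simp [face]
  have f1 : ∀ m k : ℤ, face (m + 1, k + 1) 1 = (m, k + 1) := by intro m k; simp [face]
  have f2 : ∀ m k : ℤ, face (m + 1, k + 1) 2 = (m, k) := by intro m k; simp [face]
  have f3 : ∀ m k : ℤ, face (m + 1, k + 1) 3 = (m + 1, k) := by intro m k; simp [face]
  constructor
  · intro h1 h2
    by_contra h
    push Not at h
    have := key (x + 1, y + 1) 0 2 (by simp [dir]) (by rw [f0]; exact h2)
      (by rw [show (0 - 1 : Fin 4) = 3 from rfl, f3]; exact h.1) (by rw [f2]; exact h1)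
    rw [show (2 - 1 : Fin 4) = 1 from rfl, f1] at this
    exact h.2 this
  · intro h1 h2
    by_contra h
    push Not at h
    have := key (x + 1, y + 1) 1 3 (by simp [dir]) (by rw [f1]; exact h1)
      (by rw [show (1 - 1 : Fin 4) = 0 from rfl, f0]; exact h.2) (by rw [f3]; exact h2)
    rw [show (3 - 1 : Fin 4) = 2 from rfl, f2] at this
    exact h.1 this

/-- The squares of the polygon outside of the half box. -/
theorem fan_hole (hw : Win q D l R) (hrR : r < R) (e : Bool) :
    Fan e (↑(D \ hbox (q l) r) : Set (ℤ × ℤ)) := by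
  have hF := hw.flat
  refine fan_of ?_ ?_
  · intro x y h1 h2
    simp only [mem_coe, mem_sdiff, mem_hbox] at h1 h2 ⊢
    have f1 := hF (x, y)
    have f2 := hF (x, y + 1)
    have f3 := hF (x + 1, y)
    have f4 := hF (x + 1, y + 1)
    dsimp only at f1 f2 f3 f4
    by_cases c1 : (q l).1 - R ≤ x ∧ x + 1 < (q l).1 + R ∧ (q l).2 - R ≤ y ∧ y + 1 < (q l).2 + R
    · have f1 := f1 (by omega) (by omega) (by omega) (by omega)
      have f2 := f2 (by omega) (by omega) (by omega) (by omega)
      have f3 := f3 (by omega) (by omega) (by omega) (by omega)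
      have f4 := f4 (by omega) (by omega) (by omega) (by omega)
      rw [f1] at h1
      rw [f4] at h2
      rw [f2, f3]
      omega
    · rcases (poly_diag hw (x := x) (y := y)).1 h1.1 h2.1 with h | h
      · exact Or.inl ⟨h, by omega⟩
      · exact Or.inr ⟨h, by omega⟩
  · intro x y h1 h2
    simp only [mem_coe, mem_sdiff, mem_hbox] at h1 h2 ⊢
    have f1 := hF (x, y)
    have f2 := hF (x, y + 1)
    have f3 := hF (x + 1, y)
    have f4 := hF (x + 1, y + 1)
    dsimp only at f1 f2 f3 f4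
    by_cases c1 : (q l).1 - R ≤ x ∧ x + 1 < (q l).1 + R ∧ (q l).2 - R ≤ y ∧ y + 1 < (q l).2 + R
    · have f1 := f1 (by omega) (by omega) (by omega) (by omega)
      have f2 := f2 (by omega) (by omega) (by omega) (by omega)
      have f3 := f3 (by omega) (by omega) (by omega) (by omega)
      have f4 := f4 (by omega) (by omega) (by omega) (by omega)
      rw [f2] at h1
      rw [f3] at h2
      rw [f1, f4]
      omega
    · rcases (poly_diag hw (x := x) (y := y)).2 h1.1 h2.1 with h | h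
      · exact Or.inl ⟨h, by omega⟩
      · exact Or.inr ⟨h, by omega⟩

end Vale.Agent.P167.N.BT
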