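import Vale.Agent.P167.N.BT.Defs
import Vale.Agent.P167.N.BT.Fill
import Vale.Agent.P167.N.BT.CircT

/-!
# P167, t-bridge, BT3 (5): the functional off the dual arm

`circT_fun`: off the event of a dual arm in the half annulus from `r1` to `R1`, the functional with the
bump `f` of mass `π - 2 θ` at `q m` is a linear combination of the indicators
`fzT D Z ζ T`: `ω = ζ` on `Z` and `Z` is joined to the wired arc `T` by a primal path outside of `Z`, over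
the filled explored pairs `(Z, ζ)`; the coefficients depend only on the pair. `idxT_adm`: the pairs are
admissible.
-/

set_option autoImplicit false

namespace Vale.Agent.P167.N.BT

open Finset Relation Vale.Agent.P167 Vale.Agent.P167.BR
open Vale.Agent.P145.FB (PStep)
open Vale.Agent.P167.QB (LeftIn FL XG GI)
open Vale.Agent.P167.E6 (IsPolygon Encloses)
open Vale.Agent.P167.H640.CZ (chi Cor mem_sites_one jn_congr)
open Vale.Agent.P167.H192.TA (Pw)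
open Vale.Agent.P167.H135 (shC shE)

variable {b : ℤ × ℤ} {r r1 R1 R : ℤ} {ω ω' : Cfg} {D : Finset (ℤ × ℤ)} {A : Finset Ed}
  {s t v w : ℤ × ℤ} {n m k : ℕ} {q : ZMod n → ℤ × ℤ} {θ : ℝ} {f : ℤ × ℤ → ℝ}

open Classical in
/-- The local product over the strands at the closed cluster. -/
noncomputable def GZT (θ : ℝ) (b : ℤ × ℤ) (r r1 R1 : ℤ) (ω : Cfg) : ℝ :=
  ∏ A ∈ (pcs ω (hbox b R1)).filter (GIzD b r r1 R1 ω), if LeftIn b A then kq θ else 0

open Classical in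
/-- **The functional off the dual arm.** -/
theorem xT_zx (S : SeD q D m r1 R1 R ω) (hx : 0 < Real.sin θ) (hc : 0 < Real.cos θ) (hr : 1 ≤ r)
    (hrr : r ≤ r1) (hmk : (m : ℤ) + R ≤ k) (hkn : k ≤ n)
    (hf : ∀ z, f z ≠ 0 → z ∈ sites (hbox (q m) r)) (hs : ∑ᶠ z, f z = Real.pi - 2 * θ) :
    XG θ q D k f ω = FL θ (q m) r R1 0 f ω * GZT θ (q m) r r1 R1 ω *
      (if Jn true (D \ ZxD (q m) r1 R1 ω) ω ↑(sites (ZxD (q m) r1 R1 ω)) (arcS q k n)
        then 1 else 0) := by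
  have h1 := S.h1
  have h2 := S.h2
  have h3 := S.h3
  have hI := iso_noarmD h1 hrr le_rfl S.noarm
  obtain ⟨y, j0, w1, w2, w3, w4, w5, w6, w7⟩ := wallD S
  obtain ⟨w8, w9⟩ := w7 k n hmk le_rfl
  have hT : ReflTransGen (PStep {v | ω v = true ∧ v ∈ hbox (q m) R1 ∧ v ∉ hbox (q m) r})
      (q y) (q (j0 + 1 : ℕ)) := by
    refine ReflTransGen.mono (fun x y h => ⟨h.1, h.2.1, ?_⟩) _ _ w6
    obtain ⟨-, -, a1, a2, a3⟩ := h
    exact ⟨a1, a2, fun h' => a3 (hbox_mono hrr h')⟩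
  rw [factT S.poly S.enc hx hc (S.flat.mono (by omega)) hr (by omega : r ≤ R1) S.mn
      (fun h' => S.off (sites_mono (hbox_mono (by omega)) h')) (by omega) hf hs hI,
    prodT S.poly S.enc (S.flat.mono (by omega) : Flt D (q m) R1) (by omega) S.mn
      (fun h' => S.off (sites_mono (hbox_mono (by omega)) h')) hr (by omega) w1 (by omega) (by
        push_cast; omega) (by push_cast; omega) (by omega) hkn w5 hT, mul_assoc]
  congr 1
  by_cases hJ : Jn true (D \ ZxD (q m) r1 R1 ω) ω ↑(sites (ZxD (q m) r1 R1 ω)) (arcS q k n)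
  · rw [if_pos hJ, if_pos (w8.2 hJ), mul_one, mul_one]
    unfold GinT GZT
    congr 1
    exact filter_congr fun A hA => w9 (w8.2 hJ) r A hA
  · rw [if_neg hJ, if_neg (fun h => hJ (w8.1 h)), mul_zero, mul_zero]

/-! ### locality -/

theorem gizD_imp (h1 : 1 ≤ r1) (hH : ¬ HArmD b r1 R1 ω)
    (h : ∀ v ∈ ZxD b r1 R1 ω, ω v = ω' v) (hA : A ∈ pcs ω (hbox b R1))
    (hG : GIzD b r r1 R1 ω A) : A ∈ pcs ω' (hbox b R1) ∧ GIzD b r r1 R1 ω' A := by
  have h2 := H640.CZ.giz_imp (r := r) h1 (fun h' => hH (harmD_iff.1 h'))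
    (by rw [zxD_im]; exact shC_agree h) (A := A.image (shE ax))
    (by rw [hbox_tr, mem_pcs_ax]; exact hA) (giz_ax.2 hG)
  rw [hbox_tr, mem_pcs_ax] at h2
  exact ⟨h2.1, giz_ax.1 h2.2⟩

theorem GZT_congr (h1 : 1 ≤ r1) (h2 : r1 < R1) (hH : ¬ HArmD b r1 R1 ω)
    (h : ∀ v ∈ ZxD b r1 R1 ω, ω v = ω' v) : GZT θ b r r1 R1 ω = GZT θ b r r1 R1 ω' := by
  classical
  have hH' := noarmD_congr h1 h2 h hH
  have h' : ∀ v ∈ ZxD b r1 R1 ω', ω' v = ω v := by
    rw [← ZxD_congr h]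
    exact fun v hv => (h v hv).symm
  unfold GZT
  refine prod_congr ?_ fun _ _ => rfl
  ext A
  rw [mem_filter, mem_filter]
  exact ⟨fun hA => gizD_imp h1 hH h hA.1 hA.2, fun hA => gizD_imp h1 hH' h' hA.1 hA.2⟩

theorem FLT_congr {σ : ℤ} (h1' : 1 ≤ r1) (h1 : r ≤ r1) (h2 : r1 < R1) (hH : ¬ HArmD b r1 R1 ω)
    (h : ∀ v ∈ ZxD b r1 R1 ω, ω v = ω' v) :
    FL θ b r R1 σ f ω = FL θ b r R1 σ f ω' := by
  classical
  have hH' := noarmD_congr h1' h2 h hH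
  have h' : ∀ v ∈ ZxD b r1 R1 ω', ω' v = ω v := by
    rw [← ZxD_congr h]
    exact fun v hv => (h v hv).symm
  unfold FL
  rw [if_pos (iso_noarmD h1' h1 le_rfl hH), if_pos (iso_noarmD h1' h1 le_rfl hH')]
  refine prod_congr ?_ fun _ _ => rfl
  ext A
  rw [mem_filter, mem_filter]
  exact ⟨fun hA => visD_imp h1' hH h1 h hA.1 hA.2,
    fun hA => visD_imp h1' hH' h1 h' hA.1 hA.2⟩

/-! ### the sum over the filled explored pairs -/

/-- The filled explored set. -/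
noncomputable def ZfD (b : ℤ × ℤ) (r1 R1 : ℤ) (ω : Cfg) : Finset (ℤ × ℤ) :=
  Fill b R1 (ZxD b r1 R1 ω)

theorem zxD_zfD : ZxD b r1 R1 ω ⊆ ZfD b r1 R1 ω := sub_fill ZxD_sub

open Classical in
/-- The indices: the filled explored set and its open squares. -/
noncomputable def IdxT (b : ℤ × ℤ) (r1 R1 : ℤ) : Finset (Finset (ℤ × ℤ) × Finset (ℤ × ℤ)) :=
  ((hbox b R1).powerset ×ˢ (hbox b R1).powerset).filter fun p =>
    p.2 ⊆ p.1 ∧ ZfD b r1 R1 (chi p.2) = p.1 ∧ ¬ HArmD b r1 R1 (chi p.2)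

theorem mem_IdxT {p : Finset (ℤ × ℤ) × Finset (ℤ × ℤ)} : p ∈ IdxT b r1 R1 ↔
    p.1 ⊆ hbox b R1 ∧ p.2 ⊆ p.1 ∧ ZfD b r1 R1 (chi p.2) = p.1 ∧ ¬ HArmD b r1 R1 (chi p.2) := by
  classical
  unfold IdxT
  rw [mem_filter, mem_product, mem_powerset, mem_powerset]
  constructor
  · rintro ⟨⟨h1, h2⟩, h3⟩
    exact ⟨h1, h3⟩
  · rintro ⟨h1, h3⟩
    exact ⟨⟨h1, h3.1.trans h1⟩, h3⟩

/-- **The pairs are admissible.** -/
theorem idxT_adm (h1 : 1 ≤ r1) (h2 : r1 < R1) {p : Finset (ℤ × ℤ) × Finset (ℤ × ℤ)}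
    (hp : p ∈ IdxT b r1 R1) : AdmT b r1 R1 p.1 (chi p.2) := by
  obtain ⟨-, -, hp1, hp2⟩ := mem_IdxT.1 hp
  rw [← hp1]
  have hsub := zxD_zfD (b := b) (r1 := r1) (R1 := R1) (ω := chi p.2)
  refine ⟨(ZxD_low h2.le).trans hsub, fill_sub, ?_, ?_⟩
  · rintro v hv w hw hw2 ⟨s, hs, hs', ho⟩
    rw [mem_sites_one] at hs hs'
    exact ZxD_sld h1 hp2 (fill_adj hv hw hw2 hs hs') (fun h => hw (hsub h)) hw2 hs hs' ho
  · rintro s hs t ht hse hte ⟨w, hw, hw2, hsw⟩ ⟨w', hw', hw2', htw⟩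
    rw [mem_sites_one] at hsw htw
    obtain ⟨v, hv, hc⟩ := mem_sites.1 hs
    obtain ⟨v', hv', hc'⟩ := mem_sites.1 ht
    have h5 := rim_conn h1 h2 hp2 (mem_sites.2 ⟨v, fill_adj hv hw hw2 hc hsw, hc⟩) hse
      (ot_of hw hw2) hsw (mem_sites.2 ⟨v', fill_adj hv' hw' hw2' hc' htw, hc'⟩) hte
      (ot_of hw' hw2') htw
    refine ReflTransGen.mono (fun x y h => ⟨h.1, h.2.1, h.2.2.1, ?_⟩) _ _ h5
    exact hsub h.2.2.2.1

open Classical in
/-- The filled explored pair of a configuration. -/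
noncomputable def prT (b : ℤ × ℤ) (r1 R1 : ℤ) (ω : Cfg) : Finset (ℤ × ℤ) × Finset (ℤ × ℤ) :=
  (ZfD b r1 R1 ω, (ZfD b r1 R1 ω).filter fun v => ω v = true)

theorem chi_prT' {v : ℤ × ℤ} (hv : v ∈ ZfD b r1 R1 ω) : ω v = chi (prT b r1 R1 ω).2 v := by
  classical
  unfold chi prT
  by_cases h5 : ω v = true
  · rw [h5, decide_eq_true (mem_filter.2 ⟨hv, h5⟩)]
  · simp only
    rw [show decide (v ∈ (ZfD b r1 R1 ω).filter fun v => ω v = true) = false from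
      decide_eq_false (fun h6 => h5 (mem_filter.1 h6).2)]
    simpa using h5

theorem chi_prT {v : ℤ × ℤ} (hv : v ∈ ZxD b r1 R1 ω) : ω v = chi (prT b r1 R1 ω).2 v :=
  chi_prT' (zxD_zfD hv)

theorem ZfD_congr (h : ∀ v ∈ ZxD b r1 R1 ω, ω v = ω' v) : ZfD b r1 R1 ω = ZfD b r1 R1 ω' := by
  unfold ZfD
  rw [ZxD_congr h]

theorem prT_mem (h1 : 1 ≤ r1) (h2 : r1 < R1) (hH : ¬ HArmD b r1 R1 ω) :
    prT b r1 R1 ω ∈ IdxT b r1 R1 := by
  classical
  rw [mem_IdxT]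
  exact ⟨fill_sub, filter_subset _ _, (ZfD_congr fun v hv => chi_prT hv).symm,
    noarmD_congr h1 h2 (fun v hv => chi_prT hv) hH⟩

/-- The event of a pair determines the pair and excludes the dual arm. -/
theorem prT_eq (h1 : 1 ≤ r1) (h2 : r1 < R1) {p : Finset (ℤ × ℤ) × Finset (ℤ × ℤ)}
    (hp : p ∈ IdxT b r1 R1) (h : ∀ v ∈ p.1, ω v = chi p.2 v) :
    p = prT b r1 R1 ω ∧ ¬ HArmD b r1 R1 ω := by
  classical
  obtain ⟨-, p1, p2, p3⟩ := mem_IdxT.1 hp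
  have h' : ∀ v ∈ ZxD b r1 R1 (chi p.2), chi p.2 v = ω v := fun v hv => by
    refine (h v ?_).symm
    rw [← p2]
    exact zxD_zfD hv
  have e1 : ZfD b r1 R1 ω = p.1 := by
    rw [← ZfD_congr h', p2]
  refine ⟨Prod.ext e1.symm ?_, noarmD_congr h1 h2 h' p3⟩
  ext v
  unfold prT
  simp only
  rw [mem_filter, e1]
  constructor
  · intro hv
    refine ⟨p1 hv, ?_⟩
    rw [h v (p1 hv)]
    exact decide_eq_true hv
  · rintro ⟨hv, h6⟩
    rw [h v hv] at h6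
    exact of_decide_eq_true h6

open Classical in
/-- **A sum over the filled explored pairs** has at most one term. -/
theorem sumT_pairs (h1 : 1 ≤ r1) (h2 : r1 < R1) (c : Finset (ℤ × ℤ) × Finset (ℤ × ℤ) → ℝ)
    (T : Set (ℤ × ℤ)) (ω : Cfg) :
    ∑ p ∈ IdxT b r1 R1, c p * fzT D p.1 (chi p.2) T ω =
      if HArmD b r1 R1 ω then 0 else c (prT b r1 R1 ω) *
        (if Jn true (D \ ZfD b r1 R1 ω) ω ↑(sites (ZfD b r1 R1 ω)) T then 1 else 0) := by
  by_cases hH : HArmD b r1 R1 ω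
  · rw [if_pos hH, sum_eq_zero]
    intro p hp
    unfold fzT
    rw [if_neg, mul_zero]
    rintro ⟨h5, -⟩
    exact (prT_eq h1 h2 hp h5).2 hH
  · rw [if_neg hH, sum_eq_single_of_mem _ (prT_mem h1 h2 hH)]
    · unfold fzT
      congr 1
      refine if_congr ?_ rfl rfl
      exact ⟨fun h5 => h5.2, fun h5 => ⟨fun v hv => chi_prT' hv, h5⟩⟩
    · intro p hp hne
      unfold fzT
      rw [if_neg, mul_zero]
      rintro ⟨h5, -⟩
      exact hne (prT_eq h1 h2 hp h5).1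

/-- The coefficients. -/
noncomputable def cofT (θ : ℝ) (b : ℤ × ℤ) (r r1 R1 : ℤ) (f : ℤ × ℤ → ℝ)
    (p : Finset (ℤ × ℤ) × Finset (ℤ × ℤ)) : ℝ :=
  FL θ b r R1 0 f (chi p.2) * GZT θ b r r1 R1 (chi p.2)

/-- The polygon in the window is on the line. -/
theorem on_lineT (hq : IsPolygon q) (hD : Encloses q D) (hF : Flt D b R) (i : ZMod n)
    (h' : b.1 - R < (q i).1 ∧ (q i).1 < b.1 + R ∧ b.2 - R < (q i).2 ∧ (q i).2 < b.2 + R) :
    (q i).2 = b.2 := by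
  have hs := be_sides hq i
  have hbd := be_bd hq hD i
  generalize be q i = e at hs hbd
  have c1 := corner_hd e
  have c2 := corner_tl e
  have key : ∀ v w : ℤ × ℤ, v ∈ D → w ∉ D → ((q i).1 = v.1 ∨ (q i).1 = v.1 + 1) →
      ((q i).2 = v.2 ∨ (q i).2 = v.2 + 1) → ((q i).1 = w.1 ∨ (q i).1 = w.1 + 1) →
      ((q i).2 = w.2 ∨ (q i).2 = w.2 + 1) → (q i).2 = b.2 := by
    intro v w hv hw v1 v2 w1 w2
    have g1 := (hF v (by omega) (by omega) (by omega) (by omega)).1 hv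
    have g2 : ¬ b.2 ≤ w.2 := fun g =>
      hw ((hF w (by omega) (by omega) (by omega) (by omega)).2 g)
    omega
  rcases hs with ⟨s1, -⟩ | ⟨s1, -⟩ <;> rw [s1] at c1 c2 <;> rcases hbd with ⟨d1, d2⟩ | ⟨d1, d2⟩
  · exact key _ _ d1 d2 c1.1 c1.2.1 c2.1 c2.2.1
  · exact key _ _ d1 d2 c2.1 c2.2.1 c1.1 c1.2.1
  · exact key _ _ d1 d2 c1.2.2.1 c1.2.2.2 c2.2.2.1 c2.2.2.2
  · exact key _ _ d1 d2 c2.2.2.1 c2.2.2.2 c1.2.2.1 c1.2.2.2

/-- The sites of the arc are away from the half box. -/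
theorem arc_far (hq : IsPolygon q) (hD : Encloses q D) (hF : Flt D (q m) R) (hm : m < n)
    (h0 : q 0 ∉ sites (hbox (q m) R)) (hR : R1 < R) (hR1 : 1 ≤ R1) (hmk : (m : ℤ) + R ≤ k)
    {t : ℤ × ℤ} (ht : t ∈ arcS q k n) : t ∉ sites (hbox (q m) R1) := by
  obtain ⟨j, hj1, hj2, rfl⟩ := ht
  rw [mem_sites_hbox hR1]
  intro hcon
  obtain ⟨r1, r2⟩ := flat_range hq hD hF (by omega) hm h0
  have h4 := on_lineT hq hD hF (j : ZMod n) (by omega)
  -- the index of the site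
  obtain ⟨a, ha1, ha2, ha3⟩ : ∃ a : ℕ, 0 < a ∧ (a : ℤ) < m + R ∧ q a = q j := by
    rcases le_total (q m).1 (q j).1 with h5 | h5
    · obtain ⟨x, hx⟩ : ∃ x : ℕ, (x : ℤ) = (q j).1 - (q m).1 :=
        ⟨((q j).1 - (q m).1).toNat, by omega⟩
      have h6 := (walk hq hD (i := (m : ZMod n)) hF x (by omega)).1
      refine ⟨m + x, by omega, by push_cast; omega, ?_⟩
      rw [Nat.cast_add, h6]
      ext
      · simp only [Prod.fst_add]; omega
      · simp only [Prod.snd_add]; omega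
    · obtain ⟨x, hx⟩ : ∃ x : ℕ, (x : ℤ) = (q m).1 - (q j).1 :=
        ⟨((q m).1 - (q j).1).toNat, by omega⟩
      have h6 := (walk hq hD (i := (m : ZMod n)) hF x (by omega)).2
      refine ⟨m - x, by omega, by omega, ?_⟩
      rw [Nat.cast_sub (by omega), h6]
      ext
      · simp only [Prod.fst_sub]; omega
      · simp only [Prod.snd_sub]; omega
  have h7 := hq.2.1 ha3
  rw [ZMod.natCast_eq_natCast_iff] at h7
  have h8 := (Nat.modEq_iff_dvd' (by omega)).1 h7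
  have h9 := Nat.le_of_dvd (by omega) h8
  omega

section

variable (hx : 0 < Real.sin θ) (hc : 0 < Real.cos θ) (hq : IsPolygon q) (hD : Encloses q D)
  (hF : Flt D (q m) R) (hm : m < n) (h0 : q 0 ∉ sites (hbox (q m) R)) (h1 : 1 ≤ r)
  (h2 : r ≤ r1) (h3 : r1 < R1) (h4 : R1 + 2 ≤ R) (hmk : (m : ℤ) + R ≤ k) (hkn : k ≤ n)
  (hf : ∀ z, f z ≠ 0 → z ∈ sites (hbox (q m) r)) (hs : ∑ᶠ z, f z = Real.pi - 2 * θ)
include hx hc hq hD hF hm h0 h1 h2 h3 h4 hmk hkn hf hs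

open Classical in
/-- The functional off the dual arm, in terms of the coefficient of the explored pair. -/
theorem xT_cof (hH : ¬ HArmD (q m) r1 R1 ω) :
    XG θ q D k f ω = cofT θ (q m) r r1 R1 f (prT (q m) r1 R1 ω) *
      (if Jn true (D \ ZfD (q m) r1 R1 ω) ω ↑(sites (ZfD (q m) r1 R1 ω)) (arcS q k n)
        then 1 else 0) := by
  have S : SeD q D m r1 R1 R ω := ⟨hq, hD, hF, hm, h0, by omega, h3, h4, hH⟩
  rw [xT_zx S hx hc h1 h2 hmk hkn hf hs]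
  unfold cofT
  rw [← FLT_congr (by omega) h2 h3 hH (fun v hv => chi_prT hv),
    ← GZT_congr (by omega) h3 hH (fun v hv => chi_prT hv)]
  congr 1
  refine if_congr ?_ rfl rfl
  exact jn_fill hF h4 ZxD_sub fun t ht =>
    arc_far hq hD hF hm h0 (by omega) (by omega) hmk ht

variable (ω)

open Classical in
/-- **The functional as a sum over the explored pairs**, also composed with a function `g`, `g 0 = 0`. -/
theorem circT_fun (g : ℝ → ℝ) (hg : g 0 = 0) :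
    (if HArmD (q m) r1 R1 ω then 0 else g (XG θ q D k f ω)) =
      ∑ p ∈ IdxT (q m) r1 R1, g (cofT θ (q m) r r1 R1 f p) *
        fzT D p.1 (chi p.2) (arcS q k n) ω := by
  rw [sumT_pairs (by omega) h3 (fun p => g (cofT θ (q m) r r1 R1 f p))]
  by_cases hH : HArmD (q m) r1 R1 ω
  · rw [if_pos hH, if_pos hH]
  · rw [if_neg hH, if_neg hH, xT_cof hx hc hq hD hF hm h0 h1 h2 h3 h4 hmk hkn hf hs hH]
    by_cases hJ : Jn true (D \ ZfD (q m) r1 R1 ω) ω ↑(sites (ZfD (q m) r1 R1 ω)) (arcS q k n)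
    · rw [if_pos hJ, mul_one, mul_one]
    · rw [if_neg hJ, mul_zero, mul_zero, hg]

end

end Vale.Agent.P167.N.BT
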