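import Vale.Agent.P167.N.BT.TDefs
import Vale.Agent.P167.H375.EndH
import Vale.Agent.P167.QT.Top

/-!
# P167, `0 < q < 1`, block BT: from `GeoT'` and `RatT'` to the closeness of the one-arm observable

As `H375.closeM_of` with signed combinations of frozen pairs (`QT.closeM_of`).
-/

set_option autoImplicit false

namespace Vale.Agent.P167.N.BT

open MeasureTheory Filter Topology Set
open Vale.Agent.P167 Vale.Agent.P167.BR
open Vale.Agent.P167.H825 (enl)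
open Vale.Agent.P167.H718 (etaW)
open Vale.Agent.P167.H192.TA (Pw)
open Vale.Agent.P167.H375 (Sh domT extT arcw FF4 hT cf obsH rotT cos_posT hH expn_hH curveLimitOn_obsHM)
open Vale.Agent.P167.QT (shS shC mem_shS mem_sites_shS jn_sh rtg_sh shS_sdiff Ex_sh sm ng abs_sm_le sm_sand y_est
  exW_sm I_closeMOn)
open Vale.Agent.P167.H411 (Set6 exn)
open Vale.Agent.P167.QE (ExW cexW BefIx cyl_fin)
open Vale.Agent.P153.M1 (Expl)

variable {μ : ℝ}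

/-! ### Translation by an even vector -/

theorem pw_sh {p : ℤ × ℤ} {Z : Finset (ℤ × ℤ)} {ω : Cfg} {s t : ℤ × ℤ} (c : Bool)
    (h : Pw (H632.cs c ω ∩ ↑Z) (s - p) (t - p)) : Pw (H632.cs c (shC p ω) ∩ ↑(shS p Z)) s t := by
  have hF : ∀ w, w + p ∈ (H632.cs c (shC p ω) ∩ (↑(shS p Z) : Set (ℤ × ℤ))) ↔
      w ∈ (H632.cs c ω ∩ (↑Z : Set (ℤ × ℤ))) := by
    intro w
    simp only [Set.mem_inter_iff, Finset.mem_coe, mem_shS, add_sub_cancel_right, H632.cs, shC,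
      Set.mem_ofPred_eq]
  have h1 := (rtg_sh hF).2 h
  rwa [sub_add_cancel, sub_add_cancel] at h1

theorem sites_single {p s u : ℤ × ℤ} (h : s ∈ sites {u}) : s - p ∈ sites {u - p} := by
  rw [mem_sites] at h ⊢
  obtain ⟨w, hw, k1, k2⟩ := h
  rw [Finset.mem_singleton] at hw
  subst hw
  refine ⟨_, Finset.mem_singleton_self _, ?_, ?_⟩ <;>
    simp only [Prod.fst_sub, Prod.snd_sub] <;> omega

theorem admT_sh {p : ℤ × ℤ} (hp : Even (p.1 + p.2)) {r R : ℤ} {Z : Finset (ℤ × ℤ)} {ζ : Cfg}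
    (h : AdmT (0, 0) r R Z ζ) : AdmT p r R (shS p Z) (shC p ζ) := by
  have hev : ∀ s : ℤ × ℤ, Even ((s - p).1 + (s - p).2) ↔ Even (s.1 + s.2) := by
    intro s
    rw [Int.even_iff] at hp
    rw [Int.even_iff, Int.even_iff]
    simp only [Prod.fst_sub, Prod.snd_sub]
    omega
  refine ⟨fun v hv => ?_, fun v hv => ?_, fun v hv w hw hw2 hs => ?_, fun s hs t ht he he' hw hw' => ?_⟩
  · rw [mem_shS]
    apply h.low
    simp only [hbox, Finset.mem_product, Finset.mem_Icc, Prod.fst_sub, Prod.snd_sub] at hv ⊢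
    omega
  · have := h.sub (mem_shS.1 hv)
    simp only [hbox, Finset.mem_product, Finset.mem_Icc, Prod.fst_sub, Prod.snd_sub] at this ⊢
    omega
  · obtain ⟨s, h1, h2, h3⟩ := hs
    refine h.sld (v - p) (mem_shS.1 hv) (w - p) (fun hc => hw (mem_shS.2 hc)) ?_
      ⟨s - p, sites_single h1, sites_single h2, ?_⟩
    · simp only [Prod.snd_sub]; omega
    · rwa [hev]
  · have hc : ∀ x : ℤ × ℤ, (∃ w : ℤ × ℤ, w ∉ shS p Z ∧ p.2 ≤ w.2 ∧ x ∈ sites {w}) →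
        ∃ w : ℤ × ℤ, w ∉ Z ∧ ((0, 0) : ℤ × ℤ).2 ≤ w.2 ∧ x - p ∈ sites {w} := by
      rintro x ⟨w, h1, h2, h3⟩
      refine ⟨w - p, fun hc => h1 (mem_shS.2 hc), ?_, sites_single h3⟩
      simp only [Prod.snd_sub]; omega
    exact pw_sh true (h.conn (s - p) (mem_sites_shS.1 hs) (t - p) (mem_sites_shS.1 ht)
      ((hev s).2 he) ((hev t).2 he') (hc s hw) (hc t hw'))

theorem fzT_sh {p : ℤ × ℤ} (hp : Even (p.1 + p.2)) (D Z : Finset (ℤ × ℤ)) (ζ ω : Cfg)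
    (W W' : Set (ℤ × ℤ)) (hW : ∀ w, w + p ∈ W' ↔ w ∈ W) :
    fzT (shS p D) (shS p Z) (shC p ζ) W' (shC p ω) = fzT D Z ζ W ω := by
  unfold fzT
  have h1 : (∀ v ∈ shS p Z, shC p ω v = shC p ζ v) ↔ ∀ v ∈ Z, ω v = ζ v := by
    constructor
    · intro h v hv
      have := h (v + p) (mem_shS.2 (by rwa [add_sub_cancel_right]))
      simpa only [shC, add_sub_cancel_right] using this
    · intro h v hv
      exact h _ (mem_shS.1 hv)
  have h2 := jn_sh hp true (D \ Z) ω (sites Z) W (sites (shS p Z)) W'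
    (fun w => by
      rw [Finset.mem_coe, Finset.mem_coe, mem_sites_shS, add_sub_cancel_right]) hW
  rw [shS_sdiff]
  by_cases h3 : (∀ v ∈ Z, ω v = ζ v) ∧ Jn true (D \ Z) ω (sites Z) W
  · rw [if_pos h3, if_pos ⟨h1.2 h3.1, h2.2 h3.2⟩]
  · rw [if_neg h3, if_neg fun hc => h3 ⟨h1.1 hc.1, h2.1 hc.2⟩]

/-- **The probabilities `PTz` do not depend on the (even) site of `d`.** -/
theorem ptz_sh (hQ : 0 < 2 * Real.cos μ) {p : ℤ × ℤ} (hp : Even (p.1 + p.2)) (N : ℕ) (P : Sh)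
    (Z : Finset (ℤ × ℤ)) (ζ : Cfg) : PTz μ N p P (shS p Z) (shC p ζ) = PTz μ N (0, 0) P Z ζ := by
  have e0 : domT N (0, 0) P = enl P.S N := by
    unfold domT
    ext v
    simp only [Finset.mem_image]
    constructor
    · rintro ⟨w, hw, rfl⟩
      have : w + ((0, 0) : ℤ × ℤ) = w := by apply Prod.ext <;> simp
      rwa [this]
    · exact fun hv => ⟨v, hv, by apply Prod.ext <;> simp⟩
  have e1 : domT N p P = shS p (domT N (0, 0) P) := by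
    rw [e0]; rfl
  have e2 : extT N p P = shC p (extT N (0, 0) P) := by
    funext v
    show etaW _ _ _ (v - p) = etaW _ _ _ (v - p - (0, 0))
    congr 1
    apply Prod.ext <;> simp
  have e3 : extT N (0, 0) P = etaW (enl P.S N) (Enl.qN (rotT P) N (N / 2)) ((P.m - P.k) * N) := by
    funext v
    show etaW _ _ _ (v - (0, 0)) = _
    congr 1
    apply Prod.ext <;> simp
  unfold PTz
  rw [e1, e2, Ex_sh hp hQ _ (by rw [e3]; exact H718.good_etaW)]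
  congr 1
  funext ω
  refine fzT_sh hp _ _ _ _ _ _ fun w => ?_
  constructor
  · rintro ⟨i, h1, h2, h3⟩
    refine ⟨i, h1, h2, ?_⟩
    have := add_right_cancel h3
    rw [this]
    apply Prod.ext <;> simp
  · rintro ⟨i, h1, h2, h3⟩
    refine ⟨i, h1, h2, ?_⟩
    rw [← h3]
    congr 1
    apply Prod.ext <;> simp

theorem fzT_nonneg (D Z : Finset (ℤ × ℤ)) (ζ : Cfg) (W : Set (ℤ × ℤ)) (ω : Cfg) :
    0 ≤ fzT D Z ζ W ω := by
  unfold fzT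
  split_ifs <;> norm_num

theorem ptz_nonneg (hQ : 0 < 2 * Real.cos μ) (N : ℕ) (v₀ : ℤ × ℤ) (P : Sh) (Z : Finset (ℤ × ℤ)) (ζ : Cfg) :
    0 ≤ PTz μ N v₀ P Z ζ :=
  FKA.Ex_nonneg hQ fun _ _ => fzT_nonneg _ _ _ _ _

/-! ### The estimate -/

theorem fin_T {M ε t s s' s₀ m m' o Y : ℝ} (hM : 0 ≤ M) (hε : 0 < ε) (hε1 : ε ≤ 1)
    (ht : 0 < t) (ht1 : t ≤ 1 / 10) (ht2 : t * (36 * M + 40) ≤ ε)
    (hs : 0 < s) (hs' : 0 < s') (hs₀ : 0 < s₀) (r1 : |s / s₀ - m| ≤ t) (r2 : |s' / s₀ - m'| ≤ t)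
    (o1 : |m - o| ≤ ε) (o2 : |m' - o| ≤ ε)
    (hY1 : (1 - t) * s - (1 + t) * t * s' ≤ Y) (hY2 : Y ≤ (1 + t) * (1 + t) * s')
    (hYM : |Y| ≤ 3 * M * s₀) : |Y / s₀ - o| ≤ 2 * ε := by
  obtain ⟨v, hv⟩ : ∃ v, v = s / s₀ := ⟨_, rfl⟩
  obtain ⟨v', hv'⟩ : ∃ v', v' = s' / s₀ := ⟨_, rfl⟩
  obtain ⟨y, hy⟩ : ∃ y, y = Y / s₀ := ⟨_, rfl⟩
  have eV : s = v * s₀ := by rw [hv]; field_simp
  have eV' : s' = v' * s₀ := by rw [hv']; field_simp
  have eY : Y = y * s₀ := by rw [hy]; field_simp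
  have hv0 : 0 < v := by rw [hv]; exact div_pos hs hs₀
  have hv'0 : 0 < v' := by rw [hv']; exact div_pos hs' hs₀
  rw [← hv] at r1
  rw [← hv'] at r2
  rw [← hy]
  rw [eY, eV, eV'] at hY1
  rw [eY, eV'] at hY2
  rw [eY] at hYM
  have c1 : (1 - 3 * t) * v - 2 * t * v' ≤ y := by
    have b1 : ((1 - t) * v - (1 + t) * t * v') * s₀ ≤ y * s₀ := by linarith
    have b2 := le_of_mul_le_mul_right b1 hs₀
    have b3 : (1 + t) * t ≤ 2 * t := by nlinarith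
    have b4 : (1 + t) * t * v' ≤ 2 * t * v' := mul_le_mul_of_nonneg_right b3 hv'0.le
    have b5 : (1 - 3 * t) * v ≤ (1 - t) * v := mul_le_mul_of_nonneg_right (by linarith) hv0.le
    linarith
  have c2 : y ≤ (1 + 6 * t) * v' := by
    have b1 : y * s₀ ≤ ((1 + t) * (1 + t) * v') * s₀ := by linarith
    have b2 := le_of_mul_le_mul_right b1 hs₀
    have b3 : (1 + t) * (1 + t) ≤ 1 + 6 * t := by nlinarith
    have b4 : (1 + t) * (1 + t) * v' ≤ (1 + 6 * t) * v' := mul_le_mul_of_nonneg_right b3 hv'0.le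
    linarith
  have c3 : y ≤ 3 * M := by
    have b1 : y * s₀ ≤ 3 * M * s₀ := (le_abs_self _).trans hYM
    exact le_of_mul_le_mul_right b1 hs₀
  exact y_est hM hε hε1 ht ht1 ht2 hv0 hv'0 r1 r2 o1 o2 c1 c2 c3

/-- The statement at one size. -/
theorem one_nT (hQ : 0 < 2 * Real.cos μ) {ok : Sh → Prop} {Shs : Set Sh}
    (hok : ∀ P ∈ Shs, ok P ∧ ∃ u v, P.Pos u v) {P₀ : Sh} (hP₀ : P₀ ∈ Shs)
    {t r₀ r₁ : ℝ} {N' : ℕ} {ι : Type} [Fintype ι] {c : ι → ℝ} {Z : ι → Finset (ℤ × ℤ)} {ζ : ι → Cfg}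
    (hadm : ∀ i, AdmT (0, 0) ⌊r₀ * N'⌋ ⌊r₁ * N'⌋ (Z i) (ζ i))
    (hall : ∀ P ∈ Shs, 0 < ∑ i, c i * PTz μ N' (0, 0) P (Z i) (ζ i) ∧
      ∑ i, (max (-c i) 0) * PTz μ N' (0, 0) P (Z i) (ζ i) ≤
        t * ∑ i, c i * PTz μ N' (0, 0) P (Z i) (ζ i))
    (hrat : ∀ P ∈ Shs, ∀ P₀ ∈ Shs, ∀ u v u₀ w₀ : ℝ, P.Pos u v → P₀.Pos u₀ w₀ →
      |(∑ i, c i * PTz μ N' (0, 0) P (Z i) (ζ i)) / (∑ i, c i * PTz μ N' (0, 0) P₀ (Z i) (ζ i)) -
        ((v * (1 - u)) / (w₀ * (1 - u₀))) ^ hT μ| ≤ t)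
    {n : ℕ} {X : Expl (Finset (Sym2 (ℤ × ℤ))) E6.Medial} {w : Finset (Sym2 (ℤ × ℤ)) → ℝ}
    {p : ZMod n → ℤ × ℤ} {k : ℕ} {T R b M ε : ℝ} (hX : X.C.Finite)
    (hw : ∀ a ∈ X.C, 0 < w a) (hM : 0 ≤ M) (hε : 0 < ε) (hε1 : ε ≤ 1) (ht : 0 < t)
    (ht1 : t ≤ 1 / 10) (ht2 : t * (36 * M + 40) ≤ ε)
    (hG : GeoTAt' μ X w p k T R b M ε t r₀ r₁ Shs P₀ N') :
    ∃ φ : Finset (Sym2 (ℤ × ℤ)) → ℝ, ∀ κ : Finset (Sym2 (ℤ × ℤ)) → ℕ, BefIx X T R κ →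
      (∀ h ∈ X.C, |cexW X w φ h (κ h)| ≤ 3 * M) ∧
      ExW X.C w ({h | 2 * ε < |cexW X w φ h (κ h) -
        obsH (hT μ) (X.W h) b (X.c h (κ h))|}.indicator 1) ≤ t := by
  classical
  obtain ⟨v₀, Dc, W, hv₀, hG⟩ := hG
  obtain ⟨u₀, w₀, hp₀⟩ := (hok P₀ hP₀).2
  set a : Sh → ι → ℝ := fun P i => PTz μ N' (0, 0) P (Z i) (ζ i) with ha
  have ha0 : ∀ P i, 0 ≤ a P i := fun P i => ptz_nonneg hQ _ _ _ _ _
  obtain ⟨hs₀, n₀⟩ := hall P₀ hP₀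
  have hs₀ : 0 < sm c (a P₀) := hs₀
  have n₀ : ng c (a P₀) ≤ t * sm c (a P₀) := n₀
  set f : ι → Finset (Sym2 (ℤ × ℤ)) → ℝ := fun i A' =>
    fzT Dc (shS v₀ (Z i)) (shC v₀ (ζ i)) W (cf p k A') with hf
  refine ⟨fun A' => sm c (fun i => f i A') / sm c (a P₀), fun κ hκ => ?_⟩
  obtain ⟨g1, g2⟩ := hG κ hκ
  have hadm' : ∀ i, AdmT v₀ ⌊r₀ * N'⌋ ⌊r₁ * N'⌋ (shS v₀ (Z i)) (shC v₀ (ζ i)) :=
    fun i => admT_sh hv₀ (hadm i)
  have hpz : ∀ P i, PTz μ N' v₀ P (shS v₀ (Z i)) (shC v₀ (ζ i)) = a P i :=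
    fun P i => ptz_sh hQ hv₀ N' P (Z i) (ζ i)
  have hlin : ∀ h, cexW X w (fun A' => sm c (fun i => f i A') / sm c (a P₀)) h (κ h) =
      sm c (fun i => cexW X w (f i) h (κ h)) / sm c (a P₀) :=
    fun h => exW_sm (cyl_fin hX h (κ h)) w c f _
  have hX0 : ∀ h i, 0 ≤ cexW X w (f i) h (κ h) := fun h i =>
    QE.cexW_nonneg hw (fun _ _ => fzT_nonneg _ _ _ _ _) h (κ h)
  have hYM : ∀ h ∈ X.C, |sm c (fun i => cexW X w (f i) h (κ h))| ≤ 3 * M * sm c (a P₀) := by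
    intro h hh
    have k1 : ∀ i, cexW X w (f i) h (κ h) ≤ M * a P₀ i := fun i => by
      have := g1 h hh _ _ (hadm' i)
      rwa [hpz] at this
    rcases abs_sm_le (hX0 h) k1 n₀ with k2 | k2
    · refine k2.trans ?_
      have : M * ((1 + 2 * t) * sm c (a P₀)) ≤ M * (3 * sm c (a P₀)) :=
        mul_le_mul_of_nonneg_left (mul_le_mul_of_nonneg_right (by linarith) hs₀.le) hM
      linarith
    · exact absurd k2 (not_lt.2 hM)
  refine ⟨fun h hh => ?_, ?_⟩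
  · rw [hlin, abs_div, abs_of_pos hs₀, div_le_iff₀ hs₀]
    exact hYM h hh
  · refine le_trans (QE.exW_mono hX hw fun h hh => ?_) g2
    by_cases hb : h ∈ {A | ¬ ∃ P ∈ Shs, ∃ P' ∈ Shs,
        (∀ (Z : Finset (ℤ × ℤ)) (ζ : Cfg), AdmT v₀ ⌊r₀ * N'⌋ ⌊r₁ * N'⌋ Z ζ →
          (1 - t) * PTz μ N' v₀ P Z ζ ≤ QE.cexW X w (fun A' => fzT Dc Z ζ W (cf p k A')) A (κ A) ∧
          QE.cexW X w (fun A' => fzT Dc Z ζ W (cf p k A')) A (κ A) ≤
            (1 + t) * PTz μ N' v₀ P' Z ζ) ∧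
        ∀ Q : Sh, (Q = P ∨ Q = P') → ∀ u v u₀ w₀ : ℝ, Q.Pos u v → P₀.Pos u₀ w₀ →
          |((v * (1 - u)) / (w₀ * (1 - u₀))) ^ hT μ - obsH (hT μ) (X.W A) b (X.c A (κ A))| ≤
            ε}
    · rw [Set.indicator_of_mem hb]
      exact Set.indicator_le_self' (fun _ _ => zero_le_one) h
    · rw [Set.indicator_of_notMem hb, Set.indicator_of_notMem]
      simp only [Set.mem_ofPred_eq, not_not] at hb
      obtain ⟨P, hP, P', hP', hs, hcl⟩ := hb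
      simp only [Set.mem_ofPred_eq, not_lt]
      obtain ⟨u, v, hp⟩ := (hok P hP).2
      obtain ⟨u', v', hp'⟩ := (hok P' hP').2
      obtain ⟨s1, -⟩ := hall P hP
      obtain ⟨s2, n2⟩ := hall P' hP'
      have s1 : 0 < sm c (a P) := s1
      have s2 : 0 < sm c (a P') := s2
      have n2 : ng c (a P') ≤ t * sm c (a P') := n2
      have r1 := hrat P hP P₀ hP₀ u v u₀ w₀ hp hp₀
      have r2 := hrat P' hP' P₀ hP₀ u' v' u₀ w₀ hp' hp₀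
      have o1 := hcl P (Or.inl rfl) u v u₀ w₀ hp hp₀
      have o2 := hcl P' (Or.inr rfl) u' v' u₀ w₀ hp' hp₀
      obtain ⟨y1, y2⟩ := sm_sand (c := c) (X := fun i => cexW X w (f i) h (κ h)) (a := a P)
        (a' := a P') ht.le (by linarith) (ha0 P) (hX0 h)
        (fun i => by have := (hs _ _ (hadm' i)).1; rwa [hpz] at this)
        (fun i => by have := (hs _ _ (hadm' i)).2; rwa [hpz] at this) n2
      rw [hlin]
      exact fin_T hM hε hε1 ht ht1 ht2 s1 s2 hs₀ r1 r2 o1 o2 y1 y2 (hYM h hh)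

/-- **[TOP]** The geometric input and the bridge give the closeness of the observable. -/
theorem closeM_T (hQ0 : 0 < 2 * Real.cos μ) {ok : Sh → Prop} {K : QE.Cls} (hG : GeoT' μ ok K)
    (hR' : RatT' μ ok) : I_closeMOn K (QE.wq ((2 * Real.cos μ) ^ 2)) (obsH (hT μ)) := by
  classical
  intro Φ ψ δ N k p S ψn hS hK T R hT' hR
  obtain ⟨b₁, hb₁⟩ := hG Φ ψ δ N k p S ψn hS hK T R hT' hR
  have hQ : (0 : ℝ) < (2 * Real.cos μ) ^ 2 := by positivity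
  refine ⟨b₁, fun b hb ε hε => ?_⟩
  set ε₁ : ℝ := min (ε / 2) 1 with hε₁
  have hε₁0 : 0 < ε₁ := lt_min (by positivity) one_pos
  have hε₁1 : ε₁ ≤ 1 := min_le_right _ _
  have hε₁2 : 2 * ε₁ ≤ ε := by
    have := min_le_left (ε / 2) 1
    linarith
  obtain ⟨M, hM, hM'⟩ := hb₁ b hb ε₁ hε₁0
  refine ⟨3 * M, fun ε' hε' => ?_⟩
  set t : ℝ := min (min (1 / 10) ε') (ε₁ / (36 * M + 40)) with ht
  have hden : (0 : ℝ) < 36 * M + 40 := by positivity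
  have ht0 : 0 < t := lt_min (lt_min (by norm_num) hε') (div_pos hε₁0 hden)
  have ht1 : t ≤ 1 / 10 := (min_le_left _ _).trans (min_le_left _ _)
  have ht2 : t ≤ ε' := (min_le_left _ _).trans (min_le_right _ _)
  have ht3 : t * (36 * M + 40) ≤ ε₁ := (le_div_iff₀ hden).1 (min_le_right _ _)
  obtain ⟨Shs, P₀, r₁, N', hf, hP₀, hok, hr₁, -, hN', hN4, hGeo⟩ := hM' t ht0
  obtain ⟨r₀, hr₀, hat⟩ := hR' Shs hf hok r₁ hr₁ t ht0
  have hF4 : Tendsto N' atTop FF4 := by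
    unfold FF4
    exact tendsto_inf.2 ⟨hN', tendsto_principal.2 (Eventually.of_forall hN4)⟩
  have key : ∀ᶠ n in atTop, ∃ φ : Finset (Sym2 (ℤ × ℤ)) → ℝ,
      ∀ κ : Finset (Sym2 (ℤ × ℤ)) → ℕ, BefIx (exn δ N k p S ψn n) T R κ →
      (∀ h ∈ (exn δ N k p S ψn n).C,
        |cexW (exn δ N k p S ψn n) (QE.wq ((2 * Real.cos μ) ^ 2) (N n) (p n) (k n) (S n)) φ h
          (κ h)| ≤ 3 * M) ∧
      ExW (exn δ N k p S ψn n).C (QE.wq ((2 * Real.cos μ) ^ 2) (N n) (p n) (k n) (S n))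
        ({h | 2 * ε₁ < |cexW (exn δ N k p S ψn n)
            (QE.wq ((2 * Real.cos μ) ^ 2) (N n) (p n) (k n) (S n)) φ h (κ h) -
          obsH (hT μ) ((exn δ N k p S ψn n).W h) b
            ((exn δ N k p S ψn n).c h (κ h))|}.indicator 1) ≤ t := by
    filter_upwards [hGeo r₀ hr₀, hF4.eventually hat] with n g1 g2
    obtain ⟨ι, hι, c, Z, ζ, q1, q2, q3⟩ := g2
    exact one_nT hQ0 hok (hP₀ n) q1 q2 q3 (Finset.finite_toSet _)
      (fun A _ => QE.wq_pos hQ _ _ _ _ A) hM.le hε₁0 hε₁1 ht0 ht1 ht3 g1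
  let φ : ℕ → Finset (Sym2 (ℤ × ℤ)) → ℝ := fun n => if h : ∃ φ : Finset (Sym2 (ℤ × ℤ)) → ℝ,
      ∀ κ : Finset (Sym2 (ℤ × ℤ)) → ℕ, BefIx (exn δ N k p S ψn n) T R κ →
      (∀ h ∈ (exn δ N k p S ψn n).C,
        |cexW (exn δ N k p S ψn n) (QE.wq ((2 * Real.cos μ) ^ 2) (N n) (p n) (k n) (S n)) φ h
          (κ h)| ≤ 3 * M) ∧
      ExW (exn δ N k p S ψn n).C (QE.wq ((2 * Real.cos μ) ^ 2) (N n) (p n) (k n) (S n))
        ({h | 2 * ε₁ < |cexW (exn δ N k p S ψn n)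
            (QE.wq ((2 * Real.cos μ) ^ 2) (N n) (p n) (k n) (S n)) φ h (κ h) -
          obsH (hT μ) ((exn δ N k p S ψn n).W h) b
            ((exn δ N k p S ψn n).c h (κ h))|}.indicator 1) ≤ t then h.choose else 0
  refine ⟨φ, ?_⟩
  filter_upwards [key] with n hn κ hκ
  have e : φ n = hn.choose := by simp only [φ, dif_pos hn]
  rw [e]
  obtain ⟨a1, a2⟩ := hn.choose_spec κ hκ
  refine ⟨a1, le_trans (QE.exW_mono (Finset.finite_toSet _)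
    (fun A _ => QE.wq_pos hQ _ _ _ _ A) fun h hh => ?_) (a2.trans ht2)⟩
  refine Set.indicator_le_indicator_of_subset (fun h' hh' => ?_) (fun _ => zero_le_one) h
  simp only [Set.mem_ofPred_eq] at hh' ⊢
  exact hε₁2.trans_lt hh'

/-- **The curve theorem for the class `K`** from `GeoT'` and `RatT'`. -/
theorem curveLimitOn_T {K : QE.Cls} {q : ℝ} (h0 : 0 < q) (h4 : q < 4) (hne : K.Ne) {ok : Sh → Prop}
    (hG : GeoT' (QE.muq q) ok K) (hR : RatT' (QE.muq q) ok) (hcross : QE.I_crossW (QE.wq q))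
    (hfin : QE.I_finW (QE.wq q)) (hnf : QE.I_nfW (QE.wq q)) :
    QE.CurveLimitOn K (Final.kappa q) (QE.wq q) := by
  have hc : 0 < 2 * Real.cos (QE.muq q) := cos_posT (QE.muq_pos h4) (QE.muq_lt h0)
  have h := closeM_T hc hG hR
  rw [Vale.Agent.P167.H375.two_cos_muq h0 h4] at h
  exact curveLimitOn_obsHM h0 h4 hne h hcross hfin hnf

end Vale.Agent.P167.N.BT
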